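import Mathlib

/-!
The centralizer of a basic commutator `⁅x, y⁆` in a free group is generated by it.
-/

set_option autoImplicit false

namespace Crest.Agent.R175.FreeC_663

open FreeGroup

/-- the commutator `a b a⁻¹ b⁻¹` -/
def cm {G : Type*} [Group G] (a b : G) : G := a * b * a⁻¹ * b⁻¹

theorem map_cm {G H : Type*} [Group G] [Group H] (f : G →* H) (a b : G) :
    f (cm a b) = cm (f a) (f b) := by
  simp only [cm, _root_.map_mul, _root_.map_inv]

/-- the integral Heisenberg group -/
@[ext] structure Hei where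
  a : ℤ
  b : ℤ
  c : ℤ

namespace Hei

instance : Mul Hei := ⟨fun x y => ⟨x.a + y.a, x.b + y.b, x.c + y.c + x.a * y.b⟩⟩
instance : One Hei := ⟨⟨0, 0, 0⟩⟩
instance : Inv Hei := ⟨fun x => ⟨-x.a, -x.b, -x.c + x.a * x.b⟩⟩

@[simp] theorem mul_a (x y : Hei) : (x * y).a = x.a + y.a := rfl
@[simp] theorem mul_b (x y : Hei) : (x * y).b = x.b + y.b := rfl
@[simp] theorem mul_c (x y : Hei) : (x * y).c = x.c + y.c + x.a * y.b := rfl
@[simp] theorem one_a : (1 : Hei).a = 0 := rfl
@[simp] theorem one_b : (1 : Hei).b = 0 := rfl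
@[simp] theorem one_c : (1 : Hei).c = 0 := rfl
@[simp] theorem inv_a (x : Hei) : (x⁻¹).a = -x.a := rfl
@[simp] theorem inv_b (x : Hei) : (x⁻¹).b = -x.b := rfl
@[simp] theorem inv_c (x : Hei) : (x⁻¹).c = -x.c + x.a * x.b := rfl

instance : Group Hei :=
  Group.ofLeftAxioms
    (by intro x y z; ext <;> simp <;> ring)
    (by intro x; ext <;> simp)
    (by intro x; ext <;> simp)

theorem npow_a (x : Hei) (n : ℕ) : (x ^ n).a = n * x.a := by
  induction n with
  | zero => simp
  | succ n ih => rw [pow_succ, mul_a, ih]; push_cast; ring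

theorem npow_b (x : Hei) (n : ℕ) : (x ^ n).b = n * x.b := by
  induction n with
  | zero => simp
  | succ n ih => rw [pow_succ, mul_b, ih]; push_cast; ring

theorem zpow_a (x : Hei) (n : ℤ) : (x ^ n).a = n * x.a := by
  cases n with
  | ofNat n => simpa using npow_a x n
  | negSucc n => rw [zpow_negSucc, inv_a, npow_a]; push_cast [Int.negSucc_eq]; ring

theorem zpow_b (x : Hei) (n : ℤ) : (x ^ n).b = n * x.b := by
  cases n with
  | ofNat n => simpa using npow_b x n
  | negSucc n => rw [zpow_negSucc, inv_b, npow_b]; push_cast [Int.negSucc_eq]; ring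

theorem npow_c (x : Hei) (ha : x.a = 0) (n : ℕ) : (x ^ n).c = n * x.c := by
  induction n with
  | zero => simp
  | succ n ih => rw [pow_succ, mul_c, ih, npow_a, ha]; push_cast; ring

theorem zpow_c (x : Hei) (ha : x.a = 0) (n : ℤ) : (x ^ n).c = n * x.c := by
  cases n with
  | ofNat n => simpa using npow_c x ha n
  | negSucc n =>
    rw [zpow_negSucc, inv_c, npow_c x ha, npow_a, ha]; push_cast [Int.negSucc_eq]; ring

end Hei

variable {X : Type*}

open Classical in
/-- the map to the Heisenberg group with `x ↦ (1,0,0)`, `y ↦ (0,1,0)`. -/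
noncomputable def hei (x y : X) : FreeGroup X →* Hei :=
  FreeGroup.lift fun z => if z = x then ⟨1, 0, 0⟩ else if z = y then ⟨0, 1, 0⟩ else 1

theorem hei_comm {x y : X} (h : x ≠ y) :
    hei x y (cm (of x) (of y)) = ⟨0, 0, 1⟩ := by
  rw [map_cm]
  simp only [cm, hei, lift_apply_of, if_true, if_neg h.symm]
  ext <;> simp

theorem comm_ne_one {x y : X} (h : x ≠ y) : cm (of x) (of y) ≠ (1 : FreeGroup X) := by
  intro e
  have h1 := hei_comm h
  rw [e, _root_.map_one] at h1
  have := congrArg Hei.c h1
  simp at this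

theorem comm_zpow_eq {x y : X} (h : x ≠ y) {n m : ℤ}
    (e : (cm (of x) (of y) : FreeGroup X) ^ n = (cm (of x) (of y)) ^ m) : n = m := by
  have h1 := congrArg (fun g => (hei x y g).c) e
  simp only [map_zpow, hei_comm h] at h1
  rw [Hei.zpow_c _ rfl, Hei.zpow_c _ rfl] at h1
  simpa using h1

/-- a power equal to the commutator has exponent `± 1`. -/
theorem root_comm {x y : X} (h : x ≠ y) {g : FreeGroup X} {n : ℤ}
    (e : g ^ n = cm (of x) (of y)) : n = 1 ∨ n = -1 := by
  have h0 := congrArg (hei x y) e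
  rw [map_zpow, hei_comm h] at h0
  set z := hei x y g with hz
  have ha : n * z.a = 0 := by
    have := congrArg Hei.a h0
    rwa [Hei.zpow_a] at this
  have hn : n ≠ 0 := by
    rintro rfl
    have := congrArg Hei.c h0
    simp at this
  have hza : z.a = 0 := by
    rcases mul_eq_zero.1 ha with h | h
    · exact absurd h hn
    · exact h
  have hc : n * z.c = 1 := by
    have := congrArg Hei.c h0
    rwa [Hei.zpow_c _ hza] at this
  exact Int.isUnit_iff.1 (IsUnit.of_mul_eq_one _ hc)

/-- in a commutative free group everything is a power of one element -/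
theorem exists_root_of_comm (A : Type*) [Group A] [IsFreeGroup A]
    (hA : ∀ a b : A, a * b = b * a) : ∃ u : A, ∀ a : A, ∃ n : ℤ, a = u ^ n := by
  classical
  set e := IsFreeGroup.toFreeGroup A
  have hF : ∀ a b : FreeGroup (IsFreeGroup.Generators A), a * b = b * a := by
    intro a b
    have := congrArg e (hA (e.symm a) (e.symm b))
    simpa using this
  have hs : Subsingleton (IsFreeGroup.Generators A) := by
    refine ⟨fun a b => ?_⟩
    by_contra hab
    have h1 := hF (of a) (of b)
    have h2 := comm_ne_one (X := IsFreeGroup.Generators A) hab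
    apply h2
    rw [cm, h1]
    group
  by_cases hne : Nonempty (IsFreeGroup.Generators A)
  · obtain ⟨s⟩ := hne
    refine ⟨e.symm (of s), fun a => ?_⟩
    have key : ∀ w : FreeGroup (IsFreeGroup.Generators A), ∃ n : ℤ, w = (of s) ^ n := by
      intro w
      induction w using FreeGroup.induction_on with
      | C1 => exact ⟨0, by simp⟩
      | of t => exact ⟨1, by rw [Subsingleton.elim t s, zpow_one]⟩
      | inv_of t _ => exact ⟨-1, by rw [Subsingleton.elim t s, zpow_neg, zpow_one]⟩
      | mul v w hv hw =>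
        obtain ⟨n, hn⟩ := hv
        obtain ⟨m, hm⟩ := hw
        exact ⟨n + m, by rw [hn, hm, zpow_add]⟩
    obtain ⟨n, hn⟩ := key (e a)
    refine ⟨n, ?_⟩
    rw [← map_zpow, ← hn, MulEquiv.symm_apply_apply]
  · refine ⟨1, fun a => ⟨0, ?_⟩⟩
    have : e a = 1 := by
      induction (e a) using FreeGroup.induction_on with
      | C1 => rfl
      | of t => exact absurd ⟨t⟩ hne
      | inv_of t _ => exact absurd ⟨t⟩ hne
      | mul v w hv hw => rw [hv, hw, one_mul]
    rw [zpow_zero]
    exact (map_eq_one_iff e e.injective).1 this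

/-- **Centralizer of a basic commutator.** -/
theorem centralizer_comm {x y : X} (h : x ≠ y) {w : FreeGroup X}
    (hw : w * cm (of x) (of y) = cm (of x) (of y) * w) : ∃ n : ℤ, w = (cm (of x) (of y)) ^ n := by
  set c : FreeGroup X := cm (of x) (of y) with hc
  let A : Subgroup (FreeGroup X) := Subgroup.closure {w, c}
  have hcm : ∀ a ∈ A, ∀ b ∈ A, a * b = b * a := by
    intro a ha b hb
    have hset : ∀ p ∈ ({w, c} : Set (FreeGroup X)), ∀ q ∈ ({w, c} : Set (FreeGroup X)),
        p * q = q * p := by
      rintro p (rfl | rfl) q (rfl | rfl)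
      · rfl
      · exact hw
      · exact hw.symm
      · rfl
    have := (Subgroup.closure_le_centralizer_centralizer ({w, c} : Set (FreeGroup X))) ha
    have h1 : A ≤ Subgroup.centralizer ({w, c} : Set (FreeGroup X)) := by
      rw [Subgroup.closure_le]
      intro p hp
      rw [SetLike.mem_coe, Subgroup.mem_centralizer_iff]
      intro q hq
      exact hset q hq p hp
    exact ((Subgroup.mem_centralizer_iff.1 this) b (h1 hb)).symm
  obtain ⟨u, hu⟩ := exists_root_of_comm A (by
    rintro ⟨a, ha⟩ ⟨b, hb⟩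
    exact Subtype.ext (hcm a ha b hb))
  have hwA : w ∈ A := Subgroup.subset_closure (by simp)
  have hcA : c ∈ A := Subgroup.subset_closure (by simp)
  obtain ⟨n, hn⟩ := hu ⟨w, hwA⟩
  obtain ⟨m, hm⟩ := hu ⟨c, hcA⟩
  have hn' : w = (u : FreeGroup X) ^ n := by
    have := congrArg Subtype.val hn
    simpa using this
  have hm' : c = (u : FreeGroup X) ^ m := by
    have := congrArg Subtype.val hm
    simpa using this
  rcases root_comm h (g := (u : FreeGroup X)) (n := m) hm'.symm with h1 | h1
  · refine ⟨n, ?_⟩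
    rw [h1, zpow_one] at hm'
    rw [hm', hn']
  · refine ⟨-n, ?_⟩
    rw [h1, zpow_neg, zpow_one] at hm'
    rw [hm', hn', inv_zpow', neg_neg]

end Crest.Agent.R175.FreeC_663
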