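import Crest.Prelude.Def_ArtinGroup
import Crest.Agent.R175.FreeC_663

/-!
Artin groups with a set `R` of generators which commute with a set `Γ` of generators and have label
infinity with everything else: `A = FreeGroup (R × A_{Rᶜ}/A_Γ) ⋊ A_{Rᶜ}`; the centralizer of the
commutator of two generators of `R` is `⟨⁅r₁,r₂⁆⟩ × A_Γ`.
-/

set_option autoImplicit false

namespace Crest.Agent.R175.Semi_663

open Crest.GroupTheory Crest.Agent.R175.FreeC_663

section Basic

variable {S : Type*} (M : CoxeterMatrix S) {L : Type*} [Group L]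

/-- the alternating product `a b a ⋯` with `m` factors -/
def alt {L : Type*} [Monoid L] : L → L → ℕ → L
  | _, _, 0 => 1
  | a, b, m + 1 => a * alt b a m

theorem lift_alt (f : S → L) (m : ℕ) : ∀ s t : S,
    FreeGroup.lift f (artinAltWord s t m) = alt (f s) (f t) m := by
  induction m with
  | zero => intro s t; simp [artinAltWord, alt]
  | succ m ih => intro s t; simp [artinAltWord, alt, ih]

theorem map_alt {L L' : Type*} [Monoid L] [Monoid L'] (f : L →* L') (m : ℕ) : ∀ a b : L,
    f (alt a b m) = alt (f a) (f b) m := by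
  induction m with
  | zero => intro s t; simp [alt]
  | succ m ih => intro s t; simp [alt, ih]

/-- homomorphisms out of an Artin group -/
def toHom (f : S → L)
    (h : ∀ s t, alt (f s) (f t) (M.M s t) = alt (f t) (f s) (M.M s t)) : ArtinGroup M →* L :=
  PresentedGroup.toGroup (f := f) (by
    rintro _ ⟨⟨s, t⟩, rfl⟩
    simp only [map_mul, map_inv, lift_alt]
    rw [h s t, mul_inv_cancel])

@[simp] theorem toHom_gen (f : S → L)
    (h : ∀ s t, alt (f s) (f t) (M.M s t) = alt (f t) (f s) (M.M s t)) (s : S) :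
    toHom M f h (artinGen M s) = f s :=
  PresentedGroup.toGroup.of _

theorem alt_gen (s t : S) :
    alt (artinGen M s) (artinGen M t) (M.M s t) = alt (artinGen M t) (artinGen M s) (M.M s t) := by
  have h1 : (PresentedGroup.mk (artinRelators M)
      (artinAltWord s t (M.M s t) * (artinAltWord t s (M.M s t))⁻¹)) = 1 := by
    rw [PresentedGroup.mk_eq_one_iff]
    exact Subgroup.subset_normalClosure ⟨(s, t), rfl⟩
  have h2 : ∀ w, PresentedGroup.mk (artinRelators M) w
      = FreeGroup.lift (artinGen M) w := by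
    intro w
    have : PresentedGroup.mk (artinRelators M) = FreeGroup.lift (artinGen M) := by
      ext s
      simp [artinGen, PresentedGroup.of]
    rw [this]
  rw [h2, map_mul, map_inv, lift_alt, lift_alt, mul_inv_eq_one] at h1
  exact h1

theorem hom_ext {f g : ArtinGroup M →* L}
    (h : ∀ s, f (artinGen M s) = g (artinGen M s)) : f = g :=
  PresentedGroup.ext h

theorem comm_of_two {s t : S} (h : M.M s t = 2) :
    artinGen M s * artinGen M t = artinGen M t * artinGen M s := by
  have := alt_gen M s t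
  rw [h] at this
  simpa [alt] using this

theorem braid_of_three {s t : S} (h : M.M s t = 3) :
    artinGen M s * artinGen M t * artinGen M s = artinGen M t * artinGen M s * artinGen M t := by
  have := alt_gen M s t
  rw [h] at this
  simpa [alt, mul_assoc] using this

end Basic

section Abstract

variable {G : Type*} [Group G] {ι : Type*}

/-- the index set -/
abbrev XX (ι : Type*) {K : Type*} [Group K] (H : Subgroup K) := ι × (K ⧸ H)

/-- permutation of the index set -/
def prm {K : Type*} [Group K] (H : Subgroup K) (k : K) : Equiv.Perm (XX ι H) :=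
  Equiv.prodCongr (Equiv.refl ι) (MulAction.toPerm k)

@[simp] theorem prm_apply {K : Type*} [Group K] (H : Subgroup K) (k : K) (p : XX ι H) :
    prm H k p = (p.1, k • p.2) := rfl

/-- the action of `K` on the free group -/
def th {K : Type*} [Group K] (H : Subgroup K) : K →* MulAut (FreeGroup (XX ι H)) where
  toFun k := FreeGroup.freeGroupCongr (prm H k)
  map_one' := by
    ext x
    induction x using FreeGroup.induction_on with
    | C1 => simp
    | of x => simp
    | inv_of x _ => simp
    | mul x y hx hy => rw [map_mul, map_mul, hx, hy]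
  map_mul' a b := by
    ext x
    induction x using FreeGroup.induction_on with
    | C1 => simp
    | of x => simp [mul_smul]
    | inv_of x _ => simp [mul_smul]
    | mul x y hx hy => rw [map_mul, map_mul, hx, hy]

@[simp] theorem th_of {K : Type*} [Group K] (H : Subgroup K) (k : K) (p : XX ι H) :
    th H k (FreeGroup.of p) = FreeGroup.of (p.1, k • p.2) := by
  simp [th]

variable (K : Subgroup G) (H : Subgroup K) (x : ι → G)

/-- the conjugates of the `x i` -/
noncomputable def cj (p : XX ι H) : G := (p.2.out : G) * x p.1 * (p.2.out : G)⁻¹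

variable (hx : ∀ i, ∀ h ∈ H, (h : G) * x i = x i * (h : G))

include hx in
theorem cj_mk (i : ι) (k : K) : cj K H x (i, (k : K ⧸ H)) = (k : G) * x i * (k : G)⁻¹ := by
  obtain ⟨h, hh⟩ := QuotientGroup.mk_out_eq_mul H k
  simp only [cj]
  rw [hh]
  have := hx i h h.2
  push_cast
  rw [mul_assoc (k : G), this]
  group

/-- the map of the semidirect product to the group -/
noncomputable def psi : FreeGroup (XX ι H) ⋊[th H] K →* G :=
  SemidirectProduct.lift (FreeGroup.lift (cj K H x)) K.subtype (by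
    intro k
    ext ⟨i, q⟩
    induction q using QuotientGroup.induction_on with
    | H a =>
      have h1 := cj_mk K H x hx i a
      have h2 := cj_mk K H x hx i (k * a)
      simp only [MonoidHom.comp_apply, MulEquiv.coe_toMonoidHom, FreeGroup.lift_apply_of, th_of,
        MulAut.conj_apply, Subgroup.coe_subtype]
      rw [h1]
      have h3 : k • (a : K ⧸ H) = ((k * a : K) : K ⧸ H) := rfl
      rw [h3, h2]
      push_cast
      group)

theorem psi_inl (i : ι) (k : K) : psi K H x hx (SemidirectProduct.inl (FreeGroup.of (i, (k : K ⧸ H))))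
    = (k : G) * x i * (k : G)⁻¹ := by
  rw [psi, SemidirectProduct.lift_inl, FreeGroup.lift_apply_of, cj_mk K H x hx]

theorem psi_inr (k : K) : psi K H x hx (SemidirectProduct.inr k) = k := by
  rw [psi, SemidirectProduct.lift_inr]; rfl

/-- `G` splits as `FreeGroup (ι × K/H) ⋊ K`, `x i ↦ (i, H)`. -/
structure Split where
  phi : G →* FreeGroup (XX ι H) ⋊[th H] K
  phi_inj : Function.Injective phi
  phi_k : ∀ k : K, phi k = SemidirectProduct.inr k
  phi_x : ∀ i, phi (x i) = SemidirectProduct.inl (FreeGroup.of (i, ((1 : K) : K ⧸ H)))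

variable {K H x}

namespace Split

variable (P : Split K H x)

include P in
theorem phi_pair (w : FreeGroup (XX ι H)) (k : K) (g : G)
    (hg : P.phi g = SemidirectProduct.inl w) : P.phi (g * k) = ⟨w, k⟩ := by
  rw [map_mul, P.phi_k, hg]
  ext <;> simp

theorem phi_cm (i j : ι) : P.phi (cm (x i) (x j)) =
    SemidirectProduct.inl (cm (FreeGroup.of (i, ((1 : K) : K ⧸ H)))
      (FreeGroup.of (j, ((1 : K) : K ⧸ H)))) := by
  rw [map_cm, P.phi_x, P.phi_x, map_cm]

open Classical in
/-- kill the generators outside of the base coset -/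
noncomputable def kill (H : Subgroup K) : FreeGroup (XX ι H) →* FreeGroup (XX ι H) :=
  FreeGroup.lift fun p => if p.2 = ((1 : K) : K ⧸ H) then FreeGroup.of p else 1

theorem ne_of {i j : ι} (hij : i ≠ j) :
    (i, ((1 : K) : K ⧸ H)) ≠ (j, ((1 : K) : K ⧸ H)) := by
  intro h
  exact hij (congrArg Prod.fst h)

include P in
/-- the centralizer of the commutator of two letters -/
theorem centralizer {i j : ι} (hij : i ≠ j) {g : G}
    (hg : g * cm (x i) (x j) = cm (x i) (x j) * g) :
    ∃ (n : ℤ) (k : K), k ∈ H ∧ g = (cm (x i) (x j)) ^ n * k := by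
  classical
  set c := cm (FreeGroup.of (i, ((1 : K) : K ⧸ H)))
      (FreeGroup.of (j, ((1 : K) : K ⧸ H))) with hc
  have h1 := congrArg P.phi hg
  rw [map_mul, map_mul, P.phi_cm, ← hc] at h1
  set w := (P.phi g).left with hw
  set k := (P.phi g).right with hk
  have h2 : w * th H k c = c * w := by
    have := congrArg SemidirectProduct.left h1
    simpa using this
  have hthc : th H k c = cm (FreeGroup.of (i, (k : K ⧸ H))) (FreeGroup.of (j, (k : K ⧸ H))) := by
    have h3 : k • ((1 : K) : K ⧸ H) = (k : K ⧸ H) := by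
      have : k • ((1 : K) : K ⧸ H) = ((k * 1 : K) : K ⧸ H) := rfl
      rw [this, mul_one]
    rw [hc]
    have h4 := map_cm (th H k).toMonoidHom (FreeGroup.of (i, ((1 : K) : K ⧸ H)))
      (FreeGroup.of (j, ((1 : K) : K ⧸ H)))
    simp only [MulEquiv.coe_toMonoidHom, th_of, h3] at h4
    exact h4
  have hkc : kill H c = c := by
    rw [hc, map_cm]
    simp [kill]
  have hkH : (k : K ⧸ H) = ((1 : K) : K ⧸ H) := by
    by_contra hne
    have h5 : kill H (th H k c) = 1 := by
      rw [hthc, map_cm]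
      simp [kill, hne, cm]
    have h6 := congrArg (kill H) h2
    rw [map_mul, map_mul, h5, hkc, mul_one] at h6
    have h7 : c = 1 := by
      have := mul_right_cancel (b := kill H w) (a := c) (c := 1) (by rw [one_mul]; exact h6.symm)
      exact this
    exact comm_ne_one (ne_of hij) h7
  have hkm : k ∈ H := by
    have := QuotientGroup.eq.1 hkH.symm
    simpa using this
  have hthc' : th H k c = c := by
    rw [hthc, hkH]
  rw [hthc'] at h2
  obtain ⟨n, hn⟩ := centralizer_comm (ne_of (H := H) hij) h2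
  refine ⟨n, k, hkm, ?_⟩
  apply P.phi_inj
  have h8 : P.phi ((cm (x i) (x j)) ^ n) = SemidirectProduct.inl (c ^ n) := by
    rw [map_zpow, P.phi_cm, map_zpow]
  rw [P.phi_pair (c ^ n) k _ h8]
  ext
  · show w = c ^ n
    exact hn
  · rfl

include P in
theorem cm_zpow_mul_inj {i j : ι} (hij : i ≠ j) {n m : ℤ} {k l : K}
    (h : (cm (x i) (x j)) ^ n * (k : G) = (cm (x i) (x j)) ^ m * (l : G)) : n = m ∧ k = l := by
  have h1 := congrArg P.phi h
  have h8 : ∀ n : ℤ, P.phi ((cm (x i) (x j)) ^ n) = SemidirectProduct.inl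
      ((cm (FreeGroup.of (i, ((1 : K) : K ⧸ H))) (FreeGroup.of (j, ((1 : K) : K ⧸ H)))) ^ n) := by
    intro n
    rw [map_zpow, P.phi_cm, map_zpow]
  rw [P.phi_pair _ k _ (h8 n), P.phi_pair _ l _ (h8 m)] at h1
  exact ⟨comm_zpow_eq (ne_of (H := H) hij) (congrArg SemidirectProduct.left h1),
    congrArg SemidirectProduct.right h1⟩

end Split

end Abstract

section Artin

variable {S : Type*} (M : CoxeterMatrix S) (R Γ : Set S)

/-- the elements of `R` commute with `Γ` and have label infinity with everything else -/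
structure Att : Prop where
  disj : ∀ s ∈ Γ, s ∉ R
  two : ∀ r ∈ R, ∀ s ∈ Γ, M.M r s = 2
  zero : ∀ r ∈ R, ∀ s, s ∉ Γ → s ≠ r → M.M r s = 0

/-- the subgroup generated by the generators outside `R` -/
def KK : Subgroup (ArtinGroup M) := stdParabolic M Rᶜ

/-- the subgroup generated by `Γ` as a subgroup of `KK` -/
def HH : Subgroup (KK M R) := (stdParabolic M Γ).subgroupOf (KK M R)

theorem gen_mem {s : S} (hs : s ∉ R) : artinGen M s ∈ KK M R :=
  Subgroup.subset_closure ⟨s, hs, rfl⟩

/-- the letters -/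
def xl (r : R) : ArtinGroup M := artinGen M r

variable {M R Γ}

theorem Att.le (hA : Att M R Γ) : stdParabolic M Γ ≤ KK M R := by
  rw [stdParabolic, Subgroup.closure_le]
  rintro _ ⟨s, hs, rfl⟩
  exact gen_mem M R (hA.disj s hs)

theorem Att.comm (hA : Att M R Γ) (r : R) (h : KK M R) (hh : h ∈ HH M R Γ) :
    (h : ArtinGroup M) * xl M R r = xl M R r * h := by
  have h1 : (h : ArtinGroup M) ∈ stdParabolic M Γ := hh
  have h2 : stdParabolic M Γ ≤ Subgroup.centralizer {xl M R r} := by
    rw [stdParabolic, Subgroup.closure_le]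
    rintro _ ⟨s, hs, rfl⟩
    rw [SetLike.mem_coe, Subgroup.mem_centralizer_iff]
    rintro _ rfl
    exact comm_of_two M (hA.two r r.2 s hs)
  exact ((Subgroup.mem_centralizer_iff.1 (h2 h1)) _ rfl).symm

open Classical in
/-- the images of the generators -/
noncomputable def ff (M : CoxeterMatrix S) (R Γ : Set S) (s : S) :
    FreeGroup (XX R (HH M R Γ)) ⋊[th (HH M R Γ)] (KK M R) :=
  if h : s ∈ R then SemidirectProduct.inl (FreeGroup.of (⟨s, h⟩, ((1 : KK M R) : _ ⧸ HH M R Γ)))
  else SemidirectProduct.inr ⟨artinGen M s, gen_mem M R h⟩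

theorem inr_comm_inl {K : Type*} [Group K] {ι : Type*} (H : Subgroup K) (i : ι) (k : K)
    (hk : k ∈ H) : (SemidirectProduct.inr k : FreeGroup (XX ι H) ⋊[th H] K) *
      SemidirectProduct.inl (FreeGroup.of (i, ((1 : K) : K ⧸ H))) =
    SemidirectProduct.inl (FreeGroup.of (i, ((1 : K) : K ⧸ H))) * SemidirectProduct.inr k := by
  have h3 : k • ((1 : K) : K ⧸ H) = ((1 : K) : K ⧸ H) := by
    have : k • ((1 : K) : K ⧸ H) = ((k * 1 : K) : K ⧸ H) := rfl
    rw [this, mul_one]
    exact (QuotientGroup.eq.2 (by simpa using hk)).symm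
  ext <;> simp [h3]

theorem ff_pos {r : S} (hr : r ∈ R) : ff M R Γ r =
    SemidirectProduct.inl (FreeGroup.of (⟨r, hr⟩, ((1 : KK M R) : _ ⧸ HH M R Γ))) := by
  rw [ff, dif_pos hr]

theorem ff_neg {s : S} (hs : s ∉ R) : ff M R Γ s =
    SemidirectProduct.inr ⟨artinGen M s, gen_mem M R hs⟩ := by
  rw [ff, dif_neg hs]

theorem ff_comm (hA : Att M R Γ) {r s : S} (hr : r ∈ R) (hs : s ∈ Γ) :
    ff M R Γ s * ff M R Γ r = ff M R Γ r * ff M R Γ s := by
  rw [ff_pos hr, ff_neg (hA.disj s hs)]
  apply inr_comm_inl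
  exact Subgroup.subset_closure ⟨s, hs, rfl⟩

theorem alt_two {L : Type*} [Monoid L] (a b : L) : alt a b 2 = a * b := by
  simp [alt]

theorem ff_rel (hA : Att M R Γ) (s t : S) :
    alt (ff M R Γ s) (ff M R Γ t) (M.M s t) = alt (ff M R Γ t) (ff M R Γ s) (M.M s t) := by
  by_cases hs : s ∈ R <;> by_cases ht : t ∈ R
  · by_cases hst : s = t
    · subst hst; rfl
    · rw [hA.zero s hs t (fun h => hA.disj t h ht) (Ne.symm hst)]; rfl
  · by_cases htG : t ∈ Γ
    · rw [hA.two s hs t htG, alt_two, alt_two]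
      exact (ff_comm hA hs htG).symm
    · rw [hA.zero s hs t htG (fun h => ht (h ▸ hs))]; rfl
  · by_cases hsG : s ∈ Γ
    · rw [M.symmetric s t, hA.two t ht s hsG, alt_two, alt_two]
      exact ff_comm hA ht hsG
    · rw [M.symmetric s t, hA.zero t ht s hsG (fun h => hs (h ▸ ht))]; rfl
  · rw [ff_neg hs, ff_neg ht, ← map_alt, ← map_alt]
    congr 1
    apply Subtype.ext
    have h1 := map_alt (KK M R).subtype (M.M s t) ⟨artinGen M s, gen_mem M R hs⟩
      ⟨artinGen M t, gen_mem M R ht⟩
    have h2 := map_alt (KK M R).subtype (M.M s t) ⟨artinGen M t, gen_mem M R ht⟩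
      ⟨artinGen M s, gen_mem M R hs⟩
    exact (h1.trans (alt_gen M s t)).trans h2.symm

/-- **the splitting** `A = FreeGroup (R × A_{Rᶜ}/A_Γ) ⋊ A_{Rᶜ}` -/
noncomputable def Att.split (hA : Att M R Γ) : Split (KK M R) (HH M R Γ) (xl M R) where
  phi := toHom M (ff M R Γ) (ff_rel hA)
  phi_inj := by
    classical
    have h : ∀ g, psi (KK M R) (HH M R Γ) (xl M R) hA.comm (toHom M (ff M R Γ) (ff_rel hA) g) = g := by
      intro g
      have h1 : (psi (KK M R) (HH M R Γ) (xl M R) hA.comm).comp (toHom M (ff M R Γ) (ff_rel hA))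
          = MonoidHom.id _ := by
        apply hom_ext M
        intro s
        rw [MonoidHom.comp_apply, toHom_gen, MonoidHom.id_apply]
        by_cases hs : s ∈ R
        · rw [ff_pos hs, psi_inl]
          simp [xl]
        · rw [ff_neg hs, psi_inr]
      exact DFunLike.congr_fun h1 g
    intro a b hab
    rw [← h a, hab, h b]
  phi_k := by
    classical
    rintro ⟨k, hk⟩
    simp only
    induction hk using Subgroup.closure_induction with
    | mem x hx =>
      obtain ⟨s, hs, rfl⟩ := hx
      rw [toHom_gen, ff_neg (show s ∉ R from hs)]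
    | one => 
      rw [map_one]
      exact (map_one _).symm
    | mul a b ha hb h1 h2 =>
      rw [map_mul, h1, h2, ← map_mul]
      rfl
    | inv a ha h1 =>
      rw [map_inv, h1, ← map_inv]
      rfl
  phi_x := by
    classical
    intro r
    rw [xl, toHom_gen, ff_pos r.2]

/-- **(A1)** the centralizer of `r₁ r₂ r₁⁻¹ r₂⁻¹` -/
theorem centralizer_cm (hA : Att M R Γ) {r₁ r₂ : S} (h1 : r₁ ∈ R) (h2 : r₂ ∈ R) (hne : r₁ ≠ r₂)
    {g : ArtinGroup M}
    (hg : g * cm (artinGen M r₁) (artinGen M r₂) = cm (artinGen M r₁) (artinGen M r₂) * g) :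
    ∃ (n : ℤ) (k : ArtinGroup M), k ∈ stdParabolic M Γ ∧
      g = (cm (artinGen M r₁) (artinGen M r₂)) ^ n * k := by
  obtain ⟨n, k, hk, e⟩ := hA.split.centralizer (i := (⟨r₁, h1⟩ : R)) (j := ⟨r₂, h2⟩)
    (fun h => hne (congrArg Subtype.val h)) (g := g) hg
  exact ⟨n, k, hk, e⟩

/-- elements of `A_Γ` commute with the commutator -/
theorem comm_cm (hA : Att M R Γ) {r₁ r₂ : S} (h1 : r₁ ∈ R) (h2 : r₂ ∈ R)
    {k : ArtinGroup M} (hk : k ∈ stdParabolic M Γ) :
    k * cm (artinGen M r₁) (artinGen M r₂) = cm (artinGen M r₁) (artinGen M r₂) * k := by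
  have e1 : k * artinGen M r₁ = artinGen M r₁ * k := hA.comm ⟨r₁, h1⟩ ⟨k, hA.le hk⟩ hk
  have e2 : k * artinGen M r₂ = artinGen M r₂ * k := hA.comm ⟨r₂, h2⟩ ⟨k, hA.le hk⟩ hk
  have c1 : Commute k (artinGen M r₁) := e1
  have c2 : Commute k (artinGen M r₂) := e2
  exact ((c1.mul_right c2).mul_right c1.inv_right).mul_right c2.inv_right

/-- **(A2)** uniqueness of `(n,k)`, `k` in the subgroup generated by all generators outside `R` -/
theorem cm_zpow_mul_inj (hA : Att M R Γ) {r₁ r₂ : S} (h1 : r₁ ∈ R) (h2 : r₂ ∈ R) (hne : r₁ ≠ r₂)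
    {n m : ℤ} {k l : ArtinGroup M} (hk : k ∈ stdParabolic M Rᶜ) (hl : l ∈ stdParabolic M Rᶜ)
    (h : (cm (artinGen M r₁) (artinGen M r₂)) ^ n * k =
      (cm (artinGen M r₁) (artinGen M r₂)) ^ m * l) : n = m ∧ k = l := by
  have := hA.split.cm_zpow_mul_inj (i := (⟨r₁, h1⟩ : R)) (j := ⟨r₂, h2⟩)
    (fun h => hne (congrArg Subtype.val h)) (n := n) (m := m) (k := ⟨k, hk⟩) (l := ⟨l, hl⟩) h
  exact ⟨this.1, congrArg Subtype.val this.2⟩

end Artin

end Crest.Agent.R175.Semi_663
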