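import Mathlib
import Crest.Agent.R175.Semi_663

/-!
# R175 (S0264), group side, vertex : `Ã₂ → F₃ ⋊ B₃`

`MM n` : the Coxeter matrix on `Fin n` with off-diagonal label `3`; `At = ArtinGroup (MM 3)` (`Ã₂`),
`B3 = ArtinGroup (MM 2)`.  `F3` is free on `x = x₁`, `y = x₁ x₂`, `v = x₃` and `B3` acts on it by the
Artin representation.
-/

set_option autoImplicit false

open Crest.GroupTheory

namespace Crest.Agent.R175.A2t_83

open Semi_663

/-- off-diagonal label `3` -/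
def MM (n : ℕ) : CoxeterMatrix (Fin n) where
  M := Matrix.of fun i j => if i = j then 1 else 3
  isSymm := by
    apply Matrix.IsSymm.ext
    intro i j
    simp only [Matrix.of_apply]
    by_cases h : i = j
    · simp [h]
    · rw [if_neg h, if_neg (Ne.symm h)]
  diagonal := fun i => by simp [Matrix.of_apply]
  off_diagonal := fun i j h => by simp [Matrix.of_apply, h]

theorem MM_of_ne {n : ℕ} {i j : Fin n} (h : i ≠ j) : (MM n).M i j = 3 := by
  simp [MM, Matrix.of_apply, h]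

/-- homomorphisms out of `ArtinGroup (MM n)` -/
def toH {n : ℕ} {L : Type*} [Group L] (f : Fin n → L) (h : ∀ s t, f s * f t * f s = f t * f s * f t) :
    ArtinGroup (MM n) →* L :=
  toHom (MM n) f fun s t => by
    by_cases hst : s = t
    · subst hst; rfl
    · rw [MM_of_ne hst]
      simpa [alt, mul_assoc] using h s t

@[simp] theorem toH_gen {n : ℕ} {L : Type*} [Group L] (f : Fin n → L)
    (h : ∀ s t, f s * f t * f s = f t * f s * f t) (s : Fin n) :
    toH f h (artinGen (MM n) s) = f s := toHom_gen _ _ _ s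

theorem braid {n : ℕ} (s t : Fin n) :
    artinGen (MM n) s * artinGen (MM n) t * artinGen (MM n) s =
      artinGen (MM n) t * artinGen (MM n) s * artinGen (MM n) t := by
  by_cases hst : s = t
  · subst hst; rfl
  · exact braid_of_three _ (MM_of_ne hst)

theorem closure_gen (n : ℕ) : Subgroup.closure (Set.range (artinGen (MM n))) = ⊤ :=
  PresentedGroup.closure_range_of _

/-- Artin group of type `Ã₂` -/
abbrev At : Type := ArtinGroup (MM 3)
/-- three strand braid group -/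
abbrev B3 : Type := ArtinGroup (MM 2)

/-- first generator -/
def s1 : B3 := artinGen (MM 2) 0
/-- second generator -/
def s2 : B3 := artinGen (MM 2) 1

theorem s_braid : s1 * s2 * s1 = s2 * s1 * s2 := braid 0 1

/-- free group on `x, y, v` -/
abbrev F3 : Type := FreeGroup (Fin 3)

/-- `x₁` -/
def gx : F3 := FreeGroup.of 0
/-- `x₁ x₂` -/
def gy : F3 := FreeGroup.of 1
/-- `x₃` -/
def gv : F3 := FreeGroup.of 2

/-- a homomorphism out of `F3` -/
def hF {L : Type*} [Group L] (p q r : L) : F3 →* L := FreeGroup.lift ![p, q, r]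

@[simp] theorem hF_x {L : Type*} [Group L] (p q r : L) : hF p q r gx = p := by simp [hF, gx]
@[simp] theorem hF_y {L : Type*} [Group L] (p q r : L) : hF p q r gy = q := by simp [hF, gy]
@[simp] theorem hF_v {L : Type*} [Group L] (p q r : L) : hF p q r gv = r := by simp [hF, gv]

theorem F3_ext {L : Type*} [Group L] {f g : F3 →* L} (hx : f gx = g gx) (hy : f gy = g gy)
    (hv : f gv = g gv) : f = g := by
  apply FreeGroup.ext_hom
  intro i
  fin_cases i
  · exact hx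
  · exact hy
  · exact hv

/-- an automorphism of `F3` -/
def aut (f g : F3 →* F3) (hfx : f (g gx) = gx) (hfy : f (g gy) = gy) (hfv : f (g gv) = gv)
    (hgx : g (f gx) = gx) (hgy : g (f gy) = gy) (hgv : g (f gv) = gv) : MulAut F3 :=
  MonoidHom.toMulEquiv f g (F3_ext hgx hgy hgv) (F3_ext hfx hfy hfv)

/-- action of `s1` -/
def S1 : MulAut F3 :=
  aut (hF (gy * gx⁻¹) gy gv) (hF (gx⁻¹ * gy) gy gv) (by simp) (by simp) (by simp)
    (by simp) (by simp) (by simp)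

/-- action of `s2` -/
def S2 : MulAut F3 :=
  aut (hF gx (gy * gv * gy⁻¹ * gx) (gx⁻¹ * gy)) (hF gx (gx * gv) (gv⁻¹ * gx⁻¹ * gy * gv))
    (by simp) (by simp only [hF_x, hF_y, hF_v, map_mul, map_inv]; group)
    (by simp only [hF_x, hF_y, hF_v, map_mul, map_inv]; group) (by simp)
    (by simp only [hF_x, hF_y, hF_v, map_mul, map_inv]; group)
    (by simp only [hF_x, hF_y, hF_v, map_mul, map_inv]; group)

@[simp] theorem S1_x : S1 gx = gy * gx⁻¹ := by
  show hF (gy * gx⁻¹) gy gv gx = _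
  simp
@[simp] theorem S1_y : S1 gy = gy := by
  show hF (gy * gx⁻¹) gy gv gy = _
  simp
@[simp] theorem S1_v : S1 gv = gv := by
  show hF (gy * gx⁻¹) gy gv gv = _
  simp
@[simp] theorem S2_x : S2 gx = gx := by
  show hF gx (gy * gv * gy⁻¹ * gx) (gx⁻¹ * gy) gx = _
  simp
@[simp] theorem S2_y : S2 gy = gy * gv * gy⁻¹ * gx := by
  show hF gx (gy * gv * gy⁻¹ * gx) (gx⁻¹ * gy) gy = _
  simp
@[simp] theorem S2_v : S2 gv = gx⁻¹ * gy := by
  show hF gx (gy * gv * gy⁻¹ * gx) (gx⁻¹ * gy) gv = _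
  simp

theorem MulAut_ext {f g : MulAut F3} (hx : f gx = g gx) (hy : f gy = g gy) (hv : f gv = g gv) :
    f = g := by
  have := F3_ext (f := f.toMonoidHom) (g := g.toMonoidHom) hx hy hv
  exact MulEquiv.ext fun w => DFunLike.congr_fun this w

theorem S_braid : S1 * S2 * S1 = S2 * S1 * S2 := by
  apply MulAut_ext
  · simp only [MulAut.mul_apply, S1_x, S1_y, S1_v, S2_x, S2_y, S2_v, map_mul, map_inv]; group
  · simp only [MulAut.mul_apply, S1_x, S1_y, S1_v, S2_x, S2_y, S2_v, map_mul, map_inv]; group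
  · simp only [MulAut.mul_apply, S1_x, S1_y, S1_v, S2_x, S2_y, S2_v, map_mul, map_inv]; group

/-- Artin representation -/
def phi : B3 →* MulAut F3 := toH ![S1, S2] (by
  intro s t
  fin_cases s <;> fin_cases t
  · rfl
  · exact S_braid
  · exact S_braid.symm
  · rfl)

@[simp] theorem phi_s1 : phi s1 = S1 := toH_gen _ _ _
@[simp] theorem phi_s2 : phi s2 = S2 := toH_gen _ _ _

/-- `x₁ x₂ x₃` -/
def dl : F3 := gy * gv

theorem phi_z : phi ((s1 * s2) ^ 3) = MulAut.conj dl := by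
  rw [map_pow, map_mul, phi_s1, phi_s2]
  apply MulAut_ext
  · simp only [pow_succ, pow_zero, one_mul, MulAut.mul_apply, S1_x, S1_y, S1_v, S2_x, S2_y, S2_v,
      map_mul, map_inv, MulAut.conj_apply, dl]
    group
  · simp only [pow_succ, pow_zero, one_mul, MulAut.mul_apply, S1_x, S1_y, S1_v, S2_x, S2_y, S2_v,
      map_mul, map_inv, MulAut.conj_apply, dl]
    group
  · simp only [pow_succ, pow_zero, one_mul, MulAut.mul_apply, S1_x, S1_y, S1_v, S2_x, S2_y, S2_v,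
      map_mul, map_inv, MulAut.conj_apply, dl]
    group

/-- annular braid group `F₃ ⋊ B₃` -/
abbrev AB : Type := F3 ⋊[phi] B3

/-- `B3 → AB` -/
abbrev nr : B3 →* AB := SemidirectProduct.inr
/-- `F3 → AB` -/
abbrev nl : F3 →* AB := SemidirectProduct.inl

theorem nr_nl (b : B3) (w : F3) : nr b * nl w = nl (phi b w) * nr b := by
  have := SemidirectProduct.inl_aut (φ := phi) b w
  rw [this, mul_assoc, mul_assoc, ← map_mul, inv_mul_cancel, map_one, mul_one]

theorem S_V : nr s1 * nl gv = nl gv * nr s1 := by rw [nr_nl, phi_s1, S1_v]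
theorem S_Y : nr s1 * nl gy = nl gy * nr s1 := by rw [nr_nl, phi_s1, S1_y]
theorem S_X : nr s1 * nl gx = nl (gy * gx⁻¹) * nr s1 := by rw [nr_nl, phi_s1, S1_x]
theorem T_X : nr s2 * nl gx = nl gx * nr s2 := by rw [nr_nl, phi_s2, S2_x]
theorem T_V : nr s2 * nl gv = nl (gx⁻¹ * gy) * nr s2 := by rw [nr_nl, phi_s2, S2_v]

/-- image of the third generator -/
def cc : AB := nl gv * nr (s1 * s2 * s1⁻¹) * (nl gv)⁻¹

/-- `R = s₁ s₂ x₃⁻¹` -/
def RR : AB := nr s1 * nr s2 * (nl gv)⁻¹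

theorem R_S : RR * nr s1 * RR⁻¹ = nr s2 := by
  have h1 : (nl gv)⁻¹ * nr s1 * nl gv = nr s1 := by
    rw [mul_assoc, S_V]; group
  have h2 : nr s1 * nr s2 * nr s1 = nr s2 * nr s1 * nr s2 := by
    rw [← map_mul, ← map_mul, s_braid, map_mul, map_mul]
  calc RR * nr s1 * RR⁻¹ = nr s1 * nr s2 * ((nl gv)⁻¹ * nr s1 * nl gv) * (nr s2)⁻¹ * (nr s1)⁻¹ := by
        rw [RR]; group
    _ = (nr s1 * nr s2 * nr s1) * (nr s2)⁻¹ * (nr s1)⁻¹ := by rw [h1]; 
    _ = nr s2 := by rw [h2]; group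

theorem R_c : RR * cc * RR⁻¹ = nr s1 := by
  have h2 : nr s1 * nr s2 * nr s1 = nr s2 * nr s1 * nr s2 := by
    rw [← map_mul, ← map_mul, s_braid, map_mul, map_mul]
  have e : cc = nl gv * (nr s1 * nr s2 * (nr s1)⁻¹) * (nl gv)⁻¹ := by
    rw [cc, map_mul, map_mul, map_inv]
  calc RR * cc * RR⁻¹ = nr s1 * (nr s2 * nr s1 * nr s2) * (nr s1)⁻¹ * (nr s2)⁻¹ * (nr s1)⁻¹ := by
        rw [RR, e]; group
    _ = nr s1 := by rw [← h2]; group

theorem nl_mul (p q : F3) : nl (p * q) = nl p * nl q := map_mul _ _ _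

theorem R_T : RR * nr s2 * RR⁻¹ = cc := by
  -- both sides are `V X⁻¹ S T S⁻¹`
  have hW : nr s2 * nl gv * (nr s2)⁻¹ = nl (gx⁻¹ * gy) := by rw [T_V]; group
  have hW2 : nr s2 * nl (gx⁻¹ * gy) * (nr s2)⁻¹ = nl (gx⁻¹ * gy * gv * (gx⁻¹ * gy)⁻¹) := by
    have : S2 (gx⁻¹ * gy) = gx⁻¹ * gy * gv * (gx⁻¹ * gy)⁻¹ := by
      rw [map_mul, map_inv, S2_x, S2_y]; group
    rw [nr_nl, phi_s2, this, mul_inv_cancel_right]
  have hW3 : nr s1 * nl (gx⁻¹ * gy) * (nr s1)⁻¹ = nl gx := by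
    have : S1 (gx⁻¹ * gy) = gx := by
      rw [map_mul, map_inv, S1_x, S1_y]; group
    rw [nr_nl, phi_s1, this, mul_inv_cancel_right]
  have e : cc = nl gv * (nr s1 * nr s2 * (nr s1)⁻¹) * (nl gv)⁻¹ := by
    rw [cc, map_mul, map_mul, map_inv]
  have hV : (nr s1)⁻¹ * (nl gv)⁻¹ = (nl gv)⁻¹ * (nr s1)⁻¹ := by
    rw [← mul_inv_rev, ← mul_inv_rev, S_V]
  calc RR * nr s2 * RR⁻¹ = nr s1 * (nr s2 * nl gv * (nr s2)⁻¹)⁻¹ * (nr s2 * (nr s2 * nl gv *
        (nr s2)⁻¹) * (nr s2)⁻¹) * nr s2 * (nr s1)⁻¹ := by rw [RR]; group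
    _ = nr s1 * nl gv * (nl (gx⁻¹ * gy))⁻¹ * nr s2 * (nr s1)⁻¹ := by
      have e3 : nl (gx⁻¹ * gy * gv * (gx⁻¹ * gy)⁻¹) =
          nl (gx⁻¹ * gy) * nl gv * (nl (gx⁻¹ * gy))⁻¹ := by
        rw [nl_mul, nl_mul (gx⁻¹ * gy) gv, map_inv]
      rw [hW, hW2, e3]; group
    _ = nl gv * (nr s1 * nl (gx⁻¹ * gy) * (nr s1)⁻¹)⁻¹ * (nr s1 * nr s2 * (nr s1)⁻¹) := by
      rw [S_V]; group
    _ = nl gv * (nl gx)⁻¹ * (nr s1 * nr s2 * (nr s1)⁻¹) := by rw [hW3]
    _ = cc := by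
      rw [e, ← hW3, ← hW]
      have e2 : nr s1 * nr s2 * (nr s1)⁻¹ * (nl gv)⁻¹ =
          nr s1 * nr s2 * ((nl gv)⁻¹ * (nr s1)⁻¹) := by rw [← hV]; group
      calc _ = nl gv * (nr s1 * nr s2 * ((nl gv)⁻¹ * (nr s1)⁻¹)) := by group
        _ = nl gv * (nr s1 * nr s2 * (nr s1)⁻¹ * (nl gv)⁻¹) := by rw [e2]
        _ = _ := by group

/-- `Ã₂ → F₃ ⋊ B₃` -/
def Phi : At →* AB := toH ![nr s1, nr s2, cc] (by
  have h01 : nr s1 * nr s2 * nr s1 = nr s2 * nr s1 * nr s2 := by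
    rw [← map_mul, ← map_mul, s_braid, map_mul, map_mul]
  have h12 : nr s2 * cc * nr s2 = cc * nr s2 * cc := by
    have : RR * (nr s1 * nr s2 * nr s1) * RR⁻¹ = RR * (nr s2 * nr s1 * nr s2) * RR⁻¹ := by
      rw [h01]
    have c : ∀ p q r : AB, RR * (p * q * r) * RR⁻¹ =
        (RR * p * RR⁻¹) * (RR * q * RR⁻¹) * (RR * r * RR⁻¹) := by intros; group
    rwa [c, c, R_S, R_T] at this
  have h20 : cc * nr s1 * cc = nr s1 * cc * nr s1 := by
    have : RR * (nr s2 * cc * nr s2) * RR⁻¹ = RR * (cc * nr s2 * cc) * RR⁻¹ := by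
      rw [h12]
    have c : ∀ p q r : AB, RR * (p * q * r) * RR⁻¹ =
        (RR * p * RR⁻¹) * (RR * q * RR⁻¹) * (RR * r * RR⁻¹) := by intros; group
    rwa [c, c, R_T, R_c] at this
  intro s t
  fin_cases s <;> fin_cases t
  · rfl
  · exact h01
  · exact h20.symm
  · exact h01.symm
  · rfl
  · exact h12
  · exact h20
  · exact h12.symm
  · rfl)

theorem Phi_0 : Phi (artinGen (MM 3) 0) = nr s1 := toH_gen _ _ _
theorem Phi_1 : Phi (artinGen (MM 3) 1) = nr s2 := toH_gen _ _ _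
theorem Phi_2 : Phi (artinGen (MM 3) 2) = cc := toH_gen _ _ _

end Crest.Agent.R175.A2t_83
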