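import Mathlib
import Crest.Agent.R175.A2t_83

/-!
# R175 (S0264), group side, vertex : `Phi : Ã₂ → F₃ ⋊ B₃` is injective

The left inverse goes to `Ã₂ ⋊ ℤ` (rotation of the triangle).
-/

set_option autoImplicit false

open Crest.GroupTheory

namespace Crest.Agent.R175.A2t_83

open Semi_663

section words

variable {D : Type*} [Group D] {A B C r : D}

theorem w1x (hA : r * A = C * r) (hB : r * B = A * r) (hC : r * C = B * r)
    (ab : A * B * A = B * A * B) :
    A * (A * B * r) * A⁻¹ = (A * B * A * B * r * r) * (A * B * r)⁻¹ := by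
  rw [eq_mul_inv_iff_mul_eq]
  calc A * (A * B * r) * A⁻¹ * (A * B * r) = A * A * B * (r * B) * r := by group
    _ = A * (A * B * A) * r * r := by rw [hB]; group
    _ = A * B * A * B * r * r := by conv_lhs => rw [ab]
                                    group

theorem w1y (hA : r * A = C * r) (hB : r * B = A * r) (hC : r * C = B * r)
    (ab : A * B * A = B * A * B) :
    A * (A * B * A * B * r * r) * A⁻¹ = A * B * A * B * r * r := by
  rw [mul_inv_eq_iff_eq_mul]
  calc A * (A * B * A * B * r * r) = A * (A * B * A) * B * r * r := by group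
    _ = A * B * A * B * (B * r) * r := by conv_lhs => rw [ab]
                                          group
    _ = A * B * A * B * r * (C * r) := by rw [← hC]; group
    _ = A * B * A * B * r * r * A := by rw [← hA]; group

theorem w1v (hA : r * A = C * r) (ca : C * A * C = A * C * A) :
    A * (C * A * r) * A⁻¹ = C * A * r := by
  rw [mul_inv_eq_iff_eq_mul]
  calc A * (C * A * r) = (A * C * A) * r := by group
    _ = C * A * (C * r) := by rw [← ca]; group
    _ = C * A * r * A := by rw [← hA]; group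

theorem w2x (hB : r * B = A * r) (ab : A * B * A = B * A * B) :
    B * (A * B * r) * B⁻¹ = A * B * r := by
  rw [mul_inv_eq_iff_eq_mul]
  calc B * (A * B * r) = (B * A * B) * r := by group
    _ = A * B * (A * r) := by rw [← ab]; group
    _ = A * B * r * B := by rw [← hB]; group

theorem ww (hA : r * A = C * r) (hB : r * B = A * r) (hC : r * C = B * r) :
    (A * B * r)⁻¹ * (A * B * A * B * r * r) = B * C * r := by
  rw [inv_mul_eq_iff_eq_mul]
  calc A * B * A * B * r * r = A * B * (A * (B * r)) * r := by group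
    _ = A * B * ((A * r) * C) * r := by rw [← hC]; group
    _ = A * B * r * (B * C * r) := by rw [← hB]; group

theorem w2v (hA : r * A = C * r) (hB : r * B = A * r) (hC : r * C = B * r) :
    B * (C * A * r) * B⁻¹ = (A * B * r)⁻¹ * (A * B * A * B * r * r) := by
  rw [ww hA hB hC, mul_inv_eq_iff_eq_mul]
  calc B * (C * A * r) = B * C * (A * r) := by group
    _ = B * C * r * B := by rw [← hB]; group

theorem w2y (hA : r * A = C * r) (hB : r * B = A * r) (hC : r * C = B * r)
    (ab : A * B * A = B * A * B) :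
    B * (A * B * A * B * r * r) * B⁻¹ = (A * B * A * B * r * r) * (C * A * r) *
      (A * B * A * B * r * r)⁻¹ * (A * B * r) := by
  have h1 : (A * B * A * B * r * r)⁻¹ * (A * B * r) = (B * C * r)⁻¹ := by
    rw [← ww hA hB hC]; group
  rw [mul_assoc _ (A * B * A * B * r * r)⁻¹, h1, eq_mul_inv_iff_mul_eq]
  have e1 : r * r * C = A * r * r := by rw [mul_assoc, hC, ← mul_assoc, hB]
  have e2 : r * r * A = B * r * r := by rw [mul_assoc, hA, ← mul_assoc, hC]
  calc B * (A * B * A * B * r * r) * B⁻¹ * (B * C * r) =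
      B * A * B * A * B * (r * r * C) * r := by group
    _ = (B * A * B) * (A * B * A) * r * r * r := by rw [e1]; group
    _ = (A * B * A) * (B * A * B) * r * r * r := by rw [ab]
    _ = A * B * A * B * A * (B * r * r) * r := by group
    _ = A * B * A * B * (A * r * r) * A * r := by rw [← e2]; group
    _ = A * B * A * B * r * r * (C * A * r) := by rw [← e1]; group

end words

/-- generators of `Ã₂` -/
abbrev ga (i : Fin 3) : At := artinGen (MM 3) i

/-- rotation -/
def rot : MulAut At :=
  MonoidHom.toMulEquiv (toH (fun i => ga (i + 1)) fun s t => braid _ _)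
    (toH (fun i => ga (i - 1)) fun s t => braid _ _)
    (by
      apply hom_ext
      intro s
      simp [ga])
    (by
      apply hom_ext
      intro s
      simp [ga])

theorem rot_gen (i : Fin 3) : rot (ga i) = ga (i + 1) := by
  show (toH (fun i => ga (i + 1)) fun s t => braid _ _) (ga i) = ga (i + 1)
  exact toH_gen _ _ _

/-- `Ã₂ ⋊ ℤ` -/
abbrev DD : Type := At ⋊[zpowersHom (MulAut At) rot] (Multiplicative ℤ)

/-- `At → DD` -/
abbrev il : At →* DD := SemidirectProduct.inl

/-- the rotation (inverse) -/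
def rr : DD := SemidirectProduct.inr (Multiplicative.ofAdd (-1 : ℤ))

theorem rr_mul (g : At) : rr * il (rot g) = il g * rr := by
  have := SemidirectProduct.inl_aut (φ := zpowersHom (MulAut At) rot) (Multiplicative.ofAdd (-1 : ℤ))
    (rot g)
  rw [zpowersHom_apply] at this
  simp only [Int.reduceNeg, toAdd_ofAdd, zpow_neg, zpow_one, MulAut.inv_apply_self] at this
  rw [this, rr, mul_assoc, ← map_mul, inv_mul_cancel, map_one, mul_one]

theorem hA : rr * il (ga 0) = il (ga 2) * rr := by
  rw [← rr_mul, rot_gen]; rfl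
theorem hB : rr * il (ga 1) = il (ga 0) * rr := by
  rw [← rr_mul, rot_gen]; rfl
theorem hC : rr * il (ga 2) = il (ga 1) * rr := by
  rw [← rr_mul, rot_gen]; rfl

theorem ibraid (i j : Fin 3) : il (ga i) * il (ga j) * il (ga i) =
    il (ga j) * il (ga i) * il (ga j) := by
  rw [← map_mul, ← map_mul, braid, map_mul, map_mul]

/-- on `F3` -/
def f1 : F3 →* DD := hF (il (ga 0) * il (ga 1) * rr)
  (il (ga 0) * il (ga 1) * il (ga 0) * il (ga 1) * rr * rr) (il (ga 2) * il (ga 0) * rr)

/-- on `B3` -/
def f2 : B3 →* DD := toH ![il (ga 0), il (ga 1)] (by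
  intro s t
  fin_cases s <;> fin_cases t
  · rfl
  · exact ibraid 0 1
  · exact ibraid 1 0
  · rfl)

theorem f2_s1 : f2 s1 = il (ga 0) := toH_gen _ _ _
theorem f2_s2 : f2 s2 = il (ga 1) := toH_gen _ _ _

theorem compat_s1 (w : F3) : f1 (S1 w) = il (ga 0) * f1 w * (il (ga 0))⁻¹ := by
  have : f1.comp S1.toMonoidHom = (MulAut.conj (il (ga 0))).toMonoidHom.comp f1 := by
    apply F3_ext
    · show f1 (S1 gx) = il (ga 0) * f1 gx * (il (ga 0))⁻¹
      rw [S1_x, map_mul, map_inv, f1, hF_x, hF_y]
      exact (w1x hA hB hC (ibraid 0 1)).symm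
    · show f1 (S1 gy) = il (ga 0) * f1 gy * (il (ga 0))⁻¹
      rw [S1_y, f1, hF_y]
      exact (w1y hA hB hC (ibraid 0 1)).symm
    · show f1 (S1 gv) = il (ga 0) * f1 gv * (il (ga 0))⁻¹
      rw [S1_v, f1, hF_v]
      exact (w1v hA (ibraid 2 0)).symm
  exact DFunLike.congr_fun this w

theorem compat_s2 (w : F3) : f1 (S2 w) = il (ga 1) * f1 w * (il (ga 1))⁻¹ := by
  have : f1.comp S2.toMonoidHom = (MulAut.conj (il (ga 1))).toMonoidHom.comp f1 := by
    apply F3_ext
    · show f1 (S2 gx) = il (ga 1) * f1 gx * (il (ga 1))⁻¹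
      rw [S2_x, f1, hF_x]
      exact (w2x hB (ibraid 0 1)).symm
    · show f1 (S2 gy) = il (ga 1) * f1 gy * (il (ga 1))⁻¹
      rw [S2_y, map_mul, map_mul, map_mul, map_inv, f1, hF_x, hF_y, hF_v]
      exact (w2y hA hB hC (ibraid 0 1)).symm
    · show f1 (S2 gv) = il (ga 1) * f1 gv * (il (ga 1))⁻¹
      rw [S2_v, map_mul, map_inv, f1, hF_x, hF_y, hF_v]
      exact (w2v hA hB hC).symm
  exact DFunLike.congr_fun this w

theorem compat (b : B3) : ∀ w : F3, f1 (phi b w) = f2 b * f1 w * (f2 b)⁻¹ := by
  have hb : b ∈ Subgroup.closure (Set.range (artinGen (MM 2))) := by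
    rw [closure_gen]; trivial
  induction hb using Subgroup.closure_induction with
  | mem x hx =>
    obtain ⟨i, rfl⟩ := hx
    intro w
    fin_cases i
    · show f1 (phi s1 w) = f2 s1 * f1 w * (f2 s1)⁻¹
      rw [phi_s1, f2_s1, compat_s1]
    · show f1 (phi s2 w) = f2 s2 * f1 w * (f2 s2)⁻¹
      rw [phi_s2, f2_s2, compat_s2]
  | one => intro w; simp
  | mul x y _ _ hx hy =>
    intro w
    rw [map_mul, MulAut.mul_apply, hx, hy, map_mul]; group
  | inv x _ hx =>
    intro w
    have := hx (phi x⁻¹ w)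
    rw [map_inv, MulAut.apply_inv_self] at this
    rw [map_inv, map_inv, this]; group

/-- `AB → DD` -/
def Psi : AB →* DD := SemidirectProduct.lift f1 f2 fun b => by
  ext1 i
  exact compat b _

theorem Psi_nl (w : F3) : Psi (nl w) = f1 w := SemidirectProduct.lift_inl _ _ _ _
theorem Psi_nr (b : B3) : Psi (nr b) = f2 b := SemidirectProduct.lift_inr _ _ _ _

theorem Psi_Phi (g : At) : Psi (Phi g) = il g := by
  have : Psi.comp Phi = il := by
    apply hom_ext
    intro s
    fin_cases s
    · show Psi (Phi (artinGen (MM 3) 0)) = il (ga 0)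
      rw [Phi_0, Psi_nr, f2_s1]
    · show Psi (Phi (artinGen (MM 3) 1)) = il (ga 1)
      rw [Phi_1, Psi_nr, f2_s2]
    · show Psi (Phi (artinGen (MM 3) 2)) = il (ga 2)
      rw [Phi_2, cc, map_mul, map_mul, map_inv, Psi_nl, Psi_nr, map_mul, map_mul, map_inv, f2_s1,
        f2_s2, f1, hF_v]
      -- `C A r (A B A⁻¹) (C A r)⁻¹ = C`
      have h1 : il (ga 2) * il (ga 0) * rr = rr * (il (ga 0) * il (ga 1)) := by
        rw [← mul_assoc, hA, mul_assoc _ rr, hB]; group
      rw [h1]
      have h2 : rr * (il (ga 0) * il (ga 1)) * (il (ga 0) * il (ga 1) * (il (ga 0))⁻¹) *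
          (rr * (il (ga 0) * il (ga 1)))⁻¹ = rr * il (ga 0) * rr⁻¹ := by
        have h3 := ibraid 0 1
        calc _ = rr * ((il (ga 0) * il (ga 1) * il (ga 0)) * il (ga 1) * (il (ga 0))⁻¹ *
            (il (ga 1))⁻¹ * (il (ga 0))⁻¹) * rr⁻¹ := by group
          _ = rr * il (ga 0) * rr⁻¹ := by
            congr 2
            rw [mul_assoc (il (ga 0)), mul_assoc (il (ga 0)), ← h3]
            group
      rw [h2, hA]; group
  exact DFunLike.congr_fun this g

theorem Phi_injective : Function.Injective Phi := by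
  intro g h hgh
  have := congrArg Psi hgh
  rw [Psi_Phi, Psi_Phi] at this
  exact SemidirectProduct.inl_injective this

end Crest.Agent.R175.A2t_83
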