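import Mathlib

/-!
# T-framed objects (row 175): graph, base category, differential objects

`MG T`     : symmetric multigraph without loops on `T` (`E s t` = edges from `s` to `t`, `rev`).
`Gob G k`  : families `V W : T → Type` of finite dimensional `k`-spaces, a `k`-linear category whose
             morphisms are the matrices over the framed zigzag algebra of `G`
             (components `c0 cW c1 ci cj c2`, length > 2 and loops at the frames dropped).
`TOb G k`   : T-framed objects `(X, d)`, `d ≫ d = 0`, `d ≫ gam = -(gam ≫ d)`, `cW d = 0` (the length 0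
             part `c0 d` is allowed).  `D f = f ≫ d - d ≫ bar f`, `bar f = gam ≫ f ≫ gam`.
`FObj G k`  : minimal objects `(V, W; B, i, j, e)` with `∑ B (rev a) B a + i j = 0`.
`hT X Y`    : dimension of the homology of `{f | cW f = 0}` (separate frames), `hD X Y`: of all maps.
-/

set_option autoImplicit false
set_option linter.unusedSectionVars false
set_option linter.unusedVariables false
set_option linter.unusedSimpArgs false

open CategoryTheory

namespace Crest.Agent.R175.PTA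

universe u v w

/-- A finite symmetric multigraph without loops. -/
structure MG (T : Type u) where
  E : T → T → Type
  fin : ∀ s t, Fintype (E s t)
  rev : ∀ {s t : T}, E s t → E t s
  rev_rev : ∀ {s t : T} (a : E s t), rev (rev a) = a
  irr : ∀ t, IsEmpty (E t t)

attribute [instance] MG.fin MG.irr
attribute [simp] MG.rev_rev

/-- Graded objects: a family `V t` (multiplicity of the projective at `t`) and a family `W t`
(multiplicity of the frame at `t`). -/
structure Gob {T : Type u} (G : MG T) (k : Type v) [Field k] where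
  V : T → Type v
  W : T → Type v
  [V1 : ∀ t, AddCommGroup (V t)]
  [V2 : ∀ t, Module k (V t)]
  [V3 : ∀ t, FiniteDimensional k (V t)]
  [W1 : ∀ t, AddCommGroup (W t)]
  [W2 : ∀ t, Module k (W t)]
  [W3 : ∀ t, FiniteDimensional k (W t)]
  /-- parity involution on `V` (may be the identity in characteristic 2) -/
  gV : ∀ t, V t →ₗ[k] V t
  /-- parity involution on `W` -/
  gW : ∀ t, W t →ₗ[k] W t
  gV_sq : ∀ t, gV t ∘ₗ gV t = LinearMap.id
  gW_sq : ∀ t, gW t ∘ₗ gW t = LinearMap.id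

attribute [instance] Gob.V1 Gob.V2 Gob.V3 Gob.W1 Gob.W2 Gob.W3
attribute [simp] Gob.gV_sq Gob.gW_sq

section base

variable {T : Type u} {G : MG T} {k : Type v} [Field k]

/-- Morphisms: components `c0 : V → V'`, `cW : W → W'`, `c1 a : V s → V' t` (`a : E s t`),
`ci : W → V'`, `cj : V → W'`, `c2 : V → V'`. -/
def Hm (X Y : Gob G k) : Type (max u v) :=
  (∀ t, X.V t →ₗ[k] Y.V t) × (∀ t, X.W t →ₗ[k] Y.W t) ×
  (∀ s t, G.E s t → (X.V s →ₗ[k] Y.V t)) ×
  (∀ t, X.W t →ₗ[k] Y.V t) × (∀ t, X.V t →ₗ[k] Y.W t) × (∀ t, X.V t →ₗ[k] Y.V t)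

instance (X Y : Gob G k) : AddCommGroup (Hm X Y) := by unfold Hm; infer_instance
instance (X Y : Gob G k) : Module k (Hm X Y) := by unfold Hm; infer_instance

instance [Finite T] (X Y : Gob G k) : FiniteDimensional k (Hm X Y) := by
  unfold Hm; infer_instance

instance : Quiver (Gob G k) := ⟨Hm⟩

section comps
variable {X Y : Gob G k}

/-- build a morphism from its components -/
def mkH (f0 : ∀ t, X.V t →ₗ[k] Y.V t) (fW : ∀ t, X.W t →ₗ[k] Y.W t)
    (f1 : ∀ s t, G.E s t → (X.V s →ₗ[k] Y.V t))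
    (fi : ∀ t, X.W t →ₗ[k] Y.V t) (fj : ∀ t, X.V t →ₗ[k] Y.W t)
    (f2 : ∀ t, X.V t →ₗ[k] Y.V t) : X ⟶ Y := (f0, fW, f1, fi, fj, f2)

def c0 (f : X ⟶ Y) (t : T) : X.V t →ₗ[k] Y.V t := f.1 t
def cW (f : X ⟶ Y) (t : T) : X.W t →ₗ[k] Y.W t := f.2.1 t
def c1 (f : X ⟶ Y) {s t : T} (a : G.E s t) : X.V s →ₗ[k] Y.V t := f.2.2.1 s t a
def ci (f : X ⟶ Y) (t : T) : X.W t →ₗ[k] Y.V t := f.2.2.2.1 t
def cj (f : X ⟶ Y) (t : T) : X.V t →ₗ[k] Y.W t := f.2.2.2.2.1 t
def c2 (f : X ⟶ Y) (t : T) : X.V t →ₗ[k] Y.V t := f.2.2.2.2.2 t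

section mkl
variable (f0 : ∀ t, X.V t →ₗ[k] Y.V t) (fW : ∀ t, X.W t →ₗ[k] Y.W t)
    (f1 : ∀ s t, G.E s t → (X.V s →ₗ[k] Y.V t))
    (fi : ∀ t, X.W t →ₗ[k] Y.V t) (fj : ∀ t, X.V t →ₗ[k] Y.W t)
    (f2 : ∀ t, X.V t →ₗ[k] Y.V t)
@[simp] theorem c0_mkH (t : T) : c0 (mkH f0 fW f1 fi fj f2) t = f0 t := rfl
@[simp] theorem cW_mkH (t : T) : cW (mkH f0 fW f1 fi fj f2) t = fW t := rfl
@[simp] theorem c1_mkH {s t : T} (a : G.E s t) : c1 (mkH f0 fW f1 fi fj f2) a = f1 s t a := rfl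
@[simp] theorem ci_mkH (t : T) : ci (mkH f0 fW f1 fi fj f2) t = fi t := rfl
@[simp] theorem cj_mkH (t : T) : cj (mkH f0 fW f1 fi fj f2) t = fj t := rfl
@[simp] theorem c2_mkH (t : T) : c2 (mkH f0 fW f1 fi fj f2) t = f2 t := rfl
end mkl

theorem hm_ext {f g : X ⟶ Y} (h0 : ∀ t, c0 f t = c0 g t) (hW : ∀ t, cW f t = cW g t)
    (h1 : ∀ (s t : T) (a : G.E s t), c1 f a = c1 g a) (hi : ∀ t, ci f t = ci g t)
    (hj : ∀ t, cj f t = cj g t) (h2 : ∀ t, c2 f t = c2 g t) : f = g := by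
  obtain ⟨f0, fW, f1, fi, fj, f2⟩ := f
  obtain ⟨g0, gW, g1, gi, gj, g2⟩ := g
  have e0 : f0 = g0 := funext h0
  have eW : fW = gW := funext hW
  have e1 : f1 = g1 := funext fun s => funext fun t => funext fun a => h1 s t a
  have ei : fi = gi := funext hi
  have ej : fj = gj := funext hj
  have e2 : f2 = g2 := funext h2
  subst e0 eW e1 ei ej e2
  rfl

end comps

variable [Fintype T]

instance catStruct : CategoryStruct (Gob G k) where
  id X := mkH (fun _ => LinearMap.id) (fun _ => LinearMap.id) (fun _ _ _ => 0) (fun _ => 0)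
    (fun _ => 0) (fun _ => 0)
  comp {_ _ _} f g := mkH (fun t => c0 g t ∘ₗ c0 f t) (fun t => cW g t ∘ₗ cW f t)
    (fun s t a => c1 g a ∘ₗ c0 f s + c0 g t ∘ₗ c1 f a)
    (fun t => ci g t ∘ₗ cW f t + c0 g t ∘ₗ ci f t)
    (fun t => cj g t ∘ₗ c0 f t + cW g t ∘ₗ cj f t)
    (fun t => c2 g t ∘ₗ c0 f t + c0 g t ∘ₗ c2 f t
      + (∑ s, ∑ a : G.E t s, c1 g (G.rev a) ∘ₗ c1 f a) + ci g t ∘ₗ cj f t)

section complem
variable {X Y Z : Gob G k} (f : X ⟶ Y) (g : Y ⟶ Z)
@[simp] theorem c0_id (t : T) : c0 (𝟙 X) t = LinearMap.id := rfl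
@[simp] theorem cW_id (t : T) : cW (𝟙 X) t = LinearMap.id := rfl
@[simp] theorem c1_id {s t : T} (a : G.E s t) : c1 (𝟙 X) a = 0 := rfl
@[simp] theorem ci_id (t : T) : ci (𝟙 X) t = 0 := rfl
@[simp] theorem cj_id (t : T) : cj (𝟙 X) t = 0 := rfl
@[simp] theorem c2_id (t : T) : c2 (𝟙 X) t = 0 := rfl
@[simp] theorem c0_comp (t : T) : c0 (f ≫ g) t = c0 g t ∘ₗ c0 f t := rfl
@[simp] theorem cW_comp (t : T) : cW (f ≫ g) t = cW g t ∘ₗ cW f t := rfl
@[simp] theorem c1_comp {s t : T} (a : G.E s t) :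
    c1 (f ≫ g) a = c1 g a ∘ₗ c0 f s + c0 g t ∘ₗ c1 f a := rfl
@[simp] theorem ci_comp (t : T) : ci (f ≫ g) t = ci g t ∘ₗ cW f t + c0 g t ∘ₗ ci f t := rfl
@[simp] theorem cj_comp (t : T) : cj (f ≫ g) t = cj g t ∘ₗ c0 f t + cW g t ∘ₗ cj f t := rfl
@[simp] theorem c2_comp (t : T) : c2 (f ≫ g) t = c2 g t ∘ₗ c0 f t + c0 g t ∘ₗ c2 f t
      + (∑ s, ∑ a : G.E t s, c1 g (G.rev a) ∘ₗ c1 f a) + ci g t ∘ₗ cj f t := rfl
end complem

instance addHom (X Y : Gob G k) : AddCommGroup (X ⟶ Y) :=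
  inferInstanceAs (AddCommGroup (Hm X Y))
instance modHom (X Y : Gob G k) : Module k (X ⟶ Y) :=
  inferInstanceAs (Module k (Hm X Y))
instance fdHom (X Y : Gob G k) : FiniteDimensional k (X ⟶ Y) :=
  inferInstanceAs (FiniteDimensional k (Hm X Y))

section addlem
variable {X Y : Gob G k} (f g : X ⟶ Y) (c : k)
@[simp] theorem c0_add (t : T) : c0 (f + g) t = c0 f t + c0 g t := rfl
@[simp] theorem cW_add (t : T) : cW (f + g) t = cW f t + cW g t := rfl
@[simp] theorem c1_add {s t : T} (a : G.E s t) : c1 (f + g) a = c1 f a + c1 g a := rfl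
@[simp] theorem ci_add (t : T) : ci (f + g) t = ci f t + ci g t := rfl
@[simp] theorem cj_add (t : T) : cj (f + g) t = cj f t + cj g t := rfl
@[simp] theorem c2_add (t : T) : c2 (f + g) t = c2 f t + c2 g t := rfl
@[simp] theorem c0_smul (t : T) : c0 (c • f) t = c • c0 f t := rfl
@[simp] theorem cW_smul (t : T) : cW (c • f) t = c • cW f t := rfl
@[simp] theorem c1_smul {s t : T} (a : G.E s t) : c1 (c • f) a = c • c1 f a := rfl
@[simp] theorem ci_smul (t : T) : ci (c • f) t = c • ci f t := rfl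
@[simp] theorem cj_smul (t : T) : cj (c • f) t = c • cj f t := rfl
@[simp] theorem c2_smul (t : T) : c2 (c • f) t = c • c2 f t := rfl
@[simp] theorem c0_zero (t : T) : c0 (0 : X ⟶ Y) t = 0 := rfl
@[simp] theorem cW_zero (t : T) : cW (0 : X ⟶ Y) t = 0 := rfl
@[simp] theorem c1_zero {s t : T} (a : G.E s t) : c1 (0 : X ⟶ Y) a = 0 := rfl
@[simp] theorem ci_zero (t : T) : ci (0 : X ⟶ Y) t = 0 := rfl
@[simp] theorem cj_zero (t : T) : cj (0 : X ⟶ Y) t = 0 := rfl
@[simp] theorem c2_zero (t : T) : c2 (0 : X ⟶ Y) t = 0 := rfl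
@[simp] theorem c0_neg (t : T) : c0 (-f) t = -c0 f t := rfl
@[simp] theorem cW_neg (t : T) : cW (-f) t = -cW f t := rfl
@[simp] theorem c1_neg {s t : T} (a : G.E s t) : c1 (-f) a = -c1 f a := rfl
@[simp] theorem ci_neg (t : T) : ci (-f) t = -ci f t := rfl
@[simp] theorem cj_neg (t : T) : cj (-f) t = -cj f t := rfl
@[simp] theorem c2_neg (t : T) : c2 (-f) t = -c2 f t := rfl
@[simp] theorem c0_sub (t : T) : c0 (f - g) t = c0 f t - c0 g t := rfl
@[simp] theorem cW_sub (t : T) : cW (f - g) t = cW f t - cW g t := rfl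
@[simp] theorem c1_sub {s t : T} (a : G.E s t) : c1 (f - g) a = c1 f a - c1 g a := rfl
@[simp] theorem ci_sub (t : T) : ci (f - g) t = ci f t - ci g t := rfl
@[simp] theorem cj_sub (t : T) : cj (f - g) t = cj f t - cj g t := rfl
@[simp] theorem c2_sub (t : T) : c2 (f - g) t = c2 f t - c2 g t := rfl
end addlem

theorem lcomp_sum {ι : Type*} {A B C : Type*} [AddCommGroup A] [Module k A] [AddCommGroup B]
    [Module k B] [AddCommGroup C] [Module k C] (s : Finset ι) (g : B →ₗ[k] C)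
    (f : ι → A →ₗ[k] B) : g ∘ₗ (∑ x ∈ s, f x) = ∑ x ∈ s, g ∘ₗ f x := by
  ext x; simp

theorem lsum_comp {ι : Type*} {A B C : Type*} [AddCommGroup A] [Module k A] [AddCommGroup B]
    [Module k B] [AddCommGroup C] [Module k C] (s : Finset ι) (g : ι → B →ₗ[k] C)
    (f : A →ₗ[k] B) : (∑ x ∈ s, g x) ∘ₗ f = ∑ x ∈ s, g x ∘ₗ f := by
  ext x; simp

instance cat : Category (Gob G k) where
  id_comp f := by
    apply hm_ext <;> intros <;> simp
  comp_id f := by
    apply hm_ext <;> intros <;> simp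
  assoc f g h := by
    apply hm_ext
    · intro t; simp [LinearMap.comp_assoc]
    · intro t; simp [LinearMap.comp_assoc]
    · intro s t a
      simp only [c1_comp, c0_comp, LinearMap.comp_add, LinearMap.add_comp, LinearMap.comp_assoc]
      abel
    · intro t
      simp only [ci_comp, c0_comp, cW_comp, LinearMap.comp_add, LinearMap.add_comp,
        LinearMap.comp_assoc]
      abel
    · intro t
      simp only [cj_comp, c0_comp, cW_comp, LinearMap.comp_add, LinearMap.add_comp,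
        LinearMap.comp_assoc]
      abel
    · intro t
      simp only [c2_comp, c1_comp, ci_comp, cj_comp, c0_comp, cW_comp, LinearMap.comp_add,
        LinearMap.add_comp, LinearMap.comp_assoc, lcomp_sum, lsum_comp, Finset.sum_add_distrib]
      abel

instance preadd : Preadditive (Gob G k) where
  add_comp _ _ _ f f' g := by
    apply hm_ext <;> intros <;>
      simp [LinearMap.comp_add, LinearMap.add_comp, Finset.sum_add_distrib] <;> abel
  comp_add _ _ _ f g g' := by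
    apply hm_ext <;> intros <;>
      simp [LinearMap.comp_add, LinearMap.add_comp, Finset.sum_add_distrib] <;> abel

instance lin : Linear k (Gob G k) where
  smul_comp _ _ _ r f g := by
    apply hm_ext <;> intros <;>
      simp [LinearMap.comp_smul, LinearMap.smul_comp, Finset.smul_sum, smul_add]
  comp_smul _ _ _ f r g := by
    apply hm_ext <;> intros <;>
      simp [LinearMap.comp_smul, LinearMap.smul_comp, Finset.smul_sum, smul_add]


/-! ### parity -/

section parity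

/-- the parity involution as a morphism -/
def gam (X : Gob G k) : X ⟶ X :=
  mkH X.gV X.gW (fun _ _ _ => 0) (fun _ => 0) (fun _ => 0) (fun _ => 0)

section gaml
variable (X : Gob G k)
@[simp] theorem c0_gam (t : T) : c0 (gam X) t = X.gV t := rfl
@[simp] theorem cW_gam (t : T) : cW (gam X) t = X.gW t := rfl
@[simp] theorem c1_gam {s t : T} (a : G.E s t) : c1 (gam X) a = 0 := rfl
@[simp] theorem ci_gam (t : T) : ci (gam X) t = 0 := rfl
@[simp] theorem cj_gam (t : T) : cj (gam X) t = 0 := rfl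
@[simp] theorem c2_gam (t : T) : c2 (gam X) t = 0 := rfl

@[simp] theorem gam_gam : gam X ≫ gam X = 𝟙 X := by
  apply hm_ext <;> intros <;> simp

@[simp] theorem gam_gam_assoc {Y : Gob G k} (f : X ⟶ Y) : gam X ≫ gam X ≫ f = f := by
  rw [← Category.assoc, gam_gam, Category.id_comp]
end gaml

variable {X Y Z : Gob G k}

/-- `bar f = γ f γ` -/
def bar (f : X ⟶ Y) : X ⟶ Y := gam X ≫ f ≫ gam Y

@[simp] theorem c0_bar (f : X ⟶ Y) (t : T) : c0 (bar f) t = Y.gV t ∘ₗ c0 f t ∘ₗ X.gV t := by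
  simp [bar, LinearMap.comp_assoc]
@[simp] theorem cW_bar (f : X ⟶ Y) (t : T) : cW (bar f) t = Y.gW t ∘ₗ cW f t ∘ₗ X.gW t := by
  simp [bar, LinearMap.comp_assoc]
@[simp] theorem c1_bar (f : X ⟶ Y) {s t : T} (a : G.E s t) :
    c1 (bar f) a = Y.gV t ∘ₗ c1 f a ∘ₗ X.gV s := by
  simp [bar, LinearMap.comp_assoc]
@[simp] theorem ci_bar (f : X ⟶ Y) (t : T) : ci (bar f) t = Y.gV t ∘ₗ ci f t ∘ₗ X.gW t := by
  simp [bar, LinearMap.comp_assoc]
@[simp] theorem cj_bar (f : X ⟶ Y) (t : T) : cj (bar f) t = Y.gW t ∘ₗ cj f t ∘ₗ X.gV t := by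
  simp [bar, LinearMap.comp_assoc]
@[simp] theorem c2_bar (f : X ⟶ Y) (t : T) : c2 (bar f) t = Y.gV t ∘ₗ c2 f t ∘ₗ X.gV t := by
  simp [bar, LinearMap.comp_assoc]

@[simp] theorem bar_bar (f : X ⟶ Y) : bar (bar f) = f := by
  simp [bar]

@[simp] theorem bar_comp (f : X ⟶ Y) (g : Y ⟶ Z) : bar (f ≫ g) = bar f ≫ bar g := by
  simp [bar]

@[simp] theorem bar_id : bar (𝟙 X) = 𝟙 X := by simp [bar]
@[simp] theorem bar_gam : bar (gam X) = gam X := by simp [bar]
@[simp] theorem bar_zero : bar (0 : X ⟶ Y) = 0 := by simp [bar]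
@[simp] theorem bar_add (f g : X ⟶ Y) : bar (f + g) = bar f + bar g := by simp [bar]
@[simp] theorem bar_neg (f : X ⟶ Y) : bar (-f) = -bar f := by simp [bar]
@[simp] theorem bar_sub (f g : X ⟶ Y) : bar (f - g) = bar f - bar g := by simp [bar]
@[simp] theorem bar_smul (c : k) (f : X ⟶ Y) : bar (c • f) = c • bar f := by simp [bar]

end parity

/-! ### T-framed objects -/

variable (G k) in
/-- T-framed objects: `d` may have a length 0 part `c0 d`. -/
structure TOb where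
  X : Gob G k
  d : X ⟶ X
  dd : d ≫ d = 0
  dg : d ≫ gam X = -(gam X ≫ d)
  dW : ∀ t, cW d t = 0

attribute [simp] TOb.dd TOb.dW

namespace TOb

variable (X Y Z : TOb G k)

@[simp] theorem dd_assoc {W : Gob G k} (f : X.X ⟶ W) : X.d ≫ X.d ≫ f = 0 := by
  rw [← Category.assoc, X.dd, Limits.zero_comp]

@[simp] theorem bar_d : bar X.d = -X.d := by
  rw [bar, X.dg]; simp

end TOb

section D

variable {X Y Z : TOb G k}

/-- the differential of the Hom complex (all components): `D f = f ≫ d - d ≫ bar f` -/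
def D (X Y : TOb G k) : (X.X ⟶ Y.X) →ₗ[k] (X.X ⟶ Y.X) where
  toFun f := f ≫ Y.d - X.d ≫ bar f
  map_add' f g := by simp only [Preadditive.add_comp, Preadditive.comp_add, bar_add]; abel
  map_smul' c f := by simp [smul_sub]

theorem D_apply (f : X.X ⟶ Y.X) : D X Y f = f ≫ Y.d - X.d ≫ bar f := rfl

theorem D_D (f : X.X ⟶ Y.X) : D X Y (D X Y f) = 0 := by
  simp [D_apply]

theorem D_comp (f : X.X ⟶ Y.X) (g : Y.X ⟶ Z.X) :
    D X Z (f ≫ g) = f ≫ D Y Z g + D X Y f ≫ bar g := by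
  simp [D_apply]

theorem bar_D (f : X.X ⟶ Y.X) : bar (D X Y f) = -D X Y (bar f) := by
  simp only [D_apply, bar_sub, bar_comp, TOb.bar_d, bar_bar, Preadditive.comp_neg,
    Preadditive.neg_comp]
  abel

@[simp] theorem D_id : D X X (𝟙 X.X) = 0 := by simp [D_apply]

end D

/-- the maps which are `0` on the frames (`cW = 0`): frames of `X` and `Y` are separate -/
def Cs (X Y : Gob G k) : Submodule k (X ⟶ Y) where
  carrier := {f | ∀ t, cW f t = 0}
  add_mem' := by
    intro f g hf hg t; simp [hf t, hg t]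
  zero_mem' := by intro t; simp
  smul_mem' := by intro c f hf t; simp [hf t]

theorem mem_Cs {X Y : Gob G k} {f : X ⟶ Y} : f ∈ Cs X Y ↔ ∀ t, cW f t = 0 := Iff.rfl

theorem Cs_comp_left {X Y Z : Gob G k} (f : X ⟶ Y) {g : Y ⟶ Z} (hg : g ∈ Cs Y Z) :
    f ≫ g ∈ Cs X Z := by
  intro t; simp [hg t]

theorem Cs_comp_right {X Y Z : Gob G k} {f : X ⟶ Y} (hf : f ∈ Cs X Y) (g : Y ⟶ Z) :
    f ≫ g ∈ Cs X Z := by
  intro t; simp [hf t]

theorem bar_mem_Cs {X Y : Gob G k} {f : X ⟶ Y} (hf : f ∈ Cs X Y) : bar f ∈ Cs X Y :=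
  Cs_comp_left _ (Cs_comp_right hf _)

theorem D_mem_Cs {X Y : TOb G k} {f : X.X ⟶ Y.X} (hf : f ∈ Cs X.X Y.X) :
    D X Y f ∈ Cs X.X Y.X :=
  Submodule.sub_mem _ (Cs_comp_right hf _) (Cs_comp_left _ (bar_mem_Cs hf))

/-- the differential with separate frames -/
def DC (X Y : TOb G k) : Cs X.X Y.X →ₗ[k] Cs X.X Y.X :=
  (D X Y).restrict fun _ hf => D_mem_Cs hf

@[simp] theorem DC_coe {X Y : TOb G k} (f : Cs X.X Y.X) : (DC X Y f : X.X ⟶ Y.X) = D X Y f := rfl

theorem DC_DC {X Y : TOb G k} (f : Cs X.X Y.X) : DC X Y (DC X Y f) = 0 :=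
  Subtype.ext (D_D _)

end base

/-! ### spaces with a differential -/

section hd

variable {k : Type v} [Field k] {K : Type w} [AddCommGroup K] [Module k K]

/-- dimension of the homology of a space with differential `D` (`D ∘ D = 0`). -/
noncomputable def hd (D : K →ₗ[k] K) : ℕ :=
  Module.finrank k (LinearMap.ker D) - Module.finrank k (LinearMap.range D)

theorem range_le_ker {D : K →ₗ[k] K} (h : ∀ x, D (D x) = 0) :
    LinearMap.range D ≤ LinearMap.ker D := by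
  rintro _ ⟨x, rfl⟩; exact h x

theorem hd_add_range [FiniteDimensional k K] {D : K →ₗ[k] K} (h : ∀ x, D (D x) = 0) :
    hd D + Module.finrank k (LinearMap.range D) = Module.finrank k (LinearMap.ker D) :=
  Nat.sub_add_cancel (Submodule.finrank_mono (range_le_ker h))

theorem hd_add_two_range [FiniteDimensional k K] {D : K →ₗ[k] K} (h : ∀ x, D (D x) = 0) :
    hd D + 2 * Module.finrank k (LinearMap.range D) = Module.finrank k K := by
  have h1 := hd_add_range h
  have h2 := LinearMap.finrank_range_add_finrank_ker D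
  omega

end hd

section h

variable {T : Type u} {G : MG T} {k : Type v} [Field k] [Fintype T]

/-- dimension of the total homology of Hom with separate frames -/
noncomputable def hT (X Y : TOb G k) : ℕ := hd (DC X Y)

/-- dimension of the total homology of the full Hom complex -/
noncomputable def hD (X Y : TOb G k) : ℕ := hd (D X Y)

/-- even homotopy equivalences of T-framed objects (full Hom complexes) -/
structure HEquiv (X Y : TOb G k) where
  p : X.X ⟶ Y.X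
  q : Y.X ⟶ X.X
  s : X.X ⟶ X.X
  r : Y.X ⟶ Y.X
  bp : bar p = p
  bq : bar q = q
  Dp : D X Y p = 0
  Dq : D Y X q = 0
  pq : p ≫ q = 𝟙 X.X + D X X s
  qp : q ≫ p = 𝟙 Y.X + D Y Y r

/-- isomorphism in the homotopy category -/
def HIso (X Y : TOb G k) : Prop := Nonempty (HEquiv X Y)

end h

/-! ### free objects with zero differential -/

section free

variable {T : Type u} {G : MG T} {k : Type v} [Field k]

variable (G k) in
/-- `V t = k^(m t)`, `W t = k^(n t)`, even, as a graded object -/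
def freeG (m n : T → ℕ) : Gob G k where
  V t := Fin (m t) → k
  W t := Fin (n t) → k
  gV _ := LinearMap.id
  gW _ := LinearMap.id
  gV_sq _ := rfl
  gW_sq _ := rfl

variable (G k) in
/-- free object with zero differential -/
def free [Fintype T] (m n : T → ℕ) : TOb G k where
  X := freeG G k m n
  d := 0
  dd := by simp
  dg := by simp
  dW _ := rfl

variable (G k) in
/-- the single frame at `t` -/
def frm [Fintype T] [DecidableEq T] (t : T) : TOb G k := free G k 0 (Pi.single t 1)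

variable (G k) in
/-- the projective at `t` -/
def prj [Fintype T] [DecidableEq T] (t : T) : TOb G k := free G k (Pi.single t 1) 0

/-- `d_t(X)`: the multiplicity of the projective at `t` in (the minimal model of) `X` -/
noncomputable def dT [Fintype T] [DecidableEq T] (X : TOb G k) (t : T) : ℕ := hT X (frm G k t)

/-- `lam_t(X)`: the number of frames at `t` -/
noncomputable def lam [Fintype T] (X : TOb G k) (t : T) : ℕ := Module.finrank k (X.X.W t)

end free

/-! ### minimal objects -/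

section minimal

variable {T : Type u} {k : Type v} [Field k] [Fintype T]

/-- minimal T-framed objects `(V, W; B, i, j, e)` -/
structure FObj (G : MG T) (k : Type v) [Field k] where
  X : Gob G k
  B : ∀ {s t : T}, G.E s t → (X.V s →ₗ[k] X.V t)
  i : ∀ t, X.W t →ₗ[k] X.V t
  j : ∀ t, X.V t →ₗ[k] X.W t
  e : ∀ t, X.V t →ₗ[k] X.V t
  mc : ∀ t, (∑ s, ∑ a : G.E t s, B (G.rev a) ∘ₗ B a) + i t ∘ₗ j t = 0
  gB : ∀ {s t : T} (a : G.E s t), X.gV t ∘ₗ B a = -(B a ∘ₗ X.gV s)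
  gi : ∀ t, X.gV t ∘ₗ i t = -(i t ∘ₗ X.gW t)
  gj : ∀ t, X.gW t ∘ₗ j t = -(j t ∘ₗ X.gV t)
  ge : ∀ t, X.gV t ∘ₗ e t = -(e t ∘ₗ X.gV t)

variable {G : MG T}

/-- the differential of a minimal object as a morphism -/
def FObj.dm (X : FObj G k) : X.X ⟶ X.X :=
  mkH (fun _ => 0) (fun _ => 0) (fun _ _ a => X.B a) X.i X.j X.e

section dml
variable (X : FObj G k)
@[simp] theorem FObj.c0_dm (t : T) : c0 X.dm t = 0 := rfl
@[simp] theorem FObj.cW_dm (t : T) : cW X.dm t = 0 := rfl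
@[simp] theorem FObj.c1_dm {s t : T} (a : G.E s t) : c1 X.dm a = X.B a := rfl
@[simp] theorem FObj.ci_dm (t : T) : ci X.dm t = X.i t := rfl
@[simp] theorem FObj.cj_dm (t : T) : cj X.dm t = X.j t := rfl
@[simp] theorem FObj.c2_dm (t : T) : c2 X.dm t = X.e t := rfl
end dml

/-- the T-framed object of a minimal object -/
abbrev FObj.toTOb (X : FObj G k) : TOb G k where
  X := X.X
  d := X.dm
  dd := by
    apply hm_ext <;> intros <;> simp
    exact X.mc _
  dg := by
    apply hm_ext <;> intros <;> simp [X.gB, X.gi, X.gj, X.ge]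
  dW _ := rfl

/-- the Hom complex of minimal objects with separate frames, in components `f0 f1 fi fj f2` -/
def Cp (X Y : Gob G k) : Type (max u v) :=
  (∀ t, X.V t →ₗ[k] Y.V t) × (∀ s t, G.E s t → (X.V s →ₗ[k] Y.V t)) ×
  (∀ t, X.W t →ₗ[k] Y.V t) × (∀ t, X.V t →ₗ[k] Y.W t) × (∀ t, X.V t →ₗ[k] Y.V t)

namespace Cp

instance (X Y : Gob G k) : AddCommGroup (Cp X Y) := by unfold Cp; infer_instance
instance (X Y : Gob G k) : Module k (Cp X Y) := by unfold Cp; infer_instance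
instance (X Y : Gob G k) : FiniteDimensional k (Cp X Y) := by unfold Cp; infer_instance

variable {X Y : Gob G k}

def mk (f0 : ∀ t, X.V t →ₗ[k] Y.V t) (f1 : ∀ s t, G.E s t → (X.V s →ₗ[k] Y.V t))
    (fi : ∀ t, X.W t →ₗ[k] Y.V t) (fj : ∀ t, X.V t →ₗ[k] Y.W t)
    (f2 : ∀ t, X.V t →ₗ[k] Y.V t) : Cp X Y := (f0, f1, fi, fj, f2)

def f0 (f : Cp X Y) (t : T) : X.V t →ₗ[k] Y.V t := f.1 t
def f1 (f : Cp X Y) {s t : T} (a : G.E s t) : X.V s →ₗ[k] Y.V t := f.2.1 s t a
def fi (f : Cp X Y) (t : T) : X.W t →ₗ[k] Y.V t := f.2.2.1 t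
def fj (f : Cp X Y) (t : T) : X.V t →ₗ[k] Y.W t := f.2.2.2.1 t
def f2 (f : Cp X Y) (t : T) : X.V t →ₗ[k] Y.V t := f.2.2.2.2 t

section mkl
variable (g0 : ∀ t, X.V t →ₗ[k] Y.V t) (g1 : ∀ s t, G.E s t → (X.V s →ₗ[k] Y.V t))
    (gi : ∀ t, X.W t →ₗ[k] Y.V t) (gj : ∀ t, X.V t →ₗ[k] Y.W t)
    (g2 : ∀ t, X.V t →ₗ[k] Y.V t)
@[simp] theorem f0_mk (t : T) : f0 (mk g0 g1 gi gj g2) t = g0 t := rfl
@[simp] theorem f1_mk {s t : T} (a : G.E s t) : f1 (mk g0 g1 gi gj g2) a = g1 s t a := rfl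
@[simp] theorem fi_mk (t : T) : fi (mk g0 g1 gi gj g2) t = gi t := rfl
@[simp] theorem fj_mk (t : T) : fj (mk g0 g1 gi gj g2) t = gj t := rfl
@[simp] theorem f2_mk (t : T) : f2 (mk g0 g1 gi gj g2) t = g2 t := rfl
end mkl

section addl
variable (f g : Cp X Y) (c : k)
@[simp] theorem f0_add (t : T) : f0 (f + g) t = f0 f t + f0 g t := rfl
@[simp] theorem f1_add {s t : T} (a : G.E s t) : f1 (f + g) a = f1 f a + f1 g a := rfl
@[simp] theorem fi_add (t : T) : fi (f + g) t = fi f t + fi g t := rfl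
@[simp] theorem fj_add (t : T) : fj (f + g) t = fj f t + fj g t := rfl
@[simp] theorem f2_add (t : T) : f2 (f + g) t = f2 f t + f2 g t := rfl
@[simp] theorem f0_smul (t : T) : f0 (c • f) t = c • f0 f t := rfl
@[simp] theorem f1_smul {s t : T} (a : G.E s t) : f1 (c • f) a = c • f1 f a := rfl
@[simp] theorem fi_smul (t : T) : fi (c • f) t = c • fi f t := rfl
@[simp] theorem fj_smul (t : T) : fj (c • f) t = c • fj f t := rfl
@[simp] theorem f2_smul (t : T) : f2 (c • f) t = c • f2 f t := rfl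
@[simp] theorem f0_zero (t : T) : f0 (0 : Cp X Y) t = 0 := rfl
@[simp] theorem f1_zero {s t : T} (a : G.E s t) : f1 (0 : Cp X Y) a = 0 := rfl
@[simp] theorem fi_zero (t : T) : fi (0 : Cp X Y) t = 0 := rfl
@[simp] theorem fj_zero (t : T) : fj (0 : Cp X Y) t = 0 := rfl
@[simp] theorem f2_zero (t : T) : f2 (0 : Cp X Y) t = 0 := rfl
end addl

theorem ext' {f g : Cp X Y} (h0 : ∀ t, f0 f t = f0 g t)
    (h1 : ∀ (s t : T) (a : G.E s t), f1 f a = f1 g a) (hi : ∀ t, fi f t = fi g t)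
    (hj : ∀ t, fj f t = fj g t) (h2 : ∀ t, f2 f t = f2 g t) : f = g := by
  obtain ⟨f0, f1, fi, fj, f2⟩ := f
  obtain ⟨g0, g1, gi, gj, g2⟩ := g
  have e0 : f0 = g0 := funext h0
  have e1 : f1 = g1 := funext fun s => funext fun t => funext fun a => h1 s t a
  have ei : fi = gi := funext hi
  have ej : fj = gj := funext hj
  have e2 : f2 = g2 := funext h2
  subst e0 e1 ei ej e2
  rfl

/-- an element of `Cp X Y` as a morphism -/
def toHom (f : Cp X Y) : X ⟶ Y :=
  mkH (f0 f) (fun _ => 0) (fun _ _ a => f1 f a) (fi f) (fj f) (f2 f)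

section toHoml
variable (f : Cp X Y)
@[simp] theorem c0_toHom (t : T) : c0 (toHom f) t = f0 f t := rfl
@[simp] theorem cW_toHom (t : T) : cW (toHom f) t = 0 := rfl
@[simp] theorem c1_toHom {s t : T} (a : G.E s t) : c1 (toHom f) a = f1 f a := rfl
@[simp] theorem ci_toHom (t : T) : ci (toHom f) t = fi f t := rfl
@[simp] theorem cj_toHom (t : T) : cj (toHom f) t = fj f t := rfl
@[simp] theorem c2_toHom (t : T) : c2 (toHom f) t = f2 f t := rfl
end toHoml

/-- `Cp X Y` is the space `Cs X Y` -/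
def equivCs (X Y : Gob G k) : Cp X Y ≃ₗ[k] Cs X Y where
  toFun f := ⟨toHom f, fun _ => rfl⟩
  invFun f := mk (c0 f.1) (fun _ _ a => c1 f.1 a) (ci f.1) (cj f.1) (c2 f.1)
  map_add' f g := by
    apply Subtype.ext
    apply hm_ext <;> intros <;> simp
  map_smul' c f := by
    apply Subtype.ext
    apply hm_ext <;> intros <;> simp
  left_inv f := rfl
  right_inv f := by
    apply Subtype.ext
    apply hm_ext
    · intro t; rfl
    · intro t; exact (f.2 t).symm
    · intro s t a; rfl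
    · intro t; rfl
    · intro t; rfl
    · intro t; rfl

end Cp

/-- the differential of `Cp X Y` for minimal objects (component formulas: `f0_FD` .. `f2_FD`) -/
def FD (X Y : FObj G k) : Cp X.X Y.X →ₗ[k] Cp X.X Y.X :=
  (Cp.equivCs X.X Y.X).symm.toLinearMap ∘ₗ DC X.toTOb Y.toTOb ∘ₗ
    (Cp.equivCs X.X Y.X).toLinearMap

theorem equivCs_FD (X Y : FObj G k) (f : Cp X.X Y.X) :
    Cp.equivCs X.X Y.X (FD X Y f) = DC X.toTOb Y.toTOb (Cp.equivCs X.X Y.X f) :=
  (Cp.equivCs X.X Y.X).apply_symm_apply _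

section FDl
variable (X Y : FObj G k) (f : Cp X.X Y.X)

@[simp] theorem f0_FD (t : T) : Cp.f0 (FD X Y f) t = 0 := by
  change c0 (Cp.toHom f ≫ Y.dm - X.dm ≫ bar (Cp.toHom f)) t = 0
  simp

@[simp] theorem f1_FD {s t : T} (a : G.E s t) : Cp.f1 (FD X Y f) a =
    Y.B a ∘ₗ Cp.f0 f s - (Y.X.gV t ∘ₗ Cp.f0 f t ∘ₗ X.X.gV t) ∘ₗ X.B a := by
  change c1 (Cp.toHom f ≫ Y.dm - X.dm ≫ bar (Cp.toHom f)) a = _
  simp

@[simp] theorem fi_FD (t : T) : Cp.fi (FD X Y f) t =
    -((Y.X.gV t ∘ₗ Cp.f0 f t ∘ₗ X.X.gV t) ∘ₗ X.i t) := by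
  change ci (Cp.toHom f ≫ Y.dm - X.dm ≫ bar (Cp.toHom f)) t = _
  simp

@[simp] theorem fj_FD (t : T) : Cp.fj (FD X Y f) t = Y.j t ∘ₗ Cp.f0 f t := by
  change cj (Cp.toHom f ≫ Y.dm - X.dm ≫ bar (Cp.toHom f)) t = _
  simp

@[simp] theorem f2_FD (t : T) : Cp.f2 (FD X Y f) t =
    Y.e t ∘ₗ Cp.f0 f t - (Y.X.gV t ∘ₗ Cp.f0 f t ∘ₗ X.X.gV t) ∘ₗ X.e t
      + (∑ s, ∑ a : G.E t s, Y.B (G.rev a) ∘ₗ Cp.f1 f a)
      - (∑ s, ∑ a : G.E t s, (Y.X.gV t ∘ₗ Cp.f1 f (G.rev a) ∘ₗ X.X.gV s) ∘ₗ X.B a)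
      + Y.i t ∘ₗ Cp.fj f t - (Y.X.gV t ∘ₗ Cp.fi f t ∘ₗ X.X.gW t) ∘ₗ X.j t := by
  change c2 (Cp.toHom f ≫ Y.dm - X.dm ≫ bar (Cp.toHom f)) t = _
  simp only [c2_sub, c2_comp, FObj.c0_dm, FObj.c1_dm, FObj.ci_dm, FObj.cj_dm, FObj.c2_dm,
    Cp.c0_toHom, Cp.c1_toHom, Cp.ci_toHom, Cp.cj_toHom, Cp.c2_toHom, c0_bar, c1_bar, ci_bar,
    cj_bar, c2_bar, LinearMap.zero_comp, LinearMap.comp_zero, add_zero, zero_add]
  abel

theorem FD_FD : FD X Y (FD X Y f) = 0 := by
  apply (Cp.equivCs X.X Y.X).injective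
  rw [equivCs_FD, equivCs_FD, DC_DC, map_zero]

end FDl

/-- the homology dimension is invariant under isomorphism -/
theorem hd_congr {K K' : Type*} [AddCommGroup K] [Module k K] [AddCommGroup K'] [Module k K']
    (D : K →ₗ[k] K) (D' : K' →ₗ[k] K') (φ : K ≃ₗ[k] K') (h : ∀ x, φ (D x) = D' (φ x)) :
    hd D = hd D' := by
  have hk : LinearMap.ker D' = (LinearMap.ker D).map φ.toLinearMap := by
    ext y
    simp only [LinearMap.mem_ker, Submodule.mem_map, LinearEquiv.coe_coe]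
    constructor
    · intro hy
      refine ⟨φ.symm y, ?_, by simp⟩
      apply φ.injective
      rw [h]; simpa using hy
    · rintro ⟨x, hx, rfl⟩
      rw [← h, hx, map_zero]
  have hr : LinearMap.range D' = (LinearMap.range D).map φ.toLinearMap := by
    ext y
    simp only [LinearMap.mem_range, Submodule.mem_map, LinearEquiv.coe_coe]
    constructor
    · rintro ⟨x, rfl⟩
      exact ⟨D (φ.symm x), ⟨_, rfl⟩, by rw [h]; simp⟩
    · rintro ⟨_, ⟨x, rfl⟩, rfl⟩
      exact ⟨φ x, (h x).symm⟩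
  rw [hd, hd, hk, hr, LinearEquiv.finrank_map_eq, LinearEquiv.finrank_map_eq]

theorem hT_eq_FD (X Y : FObj G k) : hT X.toTOb Y.toTOb = hd (FD X Y) :=
  (hd_congr (FD X Y) (DC X.toTOb Y.toTOb) (Cp.equivCs X.X Y.X) (equivCs_FD X Y)).symm

end minimal

end Crest.Agent.R175.PTA
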