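import Mathlib
import Crest.Agent.R175.PTA_534

/-!
# Restriction of a minimal object along an injection of vertex sets `ι : T' → T`

`comap G ι hι` : the graph `E a b := G.E (ι a) (ι b)`.
`resG ι hι X`, `resF ι hι X` : `V u` for `u ∉ range ι` becomes a frame at every neighbour (one copy
per edge): `W t := X.W (ι t) × (∀ (u : {u // u ∉ Set.range ι}) (_ : G.E u.1 (ι t)), X.V u)`.
-/

set_option autoImplicit false
set_option linter.unusedSectionVars false
set_option linter.unusedVariables false

open CategoryTheory Module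

namespace Crest.Agent.R175.ResI_663

open Crest.Agent.R175.PTA

universe v

variable {T T' : Type} {k : Type v} [Field k]

/-- the graph pulled back along `ι` -/
def comap (G : MG T) (ι : T' → T) : MG T' where
  E s t := G.E (ι s) (ι t)
  fin s t := G.fin (ι s) (ι t)
  rev a := G.rev a
  rev_rev a := G.rev_rev a
  irr t := G.irr (ι t)

variable {G : MG T}

theorem gVV (X : Gob G k) (t : T) (x : X.V t) : X.gV t (X.gV t x) = x :=
  LinearMap.congr_fun (X.gV_sq t) x

theorem gWW (X : Gob G k) (t : T) (x : X.W t) : X.gW t (X.gW t x) = x :=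
  LinearMap.congr_fun (X.gW_sq t) x

variable [Fintype T]

/-- the vertices outside the image -/
abbrev Out (ι : T' → T) : Type := {u : T // u ∉ Set.range ι}

noncomputable instance fintypeOut (ι : T' → T) : Fintype (Out ι) := by
  classical
  exact Subtype.fintype _

/-- the new frames at `t`: one copy of `V u` per edge `u → t` -/
abbrev NW (ι : T' → T) (X : Gob G k) (t : T) : Type v :=
  ∀ (u : Out ι) (_ : G.E u.1 t), X.V u.1

/-- the parity of the new frames -/
def newG (ι : T' → T) (X : Gob G k) (t : T) : NW ι X t →ₗ[k] NW ι X t :=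
  LinearMap.pi fun u => LinearMap.pi fun a => X.gV u.1 ∘ₗ LinearMap.proj a ∘ₗ LinearMap.proj u

/-- restriction of a graded object -/
def resG (ι : T' → T) (X : Gob G k) : Gob (comap G ι) k where
  V t := X.V (ι t)
  W t := X.W (ι t) × NW ι X (ι t)
  gV t := X.gV (ι t)
  gW t := LinearMap.prodMap (X.gW (ι t)) (newG ι X (ι t))
  gV_sq t := X.gV_sq (ι t)
  gW_sq t := by
    refine LinearMap.ext fun x => ?_
    refine Prod.ext ?_ ?_
    · exact gWW X (ι t) x.1
    · funext u a
      exact gVV X u.1 (x.2 u a)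

/-- the new frame map `V_u → V_t` -/
noncomputable def newI (ι : T' → T) (X : FObj G k) (t : T) : NW ι X.X t →ₗ[k] X.X.V t :=
  ∑ u : Out ι, ∑ a : G.E u.1 t, X.B a ∘ₗ LinearMap.proj a ∘ₗ LinearMap.proj u

/-- the new coframe map -/
def newJ (ι : T' → T) (X : FObj G k) (t : T) : X.X.V t →ₗ[k] NW ι X.X t :=
  LinearMap.pi fun _ => LinearMap.pi fun a => X.B (G.rev a)

variable {ι : T' → T}

theorem newG_apply (X : Gob G k) (t : T) (x : NW ι X t) (u : Out ι) (a : G.E u.1 t) :
    newG ι X t x u a = X.gV u.1 (x u a) := rfl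

theorem newI_apply (X : FObj G k) (t : T) (x : NW ι X.X t) :
    newI ι X t x = ∑ u : Out ι, ∑ a : G.E u.1 t, X.B a (x u a) := by
  simp [newI]

theorem newJ_apply (X : FObj G k) (t : T) (x : X.X.V t) (u : Out ι) (a : G.E u.1 t) :
    newJ ι X t x u a = X.B (G.rev a) x := rfl

/-- reversing the edges -/
def revE (G : MG T) (s t : T) : G.E s t ≃ G.E t s where
  toFun a := G.rev a
  invFun a := G.rev a
  left_inv a := G.rev_rev a
  right_inv a := G.rev_rev a

/-- sums over `T` split along `ι` -/
theorem sum_split [Fintype T'] (hι : Function.Injective ι) {M : Type*} [AddCommMonoid M]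
    (F : T → M) : ∑ t, F t = ∑ t : T', F (ι t) + ∑ u : Out ι, F u.1 := by
  classical
  have h1 : ∑ t : T', F (ι t) = ∑ t : {t : T // t ∈ Set.range ι}, F t.1 :=
    Fintype.sum_equiv (Equiv.ofInjective ι hι) _ _ fun t => rfl
  rw [h1]
  convert (Fintype.sum_subtype_add_sum_subtype (fun t => t ∈ Set.range ι) F).symm

theorem gB_app (X : FObj G k) {s t : T} (a : G.E s t) (x : X.X.V s) :
    X.X.gV t (X.B a x) = -(X.B a (X.X.gV s x)) := LinearMap.congr_fun (X.gB a) x

theorem mc_res [Fintype T'] (hι : Function.Injective ι) (X : FObj G k) (t : T) :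
    (∑ s : T', ∑ a : G.E t (ι s), X.B (G.rev a) ∘ₗ X.B a) +
      (LinearMap.coprod (X.i t) (newI ι X t)) ∘ₗ (LinearMap.prod (X.j t) (newJ ι X t)) = 0 := by
  have h := X.mc t
  rw [sum_split hι] at h
  refine LinearMap.ext fun x => ?_
  have h' := LinearMap.congr_fun h x
  have h2 : newI ι X t (newJ ι X t x) =
      (∑ u : Out ι, ∑ a : G.E t u.1, X.B (G.rev a) ∘ₗ X.B a) x := by
    rw [newI_apply, LinearMap.sum_apply]
    refine Finset.sum_congr rfl fun u _ => ?_
    rw [LinearMap.sum_apply]
    refine (Fintype.sum_equiv (revE G t u.1) _ _ fun a => ?_).symm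
    rw [newJ_apply]
    simp [revE]
  simp only [LinearMap.add_apply, LinearMap.zero_apply, LinearMap.comp_apply,
    LinearMap.coprod_apply, LinearMap.prod_apply, Function.prod] at h' ⊢
  rw [h2, ← h']
  abel

theorem gi_res (X : FObj G k) (t : T) :
    X.X.gV t ∘ₗ LinearMap.coprod (X.i t) (newI ι X t) =
      -(LinearMap.coprod (X.i t) (newI ι X t) ∘ₗ LinearMap.prodMap (X.X.gW t) (newG ι X.X t)) := by
  refine LinearMap.ext fun x => ?_
  have h := LinearMap.congr_fun (X.gi t) x.1
  simp only [LinearMap.comp_apply, LinearMap.neg_apply, LinearMap.coprod_apply,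
    LinearMap.prodMap_apply, map_add, newI_apply, map_sum, newG_apply, gB_app,
    Finset.sum_neg_distrib] at h ⊢
  rw [h]
  abel

theorem gj_res (X : FObj G k) (t : T) :
    LinearMap.prodMap (X.X.gW t) (newG ι X.X t) ∘ₗ LinearMap.prod (X.j t) (newJ ι X t) =
      -(LinearMap.prod (X.j t) (newJ ι X t) ∘ₗ X.X.gV t) := by
  refine LinearMap.ext fun x => Prod.ext ?_ ?_
  · exact LinearMap.congr_fun (X.gj t) x
  · funext u a
    exact gB_app X (G.rev a) x

/-- restriction of a minimal object -/
noncomputable def resF [Fintype T'] (hι : Function.Injective ι) (X : FObj G k) :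
    FObj (comap G ι) k where
  X := resG ι X.X
  B {s t} a := X.B (s := ι s) (t := ι t) a
  i t := LinearMap.coprod (X.i (ι t)) (newI ι X (ι t))
  j t := LinearMap.prod (X.j (ι t)) (newJ ι X (ι t))
  e t := X.e (ι t)
  mc t := mc_res hι X (ι t)
  gB a := X.gB _
  gi t := gi_res X (ι t)
  gj t := gj_res X (ι t)
  ge t := X.ge (ι t)

@[simp] theorem V_resF [Fintype T'] (hι : Function.Injective ι) (X : FObj G k) (t : T') :
    (resF hι X).X.V t = X.X.V (ι t) := rfl

theorem finrank_NW (X : Gob G k) (t : T) :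
    finrank k (NW ι X t) = ∑ u : Out ι, Fintype.card (G.E u.1 t) * finrank k (X.V u.1) := by
  rw [Module.finrank_pi_fintype]
  refine Finset.sum_congr rfl fun u _ => ?_
  rw [Module.finrank_pi_fintype]
  simp

/-- the number of frames of the restriction -/
theorem lam_resF [Fintype T'] (hι : Function.Injective ι) (X : FObj G k) (t : T') :
    lam (resF hι X).toTOb t = lam X.toTOb (ι t) +
      ∑ u : Out ι, Fintype.card (G.E u.1 (ι t)) * finrank k (X.X.V u.1) := by
  rw [← finrank_NW X.X (ι t)]
  exact Module.finrank_prod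

end Crest.Agent.R175.ResI_663
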