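import Crest.Agent.R175.Lcm_109

/-!
Row 175 (S0263), labels > 3 (helper109), part 2: folding.

* `alt_mul_mul`, `alt_list` : alternating products of commuting blocks;
* `block`  : two sequences `X i`, `Y i` (`i < n`), all relations of two disjoint paths of type `A_n`
             with alternating letters `X, Y`: the relation of length `n + 1` for the products;
* `fold_path` : two commuting families indexed by `I ≃ Fin n × J`;
* `fold_three`, `fold_two` : labels `3` and `2`;
* `foldHom` : the homomorphism out of the Artin group.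
-/

set_option autoImplicit false

namespace Crest.Agent.R175.Lcm_109

open Crest.Agent.R175.Semi_663 Crest.GroupTheory

variable {G : Type*} [Monoid G]

/-! ### alternating products of commuting blocks -/

theorem commute_alt {c a b : G} (ha : Commute c a) (hb : Commute c b) (m : ℕ) :
    Commute c (alt a b m) := by
  induction m generalizing a b with
  | zero => exact Commute.one_right c
  | succ m ih => exact ha.mul_right (ih hb ha)

theorem alt_mul_mul {a a' b b' : G} (h1 : Commute a' a) (h2 : Commute a' b) (h3 : Commute b' a)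
    (h4 : Commute b' b) (m : ℕ) : alt (a * a') (b * b') m = alt a b m * alt a' b' m := by
  induction m generalizing a a' b b' with
  | zero => simp [alt]
  | succ m ih =>
    show a * a' * alt (b * b') (a * a') m = a * alt b a m * (a' * alt b' a' m)
    rw [ih h4 h3 h2 h1]
    have := (commute_alt h2 h1 m).eq
    calc a * a' * (alt b a m * alt b' a' m) = a * (a' * alt b a m) * alt b' a' m := by
          simp only [mul_assoc]
      _ = a * alt b a m * (a' * alt b' a' m) := by rw [this]; simp only [mul_assoc]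

theorem alt_one (m : ℕ) : alt (1 : G) 1 m = 1 := by
  induction m with
  | zero => rfl
  | succ m ih => show 1 * alt (1 : G) 1 m = 1; rw [ih, one_mul]

theorem commute_list_prod {J : Type*} {c : G} {a : J → G} : ∀ l : List J,
    (∀ j ∈ l, Commute c (a j)) → Commute c (l.map a).prod
  | [], _ => Commute.one_right c
  | j :: l, h => by
    rw [List.map_cons, List.prod_cons]
    exact (h j (by simp)).mul_right (commute_list_prod l fun i hi => h i (by simp [hi]))

/-- blocks. -/
theorem alt_list {J : Type*} (a b : J → G) (m : ℕ) : ∀ l : List J, l.Nodup →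
    (∀ i ∈ l, ∀ j ∈ l, i ≠ j → Commute (a i) (a j) ∧ Commute (a i) (b j) ∧ Commute (b i) (b j)) →
    alt (l.map a).prod (l.map b).prod m = (l.map fun j => alt (a j) (b j) m).prod
  | [], _, _ => alt_one m
  | j :: l, hl, h => by
    rw [List.nodup_cons] at hl
    have hne : ∀ i ∈ l, i ≠ j := fun i hi e => hl.1 (e ▸ hi)
    have c1 : Commute (a j) (l.map a).prod := commute_list_prod l fun i hi =>
      (h j (by simp) i (by simp [hi]) (hne i hi).symm).1
    have c2 : Commute (a j) (l.map b).prod := commute_list_prod l fun i hi =>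
      (h j (by simp) i (by simp [hi]) (hne i hi).symm).2.1
    have c3 : Commute (b j) (l.map a).prod := commute_list_prod l fun i hi =>
      (h i (by simp [hi]) j (by simp) (hne i hi)).2.1.symm
    have c4 : Commute (b j) (l.map b).prod := commute_list_prod l fun i hi =>
      (h j (by simp) i (by simp [hi]) (hne i hi).symm).2.2
    rw [List.map_cons, List.prod_cons, List.map_cons, List.prod_cons, List.map_cons,
      List.prod_cons, alt_mul_mul c1.symm c3.symm c2.symm c4.symm,
      alt_list a b m l hl.2 fun i hi k hk hik => h i (by simp [hi]) k (by simp [hk]) hik]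

/-! ### one block -/

theorem L_mul {a k : ℕ} {f f' : ℕ → G}
    (h : ∀ i j, a ≤ i → i < a + k → a ≤ j → j < a + k → Commute (f' i) (f j)) :
    L a k (fun i => f i * f' i) = L a k f * L a k f' := by
  induction k generalizing a with
  | zero => simp
  | succ k ih =>
    have c : Commute (f' a) (L (a + 1) k f) :=
      L_commute fun j h1 h2 => h a j le_rfl (by omega) (by omega) (by omega)
    rw [L_succ, L_succ, L_succ, ih fun i j h1 h2 h3 h4 => h i j (by omega) (by omega) (by omega)
      (by omega)]
    calc f a * f' a * (L (a + 1) k f * L (a + 1) k f')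
        = f a * (f' a * L (a + 1) k f) * L (a + 1) k f' := by simp only [mul_assoc]
      _ = f a * L (a + 1) k f * (f' a * L (a + 1) k f') := by rw [c.eq]; simp only [mul_assoc]

/-- the relations between two sequences of commuting elements. -/
structure Blk (n : ℕ) (X Y : ℕ → G) : Prop where
  xx : ∀ i j, i < n → j < n → Commute (X i) (X j)
  yy : ∀ i j, i < n → j < n → Commute (Y i) (Y j)
  xy : ∀ i j, i < n → j < n → i + 1 ≠ j → j + 1 ≠ i → Commute (X i) (Y j)
  b1 : ∀ i, i + 1 < n → X i * Y (i + 1) * X i = Y (i + 1) * X i * Y (i + 1)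
  b2 : ∀ i, i + 1 < n → Y i * X (i + 1) * Y i = X (i + 1) * Y i * X (i + 1)

/-- `X` at even, `Y` at odd places. -/
def gp (X Y : ℕ → G) (i : ℕ) : G := if i % 2 = 0 then X i else Y i

theorem gp_even {X Y : ℕ → G} {i : ℕ} (h : i % 2 = 0) : gp X Y i = X i := if_pos h
theorem gp_odd {X Y : ℕ → G} {i : ℕ} (h : i % 2 ≠ 0) : gp X Y i = Y i := if_neg h

theorem Blk.symm {n : ℕ} {X Y : ℕ → G} (h : Blk n X Y) : Blk n Y X where
  xx := h.yy
  yy := h.xx
  xy := fun i j hi hj h1 h2 => (h.xy j i hj hi h2 h1).symm
  b1 := h.b2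
  b2 := h.b1

theorem Blk.rel {n : ℕ} {X Y : ℕ → G} (h : Blk n X Y) : Rel n (gp X Y) where
  comm := fun i j h1 h2 => by
    unfold gp
    split_ifs
    · exact h.xx i j (by omega) h2
    · exact h.xy i j (by omega) h2 (by omega) (by omega)
    · exact (h.xy j i h2 (by omega) (by omega) (by omega)).symm
    · exact h.yy i j (by omega) h2
  braid := fun i hi => by
    by_cases hp : i % 2 = 0
    · rw [gp_even hp, gp_odd (by omega : (i + 1) % 2 ≠ 0)]
      exact h.b1 i hi
    · rw [gp_odd hp, gp_even (by omega : (i + 1) % 2 = 0)]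
      exact h.b2 i hi

/-- the two paths commute. -/
theorem Blk.cross {n : ℕ} {X Y : ℕ → G} (h : Blk n X Y) (q q' i j : ℕ) (hi : i < n) (hj : j < n) :
    Commute (e (gp X Y) q i) (e (gp Y X) q' j) := by
  unfold e
  split_ifs
  · unfold gp
    split_ifs
    · exact h.xy i j hi hj (by omega) (by omega)
    · exact h.xx i j hi hj
    · exact h.yy i j hi hj
    · exact (h.xy j i hj hi (by omega) (by omega)).symm
  · exact Commute.one_right _
  · exact Commute.one_left _
  · exact Commute.one_left _

theorem Blk.crossL {n : ℕ} {X Y : ℕ → G} (h : Blk n X Y) (q q' : ℕ) :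
    Commute (L 0 n (e (gp X Y) q)) (L 0 n (e (gp Y X) q')) :=
  L_commute' fun i j _ h1 _ h2 => h.cross q q' i j (by omega) (by omega)

theorem Blk.prodX {n : ℕ} {X Y : ℕ → G} (h : Blk n X Y) :
    L 0 n X = L 0 n (e (gp X Y) 0) * L 0 n (e (gp Y X) 1) := by
  rw [← L_mul fun i j _ h1 _ h2 => (h.cross 0 1 j i (by omega) (by omega)).symm]
  refine L_congr fun i _ _ => ?_
  by_cases hp : i % 2 = 0
  · rw [e_pos (by omega), e_neg (by omega), gp_even hp, mul_one]
  · rw [e_neg (by omega), e_pos (by omega), gp_odd hp, one_mul]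

theorem Blk.prodY {n : ℕ} {X Y : ℕ → G} (h : Blk n X Y) :
    L 0 n Y = L 0 n (e (gp X Y) 1) * L 0 n (e (gp Y X) 0) := by
  rw [h.symm.prodX, (h.symm.crossL 0 1).eq]

/-- **one block.** -/
theorem block {n : ℕ} {X Y : ℕ → G} (h : Blk n X Y) :
    alt (L 0 n X) (L 0 n Y) (n + 1) = alt (L 0 n Y) (L 0 n X) (n + 1) := by
  have h1 := braid_path h.rel
  have h2 := braid_path h.symm.rel
  rw [h.prodX, h.prodY,
    alt_mul_mul (h.crossL 0 1).symm (h.crossL 1 1).symm (h.crossL 0 0).symm (h.crossL 1 0).symm,
    alt_mul_mul (h.crossL 1 0).symm (h.crossL 0 0).symm (h.crossL 1 1).symm (h.crossL 0 1).symm,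
    h1, h2]

/-! ### families -/

theorem ofFn_prod {n : ℕ} (f : ℕ → G) : (List.ofFn fun i : Fin n => f i).prod = L 0 n f := by
  induction n generalizing f with
  | zero => simp
  | succ n ih =>
    rw [List.ofFn_succ, List.prod_cons, L_succ]
    have h1 := ih fun i => f (i + 1)
    have h2 : L (0 + 1) n f = L 0 n (fun i => f (i + 1)) := L_shift 0 1 n f
    rw [h2, ← h1]
    rfl

theorem prod_flatMap_map {I J : Type*} (f : J → List I) (x : I → G) : ∀ l : List J,
    ((l.flatMap f).map x).prod = (l.map fun j => ((f j).map x).prod).prod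
  | [] => rfl
  | j :: l => by
    rw [List.flatMap_cons, List.map_append, List.prod_append, prod_flatMap_map f x l,
      List.map_cons, List.prod_cons]

section fold

variable {I J : Type*} [Fintype I] [Fintype J] {n : ℕ}

/-- the product of a commuting family. -/
noncomputable def cp (x : I → G) (hx : ∀ i i', Commute (x i) (x i')) : G :=
  Finset.univ.noncommProd x fun i _ i' _ _ => hx i i'

theorem cp_list [DecidableEq I] (x : I → G) (hx : ∀ i i', Commute (x i) (x i')) (l : List I)
    (hl : l.Nodup) (hu : ∀ i, i ∈ l) : cp x hx = (l.map x).prod := by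
  have h1 : (Finset.univ : Finset I) = l.toFinset := by
    ext i
    simp [hu i]
  unfold cp
  rw [← Finset.noncommProd_toFinset l x (fun i _ i' _ _ => hx i i') hl]
  exact Finset.noncommProd_congr h1 (fun _ _ => rfl) _

theorem cp_commute (x : I → G) (hx : ∀ i i', Commute (x i) (x i')) (c : G)
    (h : ∀ i, Commute c (x i)) : Commute c (cp x hx) :=
  Finset.noncommProd_commute _ _ _ _ fun i _ => h i

open Classical in
theorem cp_fold (ε : I ≃ Fin n × J) (x : I → G) (hx : ∀ i i', Commute (x i) (x i')) :
    cp x hx = ((Finset.univ : Finset J).toList.map fun j =>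
      L 0 n fun i => if h : i < n then x (ε.symm (⟨i, h⟩, j)) else 1).prod := by
  have h1 := cp_list x hx ((Finset.univ : Finset J).toList.flatMap fun j =>
    (List.finRange n).map fun a => ε.symm (a, j)) ?_ ?_
  · rw [h1, prod_flatMap_map]
    congr 1
    refine List.map_congr_left fun j _ => ?_
    rw [← ofFn_prod, List.ofFn_eq_map, List.map_map]
    congr 1
    refine List.map_congr_left fun a _ => ?_
    simp
  · rw [List.nodup_flatMap]
    refine ⟨fun j _ => (List.nodup_finRange n).map fun a b h => ?_, ?_⟩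
    · have := ε.symm.injective h
      exact (Prod.mk.inj this).1
    · refine (Finset.nodup_toList _).imp fun {j j'} hne => ?_
      rw [Function.onFun, List.disjoint_left]
      intro i hi hi'
      rw [List.mem_map] at hi hi'
      obtain ⟨a, -, rfl⟩ := hi
      obtain ⟨b, -, hb⟩ := hi'
      have := ε.symm.injective hb
      exact hne (Prod.mk.inj this).2.symm
  · intro i
    rw [List.mem_flatMap]
    refine ⟨(ε i).2, by simp, ?_⟩
    rw [List.mem_map]
    exact ⟨(ε i).1, by simp, by simp⟩

/-- adjacency in `Fin n × J`. -/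
def Adj (ε : I ≃ Fin n × J) (i i' : I) : Prop :=
  (ε i).2 = (ε i').2 ∧ ((ε i).1.val + 1 = (ε i').1.val ∨ (ε i').1.val + 1 = (ε i).1.val)

/-- **folding, label `n + 1`.** -/
theorem fold_path (ε : I ≃ Fin n × J) (x y : I → G) (hx : ∀ i i', Commute (x i) (x i'))
    (hy : ∀ i i', Commute (y i) (y i')) (hxy : ∀ i i', ¬ Adj ε i i' → Commute (x i) (y i'))
    (hbr : ∀ i i', Adj ε i i' → x i * y i' * x i = y i' * x i * y i') :
    alt (cp x hx) (cp y hy) (n + 1) = alt (cp y hy) (cp x hx) (n + 1) := by
  classical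
  rw [cp_fold ε x hx, cp_fold ε y hy]
  set X : J → ℕ → G := fun j i => if h : i < n then x (ε.symm (⟨i, h⟩, j)) else 1 with hX
  set Y : J → ℕ → G := fun j i => if h : i < n then y (ε.symm (⟨i, h⟩, j)) else 1 with hY
  have eX : ∀ j i (h : i < n), X j i = x (ε.symm (⟨i, h⟩, j)) := fun j i h => dif_pos h
  have eY : ∀ j i (h : i < n), Y j i = y (ε.symm (⟨i, h⟩, j)) := fun j i h => dif_pos h
  have hB : ∀ j, Blk n (X j) (Y j) := fun j =>
    { xx := fun i i' h h' => by rw [eX j i h, eX j i' h']; exact hx _ _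
      yy := fun i i' h h' => by rw [eY j i h, eY j i' h']; exact hy _ _
      xy := fun i i' h h' h1 h2 => by
        rw [eX j i h, eY j i' h']
        refine hxy _ _ fun hA => ?_
        rw [Adj, Equiv.apply_symm_apply, Equiv.apply_symm_apply] at hA
        rcases hA.2 with h3 | h3
        · exact h1 h3
        · exact h2 h3
      b1 := fun i h => by
        rw [eX j i (by omega), eY j (i + 1) h]
        refine hbr _ _ ?_
        rw [Adj, Equiv.apply_symm_apply, Equiv.apply_symm_apply]
        exact ⟨rfl, Or.inl rfl⟩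
      b2 := fun i h => by
        rw [eY j i (by omega), eX j (i + 1) h]
        refine (hbr _ _ ?_).symm
        rw [Adj, Equiv.apply_symm_apply, Equiv.apply_symm_apply]
        exact ⟨rfl, Or.inr rfl⟩ }
  have hl := Finset.nodup_toList (Finset.univ : Finset J)
  have hc : ∀ i ∈ (Finset.univ : Finset J).toList, ∀ j ∈ (Finset.univ : Finset J).toList, i ≠ j →
      Commute (L 0 n (X i)) (L 0 n (X j)) ∧ Commute (L 0 n (X i)) (L 0 n (Y j)) ∧
        Commute (L 0 n (Y i)) (L 0 n (Y j)) := by
    intro i _ j _ hij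
    refine ⟨L_commute' fun a b _ ha _ hb => ?_, L_commute' fun a b _ ha _ hb => ?_,
      L_commute' fun a b _ ha _ hb => ?_⟩
    · rw [eX i a (by omega), eX j b (by omega)]; exact hx _ _
    · rw [eX i a (by omega), eY j b (by omega)]
      refine hxy _ _ fun hA => ?_
      rw [Adj, Equiv.apply_symm_apply, Equiv.apply_symm_apply] at hA
      exact hij hA.1
    · rw [eY i a (by omega), eY j b (by omega)]; exact hy _ _
  have hc' : ∀ i ∈ (Finset.univ : Finset J).toList, ∀ j ∈ (Finset.univ : Finset J).toList, i ≠ j →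
      Commute (L 0 n (Y i)) (L 0 n (Y j)) ∧ Commute (L 0 n (Y i)) (L 0 n (X j)) ∧
        Commute (L 0 n (X i)) (L 0 n (X j)) := fun i hi j hj hij =>
    ⟨(hc i hi j hj hij).2.2, (hc j hj i hi hij.symm).2.1.symm, (hc i hi j hj hij).1⟩
  rw [alt_list (fun j => L 0 n (X j)) (fun j => L 0 n (Y j)) (n + 1) _ hl hc,
    alt_list (fun j => L 0 n (Y j)) (fun j => L 0 n (X j)) (n + 1) _ hl hc']
  congr 1
  exact List.map_congr_left fun j _ => block (hB j)

/-- **folding, label `3`** (`(s,i) ~ (t,i)`). -/
theorem fold_three (x y : I → G) (hx : ∀ i i', Commute (x i) (x i'))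
    (hy : ∀ i i', Commute (y i) (y i')) (hxy : ∀ i i', i ≠ i' → Commute (x i) (y i'))
    (hbr : ∀ i, x i * y i * x i = y i * x i * y i) :
    alt (cp x hx) (cp y hy) 3 = alt (cp y hy) (cp x hx) 3 := by
  classical
  have hl := Finset.nodup_toList (Finset.univ : Finset I)
  have hu : ∀ i, i ∈ (Finset.univ : Finset I).toList := fun i => by simp
  rw [cp_list x hx _ hl hu, cp_list y hy _ hl hu,
    alt_list x y 3 _ hl fun i _ j _ hij => ⟨hx i j, hxy i j hij, hy i j⟩,
    alt_list y x 3 _ hl fun i _ j _ hij => ⟨hy i j, (hxy j i hij.symm).symm, hx i j⟩]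
  congr 1
  refine List.map_congr_left fun j _ => ?_
  simpa [alt, mul_assoc] using hbr j

/-- **folding, label `2`**. -/
theorem fold_two (x y : I → G) (hx : ∀ i i', Commute (x i) (x i'))
    (hy : ∀ i i', Commute (y i) (y i')) (hxy : ∀ i i', Commute (x i) (y i')) :
    alt (cp x hx) (cp y hy) 2 = alt (cp y hy) (cp x hx) 2 := by
  have : Commute (cp x hx) (cp y hy) :=
    cp_commute y hy _ fun i => (cp_commute x hx _ fun i' => (hxy i' i).symm).symm
  simpa [alt] using this.eq

end fold

/-! ### the homomorphism -/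

section hom

variable {S : Type*} (M : CoxeterMatrix S) {I : Type*} [Fintype I] {L' : Type*} [Group L']

/-- the relations of the unfolded diagram. -/
structure Fold (σ : S → I → L') : Prop where
  self : ∀ s i i', Commute (σ s i) (σ s i')
  two : ∀ s t, M.M s t = 2 → ∀ i i', Commute (σ s i) (σ t i')
  path : ∀ s t, 3 ≤ M.M s t →
    (M.M s t = 3 ∧ (∀ i i', i ≠ i' → Commute (σ s i) (σ t i')) ∧
      ∀ i, σ s i * σ t i * σ s i = σ t i * σ s i * σ t i) ∨
    ∃ (J : Type) (_ : Fintype J) (ε : I ≃ Fin (M.M s t - 1) × J),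
      (∀ i i', ¬ Adj ε i i' → Commute (σ s i) (σ t i')) ∧
      ∀ i i', Adj ε i i' → σ s i * σ t i' * σ s i = σ t i' * σ s i * σ t i'

variable {M}

/-- `σ_s = ∏_i σ_{(s,i)}`. -/
noncomputable def Fold.sg {σ : S → I → L'} (h : Fold M σ) (s : S) : L' := cp (σ s) (h.self s)

theorem Fold.rel {σ : S → I → L'} (h : Fold M σ) (s t : S) :
    alt (h.sg s) (h.sg t) (M.M s t) = alt (h.sg t) (h.sg s) (M.M s t) := by
  by_cases hst : s = t
  · subst hst; rfl
  rcases Nat.lt_or_ge (M.M s t) 3 with h3 | h3
  · have h1 : M.M s t ≠ 1 := M.off_diagonal s t hst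
    have h02 : M.M s t = 0 ∨ M.M s t = 2 := by omega
    rcases h02 with h0 | h2
    · rw [h0]; rfl
    · rw [h2]
      exact fold_two _ _ _ _ (h.two s t h2)
  · rcases h.path s t h3 with ⟨e3, hc, hb⟩ | ⟨J, _, ε, hc, hb⟩
    · rw [e3]
      exact fold_three _ _ _ _ hc hb
    · have := fold_path ε (σ s) (σ t) (h.self s) (h.self t) hc hb
      have e1 : M.M s t - 1 + 1 = M.M s t := by omega
      rwa [e1] at this

/-- **the homomorphism `A_M → L'`, `s ↦ ∏_i σ_{(s,i)}`.** -/
noncomputable def Fold.hom {σ : S → I → L'} (h : Fold M σ) : ArtinGroup M →* L' :=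
  toHom M h.sg h.rel

@[simp] theorem Fold.hom_gen {σ : S → I → L'} (h : Fold M σ) (s : S) :
    h.hom (artinGen M s) = h.sg s :=
  toHom_gen M _ _ s

end hom

end Crest.Agent.R175.Lcm_109
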