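import Mathlib
import Crest.Agent.R175.Lcm2_109
import Crest.Agent.R175.Pos2_418

/-!
Row 175 (S0263), labels > 3 (helper109), part 3: the index set of the unfolding.

* `J Λ` : the product of the paths `A_{m-1}`, `m ∈ Λ` (`Λ` = the distinct finite labels `≥ 4`);
* `nb Λ n i j` : adjacency of `(s,i)` and `(t,j)` if `s, t` have label `n`; `mu` with multiplicity;
* `Unf.fold` : the relations of the unfolded generators give a `Fold`;
* `dd m i = sin ((i+1)π/m) / sin (π/m)`, `wt Λ i = ∏ dd`, `wt_pos`, `wt_sum` (eigenvector);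
* `nb_le` : `∑_{i ~ j} x_i y_j ≤ cos (π/n) (|x|² + |y|²)`;
* `unf_pd` : the unfolded Cartan form is positive definite if the real one is.
-/

set_option autoImplicit false

namespace Crest.Agent.R175.Unf_109

open Crest.Agent.R175.Lcm_109 Finset

/-- vertices of the unfolding over one vertex. -/
abbrev J (Λ : Finset ℕ) : Type := (m : Λ) → Fin (m.1 - 1)

/-- adjacency of the unfolding, label `n` (`0 = ∞`). -/
def nb (Λ : Finset ℕ) (n : ℕ) (i j : J Λ) : Prop :=
  (∃ h : n ∈ Λ, (∀ k, k ≠ ⟨n, h⟩ → i k = j k) ∧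
    ((i ⟨n, h⟩).val + 1 = (j ⟨n, h⟩).val ∨ (j ⟨n, h⟩).val + 1 = (i ⟨n, h⟩).val)) ∨
  (n ∉ Λ ∧ (n = 0 ∨ n = 3) ∧ i = j)

theorem nb.symm {Λ : Finset ℕ} {n : ℕ} {i j : J Λ} (h : nb Λ n i j) : nb Λ n j i := by
  rcases h with ⟨h, h1, h2⟩ | ⟨h1, h2, h3⟩
  · exact Or.inl ⟨h, fun k hk => (h1 k hk).symm, h2.symm⟩
  · exact Or.inr ⟨h1, h2, h3.symm⟩

theorem nb_comm {Λ : Finset ℕ} {n : ℕ} {i j : J Λ} : nb Λ n i j ↔ nb Λ n j i := ⟨nb.symm, nb.symm⟩

theorem nb_path {Λ : Finset ℕ} {n : ℕ} (h : n ∈ Λ) (i j : J Λ) :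
    nb Λ n i j ↔ (∀ k, k ≠ ⟨n, h⟩ → i k = j k) ∧
      ((i ⟨n, h⟩).val + 1 = (j ⟨n, h⟩).val ∨ (j ⟨n, h⟩).val + 1 = (i ⟨n, h⟩).val) := by
  constructor
  · rintro (⟨_, h1⟩ | ⟨h1, -⟩)
    · exact h1
    · exact absurd h h1
  · exact fun h1 => Or.inl ⟨h, h1⟩

theorem nb_three {Λ : Finset ℕ} (h : 3 ∉ Λ) (i j : J Λ) : nb Λ 3 i j ↔ i = j := by
  constructor
  · rintro (⟨h1, -⟩ | ⟨-, -, h1⟩)
    · exact absurd h1 h
    · exact h1
  · exact fun h1 => Or.inr ⟨h, Or.inr rfl, h1⟩

theorem nb_zero {Λ : Finset ℕ} (h : 0 ∉ Λ) (i j : J Λ) : nb Λ 0 i j ↔ i = j := by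
  constructor
  · rintro (⟨h1, -⟩ | ⟨-, -, h1⟩)
    · exact absurd h1 h
    · exact h1
  · exact fun h1 => Or.inr ⟨h, Or.inl rfl, h1⟩

theorem not_nb {Λ : Finset ℕ} {n : ℕ} (h : n ∉ Λ) (h0 : n ≠ 0) (h3 : n ≠ 3) (i j : J Λ) :
    ¬ nb Λ n i j := by
  rintro (⟨h1, -⟩ | ⟨-, h1, -⟩)
  · exact h h1
  · exact h1.elim h0 h3

/-- number of arrows. -/
noncomputable def mu (Λ : Finset ℕ) (n : ℕ) (i j : J Λ) : ℝ := by
  classical exact if nb Λ n i j then (if n = 0 then 2 else 1) else 0

theorem mu_comm (Λ : Finset ℕ) (n : ℕ) (i j : J Λ) : mu Λ n i j = mu Λ n j i := by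
  unfold mu
  by_cases h : nb Λ n i j
  · rw [if_pos h, if_pos h.symm]
  · rw [if_neg h, if_neg fun h' => h h'.symm]

theorem mu_nonneg (Λ : Finset ℕ) (n : ℕ) (i j : J Λ) : 0 ≤ mu Λ n i j := by
  unfold mu
  split_ifs <;> norm_num

/-! ### the relations -/

section fold

variable {S : Type*} {M : CoxeterMatrix S} {Λ : Finset ℕ} {G : Type*} [Group G]

/-- relations of the unfolded generators. -/
structure Unf (M : CoxeterMatrix S) (Λ : Finset ℕ) (σ : S → J Λ → G) : Prop where
  self : ∀ s i i', Commute (σ s i) (σ s i')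
  comm : ∀ s t, s ≠ t → M s t ≠ 0 → ∀ i j, ¬ nb Λ (M s t) i j → Commute (σ s i) (σ t j)
  braid : ∀ s t, s ≠ t → M s t ≠ 0 → ∀ i j, nb Λ (M s t) i j →
    σ s i * σ t j * σ s i = σ t j * σ s i * σ t j

/-- `Λ` contains the labels `≥ 4`, and nothing below `4`. -/
structure Good (M : CoxeterMatrix S) (Λ : Finset ℕ) : Prop where
  four : ∀ m ∈ Λ, 4 ≤ m
  mem : ∀ s t, 4 ≤ M s t → M s t ∈ Λ

theorem Good.not_mem (h : Good M Λ) {n : ℕ} (hn : n < 4) : n ∉ Λ := fun h1 => by
  have := h.four n h1; omega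

theorem Unf.fold {σ : S → J Λ → G} (hΛ : Good M Λ) (h : Unf M Λ σ) : Fold M σ where
  self := h.self
  two := fun s t e i i' => by
    have hst : s ≠ t := by rintro rfl; simp at e
    have e' : M s t = 2 := e
    refine h.comm s t hst (by omega) i i' ?_
    rw [e']
    exact not_nb (hΛ.not_mem (by norm_num)) (by norm_num) (by norm_num) i i'
  path := fun s t h3 => by
    have hst : s ≠ t := by
      rintro rfl
      simp at h3
    have h3' : 3 ≤ M s t := h3
    have h0 : M s t ≠ 0 := by omega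
    rcases Nat.eq_or_lt_of_le h3' with h4 | h4
    · refine Or.inl ⟨h4.symm, fun i i' hi => ?_, fun i => ?_⟩
      · refine h.comm s t hst h0 i i' ?_
        rw [← h4, nb_three (hΛ.not_mem (by norm_num))]
        exact hi
      · refine h.braid s t hst h0 i i ?_
        rw [← h4, nb_three (hΛ.not_mem (by norm_num))]
    · have hm : M s t ∈ Λ := hΛ.mem s t (by omega)
      refine Or.inr ⟨(k : {k : Λ // k ≠ ⟨M s t, hm⟩}) → Fin (k.1.1 - 1), inferInstance,
        Equiv.piSplitAt (⟨M s t, hm⟩ : Λ) (fun k : Λ => Fin (k.1 - 1)), ?_, ?_⟩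
      · intro i i' hA
        refine h.comm s t hst h0 i i' fun hn => hA ?_
        rw [nb_path hm] at hn
        refine ⟨?_, hn.2⟩
        funext k
        exact hn.1 k.1 k.2
      · intro i i' hA
        refine h.braid s t hst h0 i i' ?_
        rw [nb_path hm]
        refine ⟨fun k hk => ?_, hA.2⟩
        exact congrFun hA.1 ⟨k, hk⟩

end fold

/-! ### the labels of a finite Coxeter matrix -/

/-- the distinct finite labels `≥ 4`. -/
noncomputable def lab {S : Type*} [Finite S] (M : CoxeterMatrix S) : Finset ℕ :=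
  (Set.toFinite (Set.range fun p : S × S => M p.1 p.2)).toFinset.filter (4 ≤ ·)

theorem good_lab {S : Type*} [Finite S] (M : CoxeterMatrix S) : Good M (lab M) where
  four := fun m hm => (Finset.mem_filter.1 hm).2
  mem := fun s t h => Finset.mem_filter.2 ⟨by
    rw [Set.Finite.mem_toFinset]
    exact ⟨(s, t), rfl⟩, h⟩

/-! ### weights -/

/-- `sin ((i+1)π/m) / sin (π/m)`. -/
noncomputable def dd (m i : ℕ) : ℝ := Real.sin ((i + 1 : ℝ) * (Real.pi / m)) / Real.sin (Real.pi / m)

theorem sin_pos' {m i : ℕ} (h : i + 1 < m) : 0 < Real.sin ((i + 1 : ℝ) * (Real.pi / m)) := by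
  have hm : (0 : ℝ) < m := by exact_mod_cast (by omega : 0 < m)
  apply Real.sin_pos_of_pos_of_lt_pi
  · positivity
  · rw [← mul_div_assoc, div_lt_iff₀ hm, mul_comm]
    have : (i + 1 : ℝ) < m := by exact_mod_cast h
    exact mul_lt_mul_of_pos_left this Real.pi_pos

theorem dd_pos {m i : ℕ} (h : i + 1 < m) : 0 < dd m i := by
  have h1 : 0 < Real.sin (Real.pi / m) := by
    have := sin_pos' (m := m) (i := 0) (by omega)
    simpa using this
  exact div_pos (sin_pos' h) h1

theorem dd_zero {m : ℕ} (h : 2 ≤ m) : dd m 0 = 1 := by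
  have h1 : 0 < Real.sin (Real.pi / m) := by
    have := sin_pos' (m := m) (i := 0) (by omega)
    simpa using this
  unfold dd
  simp [h1.ne']

theorem dd_last {m : ℕ} (h : 2 ≤ m) : dd m (m - 1) = 0 := by
  unfold dd
  have hm : (m : ℝ) ≠ 0 := by exact_mod_cast (by omega : m ≠ 0)
  have : (((m - 1 : ℕ) : ℝ) + 1) * (Real.pi / m) = Real.pi := by
    rw [Nat.cast_sub (by omega)]
    field_simp
    ring
  rw [this]
  simp

/-- recursion. -/
theorem dd_rec (m i : ℕ) : dd m i + dd m (i + 2) = 2 * Real.cos (Real.pi / m) * dd m (i + 1) := by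
  unfold dd
  generalize Real.pi / (m : ℝ) = a
  rw [← add_div, ← mul_div_assoc]
  congr 1
  push_cast
  have e1 : ((i : ℝ) + 1) * a = (i + 1 + 1) * a - a := by ring
  have e2 : ((i : ℝ) + 2 + 1) * a = (i + 1 + 1) * a + a := by ring
  rw [e1, e2, Real.sin_sub, Real.sin_add]
  ring

theorem dd_rec_zero {m : ℕ} : dd m 1 = 2 * Real.cos (Real.pi / m) * dd m 0 := by
  unfold dd
  generalize Real.pi / (m : ℝ) = a
  rw [← mul_div_assoc]
  congr 1
  push_cast
  have e2 : ((1 : ℝ) + 1) * a = 2 * a := by ring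
  rw [e2, Real.sin_two_mul]
  simp
  ring

/-- one path: `∑_{a ~ k} d_a = 2 cos (π/m) d_k`. -/
theorem dd_sum {m k : ℕ} (hm : 2 ≤ m) (hk : k < m - 1) :
    ∑ a ∈ range (m - 1), (if a + 1 = k ∨ k + 1 = a then dd m a else 0)
      = 2 * Real.cos (Real.pi / m) * dd m k := by
  have hsplit : ∀ a, (if a + 1 = k ∨ k + 1 = a then dd m a else 0)
      = (if a + 1 = k then dd m a else 0) + (if k + 1 = a then dd m a else 0) := by
    intro a
    by_cases h1 : a + 1 = k
    · have : ¬ k + 1 = a := by omega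
      simp [h1, this]
    · simp [h1]
  rw [Finset.sum_congr rfl fun a _ => hsplit a, Finset.sum_add_distrib]
  have h2 : ∑ a ∈ range (m - 1), (if k + 1 = a then dd m a else 0) = dd m (k + 1) := by
    rw [Finset.sum_ite_eq]
    split_ifs with h
    · rfl
    · rw [Finset.mem_range] at h
      have : k + 1 = m - 1 := by omega
      rw [this, dd_last hm]
  rw [h2]
  rcases k with _ | k
  · rw [Finset.sum_eq_zero, zero_add]
    · exact dd_rec_zero
    · intro a _
      simp
  · have h1 : ∑ a ∈ range (m - 1), (if a + 1 = k + 1 then dd m a else 0) = dd m k := by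
      have : ∀ a, (if a + 1 = k + 1 then dd m a else 0) = if k = a then dd m a else 0 := by
        intro a
        by_cases h : a = k
        · simp [h]
        · rw [if_neg (by omega), if_neg (by omega)]
      rw [Finset.sum_congr rfl fun a _ => this a, Finset.sum_ite_eq, if_pos]
      rw [Finset.mem_range]; omega
    rw [h1]
    exact dd_rec m k

/-- Perron–Frobenius weights. -/
noncomputable def wt (Λ : Finset ℕ) (i : J Λ) : ℝ := ∏ m : Λ, dd m.1 (i m).val

theorem wt_pos (Λ : Finset ℕ) (i : J Λ) : 0 < wt Λ i :=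
  Finset.prod_pos fun m _ => dd_pos (by have := (i m).isLt; omega)

theorem wt_sum {Λ : Finset ℕ} (hΛ : ∀ m ∈ Λ, 4 ≤ m) {n : ℕ} (hn : n ∈ Λ ∨ n = 0 ∨ n = 2 ∨ n = 3)
    (i : J Λ) : ∑ j, mu Λ n i j * wt Λ j = 2 * Real.cos (Real.pi / n) * wt Λ i := by
  classical
  by_cases hm : n ∈ Λ
  · have hn4 := hΛ n hm
    set q : Λ := ⟨n, hm⟩ with hq
    have hmu : ∀ j : J Λ, mu Λ n i j = if nb Λ n i j then 1 else 0 := by
      intro j
      unfold mu
      split_ifs <;> first | rfl | omega
    rw [Finset.sum_congr rfl fun j _ => by rw [hmu j]]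
    rw [← (Equiv.piSplitAt q (fun k : Λ => Fin (k.1 - 1))).symm.sum_comp, Fintype.sum_prod_type]
    set r : (k : {k : Λ // k ≠ q}) → Fin (k.1.1 - 1) := fun k => i k.1 with hr
    have key : ∀ a : Fin (n - 1), ∑ b : ((k : {k : Λ // k ≠ q}) → Fin (k.1.1 - 1)),
        (if nb Λ n i ((Equiv.piSplitAt q (fun k : Λ => Fin (k.1 - 1))).symm (a, b)) then (1 : ℝ) else 0)
          * wt Λ ((Equiv.piSplitAt q (fun k : Λ => Fin (k.1 - 1))).symm (a, b))
        = (if a.val + 1 = (i q).val ∨ (i q).val + 1 = a.val then dd n a.val else 0)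
          * ∏ k : {k : Λ // k ≠ q}, dd k.1.1 (i k.1).val := by
      intro a
      rw [Finset.sum_eq_single r]
      · have e1 : wt Λ ((Equiv.piSplitAt q (fun k : Λ => Fin (k.1 - 1))).symm (a, r))
            = dd n a.val * ∏ k : {k : Λ // k ≠ q}, dd k.1.1 (i k.1).val := by
          unfold wt
          rw [Fintype.prod_eq_mul_prod_subtype_ne _ q]
          congr 1
          · simp [hq]
          · refine Finset.prod_congr rfl fun k _ => ?_
            rw [Equiv.piSplitAt_symm_apply, dif_neg k.2]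
        have e2 : nb Λ n i ((Equiv.piSplitAt q (fun k : Λ => Fin (k.1 - 1))).symm (a, r)) ↔
            (a.val + 1 = (i q).val ∨ (i q).val + 1 = a.val) := by
          rw [nb_path hm]
          constructor
          · rintro ⟨-, h⟩
            rw [Equiv.piSplitAt_symm_apply, dif_pos rfl] at h
            exact h.symm
          · intro h
            refine ⟨fun k hk => ?_, ?_⟩
            · rw [Equiv.piSplitAt_symm_apply, dif_neg hk]
            · rw [Equiv.piSplitAt_symm_apply, dif_pos rfl]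
              exact h.symm
        rw [e1]
        by_cases h : a.val + 1 = (i q).val ∨ (i q).val + 1 = a.val
        · rw [if_pos (e2.2 h), if_pos h, one_mul]
        · rw [if_neg (fun h' => h (e2.1 h')), if_neg h, zero_mul, zero_mul]
      · intro b _ hb
        rw [if_neg, zero_mul]
        intro h
        apply hb
        rw [nb_path hm] at h
        funext k
        have := h.1 k.1 k.2
        rw [Equiv.piSplitAt_symm_apply, dif_neg k.2] at this
        exact this.symm
      · intro h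
        exact absurd (Finset.mem_univ _) h
    rw [Finset.sum_congr rfl fun a _ => key a, ← Finset.sum_mul]
    have e3 := dd_sum (m := n) (k := (i q).val) (by omega) (i q).isLt
    rw [← Fin.sum_univ_eq_sum_range
      (fun a => if a + 1 = (i q).val ∨ (i q).val + 1 = a then dd n a else 0)] at e3
    rw [e3]
    unfold wt
    rw [Fintype.prod_eq_mul_prod_subtype_ne _ q]
    ring
  · rcases hn with h | h | h | h
    · exact absurd h hm
    · subst h
      have : ∀ j, mu Λ 0 i j = if i = j then 2 else 0 := by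
        intro j; unfold mu; simp only [nb_zero hm, if_true]
      rw [Finset.sum_congr rfl fun j _ => by rw [this j]]
      simp
    · subst h
      have : ∀ j, mu Λ 2 i j = 0 := by
        intro j; unfold mu; rw [if_neg (not_nb hm (by norm_num) (by norm_num) i j)]
      rw [Finset.sum_congr rfl fun j _ => by rw [this j]]
      simp
    · subst h
      have : ∀ j, mu Λ 3 i j = if i = j then 1 else 0 := by
        intro j; unfold mu; simp only [nb_three hm]; norm_num
      rw [Finset.sum_congr rfl fun j _ => by rw [this j]]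
      simp

/-- **norm of the adjacency matrix.** -/
theorem nb_le {Λ : Finset ℕ} (hΛ : ∀ m ∈ Λ, 4 ≤ m) {n : ℕ} (hn : n ∈ Λ ∨ n = 0 ∨ n = 2 ∨ n = 3)
    (x y : J Λ → ℝ) :
    ∑ i, ∑ j, mu Λ n i j * (x i * y j)
      ≤ Real.cos (Real.pi / n) * (∑ i, x i ^ 2 + ∑ j, y j ^ 2) := by
  have h1 : ∀ i j, mu Λ n i j * (x i * y j) ≤
      (mu Λ n i j * wt Λ j) * (x i ^ 2 / wt Λ i) / 2 + (mu Λ n j i * wt Λ i) * (y j ^ 2 / wt Λ j) / 2 := by
    intro i j
    rw [mu_comm Λ n j i]
    have hi := wt_pos Λ i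
    have hj := wt_pos Λ j
    have h2 : x i * y j ≤ wt Λ j * (x i ^ 2 / wt Λ i) / 2 + wt Λ i * (y j ^ 2 / wt Λ j) / 2 := by
      have h3 : wt Λ j * (x i ^ 2 / wt Λ i) / 2 + wt Λ i * (y j ^ 2 / wt Λ j) / 2 - x i * y j
          = (x i * wt Λ j - y j * wt Λ i) ^ 2 / (2 * wt Λ i * wt Λ j) := by
        field_simp
        ring
      have h4 : 0 ≤ (x i * wt Λ j - y j * wt Λ i) ^ 2 / (2 * wt Λ i * wt Λ j) := by positivity
      linarith
    calc mu Λ n i j * (x i * y j)
        ≤ mu Λ n i j * (wt Λ j * (x i ^ 2 / wt Λ i) / 2 + wt Λ i * (y j ^ 2 / wt Λ j) / 2) :=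
          mul_le_mul_of_nonneg_left h2 (mu_nonneg _ _ _ _)
      _ = _ := by ring
  calc ∑ i, ∑ j, mu Λ n i j * (x i * y j)
      ≤ ∑ i, ∑ j, ((mu Λ n i j * wt Λ j) * (x i ^ 2 / wt Λ i) / 2
          + (mu Λ n j i * wt Λ i) * (y j ^ 2 / wt Λ j) / 2) :=
        Finset.sum_le_sum fun i _ => Finset.sum_le_sum fun j _ => h1 i j
    _ = ∑ i, (∑ j, mu Λ n i j * wt Λ j) * (x i ^ 2 / wt Λ i) / 2
          + ∑ j, (∑ i, mu Λ n j i * wt Λ i) * (y j ^ 2 / wt Λ j) / 2 := by
        simp only [Finset.sum_add_distrib]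
        congr 1
        · refine Finset.sum_congr rfl fun i _ => ?_
          rw [Finset.sum_mul, Finset.sum_div]
        · rw [Finset.sum_comm]
          refine Finset.sum_congr rfl fun i _ => ?_
          rw [Finset.sum_mul, Finset.sum_div]
    _ = _ := by
        rw [mul_add, Finset.mul_sum, Finset.mul_sum]
        congr 1
        · refine Finset.sum_congr rfl fun i _ => ?_
          rw [wt_sum hΛ hn i]
          have := (wt_pos Λ i).ne'
          field_simp
        · refine Finset.sum_congr rfl fun i _ => ?_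
          rw [wt_sum hΛ hn i]
          have := (wt_pos Λ i).ne'
          field_simp

end Crest.Agent.R175.Unf_109
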