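import Crest.Agent.R175.Act_732
import Crest.Agent.R175.UG_27

/-!
Row 175 (S0263), block TW3 (helper732), part 2: from twists on an additive monoid of classes to the
actions of the Artin groups.

* `Cox G N` : the Coxeter matrix `N` belongs to the multigraph `G`
  (`2` = no edge, `3` = one edge, otherwise `∞`); `cox_mu : Cox (UG M Λ) (Mu M Λ)`.
* `Twc G C` : automorphisms `p t : C ≃+ C` of an additive monoid, commuting for `E s t = ∅`, braided for
  one edge; `Twc.hom : ArtinGroup N →* AddAut C`, `Twc.unf : ArtinGroup M →* AddAut C`,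
  `Twc.unf_gen` (product over the fibre).
-/

set_option autoImplicit false
set_option linter.unusedSectionVars false

namespace Crest.Agent.R175.Act2_732

open Crest.GroupTheory Crest.Agent.R175.PTA Crest.Agent.R175.Act_732
open Crest.Agent.R175.Unf_109 Crest.Agent.R175.UG_27

universe u v

section cox

variable {T : Type u}

/-- the Coxeter matrix of a multigraph -/
structure Cox (G : MG T) (N : CoxeterMatrix T) : Prop where
  two : ∀ {s t : T}, s ≠ t → N s t = 2 → IsEmpty (G.E s t)
  three : ∀ {s t : T}, N s t = 3 → Fintype.card (G.E s t) = 1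
  cases : ∀ {s t : T}, s ≠ t → N s t = 2 ∨ N s t = 3 ∨ N s t = 0

theorem cox_mu {S : Type u} (M : CoxeterMatrix S) (Λ : Finset ℕ) : Cox (UG M Λ) (Mu M Λ) where
  two := by
    intro a b hab h
    by_cases h1 : a.1 = b.1
    · exact isEmpty_fibre h1
    · rcases card_UG_mu (M := M) (Λ := Λ) h1 with h2 | h2 | h2
      · exact Fintype.card_eq_zero_iff.1 h2.1
      · rw [h2.2] at h; exact absurd h (by norm_num)
      · rw [h2.2] at h; exact absurd h (by norm_num)
  three := by
    intro a b h
    by_cases h1 : a.1 = b.1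
    · rw [mu_apply, muM, if_pos h1] at h
      split_ifs at h
      · exact absurd h (by norm_num)
      · exact absurd h (by norm_num)
    · rcases card_UG_mu (M := M) (Λ := Λ) h1 with h2 | h2 | h2
      · rw [h2.2] at h; exact absurd h (by norm_num)
      · exact h2.1
      · rw [h2.2] at h; exact absurd h (by norm_num)
  cases := by
    intro a b hab
    by_cases h1 : a.1 = b.1
    · left
      have h2 : a.2 ≠ b.2 := fun h => hab (Prod.ext h1 h)
      rw [mu_apply, muM, if_pos h1, if_neg h2]
    · rcases card_UG_mu (M := M) (Λ := Λ) h1 with h2 | h2 | h2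
      · exact Or.inl h2.2
      · exact Or.inr (Or.inl h2.2)
      · exact Or.inr (Or.inr h2.2)

theorem cox_rel {G : MG T} {N : CoxeterMatrix T} (hN : Cox G N) {L : Type*} [Group L] (f : T → L)
    (hc : ∀ s t, s ≠ t → IsEmpty (G.E s t) → f s * f t = f t * f s)
    (hb : ∀ s t, Fintype.card (G.E s t) = 1 → f s * f t * f s = f t * f s * f t) (s t : T) :
    alt (f s) (f t) (N.M s t) = alt (f t) (f s) (N.M s t) := by
  by_cases h : s = t
  · subst h; rfl
  · rcases hN.cases h with h2 | h2 | h2
    · have h3 : N.M s t = 2 := h2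
      rw [h3]
      simpa [alt] using hc s t h (hN.two h h2)
    · have h3 : N.M s t = 3 := h2
      rw [h3]
      simpa [alt, mul_assoc] using hb s t (hN.three h2)
    · have h3 : N.M s t = 0 := h2
      rw [h3]
      rfl

end cox

/-- twists as additive permutations of a monoid of classes -/
structure Twc {T : Type u} (G : MG T) (C : Type v) [AddCommMonoid C] where
  p : T → Equiv.Perm C
  add : ∀ t x y, p t (x + y) = p t x + p t y
  comm : ∀ s t, s ≠ t → IsEmpty (G.E s t) → ∀ x, p s (p t x) = p t (p s x)
  braid : ∀ s t, Fintype.card (G.E s t) = 1 → ∀ x, p s (p t (p s x)) = p t (p s (p t x))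

/-- the additive permutations -/
def addP (C : Type v) [AddCommMonoid C] : Subgroup (Equiv.Perm C) where
  carrier := {g | ∀ x y, g (x + y) = g x + g y}
  one_mem' := fun _ _ => rfl
  mul_mem' := by
    intro g g' h h' x y
    simp only [Equiv.Perm.mul_apply]
    rw [h', h]
  inv_mem' := by
    intro g h x y
    apply g.injective
    rw [h, ap_inv, ap_inv, ap_inv]

theorem mem_addP {C : Type v} [AddCommMonoid C] {g : Equiv.Perm C} :
    g ∈ addP C ↔ ∀ x y, g (x + y) = g x + g y := Iff.rfl

theorem map_zero_of_addP {C : Type v} [AddCommMonoid C] {g : Equiv.Perm C} (h : g ∈ addP C) :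
    g 0 = 0 := by
  have h1 := h (g⁻¹ 0) 0
  rw [add_zero, ap_inv, zero_add] at h1
  exact h1.symm

/-- an action by additive permutations -/
@[reducible] def dma {A : Type*} [Group A] {C : Type v} [AddCommMonoid C] (ρ : A →* Equiv.Perm C)
    (h : ∀ g, ρ g ∈ addP C) : DistribMulAction A C where
  smul g x := ρ g x
  one_smul x := by change ρ 1 x = x; rw [map_one]; rfl
  mul_smul g g' x := by change ρ (g * g') x = ρ g (ρ g' x); rw [map_mul]; rfl
  smul_zero g := map_zero_of_addP (h g)
  smul_add g x y := h g x y

theorem dma_smul {A : Type*} [Group A] {C : Type v} [AddCommMonoid C] (ρ : A →* Equiv.Perm C)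
    (h : ∀ g, ρ g ∈ addP C) (g : A) (x : C) : (dma ρ h).smul g x = ρ g x := rfl

namespace Twc

variable {T : Type u} {G : MG T} {C : Type v} [AddCommMonoid C] (P : Twc G C)
  {N : CoxeterMatrix T} (hN : Cox G N)

include hN in
theorem p_rel (s t : T) : alt (P.p s) (P.p t) (N.M s t) = alt (P.p t) (P.p s) (N.M s t) := by
  refine cox_rel hN P.p (fun s t h h' => ?_) (fun s t h => ?_) s t
  · ext x; exact P.comm s t h h' x
  · ext x; exact P.braid s t h x

/-- **the Artin group of the graph acts on the classes.** -/
def hom : ArtinGroup N →* Equiv.Perm C := toHom N P.p (P.p_rel hN)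

@[simp] theorem hom_gen (t : T) : P.hom hN (artinGen N t) = P.p t := toHom_gen _ _ _ t

theorem hom_mem (H : Subgroup (Equiv.Perm C)) (h : ∀ t, P.p t ∈ H) (g : ArtinGroup N) :
    P.hom hN g ∈ H :=
  map_mem N _ H (fun t => by rw [hom_gen]; exact h t) g

theorem hom_add (g : ArtinGroup N) : P.hom hN g ∈ addP C :=
  P.hom_mem hN (addP C) (fun t => mem_addP.2 (P.add t)) g

/-- the action -/
@[reducible] def act : DistribMulAction (ArtinGroup N) C := dma (P.hom hN) (P.hom_add hN)

end Twc

namespace Twc

variable {S : Type u} {M : CoxeterMatrix S} {Λ : Finset ℕ} (hΛ : Good M Λ) {C : Type v}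
  [AddCommMonoid C] (P : Twc (UG M Λ) C)

/-- **the Artin group of `M` acts on the classes over the unfolded graph.** -/
noncomputable def unf : ArtinGroup M →* Equiv.Perm C := unfHom hΛ (P.hom (cox_mu M Λ))

/-- the generator acts by the product of the twists of the fibre, in any order -/
theorem unf_gen (s : S) (l : List (J Λ)) (hl : l.Nodup) (hm : ∀ i, i ∈ l) :
    P.unf hΛ (artinGen M s) = (l.map fun i => P.p (s, i)).prod := by
  classical
  rw [unf, unfHom_gen, Lcm_109.cp_list _ _ l hl hm]
  simp

theorem unf_gen_apply (s : S) (l : List (J Λ)) (hl : l.Nodup) (hm : ∀ i, i ∈ l) (x : C) :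
    P.unf hΛ (artinGen M s) x = l.foldr (fun i y => P.p (s, i) y) x := by
  rw [P.unf_gen hΛ s l hl hm]
  clear hl hm
  induction l with
  | nil => rfl
  | cons a l ih =>
    rw [List.map_cons, List.prod_cons, List.foldr_cons, ← ih]
    rfl

theorem unf_mem (H : Subgroup (Equiv.Perm C)) (h : ∀ t, P.p t ∈ H) (g : ArtinGroup M) :
    P.unf hΛ g ∈ H := by
  classical
  refine map_mem M _ H (fun s => ?_) g
  rw [P.unf_gen hΛ s Finset.univ.toList (Finset.nodup_toList _) (fun i => by simp)]
  exact Subgroup.list_prod_mem _ (fun x hx => by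
    obtain ⟨i, -, rfl⟩ := List.mem_map.1 hx
    exact h _)

theorem unf_add (g : ArtinGroup M) : P.unf hΛ g ∈ addP C := 
  P.unf_mem hΛ (addP C) (fun t => mem_addP.2 (P.add t)) g

/-- the action of the Artin group of `M` -/
@[reducible] noncomputable def actU : DistribMulAction (ArtinGroup M) C :=
  dma (P.unf hΛ) (P.unf_add hΛ)

/-- fixed classes of a fibre -/
theorem unf_gen_fix (s : S) (x : C) (h : ∀ i, P.p (s, i) x = x) :
    P.unf hΛ (artinGen M s) x = x := by
  classical
  rw [P.unf_gen_apply hΛ s Finset.univ.toList (Finset.nodup_toList _) (fun i => by simp)]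
  generalize (Finset.univ : Finset (J Λ)).toList = l
  induction l with
  | nil => rfl
  | cons a l ih => rw [List.foldr_cons, ih, h]

end Twc

end Crest.Agent.R175.Act2_732
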