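import Crest.Agent.R175.Fm5_27

/-!
# Row 175, block F_m, part 6: the connection on `J Λ`, all labels (standard normalisation)

`sc i = √[i_m]`; `cf l i i' j j'` is the coefficient of the arrow `i' -> j'` in `F (i -> j)`, the arrows
having label `l`.
-/

set_option autoImplicit false
set_option linter.unusedSectionVars false
set_option linter.unusedVariables false
set_option linter.unusedSimpArgs false

open scoped Classical

namespace Crest.Agent.R175.Fm_27

open Crest.Agent.R175.Unf_109 Crest.Agent.R175.Fm1_27 Crest.Agent.R175.Fm2_27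

/-- square root of the quantum integer -/
noncomputable def sq (m n : ℕ) : ℝ := Real.sqrt (q m n)

theorem sq_sq {m n : ℕ} (h : n ≤ m) : sq m n * sq m n = q m n := Real.mul_self_sqrt (q_nonneg h)

theorem sq_pos {m n : ℕ} (h : 0 < n) (h' : n < m) : 0 < sq m n := Real.sqrt_pos.2 (q_pos h h')

variable {Λ : Finset ℕ} {m : ℕ} (hm : m ∈ Λ)

/-- scale of a vertex -/
noncomputable def sc (i : J Λ) : ℝ := sq m (co hm i)

variable {hm}

theorem sc_pos (i : J Λ) : 0 < sc hm i := sq_pos (co_pos i) (co_lt i)
theorem sc_ne (i : J Λ) : sc hm i ≠ 0 := (sc_pos i).ne'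
theorem sc_sq (i : J Λ) : sc hm i * sc hm i = q m (co hm i) := sq_sq (co_lt i).le
theorem sc_pow (i : J Λ) : sc hm i ^ 2 = q m (co hm i) := by rw [pow_two, sc_sq]

variable (hm) in
/-- coefficient -/
noncomputable def cf (l : ℕ) (i i' j j' : J Λ) : ℝ :=
  if l = m then chi m (co hm i) (co hm i') (co hm j) (co hm j') *
    ((sc hm i' * sc hm j') / (sc hm i * sc hm j)) else sc hm i' / sc hm i

/-- neutral labels: the sum over the parallel edges has one term -/
theorem sum_neutral (hm : m ∈ Λ) {l : ℕ} (hl : l ≠ m) {i i' j : J Λ} (h1 : nb Λ m i' i)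
    (h : nb Λ l i j) (f : J Λ → ℝ) :
    (∑ j', if nb Λ m j' j then (if nb Λ l i' j' then f j' else 0) else 0)
      = f (upd hm j (co hm i')) := by
  have hi := (nb_iff hm _ _).1 h1
  have hc := nb_co (hm := hm) hl h
  have e1 : co hm (upd hm j (co hm i')) = co hm i' := co_upd j (co_pos i') (co_lt i')
  rw [Finset.sum_eq_single (upd hm j (co hm i'))]
  · have h2 : nb Λ m (upd hm j (co hm i')) j := by
      refine (nb_iff hm _ _).2 ⟨same_symm (same_upd j _), ?_⟩
      rw [e1, ← hc]
      exact hi.2
    have h3 : nb Λ l i' (upd hm j (co hm i')) :=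
      nb_par (hm := hm) hl h (same_symm hi.1) (same_upd j _) e1.symm
    rw [if_pos h2, if_pos h3]
  · intro j' _ hj'
    by_cases h2 : nb Λ m j' j
    · rw [if_pos h2]
      by_cases h3 : nb Λ l i' j'
      · exfalso
        apply hj'
        have h4 := (nb_iff hm _ _).1 h2
        exact (same_ext (hm := hm) (same_trans (same_symm (same_upd j _)) (same_symm h4.1))
          (e1.trans (nb_co (hm := hm) hl h3))).symm
      · rw [if_neg h3]
    · rw [if_neg h2]
  · intro h'; exact absurd (Finset.mem_univ _) h'


/-- label `m`: the sum over the parallel edges as a sum over `1..m-1` -/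
theorem sum_level (hm : m ∈ Λ) {i' j : J Λ} (h1 : same hm i' j) (f : J Λ → ℝ) :
    (∑ j', if nb Λ m j' j then (if nb Λ m i' j' then f j' else 0) else 0)
      = ∑ n ∈ Finset.Ioo 0 m, if nbr (co hm j) n then
          (if nbr (co hm i') n then f (upd hm j n) else 0) else 0 := by
  rw [sum_nb hm]
  refine Finset.sum_congr rfl fun n hn => ?_
  rw [Finset.mem_Ioo] at hn
  by_cases h : nbr (co hm j) n
  · rw [if_pos h, if_pos h]
    have : nb Λ m i' (upd hm j n) ↔ nbr (co hm i') n := by
      rw [nb_iff hm, co_upd j hn.1 hn.2]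
      exact ⟨fun h => h.2, fun h => ⟨same_trans h1 (same_upd j _), h⟩⟩
    by_cases h' : nbr (co hm i') n
    · rw [if_pos (this.2 h'), if_pos h']
    · rw [if_neg (fun h => h' (this.1 h)), if_neg h']
  · rw [if_neg h, if_neg h]

/-- backtracking -/
theorem backJ (hm : m ∈ Λ) (h2m : 2 ≤ m) {l : ℕ} {i i' i2 j : J Λ} (h1 : nb Λ m i i')
    (h2 : nb Λ m i2 i') (h3 : nb Λ l i j) (h4 : nb Λ l j i2) :
    (∑ j', if nb Λ m j' j then
      (if nb Λ l i' j' then cf hm l i i' j j' * cf hm l j j' i2 i' else 0) else 0)
      = if i = i2 then (sc hm i' / sc hm i) ^ 2 else 0 := by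
  have n1 := (nb_iff hm _ _).1 h1
  have n2 := (nb_iff hm _ _).1 h2
  by_cases hl : l = m
  · subst hl
    have n3 := (nb_iff hm _ _).1 h3
    have n4 := (nb_iff hm _ _).1 h4
    have s1 : same hm i' j := same_trans (same_symm n1.1) n3.1
    rw [sum_level hm s1]
    have hb := chi_back h2m (co_pos i) (co_lt i) (co_pos i') (co_lt i') (co_pos i2) (co_lt i2)
      (co_pos j) (co_lt j) n1.2 n2.2 n3.2 (nbr_symm n4.2)
    have e : ∀ n ∈ Finset.Ioo 0 l, (if nbr (co hm j) n then
          (if nbr (co hm i') n then cf hm l i i' j (upd hm j n) * cf hm l j (upd hm j n) i2 i'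
            else 0) else 0)
        = (q l (co hm i') / (sc hm i * sc hm i2 * q l (co hm j))) *
          (if nbr (co hm i') n then (if nbr (co hm j) n then q l n *
            (chi l (co hm i) (co hm i') (co hm j) n * chi l (co hm j) n (co hm i2) (co hm i'))
            else 0) else 0) := by
      intro n hn
      rw [Finset.mem_Ioo] at hn
      by_cases ha : nbr (co hm j) n
      · by_cases hb : nbr (co hm i') n
        · simp only [if_pos ha, if_pos hb]
          unfold cf
          rw [if_pos rfl, if_pos rfl]
          have ec := co_upd (hm := hm) j hn.1 hn.2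
          have es : sc hm (upd hm j n) * sc hm (upd hm j n) = q l n := by rw [sc_sq, ec]
          have hj := sc_sq (hm := hm) j
          have hi' := sc_sq (hm := hm) i'
          rw [ec, ← es, ← hj, ← hi']
          have := sc_ne (hm := hm) i
          have := sc_ne (hm := hm) i2
          have := sc_ne (hm := hm) j
          field_simp
        · simp [ha, hb]
      · simp [ha]
    rw [Finset.sum_congr rfl e, ← Finset.mul_sum, hb]
    by_cases hc : i = i2
    · subst hc
      rw [if_pos rfl, if_pos rfl, ← sc_sq (hm := hm) i', ← sc_sq (hm := hm) j]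
      have := sc_ne (hm := hm) i
      have := sc_ne (hm := hm) j
      field_simp
    · have hc' : co hm i ≠ co hm i2 := fun h => hc (same_ext (same_trans n1.1 (same_symm n2.1)) h)
      rw [if_neg hc, if_neg hc', mul_zero]
  · rw [sum_neutral hm hl (nb.symm h1) h3]
    have ei : i = i2 := by
      refine same_ext (same_trans n1.1 (same_symm n2.1)) ?_
      rw [nb_co (hm := hm) hl h3, nb_co (hm := hm) hl h4]
    subst ei
    rw [if_pos rfl]
    unfold cf
    rw [if_neg hl, if_neg hl]
    have e1 : sc hm (upd hm j (co hm i')) = sc hm i' := by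
      unfold sc; rw [co_upd j (co_pos i') (co_lt i')]
    have e2 : sc hm j = sc hm i := by unfold sc; rw [nb_co (hm := hm) hl h3]
    rw [e1, e2]; ring

/-- naturality of the unit -/
theorem cupJ (hm : m ∈ Λ) (h2m : 2 ≤ m) {l : ℕ} {i j j' j'' : J Λ} (h1 : nb Λ l i j)
    (h2 : nb Λ m j' j) (h3 : nb Λ m j'' j') (h4 : nb Λ l i j'') :
    (∑ i', if nb Λ m i' i then
      (if nb Λ l j' i' then cf hm l i' i j' j * cf hm l i i' j'' j' * sc hm i' ^ 2 else 0) else 0)
      = if j'' = j then sc hm j' ^ 2 else 0 := by
  have n2 := (nb_iff hm _ _).1 h2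
  have n3 := (nb_iff hm _ _).1 h3
  by_cases hl : l = m
  · subst hl
    have n1 := (nb_iff hm _ _).1 h1
    have n4 := (nb_iff hm _ _).1 h4
    have s1 : same hm j' i := same_trans n2.1 (same_symm n1.1)
    rw [sum_level hm s1]
    have hb := chi_cup h2m (co_pos i) (co_lt i) (co_pos j) (co_lt j) (co_pos j') (co_lt j')
      (co_pos j'') (co_lt j'') n1.2 (nbr_symm n2.2) (nbr_symm n3.2) n4.2
    have e : ∀ n ∈ Finset.Ioo 0 l, (if nbr (co hm i) n then
          (if nbr (co hm j') n then cf hm l (upd hm i n) i j' j * cf hm l i (upd hm i n) j'' j' *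
            sc hm (upd hm i n) ^ 2 else 0) else 0)
        = (sc hm j / sc hm j'') *
          (if nbr (co hm i) n then (if nbr n (co hm j') then q l n *
            (chi l n (co hm i) (co hm j') (co hm j) * chi l (co hm i) n (co hm j'') (co hm j'))
            else 0) else 0) := by
      intro n hn
      rw [Finset.mem_Ioo] at hn
      by_cases ha : nbr (co hm i) n
      · by_cases hb : nbr n (co hm j')
        · simp only [if_pos ha, if_pos hb, if_pos (nbr_symm hb)]
          unfold cf
          rw [if_pos rfl, if_pos rfl]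
          have ec := co_upd (hm := hm) i hn.1 hn.2
          have es : sc hm (upd hm i n) ^ 2 = q l n := by rw [sc_pow, ec]
          rw [ec, ← es]
          have := sc_ne (hm := hm) i
          have := sc_ne (hm := hm) j'
          have := sc_ne (hm := hm) j''
          have := sc_ne (hm := hm) (upd hm i n)
          field_simp
        · have hb' : ¬ nbr (co hm j') n := fun h => hb (nbr_symm h)
          simp [ha, hb, hb']
      · simp [ha]
    rw [Finset.sum_congr rfl e, ← Finset.mul_sum, hb]
    by_cases hc : j'' = j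
    · subst hc
      rw [if_pos rfl, if_pos rfl, sc_pow, div_self (sc_ne _), one_mul]
    · have hc' : co hm j'' ≠ co hm j := fun h => hc (same_ext (same_trans n3.1 n2.1) h)
      rw [if_neg hc, if_neg hc', mul_zero]
  · rw [sum_neutral hm hl h2 (nb.symm h1)]
    have ei : j'' = j := by
      refine same_ext (same_trans n3.1 n2.1) ?_
      rw [← nb_co (hm := hm) hl h1, ← nb_co (hm := hm) hl h4]
    subst ei
    rw [if_pos rfl]
    unfold cf
    rw [if_neg hl, if_neg hl]
    have e1 : sc hm (upd hm i (co hm j')) = sc hm j' := by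
      unfold sc; rw [co_upd i (co_pos j') (co_lt j')]
    rw [e1]
    have := sc_ne (hm := hm) i
    have := sc_ne (hm := hm) j'
    field_simp

/-- naturality of the counit -/
theorem capJ (hm : m ∈ Λ) (h2m : 2 ≤ m) {l : ℕ} {i i' i'' j : J Λ} (h1 : nb Λ l i j)
    (h2 : nb Λ m i' i) (h3 : nb Λ m i'' i') (h4 : nb Λ l i'' j) :
    (∑ j', if nb Λ m j' j then
      (if nb Λ l i' j' then cf hm l i' i j' j * cf hm l i'' i' j j' * (sc hm j ^ 2)⁻¹ else 0)
        else 0)
      = if i'' = i then (sc hm i ^ 2)⁻¹ else 0 := by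
  have n2 := (nb_iff hm _ _).1 h2
  have n3 := (nb_iff hm _ _).1 h3
  by_cases hl : l = m
  · subst hl
    have n1 := (nb_iff hm _ _).1 h1
    have n4 := (nb_iff hm _ _).1 h4
    have s1 : same hm i' j := same_trans n2.1 n1.1
    rw [sum_level hm s1]
    have hb := chi_cap h2m (co_pos i) (co_lt i) (co_pos i') (co_lt i') (co_pos i'') (co_lt i'')
      (co_pos j) (co_lt j) n1.2 (nbr_symm n2.2) (nbr_symm n3.2) n4.2
    have e : ∀ n ∈ Finset.Ioo 0 l, (if nbr (co hm j) n then
          (if nbr (co hm i') n then cf hm l i' i (upd hm j n) j * cf hm l i'' i' j (upd hm j n) *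
            (sc hm j ^ 2)⁻¹ else 0) else 0)
        = (sc hm i / sc hm i'') *
          (if nbr (co hm j) n then (if nbr (co hm i') n then (q l (co hm j))⁻¹ *
            (chi l (co hm i') (co hm i) n (co hm j) * chi l (co hm i'') (co hm i') (co hm j) n)
            else 0) else 0) := by
      intro n hn
      rw [Finset.mem_Ioo] at hn
      by_cases ha : nbr (co hm j) n
      · by_cases hb : nbr (co hm i') n
        · simp only [if_pos ha, if_pos hb]
          unfold cf
          rw [if_pos rfl, if_pos rfl]
          have ec := co_upd (hm := hm) j hn.1 hn.2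
          rw [ec, ← sc_pow (hm := hm) j]
          have := sc_ne (hm := hm) i'
          have := sc_ne (hm := hm) j
          have := sc_ne (hm := hm) i''
          have := sc_ne (hm := hm) (upd hm j n)
          field_simp
        · simp [ha, hb]
      · simp [ha]
    rw [Finset.sum_congr rfl e, ← Finset.mul_sum, hb]
    by_cases hc : i'' = i
    · subst hc
      rw [if_pos rfl, if_pos rfl, sc_pow, div_self (sc_ne _), one_mul]
    · have hc' : co hm i'' ≠ co hm i := fun h => hc (same_ext (same_trans n3.1 n2.1) h)
      rw [if_neg hc, if_neg hc', mul_zero]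
  · rw [sum_neutral hm hl h2 h1]
    have ei : i'' = i := by
      refine same_ext (same_trans n3.1 n2.1) ?_
      rw [nb_co (hm := hm) hl h1, nb_co (hm := hm) hl h4]
    subst ei
    rw [if_pos rfl]
    unfold cf
    rw [if_neg hl, if_neg hl]
    have e2 : sc hm j = sc hm i'' := by unfold sc; rw [nb_co (hm := hm) hl h1]
    rw [e2]
    have := sc_ne (hm := hm) i'
    have := sc_ne (hm := hm) i''
    field_simp

end Crest.Agent.R175.Fm_27
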