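import Crest.Agent.R175.Fm4_27
import Crest.Agent.R175.Fm6_27
import Crest.Agent.R175.UG_27

/-!
# Row 175, block F_m, part 7: the functor `F_m` on the unfolding graph `UG M Λ`
-/

set_option autoImplicit false
set_option linter.unusedSectionVars false
set_option linter.unusedVariables false
set_option linter.unusedSimpArgs false

open scoped Classical

namespace Crest.Agent.R175.Fm_27

open Crest.Agent.R175.PTA Crest.Agent.R175.Unf_109 Crest.Agent.R175.UG_27

universe v

section base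

variable {S : Type} [Fintype S] {M : CoxeterMatrix S} {Λ : Finset ℕ} {m : ℕ}

theorem sum_fibre {N : Type*} [AddCommMonoid N] (t : S) (F : S × J Λ → N)
    (h : ∀ b, b.1 ≠ t → F b = 0) : ∑ b, F b = ∑ j, F (t, j) := by
  rw [Fintype.sum_prod_type, Finset.sum_eq_single t]
  · intro s _ hs
    exact Finset.sum_eq_zero fun j _ => h _ hs
  · intro h'; exact absurd (Finset.mem_univ _) h'

/-- sum over the edges of one colour -/
theorem sumE {a' b' : S × J Λ} (c₀ c₁ : Fin 2) (hc : c₀ = 0 ∨ M a'.1 b'.1 = 0) (X Y : ℝ) :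
    (∑ e' : (UG M Λ).E a' b', (if c₀ = col e' then X else 0) * (if c₁ = col e' then Y else 0))
      = if c₀ = c₁ then (if nb Λ (M a'.1 b'.1) a'.2 b'.2 then X * Y else 0) else 0 := by
  have e1 : ∀ c : Fin 2, (if h : adjc M Λ c a' b' then ((if c₀ = col (mkE h) then X else 0) *
      (if c₁ = col (mkE h) then Y else 0)) else 0) = if adjc M Λ c a' b' then
      ((if c₀ = c then X else 0) * (if c₁ = c then Y else 0)) else 0 := by
    intro c
    by_cases h : adjc M Λ c a' b'
    · rw [dif_pos h, if_pos h]; rfl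
    · rw [dif_neg h, if_neg h]
  rw [sum_edge]
  rw [Finset.sum_congr rfl fun c _ => e1 c, Finset.sum_eq_single c₀]
  · by_cases h : nb Λ (M a'.1 b'.1) a'.2 b'.2
    · rw [if_pos ⟨h, hc⟩, if_pos rfl, if_pos h]
      by_cases h1 : c₀ = c₁
      · rw [if_pos h1, if_pos h1.symm]
      · rw [if_neg h1, if_neg (fun h => h1 h.symm), mul_zero]
    · rw [if_neg (fun h' => h h'.1), if_neg h]
      split_ifs <;> rfl
  · intro c _ hc'
    rw [if_neg (fun h : c₀ = c => hc' h.symm), zero_mul]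
    split_ifs <;> rfl
  · intro h; exact absurd (Finset.mem_univ _) h

variable (M) in
/-- the relation of `F_m` -/
def NF (Λ : Finset ℕ) (m : ℕ) (a b : S × J Λ) : Prop := a.1 = b.1 ∧ nb Λ m a.2 b.2

/-- coefficients of `F_m` -/
noncomputable def chiR (hm : m ∈ Λ) {a b a' b' : S × J Λ} (e : (UG M Λ).E a b)
    (e' : (UG M Λ).E a' b') : ℝ :=
  if col e = col e' then cf hm (M a.1 b.1) a.2 a'.2 b.2 b'.2 else 0

theorem M_symm (M : CoxeterMatrix S) (s t : S) : M s t = M t s := M.symmetric _ _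

theorem back_gen0 (hm : m ∈ Λ) (h2 : 2 ≤ m) {a b a₂ a' : S × J Λ} (e : (UG M Λ).E a b)
    (f : (UG M Λ).E b a₂) (h : a.1 = a'.1 ∧ nb Λ m a.2 a'.2) (h' : a₂.1 = a'.1 ∧ nb Λ m a₂.2 a'.2) :
    (∑ b', ∑ e' : (UG M Λ).E a' b', if b.1 = b'.1 ∧ nb Λ m b.2 b'.2 then
        chiR hm e e' * chiR hm f ((UG M Λ).rev e') else 0)
      = if col e = col f then (if a.2 = a₂.2 then (sc hm a'.2 / sc hm a.2) ^ 2 else 0) else 0 := by
  obtain ⟨s, i⟩ := a
  obtain ⟨s', i'⟩ := a'
  obtain ⟨s₂, i₂⟩ := a₂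
  obtain ⟨t, j⟩ := b
  obtain ⟨rfl, h⟩ : s = s' ∧ nb Λ m i i' := h
  obtain ⟨rfl, h'⟩ : s₂ = s ∧ nb Λ m i₂ i' := h'
  rw [sum_fibre t]
  · have e1 := nb_of_edge e
    have e2 := nb_of_edge f
    have ec := (col_adj e).2
    simp only at e1 e2 ec
    rw [M_symm M t s₂] at e2
    rw [← backJ hm h2 h h' e1 e2]
    by_cases hc : col e = col f
    · rw [if_pos hc]
      refine Finset.sum_congr rfl fun j' _ => ?_
      by_cases hN : nb Λ m j' j
      · simp only [true_and, if_pos hN, if_pos (nb.symm hN)]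
        have := sumE (M := M) (a' := (s₂, i')) (b' := (t, j')) (col e) (col f) ec
          (cf hm (M s₂ t) i i' j j') (cf hm (M s₂ t) j j' i₂ i')
        rw [if_pos hc] at this
        rw [← this]
        refine Finset.sum_congr rfl fun e' _ => ?_
        unfold chiR
        rw [col_rev, M_symm M t s₂]
      · have hN' : ¬ nb Λ m j j' := fun h => hN (nb.symm h)
        simp [hN, hN']
    · rw [if_neg hc]
      refine Finset.sum_eq_zero fun j' _ => ?_
      by_cases hN : nb Λ m j' j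
      · simp only [true_and, if_pos (nb.symm hN)]
        have := sumE (M := M) (a' := (s₂, i')) (b' := (t, j')) (col e) (col f) ec
          (cf hm (M s₂ t) i i' j j') (cf hm (M s₂ t) j j' i₂ i')
        rw [if_neg hc] at this
        rw [← this]
        refine Finset.sum_congr rfl fun e' _ => ?_
        unfold chiR
        rw [col_rev, M_symm M t s₂]
      · have hN' : ¬ nb Λ m j j' := fun h => hN (nb.symm h)
        simp [hN']
  · intro b' hb'
    refine Finset.sum_eq_zero fun e' _ => ?_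
    rw [if_neg]
    rintro ⟨h, -⟩
    exact hb' h.symm

theorem cup_gen0 (hm : m ∈ Λ) (h2 : 2 ≤ m) {a b b' b'' : S × J Λ} (e : (UG M Λ).E a b)
    (e₂ : (UG M Λ).E a b'') (h : b'.1 = b.1 ∧ nb Λ m b'.2 b.2)
    (h' : b''.1 = b'.1 ∧ nb Λ m b''.2 b'.2) :
    (∑ a', ∑ e' : (UG M Λ).E a' b', if a'.1 = a.1 ∧ nb Λ m a'.2 a.2 then
        chiR hm e' e * chiR hm e₂ e' * sc hm a'.2 ^ 2 else 0)
      = if col e₂ = col e then (if b''.2 = b.2 then sc hm b'.2 ^ 2 else 0) else 0 := by
  obtain ⟨s, i⟩ := a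
  obtain ⟨t, j⟩ := b
  obtain ⟨t', j'⟩ := b'
  obtain ⟨t₂, j₂⟩ := b''
  obtain ⟨rfl, h⟩ : t' = t ∧ nb Λ m j' j := h
  obtain ⟨rfl, h'⟩ : t₂ = t' ∧ nb Λ m j₂ j' := h'
  rw [sum_fibre s]
  · have e1 := nb_of_edge e
    have e2 := nb_of_edge e₂
    have ec := (col_adj e₂).2
    simp only at e1 e2 ec
    rw [← cupJ hm h2 e1 h h' e2]
    have key : ∀ i', nb Λ m i' i → (∑ e' : (UG M Λ).E (s, i') (t₂, j'),
        chiR hm e' e * chiR hm e₂ e' * sc hm i' ^ 2) = if col e₂ = col e then
        (if nb Λ (M s t₂) j' i' then cf hm (M s t₂) i' i j' j * cf hm (M s t₂) i i' j₂ j' *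
          sc hm i' ^ 2 else 0) else 0 := by
      intro i' _
      have := sumE (M := M) (a' := (s, i')) (b' := (t₂, j')) (col e₂) (col e) ec
          (cf hm (M s t₂) i i' j₂ j' * sc hm i' ^ 2) (cf hm (M s t₂) i' i j' j)
      refine Eq.trans (Eq.trans (Finset.sum_congr rfl fun e' _ => ?_) this) ?_
      · unfold chiR
        simp only [eq_comm (a := col e') (b := col e)]
        split_ifs <;> ring
      · by_cases hc : col e₂ = col e
        · rw [if_pos hc, if_pos hc]
          by_cases hn : nb Λ (M s t₂) i' j'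
          · rw [if_pos hn, if_pos (nb.symm hn)]; ring
          · rw [if_neg hn, if_neg (fun h => hn (nb.symm h))]
        · rw [if_neg hc, if_neg hc]
    by_cases hc : col e₂ = col e
    · rw [if_pos hc]
      refine Finset.sum_congr rfl fun i' _ => ?_
      by_cases hN : nb Λ m i' i
      · simp only [true_and, if_pos hN]
        rw [key i' hN, if_pos hc]
      · simp [hN]
    · rw [if_neg hc]
      refine Finset.sum_eq_zero fun i' _ => ?_
      by_cases hN : nb Λ m i' i
      · simp only [true_and, if_pos hN]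
        rw [key i' hN, if_neg hc]
      · simp [hN]
  · intro a' ha'
    refine Finset.sum_eq_zero fun e' _ => ?_
    rw [if_neg]
    rintro ⟨h, -⟩
    exact ha' h

theorem cap_gen0 (hm : m ∈ Λ) (h2 : 2 ≤ m) {a b a' a'' : S × J Λ} (e : (UG M Λ).E a b)
    (e₂ : (UG M Λ).E a'' b) (h : a'.1 = a.1 ∧ nb Λ m a'.2 a.2)
    (h' : a''.1 = a'.1 ∧ nb Λ m a''.2 a'.2) :
    (∑ b', ∑ e' : (UG M Λ).E a' b', if b'.1 = b.1 ∧ nb Λ m b'.2 b.2 then
        chiR hm e' e * chiR hm e₂ e' * (sc hm b.2 ^ 2)⁻¹ else 0)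
      = if col e₂ = col e then (if a''.2 = a.2 then (sc hm a.2 ^ 2)⁻¹ else 0) else 0 := by
  obtain ⟨s, i⟩ := a
  obtain ⟨t, j⟩ := b
  obtain ⟨s', i'⟩ := a'
  obtain ⟨s₂, i₂⟩ := a''
  obtain ⟨rfl, h⟩ : s' = s ∧ nb Λ m i' i := h
  obtain ⟨rfl, h'⟩ : s₂ = s' ∧ nb Λ m i₂ i' := h'
  rw [sum_fibre t]
  · have e1 := nb_of_edge e
    have e2 := nb_of_edge e₂
    have ec := (col_adj e₂).2
    simp only at e1 e2 ec
    rw [← capJ hm h2 e1 h h' e2]
    have key : ∀ j', nb Λ m j' j → (∑ e' : (UG M Λ).E (s₂, i') (t, j'),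
        chiR hm e' e * chiR hm e₂ e' * (sc hm j ^ 2)⁻¹) = if col e₂ = col e then
        (if nb Λ (M s₂ t) i' j' then cf hm (M s₂ t) i' i j' j * cf hm (M s₂ t) i₂ i' j j' *
          (sc hm j ^ 2)⁻¹ else 0) else 0 := by
      intro j' _
      have := sumE (M := M) (a' := (s₂, i')) (b' := (t, j')) (col e₂) (col e) ec
          (cf hm (M s₂ t) i₂ i' j j' * (sc hm j ^ 2)⁻¹) (cf hm (M s₂ t) i' i j' j)
      refine Eq.trans (Eq.trans (Finset.sum_congr rfl fun e' _ => ?_) this) ?_
      · unfold chiR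
        simp only [eq_comm (a := col e') (b := col e)]
        split_ifs <;> ring
      · by_cases hc : col e₂ = col e
        · rw [if_pos hc, if_pos hc]
          split_ifs <;> ring
        · rw [if_neg hc, if_neg hc]
    by_cases hc : col e₂ = col e
    · rw [if_pos hc]
      refine Finset.sum_congr rfl fun j' _ => ?_
      by_cases hN : nb Λ m j' j
      · simp only [true_and, if_pos hN]
        rw [key j' hN, if_pos hc]
      · simp [hN]
    · rw [if_neg hc]
      refine Finset.sum_eq_zero fun j' _ => ?_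
      by_cases hN : nb Λ m j' j
      · simp only [true_and, if_pos hN]
        rw [key j' hN, if_neg hc]
      · simp [hN]
  · intro b' hb'
    refine Finset.sum_eq_zero fun e' _ => ?_
    rw [if_neg]
    rintro ⟨h, -⟩
    exact hb' h

theorem back_gen (hm : m ∈ Λ) (h2 : 2 ≤ m) {a b a₂ a' : S × J Λ} (e : (UG M Λ).E a b)
    (f : (UG M Λ).E b a₂) (h : NF Λ m a a') (h' : NF Λ m a₂ a') :
    (∑ b', ∑ e' : (UG M Λ).E a' b', if NF Λ m b b' then
        chiR hm e e' * chiR hm f ((UG M Λ).rev e') else 0)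
      = if col e = col f then (if a.2 = a₂.2 then (sc hm a'.2 / sc hm a.2) ^ 2 else 0) else 0 := by
  have := back_gen0 hm h2 e f h h'
  rw [← this]
  refine Finset.sum_congr rfl fun b' _ => Finset.sum_congr rfl fun e' _ => ?_
  by_cases h : NF Λ m b b'
  · exact (if_pos h).trans (if_pos (show b.1 = b'.1 ∧ nb Λ m b.2 b'.2 from h)).symm
  · exact (if_neg h).trans (if_neg (show ¬ (b.1 = b'.1 ∧ nb Λ m b.2 b'.2) from h)).symm

theorem cup_gen (hm : m ∈ Λ) (h2 : 2 ≤ m) {a b b' b'' : S × J Λ} (e : (UG M Λ).E a b)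
    (e₂ : (UG M Λ).E a b'') (h : NF Λ m b' b) (h' : NF Λ m b'' b') :
    (∑ a', ∑ e' : (UG M Λ).E a' b', if NF Λ m a' a then
        chiR hm e' e * chiR hm e₂ e' * sc hm a'.2 ^ 2 else 0)
      = if col e₂ = col e then (if b''.2 = b.2 then sc hm b'.2 ^ 2 else 0) else 0 := by
  have := cup_gen0 hm h2 e e₂ h h'
  rw [← this]
  refine Finset.sum_congr rfl fun a' _ => Finset.sum_congr rfl fun e' _ => ?_
  by_cases h : NF Λ m a' a
  · exact (if_pos h).trans (if_pos (show a'.1 = a.1 ∧ nb Λ m a'.2 a.2 from h)).symm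
  · exact (if_neg h).trans (if_neg (show ¬ (a'.1 = a.1 ∧ nb Λ m a'.2 a.2) from h)).symm

theorem cap_gen (hm : m ∈ Λ) (h2 : 2 ≤ m) {a b a' a'' : S × J Λ} (e : (UG M Λ).E a b)
    (e₂ : (UG M Λ).E a'' b) (h : NF Λ m a' a) (h' : NF Λ m a'' a') :
    (∑ b', ∑ e' : (UG M Λ).E a' b', if NF Λ m b' b then
        chiR hm e' e * chiR hm e₂ e' * (sc hm b.2 ^ 2)⁻¹ else 0)
      = if col e₂ = col e then (if a''.2 = a.2 then (sc hm a.2 ^ 2)⁻¹ else 0) else 0 := by
  have := cap_gen0 hm h2 e e₂ h h'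
  rw [← this]
  refine Finset.sum_congr rfl fun b' _ => Finset.sum_congr rfl fun e' _ => ?_
  by_cases h : NF Λ m b' b
  · exact (if_pos h).trans (if_pos (show b'.1 = b.1 ∧ nb Λ m b'.2 b.2 from h)).symm
  · exact (if_neg h).trans (if_neg (show ¬ (b'.1 = b.1 ∧ nb Λ m b'.2 b.2) from h)).symm

variable (M) in
/-- **the functor `F_m` over `ℝ`** -/
noncomputable def FmR (hm : m ∈ Λ) (h2 : 2 ≤ m) : ADat (UG M Λ) ℝ where
  N := NF Λ m
  symm h := ⟨h.1.symm, nb.symm h.2⟩
  r a := sc hm a.2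
  r_ne a := sc_ne _
  chi e e' := chiR hm e e'
  back {a b a'} e f h := by
    have := back_gen hm h2 e f h h
    rw [this]
    by_cases hc : f = (UG M Λ).rev e
    · subst hc
      simp
    · have : col e ≠ col f := fun h => hc (col_inj h.symm)
      rw [if_neg hc, if_neg this]
  back0 {a a₂ b a'} e f h h' hne := by
    have := back_gen hm h2 e f h h'
    rw [this]
    have : a.2 ≠ a₂.2 := fun h'' => hne (Prod.ext (h.1.trans h'.1.symm) h'')
    rw [if_neg this]; simp
  cup1 {a b b'} e e₂ h := by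
    have := cup_gen hm h2 e e₂ h ⟨h.1.symm, nb.symm h.2⟩
    rw [this]
    by_cases hc : e₂ = e
    · subst hc; simp
    · have : col e₂ ≠ col e := fun h => hc (col_inj h)
      rw [if_neg hc, if_neg this]
  cup0 {a b b' b''} e e₂ h h' hne := by
    have := cup_gen hm h2 e e₂ h h'
    rw [this]
    have : b''.2 ≠ b.2 := fun h'' => hne (Prod.ext (h'.1.trans h.1) h'')
    rw [if_neg this]; simp
  cap1 {a b a'} e e₂ h := by
    have := cap_gen hm h2 e e₂ h ⟨h.1.symm, nb.symm h.2⟩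
    rw [this]
    by_cases hc : e₂ = e
    · subst hc; simp
    · have : col e₂ ≠ col e := fun h => hc (col_inj h)
      rw [if_neg hc, if_neg this]
  cap0 {a b a' a''} e e₂ h h' hne := by
    have := cap_gen hm h2 e e₂ h h'
    rw [this]
    have : a''.2 ≠ a.2 := fun h'' => hne (Prod.ext (h'.1.trans h.1) h'')
    rw [if_neg this]; simp

end base

/-! ### base change -/

section map

universe w

variable {T : Type} {G : MG T} {k : Type v} [Field k] {k' : Type w} [Field k'] [Fintype T]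

/-- base change of the data along a field homomorphism -/
noncomputable def ADat.map (φ : k →+* k') (Φ : ADat G k) : ADat G k' where
  N := Φ.N
  symm := Φ.symm
  r a := φ (Φ.r a)
  r_ne a := (map_ne_zero φ).2 (Φ.r_ne a)
  chi e e' := φ (Φ.chi e e')
  back e f h := by
    have := congrArg φ (Φ.back e f h)
    simpa only [map_sum, apply_ite φ, map_mul, map_zero, map_pow, map_div₀] using this
  back0 e f h h' hne := by
    have := congrArg φ (Φ.back0 e f h h' hne)
    simpa only [map_sum, apply_ite φ, map_mul, map_zero, map_pow, map_div₀] using this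
  cup1 e e₂ h := by
    have := congrArg φ (Φ.cup1 e e₂ h)
    simpa only [map_sum, apply_ite φ, map_mul, map_zero, map_pow, map_inv₀] using this
  cup0 e e₂ h h' hne := by
    have := congrArg φ (Φ.cup0 e e₂ h h' hne)
    simpa only [map_sum, apply_ite φ, map_mul, map_zero, map_pow, map_inv₀] using this
  cap1 e e₂ h := by
    have := congrArg φ (Φ.cap1 e e₂ h)
    simpa only [map_sum, apply_ite φ, map_mul, map_zero, map_pow, map_inv₀] using this
  cap0 e e₂ h h' hne := by
    have := congrArg φ (Φ.cap0 e e₂ h h' hne)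
    simpa only [map_sum, apply_ite φ, map_mul, map_zero, map_pow, map_inv₀] using this

end map

section main

variable {S : Type} [Fintype S] (M : CoxeterMatrix S) {Λ : Finset ℕ} {m : ℕ}
  {k : Type v} [Field k] (φ : ℝ →+* k)

/-- **the functor `F_m`** on `Gob (UG M Λ) k`, `TOb (UG M Λ) k` -/
noncomputable def Fm (hm : m ∈ Λ) (h2 : 2 ≤ m) : ADat (UG M Λ) k := (FmR M hm h2).map φ

variable (hm : m ∈ Λ) (h2 : 2 ≤ m)

theorem Fm_N (a b : S × J Λ) : (Fm M φ hm h2).N a b ↔ a.1 = b.1 ∧ nb Λ m a.2 b.2 := Iff.rfl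

theorem Fm_r (a : S × J Λ) : (Fm M φ hm h2).r a = φ (sc hm a.2) := rfl

theorem Fm_chi {a b a' b' : S × J Λ} (e : (UG M Λ).E a b) (e' : (UG M Λ).E a' b') :
    (Fm M φ hm h2).chi e e' = if col e = col e' then
      φ (cf hm (M a.1 b.1) a.2 a'.2 b.2 b'.2) else 0 := by
  show φ (if _ then _ else _) = _
  rw [apply_ite φ, map_zero]

/-- `F_m` and restriction to a subset of `S` -/
theorem Fm_res_N (X : Set S) (a b : X × J Λ) :
    (Fm (VdL_527.res M X) φ hm h2).N a b ↔
      (Fm M φ hm h2).N ((a.1 : S), a.2) ((b.1 : S), b.2) :=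
  and_congr_left' Subtype.ext_iff

theorem Fm_res_chi (X : Set S) {a b a' b' : X × J Λ}
    (e : (UG (VdL_527.res M X) Λ).E a b) (e' : (UG (VdL_527.res M X) Λ).E a' b') :
    (Fm (VdL_527.res M X) φ hm h2).chi e e' =
      (Fm M φ hm h2).chi (a := ((a.1 : S), a.2)) (b := ((b.1 : S), b.2))
        (a' := ((a'.1 : S), a'.2)) (b' := ((b'.1 : S), b'.2)) e e' := rfl

end main

end Crest.Agent.R175.Fm_27
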