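import Crest.Agent.R175.PTA_534
import Crest.Agent.R175.KS_303

/-!
Row 175 (S0263), block KS (helper303): Krull-Schmidt for T-framed objects (over `PTA_534`).

* `Z0 X Y` : even cocycles of the full Hom complex; `ZC G k` : the category of T-framed objects and even
  cocycles (preadditive, `k`-linear, finite dimensional).
* `SumD X Y Z` : `X ≅ Y ⊕ Z` by even cocycles; `Sm`.
* `exists_split` : an idempotent even cocycle splits.
* `Ind`, `exists_dec`, additivity of `size`, `lam`, `hT`, `hD`, `dT`.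
* `iso_of_not_nil` : Fitting.
* `Zalg`, `rhoW` : the finite dimensional algebra of even cocycles of `X` and its action on `W t`.
-/

set_option autoImplicit false
set_option linter.unusedSectionVars false

open CategoryTheory

namespace Crest.Agent.R175.KSb_303

open Crest.Agent.R175.PTA Crest.Agent.R175.KS_303

universe u v u'

variable {T : Type u} {G : MG T} {k : Type v} [Field k] [Fintype T]

/-! ### even cocycles -/

/-- even cocycles -/
def Z0 (X Y : TOb G k) : Submodule k (X.X ⟶ Y.X) where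
  carrier := {f | bar f = f ∧ D X Y f = 0}
  add_mem' := by
    rintro f g ⟨hf, hf'⟩ ⟨hg, hg'⟩
    exact ⟨by rw [bar_add, hf, hg], by rw [map_add, hf', hg', add_zero]⟩
  zero_mem' := ⟨bar_zero, map_zero _⟩
  smul_mem' := by
    rintro c f ⟨hf, hf'⟩
    exact ⟨by rw [bar_smul, hf], by rw [map_smul, hf', smul_zero]⟩

theorem mem_Z0 {X Y : TOb G k} {f : X.X ⟶ Y.X} : f ∈ Z0 X Y ↔ bar f = f ∧ D X Y f = 0 := Iff.rfl

theorem mem_Z0' {X Y : TOb G k} {f : X.X ⟶ Y.X} :
    f ∈ Z0 X Y ↔ bar f = f ∧ f ≫ Y.d = X.d ≫ f := by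
  rw [mem_Z0, D_apply]
  constructor
  · rintro ⟨h1, h2⟩
    rw [h1, sub_eq_zero] at h2
    exact ⟨h1, h2⟩
  · rintro ⟨h1, h2⟩
    exact ⟨h1, by rw [h1, sub_eq_zero]; exact h2⟩

theorem id_mem (X : TOb G k) : 𝟙 X.X ∈ Z0 X X := ⟨bar_id, D_id⟩

theorem comp_mem {X Y Z : TOb G k} {f : X.X ⟶ Y.X} {g : Y.X ⟶ Z.X} (hf : f ∈ Z0 X Y)
    (hg : g ∈ Z0 Y Z) : f ≫ g ∈ Z0 X Z := by
  refine ⟨by rw [bar_comp, hf.1, hg.1], ?_⟩
  rw [D_comp, hf.2, hg.2, Limits.zero_comp, Limits.comp_zero, add_zero]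

/-- T-framed objects with even cocycles as morphisms. -/
structure ZC (G : MG T) (k : Type v) [Field k] where
  /-- the T-framed object -/
  ob : TOb G k

instance : Category (ZC G k) where
  Hom X Y := Z0 X.ob Y.ob
  id _ := ⟨𝟙 _, id_mem _⟩
  comp f g := ⟨f.1 ≫ g.1, comp_mem f.2 g.2⟩
  id_comp _ := Subtype.ext (Category.id_comp _)
  comp_id _ := Subtype.ext (Category.comp_id _)
  assoc _ _ _ := Subtype.ext (Category.assoc _ _ _)

instance (X Y : ZC G k) : AddCommGroup (X ⟶ Y) := inferInstanceAs (AddCommGroup (Z0 X.ob Y.ob))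
instance (X Y : ZC G k) : Module k (X ⟶ Y) := inferInstanceAs (Module k (Z0 X.ob Y.ob))
instance (X Y : ZC G k) : FiniteDimensional k (X ⟶ Y) :=
  inferInstanceAs (FiniteDimensional k (Z0 X.ob Y.ob))

@[simp] theorem val_id (X : ZC G k) : (𝟙 X : X ⟶ X).1 = 𝟙 X.ob.X := rfl
@[simp] theorem val_comp {X Y Z : ZC G k} (f : X ⟶ Y) (g : Y ⟶ Z) : (f ≫ g).1 = f.1 ≫ g.1 := rfl
@[simp] theorem val_add {X Y : ZC G k} (f g : X ⟶ Y) : (f + g).1 = f.1 + g.1 := rfl
@[simp] theorem val_zero {X Y : ZC G k} : (0 : X ⟶ Y).1 = 0 := rfl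
@[simp] theorem val_smul {X Y : ZC G k} (c : k) (f : X ⟶ Y) : (c • f).1 = c • f.1 := rfl

instance : Preadditive (ZC G k) where
  add_comp _ _ _ f f' g := Subtype.ext (Preadditive.add_comp _ _ _ f.1 f'.1 g.1)
  comp_add _ _ _ f g g' := Subtype.ext (Preadditive.comp_add _ _ _ f.1 g.1 g'.1)

instance : Linear k (ZC G k) where
  smul_comp _ _ _ r f g := Subtype.ext (Linear.smul_comp _ _ _ r f.1 g.1)
  comp_smul _ _ _ f r g := Subtype.ext (Linear.comp_smul _ _ _ f.1 r g.1)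

/-! ### indecomposables and Fitting -/

/-- the zero object -/
def IsZ (X : TOb G k) : Prop := 𝟙 X.X = 0

/-- indecomposable T-framed objects -/
def Ind (X : TOb G k) : Prop :=
  𝟙 X.X ≠ 0 ∧ ∀ e ∈ Z0 X X, e ≫ e = e → e = 0 ∨ e = 𝟙 X.X

theorem Ind.idemTriv {X : TOb G k} (h : Ind X) : IdemTriv (⟨X⟩ : ZC G k) := by
  intro e he
  rcases h.2 e.1 e.2 (congrArg Subtype.val he) with h' | h'
  · exact Or.inl (Subtype.ext h')
  · exact Or.inr (Subtype.ext h')

/-- isomorphism by even cocycles -/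
def Iso0 (X Y : TOb G k) : Prop :=
  ∃ f ∈ Z0 X Y, ∃ g ∈ Z0 Y X, f ≫ g = 𝟙 X.X ∧ g ≫ f = 𝟙 Y.X

theorem val_pow {X : TOb G k} (f : (⟨X⟩ : ZC G k) ⟶ ⟨X⟩) (n : ℕ) :
    (((show End (⟨X⟩ : ZC G k) from f) ^ n : End (⟨X⟩ : ZC G k)) : (⟨X⟩ : ZC G k) ⟶ ⟨X⟩).1 =
      ((show End X.X from f.1) ^ n : End X.X) := by
  induction n with
  | zero => rfl
  | succ n ih =>
    rw [pow_succ, pow_succ]
    change f.1 ≫ _ = f.1 ≫ _
    rw [ih]

/-- Fitting: `F ≫ F'` not nilpotent between indecomposables: `F` and `F'` are isomorphisms. -/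
theorem iso_of_not_nil {X Y : TOb G k} (hX : Ind X) (hY : Ind Y) {F : X.X ⟶ Y.X} {F' : Y.X ⟶ X.X}
    (hF : F ∈ Z0 X Y) (hF' : F' ∈ Z0 Y X) (h : ¬ IsNilpotent (show End X.X from F ≫ F')) :
    (∃ g ∈ Z0 Y X, F ≫ g = 𝟙 X.X ∧ g ≫ F = 𝟙 Y.X) ∧
      (∃ g ∈ Z0 X Y, F' ≫ g = 𝟙 Y.X ∧ g ≫ F' = 𝟙 X.X) := by
  have key := isIso_of_not_nil k hX.idemTriv hY.idemTriv
    (⟨F, hF⟩ : (⟨X⟩ : ZC G k) ⟶ ⟨Y⟩) (⟨F', hF'⟩ : (⟨Y⟩ : ZC G k) ⟶ ⟨X⟩) (by
      rintro ⟨n, hn⟩
      apply h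
      refine ⟨n, ?_⟩
      have := val_pow ((⟨F, hF⟩ : (⟨X⟩ : ZC G k) ⟶ ⟨Y⟩) ≫ (⟨F', hF'⟩ : (⟨Y⟩ : ZC G k) ⟶ ⟨X⟩)) n
      rw [hn] at this
      exact this.symm)
  obtain ⟨h1, h2⟩ := key
  obtain ⟨a, ha1, ha2⟩ := h1.out
  obtain ⟨b, hb1, hb2⟩ := h2.out
  exact ⟨⟨a.1, a.2, congrArg Subtype.val ha1, congrArg Subtype.val ha2⟩,
    ⟨b.1, b.2, congrArg Subtype.val hb1, congrArg Subtype.val hb2⟩⟩

/-- Fitting, in the form of the application: the components at the frames are inverse to each other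
(or just not nilpotent) at one vertex. -/
theorem iso_of_cW {X Y : TOb G k} (hX : Ind X) (hY : Ind Y) {F : X.X ⟶ Y.X} {F' : Y.X ⟶ X.X}
    (hF : F ∈ Z0 X Y) (hF' : F' ∈ Z0 Y X) (t : T)
    (h : ¬ IsNilpotent (show Module.End k (X.X.W t) from cW F' t ∘ₗ cW F t)) : Iso0 X Y := by
  have hn : ¬ IsNilpotent (show End X.X from F ≫ F') := by
    rintro ⟨n, hn⟩
    apply h
    refine ⟨n, ?_⟩
    have hp : ∀ n : ℕ, cW (((show End X.X from F ≫ F') ^ n : End X.X) : X.X ⟶ X.X) t =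
        (show Module.End k (X.X.W t) from cW F' t ∘ₗ cW F t) ^ n := by
      intro n
      induction n with
      | zero => rfl
      | succ n ih =>
        rw [pow_succ, pow_succ]
        change cW ((F ≫ F') ≫ ((show End X.X from F ≫ F') ^ n : End X.X)) t = _
        rw [cW_comp, ih]
        rfl
    rw [← hp n, hn]
    rfl
  obtain ⟨⟨g, hg, h1, h2⟩, -⟩ := iso_of_not_nil hX hY hF hF' hn
  exact ⟨F, hF, g, hg, h1, h2⟩

/-! ### the algebra of even cocycles -/

/-- the algebra of even cocycles of `X` -/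
abbrev Zalg (X : TOb G k) : Type (max u v) := End (⟨X⟩ : ZC G k)

instance (X : TOb G k) : FiniteDimensional k (Zalg X) :=
  inferInstanceAs (FiniteDimensional k ((⟨X⟩ : ZC G k) ⟶ ⟨X⟩))

theorem Ind.idem {X : TOb G k} (h : Ind X) (e : Zalg X) (he : e * e = e) : e = 0 ∨ e = 1 :=
  h.idemTriv e he

/-- the action on the frames -/
def rhoW (X : TOb G k) (t : T) : Zalg X →ₐ[k] Module.End k (X.X.W t) where
  toFun f := cW f.1 t
  map_one' := rfl
  map_mul' f g := rfl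
  map_zero' := rfl
  map_add' f g := rfl
  commutes' c := by
    change cW (c • 𝟙 X.X) t = _
    rw [cW_smul, cW_id]
    rfl

@[simp] theorem rhoW_apply (X : TOb G k) (t : T) (f : Zalg X) : rhoW X t f = cW f.1 t := rfl

/-! ### direct sums -/

/-- `X ≅ Y ⊕ Z` by even cocycles -/
structure SumD (X Y Z : TOb G k) where
  i1 : Y.X ⟶ X.X
  p1 : X.X ⟶ Y.X
  i2 : Z.X ⟶ X.X
  p2 : X.X ⟶ Z.X
  hi1 : i1 ∈ Z0 Y X
  hp1 : p1 ∈ Z0 X Y
  hi2 : i2 ∈ Z0 Z X
  hp2 : p2 ∈ Z0 X Z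
  i1p1 : i1 ≫ p1 = 𝟙 Y.X
  i2p2 : i2 ≫ p2 = 𝟙 Z.X
  sum : p1 ≫ i1 + p2 ≫ i2 = 𝟙 X.X

/-- `X ≅ Y ⊕ Z` -/
def Sm (X Y Z : TOb G k) : Prop := Nonempty (SumD X Y Z)

namespace SumD

variable {X Y Z : TOb G k} (S : SumD X Y Z)

/-- the sum in the other order -/
def swap : SumD X Z Y where
  i1 := S.i2
  p1 := S.p2
  i2 := S.i1
  p2 := S.p1
  hi1 := S.hi2
  hp1 := S.hp2
  hi2 := S.hi1
  hp2 := S.hp1
  i1p1 := S.i2p2
  i2p2 := S.i1p1
  sum := by rw [add_comm]; exact S.sum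

theorem i1p2 : S.i1 ≫ S.p2 = 0 := by
  have h1 : S.i1 ≫ (S.p1 ≫ S.i1 + S.p2 ≫ S.i2) = S.i1 := by rw [S.sum, Category.comp_id]
  rw [Preadditive.comp_add, ← Category.assoc, S.i1p1, Category.id_comp, add_eq_left] at h1
  calc S.i1 ≫ S.p2 = (S.i1 ≫ S.p2 ≫ S.i2) ≫ S.p2 := by
        rw [Category.assoc, Category.assoc, S.i2p2, Category.comp_id]
    _ = 0 := by rw [h1, Limits.zero_comp]

theorem i2p1 : S.i2 ≫ S.p1 = 0 := S.swap.i1p2

/-- the multiplicity spaces at the vertices -/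
def eqV (t : T) : X.X.V t ≃ₗ[k] Y.X.V t × Z.X.V t where
  toFun x := (c0 S.p1 t x, c0 S.p2 t x)
  invFun y := c0 S.i1 t y.1 + c0 S.i2 t y.2
  map_add' x y := by simp
  map_smul' c x := by simp
  left_inv x := by
    have := congrArg (fun f => c0 f t x) S.sum
    simpa using this
  right_inv y := by
    have h1 := congrArg (fun f => c0 f t y.1) S.i1p1
    have h2 := congrArg (fun f => c0 f t y.2) S.i2p2
    have h3 := congrArg (fun f => c0 f t y.1) S.i1p2
    have h4 := congrArg (fun f => c0 f t y.2) S.i2p1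
    simp only [c0_comp, LinearMap.comp_apply, c0_id, LinearMap.id_coe, id_eq, c0_zero,
      LinearMap.zero_apply] at h1 h2 h3 h4
    ext1
    · simp [h1, h4]
    · simp [h2, h3]

/-- the multiplicity spaces at the frames -/
def eqW (t : T) : X.X.W t ≃ₗ[k] Y.X.W t × Z.X.W t where
  toFun x := (cW S.p1 t x, cW S.p2 t x)
  invFun y := cW S.i1 t y.1 + cW S.i2 t y.2
  map_add' x y := by simp
  map_smul' c x := by simp
  left_inv x := by
    have := congrArg (fun f => cW f t x) S.sum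
    simpa using this
  right_inv y := by
    have h1 := congrArg (fun f => cW f t y.1) S.i1p1
    have h2 := congrArg (fun f => cW f t y.2) S.i2p2
    have h3 := congrArg (fun f => cW f t y.1) S.i1p2
    have h4 := congrArg (fun f => cW f t y.2) S.i2p1
    simp only [cW_comp, LinearMap.comp_apply, cW_id, LinearMap.id_coe, id_eq, cW_zero,
      LinearMap.zero_apply] at h1 h2 h3 h4
    ext1
    · simp [h1, h4]
    · simp [h2, h3]

include S in
theorem finrank_V (t : T) :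
    Module.finrank k (X.X.V t) = Module.finrank k (Y.X.V t) + Module.finrank k (Z.X.V t) := by
  rw [(S.eqV t).finrank_eq, Module.finrank_prod]

include S in
theorem lam_eq (t : T) : lam X t = lam Y t + lam Z t := by
  rw [lam, (S.eqW t).finrank_eq, Module.finrank_prod]
  rfl

/-- the Hom spaces into a sum -/
def homR (U : TOb G k) : (U.X ⟶ X.X) ≃ₗ[k] (U.X ⟶ Y.X) × (U.X ⟶ Z.X) where
  toFun f := (f ≫ S.p1, f ≫ S.p2)
  invFun f := f.1 ≫ S.i1 + f.2 ≫ S.i2
  map_add' f g := by simp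
  map_smul' c f := by simp
  left_inv f := by
    change (f ≫ S.p1) ≫ S.i1 + (f ≫ S.p2) ≫ S.i2 = f
    rw [Category.assoc, Category.assoc, ← Preadditive.comp_add, S.sum, Category.comp_id]
  right_inv f := by
    ext1
    · simp only [Preadditive.add_comp, Category.assoc, S.i1p1, S.i2p1, Category.comp_id,
        Limits.comp_zero, add_zero]
    · simp only [Preadditive.add_comp, Category.assoc, S.i1p2, S.i2p2, Category.comp_id,
        Limits.comp_zero, zero_add]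

/-- the Hom spaces out of a sum -/
def homL (U : TOb G k) : (X.X ⟶ U.X) ≃ₗ[k] (Y.X ⟶ U.X) × (Z.X ⟶ U.X) where
  toFun f := (S.i1 ≫ f, S.i2 ≫ f)
  invFun f := S.p1 ≫ f.1 + S.p2 ≫ f.2
  map_add' f g := by simp
  map_smul' c f := by simp
  left_inv f := by
    change S.p1 ≫ S.i1 ≫ f + S.p2 ≫ S.i2 ≫ f = f
    rw [← Category.assoc, ← Category.assoc, ← Preadditive.add_comp, S.sum, Category.id_comp]
  right_inv f := by
    ext1
    · simp only [Preadditive.comp_add]
      simp only [← Category.assoc, S.i1p1, S.i1p2, Category.id_comp,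
        Limits.zero_comp, add_zero]
    · simp only [Preadditive.comp_add]
      simp only [← Category.assoc, S.i2p1, S.i2p2, Category.id_comp,
        Limits.zero_comp, zero_add]

theorem D_p {U X Y : TOb G k} (f : U.X ⟶ X.X) {p : X.X ⟶ Y.X} (hp : p ∈ Z0 X Y) :
    D U Y (f ≫ p) = D U X f ≫ p := by
  rw [D_comp, hp.2, Limits.comp_zero, zero_add, hp.1]

theorem D_i {U X Y : TOb G k} {i : Y.X ⟶ X.X} (hi : i ∈ Z0 Y X) (f : X.X ⟶ U.X) :
    D Y U (i ≫ f) = i ≫ D X U f := by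
  rw [D_comp, hi.2, Limits.zero_comp, add_zero]

/-- separate frames, into a sum -/
def csR (U : TOb G k) : Cs U.X X.X ≃ₗ[k] Cs U.X Y.X × Cs U.X Z.X where
  toFun f := (⟨f.1 ≫ S.p1, Cs_comp_right f.2 _⟩, ⟨f.1 ≫ S.p2, Cs_comp_right f.2 _⟩)
  invFun f := ⟨f.1.1 ≫ S.i1 + f.2.1 ≫ S.i2,
    Submodule.add_mem _ (Cs_comp_right f.1.2 _) (Cs_comp_right f.2.2 _)⟩
  map_add' f g := by
    refine Prod.ext (Subtype.ext ?_) (Subtype.ext ?_)
    · exact Preadditive.add_comp _ _ _ _ _ _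
    · exact Preadditive.add_comp _ _ _ _ _ _
  map_smul' c f := by
    refine Prod.ext (Subtype.ext ?_) (Subtype.ext ?_)
    · exact Linear.smul_comp _ _ _ _ _ _
    · exact Linear.smul_comp _ _ _ _ _ _
  left_inv f := Subtype.ext ((S.homR U).left_inv f.1)
  right_inv f := by
    have := (S.homR U).right_inv (f.1.1, f.2.1)
    exact Prod.ext (Subtype.ext (congrArg Prod.fst this)) (Subtype.ext (congrArg Prod.snd this))

/-- separate frames, out of a sum -/
def csL (U : TOb G k) : Cs X.X U.X ≃ₗ[k] Cs Y.X U.X × Cs Z.X U.X where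
  toFun f := (⟨S.i1 ≫ f.1, Cs_comp_left _ f.2⟩, ⟨S.i2 ≫ f.1, Cs_comp_left _ f.2⟩)
  invFun f := ⟨S.p1 ≫ f.1.1 + S.p2 ≫ f.2.1,
    Submodule.add_mem _ (Cs_comp_left _ f.1.2) (Cs_comp_left _ f.2.2)⟩
  map_add' f g := by
    refine Prod.ext (Subtype.ext ?_) (Subtype.ext ?_)
    · exact Preadditive.comp_add _ _ _ _ _ _
    · exact Preadditive.comp_add _ _ _ _ _ _
  map_smul' c f := by
    refine Prod.ext (Subtype.ext ?_) (Subtype.ext ?_)
    · exact Linear.comp_smul _ _ _ _ _ _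
    · exact Linear.comp_smul _ _ _ _ _ _
  left_inv f := Subtype.ext ((S.homL U).left_inv f.1)
  right_inv f := by
    have := (S.homL U).right_inv (f.1.1, f.2.1)
    exact Prod.ext (Subtype.ext (congrArg Prod.fst this)) (Subtype.ext (congrArg Prod.snd this))

end SumD

/-- homology dimension of a sum of two spaces with differential -/
theorem hd_sum {K K1 K2 : Type*} [AddCommGroup K] [Module k K] [AddCommGroup K1] [Module k K1]
    [AddCommGroup K2] [Module k K2] [FiniteDimensional k K1] [FiniteDimensional k K2]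
    (D : K →ₗ[k] K) (D1 : K1 →ₗ[k] K1) (D2 : K2 →ₗ[k] K2) (φ : K ≃ₗ[k] K1 × K2)
    (h : ∀ x, φ (D x) = (D1 (φ x).1, D2 (φ x).2)) (h1 : ∀ x, D1 (D1 x) = 0)
    (h2 : ∀ x, D2 (D2 x) = 0) : hd D = hd D1 + hd D2 := by
  have hpr : ∀ (p : Submodule k K1) (q : Submodule k K2),
      Module.finrank k (p.prod q) = Module.finrank k p + Module.finrank k q := by
    intro p q
    rw [← Module.finrank_prod]
    exact LinearEquiv.finrank_eq
      { toFun := fun x => (⟨x.1.1, x.2.1⟩, ⟨x.1.2, x.2.2⟩)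
        invFun := fun y => ⟨(y.1.1, y.2.1), ⟨y.1.2, y.2.2⟩⟩
        map_add' := fun _ _ => rfl
        map_smul' := fun _ _ => rfl
        left_inv := fun _ => rfl
        right_inv := fun _ => rfl }
  have e1 : hd D = hd (D1.prodMap D2) := hd_congr D (D1.prodMap D2) φ h
  have e2 := hd_add_two_range (k := k) h1
  have e3 := hd_add_two_range (k := k) h2
  have e4 := hd_add_two_range (k := k) (D := D1.prodMap D2) (fun x => by
    rw [LinearMap.prodMap_apply, LinearMap.prodMap_apply, h1, h2]; rfl)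
  have e5 : Module.finrank k (LinearMap.range (D1.prodMap D2)) =
      Module.finrank k (LinearMap.range D1) + Module.finrank k (LinearMap.range D2) := by
    rw [LinearMap.range_prodMap, hpr]
  rw [Module.finrank_prod] at e4
  omega

namespace SumD

variable {X Y Z : TOb G k} (S : SumD X Y Z)
include S

theorem hT_right (U : TOb G k) : hT U X = hT U Y + hT U Z := by
  refine hd_sum _ _ _ (S.csR U) (fun f => ?_) DC_DC DC_DC
  refine Prod.ext (Subtype.ext ?_) (Subtype.ext ?_)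
  · exact (D_p f.1 S.hp1).symm
  · exact (D_p f.1 S.hp2).symm

theorem hT_left (U : TOb G k) : hT X U = hT Y U + hT Z U := by
  refine hd_sum _ _ _ (S.csL U) (fun f => ?_) DC_DC DC_DC
  refine Prod.ext (Subtype.ext ?_) (Subtype.ext ?_)
  · exact (D_i S.hi1 f.1).symm
  · exact (D_i S.hi2 f.1).symm

theorem hD_right (U : TOb G k) : hD U X = hD U Y + hD U Z := by
  refine hd_sum _ _ _ (S.homR U) (fun f => ?_) D_D D_D
  refine Prod.ext ?_ ?_
  · exact (D_p f S.hp1).symm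
  · exact (D_p f S.hp2).symm

theorem hD_left (U : TOb G k) : hD X U = hD Y U + hD Z U := by
  refine hd_sum _ _ _ (S.homL U) (fun f => ?_) D_D D_D
  refine Prod.ext ?_ ?_
  · exact (D_i S.hi1 f).symm
  · exact (D_i S.hi2 f).symm

theorem dT_eq [DecidableEq T] (t : T) : dT X t = dT Y t + dT Z t := S.hT_left _

end SumD

/-! ### splitting of idempotents -/

section split

/-- the length zero part -/
def len0 {X Y : Gob G k} (f : X ⟶ Y) : X ⟶ Y :=
  mkH (c0 f) (cW f) (fun _ _ _ => 0) (fun _ => 0) (fun _ => 0) (fun _ => 0)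

theorem len0_comp {X Y Z : Gob G k} (f : X ⟶ Y) (g : Y ⟶ Z) :
    len0 (f ≫ g) = len0 f ≫ len0 g := by
  apply hm_ext <;> intros <;> simp [len0]

theorem len0_bar {X Y : Gob G k} (f : X ⟶ Y) : len0 (bar f) = bar (len0 f) := by
  apply hm_ext <;> intros <;> simp [len0]

/-- a family of idempotents commuting with the parity -/
structure Fam (X : Gob G k) where
  P : ∀ t, X.V t →ₗ[k] X.V t
  Q : ∀ t, X.W t →ₗ[k] X.W t
  PP : ∀ t, P t ∘ₗ P t = P t
  QQ : ∀ t, Q t ∘ₗ Q t = Q t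
  gP : ∀ t, X.gV t ∘ₗ P t = P t ∘ₗ X.gV t
  gQ : ∀ t, X.gW t ∘ₗ Q t = Q t ∘ₗ X.gW t

variable {X : Gob G k} (F : Fam X)

theorem Fam.gV_mem (t : T) : ∀ x ∈ LinearMap.range (F.P t), X.gV t x ∈ LinearMap.range (F.P t) := by
  rintro _ ⟨y, rfl⟩
  exact ⟨X.gV t y, (LinearMap.congr_fun (F.gP t) y).symm⟩

theorem Fam.gW_mem (t : T) : ∀ x ∈ LinearMap.range (F.Q t), X.gW t x ∈ LinearMap.range (F.Q t) := by
  rintro _ ⟨y, rfl⟩
  exact ⟨X.gW t y, (LinearMap.congr_fun (F.gQ t) y).symm⟩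

/-- the image object -/
def Fam.img : Gob G k where
  V t := LinearMap.range (F.P t)
  W t := LinearMap.range (F.Q t)
  gV t := (X.gV t).restrict (F.gV_mem t)
  gW t := (X.gW t).restrict (F.gW_mem t)
  gV_sq t := by
    ext x
    exact LinearMap.congr_fun (X.gV_sq t) x.1
  gW_sq t := by
    ext x
    exact LinearMap.congr_fun (X.gW_sq t) x.1

/-- the inclusion of the image -/
def Fam.inc : F.img ⟶ X :=
  mkH (X := F.img) (fun t => (LinearMap.range (F.P t)).subtype)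
    (fun t => (LinearMap.range (F.Q t)).subtype)
    (fun _ _ _ => 0) (fun _ => 0) (fun _ => 0) (fun _ => 0)

/-- the projection to the image -/
def Fam.prj : X ⟶ F.img :=
  mkH (Y := F.img) (fun t => (F.P t).rangeRestrict) (fun t => (F.Q t).rangeRestrict)
    (fun _ _ _ => 0) (fun _ => 0) (fun _ => 0) (fun _ => 0)

theorem Fam.c0_inc (t : T) : c0 F.inc t = (LinearMap.range (F.P t)).subtype := rfl
theorem Fam.cW_inc (t : T) : cW F.inc t = (LinearMap.range (F.Q t)).subtype := rfl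
@[simp] theorem Fam.c1_inc {s t : T} (a : G.E s t) : c1 F.inc a = 0 := rfl
@[simp] theorem Fam.ci_inc (t : T) : ci F.inc t = 0 := rfl
@[simp] theorem Fam.cj_inc (t : T) : cj F.inc t = 0 := rfl
@[simp] theorem Fam.c2_inc (t : T) : c2 F.inc t = 0 := rfl
theorem Fam.c0_prj (t : T) : c0 F.prj t = (F.P t).rangeRestrict := rfl
theorem Fam.cW_prj (t : T) : cW F.prj t = (F.Q t).rangeRestrict := rfl
@[simp] theorem Fam.c1_prj {s t : T} (a : G.E s t) : c1 F.prj a = 0 := rfl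
@[simp] theorem Fam.ci_prj (t : T) : ci F.prj t = 0 := rfl
@[simp] theorem Fam.cj_prj (t : T) : cj F.prj t = 0 := rfl
@[simp] theorem Fam.c2_prj (t : T) : c2 F.prj t = 0 := rfl

theorem Fam.inc_prj : F.inc ≫ F.prj = 𝟙 F.img := by
  apply hm_ext
  · intro t
    refine LinearMap.ext fun x => ?_
    obtain ⟨x, y, rfl⟩ := x
    exact Subtype.ext (LinearMap.congr_fun (F.PP t) y)
  · intro t
    refine LinearMap.ext fun x => ?_
    obtain ⟨x, y, rfl⟩ := x
    exact Subtype.ext (LinearMap.congr_fun (F.QQ t) y)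
  · intro s t a
    rw [c1_comp, Fam.c1_prj, Fam.c1_inc, LinearMap.zero_comp, LinearMap.comp_zero, add_zero]; rfl
  · intro t
    rw [ci_comp, Fam.ci_prj, Fam.ci_inc, LinearMap.zero_comp, LinearMap.comp_zero, add_zero]; rfl
  · intro t
    rw [cj_comp, Fam.cj_prj, Fam.cj_inc, LinearMap.zero_comp, LinearMap.comp_zero, add_zero]; rfl
  · intro t
    rw [c2_comp, Fam.c2_prj, Fam.c2_inc, Fam.ci_prj]
    simp only [Fam.c1_inc, LinearMap.comp_zero, LinearMap.zero_comp, Finset.sum_const_zero,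
      add_zero]
    rfl

theorem Fam.prj_inc : F.prj ≫ F.inc =
    mkH F.P F.Q (fun _ _ _ => 0) (fun _ => 0) (fun _ => 0) (fun _ => 0) := by
  apply hm_ext
  · intro t; rfl
  · intro t; rfl
  · intro s t a
    rw [c1_comp, Fam.c1_prj, Fam.c1_inc, LinearMap.zero_comp, LinearMap.comp_zero, add_zero]; rfl
  · intro t
    rw [ci_comp, Fam.ci_prj, Fam.ci_inc, LinearMap.zero_comp, LinearMap.comp_zero, add_zero]; rfl
  · intro t
    rw [cj_comp, Fam.cj_prj, Fam.cj_inc, LinearMap.zero_comp, LinearMap.comp_zero, add_zero]; rfl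
  · intro t
    rw [c2_comp, Fam.c2_prj, Fam.c2_inc, Fam.ci_inc]
    simp only [Fam.c1_prj, LinearMap.comp_zero, LinearMap.zero_comp, Finset.sum_const_zero,
      add_zero]
    rfl

theorem Fam.bar_inc : bar F.inc = F.inc := by
  apply hm_ext
  · intro t
    rw [c0_bar]
    refine LinearMap.ext fun x => ?_
    exact LinearMap.congr_fun (X.gV_sq t) x.1
  · intro t
    rw [cW_bar]
    refine LinearMap.ext fun x => ?_
    exact LinearMap.congr_fun (X.gW_sq t) x.1
  · intro s t a; rw [c1_bar, Fam.c1_inc, LinearMap.zero_comp, LinearMap.comp_zero]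
  · intro t; rw [ci_bar, Fam.ci_inc, LinearMap.zero_comp, LinearMap.comp_zero]
  · intro t; rw [cj_bar, Fam.cj_inc, LinearMap.zero_comp, LinearMap.comp_zero]
  · intro t; rw [c2_bar, Fam.c2_inc, LinearMap.zero_comp, LinearMap.comp_zero]

theorem Fam.bar_prj : bar F.prj = F.prj := by
  apply hm_ext
  · intro t
    rw [c0_bar]
    refine LinearMap.ext fun x => Subtype.ext ?_
    change X.gV t (F.P t (X.gV t x)) = F.P t x
    have h1 : X.gV t (F.P t (X.gV t x)) = F.P t (X.gV t (X.gV t x)) :=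
      LinearMap.congr_fun (F.gP t) (X.gV t x)
    have h2 : X.gV t (X.gV t x) = x := LinearMap.congr_fun (X.gV_sq t) x
    rw [h1, h2]
  · intro t
    rw [cW_bar]
    refine LinearMap.ext fun x => Subtype.ext ?_
    change X.gW t (F.Q t (X.gW t x)) = F.Q t x
    have h1 : X.gW t (F.Q t (X.gW t x)) = F.Q t (X.gW t (X.gW t x)) :=
      LinearMap.congr_fun (F.gQ t) (X.gW t x)
    have h2 : X.gW t (X.gW t x) = x := LinearMap.congr_fun (X.gW_sq t) x
    rw [h1, h2]
  · intro s t a; rw [c1_bar, Fam.c1_prj, LinearMap.zero_comp, LinearMap.comp_zero]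
  · intro t; rw [ci_bar, Fam.ci_prj, LinearMap.zero_comp, LinearMap.comp_zero]
  · intro t; rw [cj_bar, Fam.cj_prj, LinearMap.zero_comp, LinearMap.comp_zero]
  · intro t; rw [c2_bar, Fam.c2_prj, LinearMap.zero_comp, LinearMap.comp_zero]

/-- the family of an even idempotent -/
def famOf (e : X ⟶ X) (he : e ≫ e = e) (hb : bar e = e) : Fam X where
  P := c0 e
  Q := cW e
  PP t := congrArg (fun f => c0 f t) he
  QQ t := congrArg (fun f => cW f t) he
  gP t := by
    have h1 : X.gV t ∘ₗ c0 e t ∘ₗ X.gV t = c0 e t := by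
      rw [← c0_bar, hb]
    calc X.gV t ∘ₗ c0 e t = X.gV t ∘ₗ (X.gV t ∘ₗ c0 e t ∘ₗ X.gV t) := by rw [h1]
      _ = (X.gV t ∘ₗ X.gV t) ∘ₗ c0 e t ∘ₗ X.gV t := by rw [LinearMap.comp_assoc]
      _ = c0 e t ∘ₗ X.gV t := by rw [X.gV_sq, LinearMap.id_comp]
  gQ t := by
    have h1 : X.gW t ∘ₗ cW e t ∘ₗ X.gW t = cW e t := by
      rw [← cW_bar, hb]
    calc X.gW t ∘ₗ cW e t = X.gW t ∘ₗ (X.gW t ∘ₗ cW e t ∘ₗ X.gW t) := by rw [h1]
      _ = (X.gW t ∘ₗ X.gW t) ∘ₗ cW e t ∘ₗ X.gW t := by rw [LinearMap.comp_assoc]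
      _ = cW e t ∘ₗ X.gW t := by rw [X.gW_sq, LinearMap.id_comp]

theorem famOf_prj_inc (e : X ⟶ X) (he : e ≫ e = e) (hb : bar e = e) :
    (famOf e he hb).prj ≫ (famOf e he hb).inc = len0 e := (famOf e he hb).prj_inc

/-- length at least one -/
def L1 {X Y : Gob G k} (f : X ⟶ Y) : Prop := (∀ t, c0 f t = 0) ∧ ∀ t, cW f t = 0

theorem L1_three {m : X ⟶ X} (h : L1 m) : m ≫ m ≫ m = 0 := by
  apply hm_ext
  · intro t; simp [h.1]
  · intro t; simp [h.2]
  · intro s t a; simp [h.1]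
  · intro t; simp [h.1, h.2]
  · intro t; simp [h.1, h.2]
  · intro t; simp [h.1, h.2]

/-- `1 + (length ≥ 1)` is invertible. -/
theorem L1_inv {m : X ⟶ X} (h : L1 m) :
    (𝟙 X + m) ≫ (𝟙 X - m + m ≫ m) = 𝟙 X ∧ (𝟙 X - m + m ≫ m) ≫ (𝟙 X + m) = 𝟙 X := by
  have h3 := L1_three h
  have h3' : (m ≫ m) ≫ m = 0 := by rw [Category.assoc]; exact h3
  constructor
  · simp only [Preadditive.add_comp, Preadditive.comp_add, Preadditive.comp_sub,
      Category.id_comp, Category.comp_id, h3]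
    abel
  · simp only [Preadditive.add_comp, Preadditive.comp_add, Preadditive.sub_comp,
      Category.id_comp, Category.comp_id, h3']
    abel

/-- the conjugating element -/
theorem exists_conj (e : X ⟶ X) (he : e ≫ e = e) (hb : bar e = e) :
    ∃ u v : X ⟶ X, u ≫ v = 𝟙 X ∧ v ≫ u = 𝟙 X ∧ bar u = u ∧ bar v = v ∧
      u ≫ len0 e = e ≫ u ∧ L1 (u - 𝟙 X) ∧ L1 (v - 𝟙 X) := by
  have he0 : len0 e ≫ len0 e = len0 e := by rw [← len0_comp, he]
  have hb0 : bar (len0 e) = len0 e := by rw [← len0_bar, hb]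
  set u := e ≫ len0 e + (𝟙 X - e) ≫ (𝟙 X - len0 e) with hu
  have hPP : ∀ t, c0 e t ∘ₗ c0 e t = c0 e t := fun t => congrArg (fun f => c0 f t) he
  have hQQ : ∀ t, cW e t ∘ₗ cW e t = cW e t := fun t => congrArg (fun f => cW f t) he
  have hm : L1 (u - 𝟙 X) := by
    constructor
    · intro t
      simp only [hu, c0_sub, c0_add, c0_comp, len0, c0_mkH, c0_id, hPP, LinearMap.sub_comp,
        LinearMap.comp_sub, LinearMap.id_comp, LinearMap.comp_id]
      abel
    · intro t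
      simp only [hu, cW_sub, cW_add, cW_comp, len0, cW_mkH, cW_id, hQQ, LinearMap.sub_comp,
        LinearMap.comp_sub, LinearMap.id_comp, LinearMap.comp_id]
      abel
  have hbu : bar u = u := by
    simp only [hu, bar_add, bar_comp, bar_sub, bar_id, hb, hb0]
  obtain ⟨h1, h2⟩ := L1_inv hm
  set m := u - 𝟙 X with hmdef
  have hum : 𝟙 X + m = u := by rw [hmdef]; abel
  rw [hum] at h1 h2
  have hbm : bar m = m := by rw [hmdef, bar_sub, bar_id, hbu]
  refine ⟨u, 𝟙 X - m + m ≫ m, h1, h2, hbu, ?_, ?_, hm, ?_⟩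
  · rw [bar_add, bar_sub, bar_comp, bar_id, hbm]
  · have e1 : (𝟙 X - e) ≫ (𝟙 X - len0 e) ≫ len0 e = 0 := by
      rw [Preadditive.sub_comp (𝟙 X) (len0 e) (len0 e), Category.id_comp, he0, sub_self,
        Limits.comp_zero]
    have e2 : e ≫ (𝟙 X - e) = 0 := by
      rw [Preadditive.comp_sub, Category.comp_id, he, sub_self]
    rw [hu, Preadditive.add_comp, Category.assoc, he0, Category.assoc, e1, add_zero,
      Preadditive.comp_add, ← Category.assoc e e, he, ← Category.assoc e (𝟙 X - e), e2,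
      Limits.zero_comp, add_zero]
  · constructor
    · intro t
      have := hm.1 t
      simp [this]
    · intro t
      have := hm.2 t
      simp [this]

end split

/-- the T-framed object cut out of `Y` by even maps `i : A → Y`, `p : Y → A` with `i p = 1` and `p i`
commuting with `d`. -/
def cut (Y : TOb G k) {A : Gob G k} (i : A ⟶ Y.X) (p : Y.X ⟶ A) (_ : i ≫ p = 𝟙 A)
    (hi : bar i = i) (hp : bar p = p) (hc : (p ≫ i) ≫ Y.d = Y.d ≫ p ≫ i) : TOb G k where
  X := A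
  d := i ≫ Y.d ≫ p
  dd := by
    have : (i ≫ Y.d ≫ p) ≫ i ≫ Y.d ≫ p = i ≫ Y.d ≫ ((p ≫ i) ≫ Y.d) ≫ p := by
      simp only [Category.assoc]
    rw [this, hc]
    simp
  dg := by
    have hb : bar (i ≫ Y.d ≫ p) = -(i ≫ Y.d ≫ p) := by
      simp only [bar_comp, hi, hp, TOb.bar_d, Preadditive.neg_comp, Preadditive.comp_neg]
    have h1 : gam A ≫ bar (i ≫ Y.d ≫ p) = (i ≫ Y.d ≫ p) ≫ gam A := by
      rw [bar, gam_gam_assoc]
    rw [← h1, hb, Preadditive.comp_neg]
  dW t := by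
    simp

section cutl

variable (Y : TOb G k) {A : Gob G k} (i : A ⟶ Y.X) (p : Y.X ⟶ A) (hip : i ≫ p = 𝟙 A)
    (hi : bar i = i) (hp : bar p = p) (hc : (p ≫ i) ≫ Y.d = Y.d ≫ p ≫ i)

theorem cut_i : i ∈ Z0 (cut Y i p hip hi hp hc) Y := by
  refine mem_Z0'.2 ⟨hi, ?_⟩
  change i ≫ Y.d = (i ≫ Y.d ≫ p) ≫ i
  rw [Category.assoc, Category.assoc, ← hc, ← Category.assoc, ← Category.assoc, hip,
    Category.id_comp]

theorem cut_p : p ∈ Z0 Y (cut Y i p hip hi hp hc) := by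
  refine mem_Z0'.2 ⟨hp, ?_⟩
  change p ≫ i ≫ Y.d ≫ p = Y.d ≫ p
  rw [← Category.assoc, ← Category.assoc, hc, Category.assoc, Category.assoc, hip,
    Category.comp_id]

end cutl

/-- splitting from maps. -/
theorem split_of (Y : TOb G k) (e : Y.X ⟶ Y.X) (he : e ∈ Z0 Y Y) {A1 A2 : Gob G k}
    (i1 : A1 ⟶ Y.X) (p1 : Y.X ⟶ A1) (i2 : A2 ⟶ Y.X) (p2 : Y.X ⟶ A2)
    (a1 : i1 ≫ p1 = 𝟙 A1) (a2 : p1 ≫ i1 = e) (b1 : i2 ≫ p2 = 𝟙 A2) (b2 : p2 ≫ i2 = 𝟙 Y.X - e)
    (bi1 : bar i1 = i1) (bp1 : bar p1 = p1) (bi2 : bar i2 = i2) (bp2 : bar p2 = p2) :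
    ∃ (Y1 Y2 : TOb G k) (S : SumD Y Y1 Y2), S.p1 ≫ S.i1 = e ∧ S.p2 ≫ S.i2 = 𝟙 Y.X - e ∧
      ((∀ t, c0 Y.d t = 0) → (∀ t, c0 Y1.d t = 0) ∧ ∀ t, c0 Y2.d t = 0) := by
  have hcomm : e ≫ Y.d = Y.d ≫ e := (mem_Z0'.1 he).2
  have c1 : (p1 ≫ i1) ≫ Y.d = Y.d ≫ p1 ≫ i1 := by rw [a2]; exact hcomm
  have c2 : (p2 ≫ i2) ≫ Y.d = Y.d ≫ p2 ≫ i2 := by
    rw [b2, Preadditive.sub_comp, Preadditive.comp_sub, hcomm, Category.id_comp, Category.comp_id]
  have hs : p1 ≫ i1 + p2 ≫ i2 = 𝟙 Y.X := by rw [a2, b2]; abel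
  refine ⟨cut Y i1 p1 a1 bi1 bp1 c1, cut Y i2 p2 b1 bi2 bp2 c2,
    { i1 := i1
      p1 := p1
      i2 := i2
      p2 := p2
      hi1 := cut_i Y _ _ a1 bi1 bp1 c1
      hp1 := cut_p Y _ _ a1 bi1 bp1 c1
      hi2 := cut_i Y _ _ b1 bi2 bp2 c2
      hp2 := cut_p Y _ _ b1 bi2 bp2 c2
      i1p1 := a1
      i2p2 := b1
      sum := hs }, a2, b2, ?_⟩
  intro h0
  constructor
  · intro t
    change c0 (i1 ≫ Y.d ≫ p1) t = 0
    rw [c0_comp, c0_comp, h0, LinearMap.comp_zero, LinearMap.zero_comp]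
  · intro t
    change c0 (i2 ≫ Y.d ≫ p2) t = 0
    rw [c0_comp, c0_comp, h0, LinearMap.comp_zero, LinearMap.zero_comp]

/-- the maps of a splitting -/
theorem exists_maps (X : Gob G k) (f : X ⟶ X) (hf : f ≫ f = f) (hb : bar f = f) (u v : X ⟶ X)
    (huv : u ≫ v = 𝟙 X) (hvu : v ≫ u = 𝟙 X) (hbu : bar u = u) (hbv : bar v = v)
    (hu : u ≫ len0 f = f ≫ u) :
    ∃ (A : Gob G k) (i : A ⟶ X) (p : X ⟶ A), i ≫ p = 𝟙 A ∧ p ≫ i = f ∧ bar i = i ∧ bar p = p := by
  refine ⟨(famOf f hf hb).img, (famOf f hf hb).inc ≫ v, u ≫ (famOf f hf hb).prj, ?_, ?_, ?_, ?_⟩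
  · rw [Category.assoc, ← Category.assoc v, hvu, Category.id_comp, Fam.inc_prj]
  · rw [Category.assoc, ← Category.assoc _ _ v, famOf_prj_inc, ← Category.assoc, hu,
      Category.assoc, huv, Category.comp_id]
  · rw [bar_comp, Fam.bar_inc, hbv]
  · rw [bar_comp, Fam.bar_prj, hbu]

/-- **an idempotent even cocycle splits**; the summands are minimal if `Y` is. -/
theorem exists_split (Y : TOb G k) (e : Y.X ⟶ Y.X) (he : e ∈ Z0 Y Y) (hee : e ≫ e = e) :
    ∃ (Y1 Y2 : TOb G k) (S : SumD Y Y1 Y2), S.p1 ≫ S.i1 = e ∧ S.p2 ≫ S.i2 = 𝟙 Y.X - e ∧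
      ((∀ t, c0 Y.d t = 0) → (∀ t, c0 Y1.d t = 0) ∧ ∀ t, c0 Y2.d t = 0) := by
  obtain ⟨u, v, huv, hvu, hbu, hbv, hue, -, -⟩ := exists_conj e hee he.1
  have he' : (𝟙 Y.X - e) ∈ Z0 Y Y := Submodule.sub_mem _ (id_mem Y) he
  have hee' : (𝟙 Y.X - e) ≫ (𝟙 Y.X - e) = 𝟙 Y.X - e := by
    simp only [Preadditive.sub_comp, Preadditive.comp_sub, Category.id_comp, Category.comp_id, hee]
    abel
  have hlen : len0 (𝟙 Y.X - e) = 𝟙 Y.X - len0 e := by
    apply hm_ext <;> intros <;> simp [len0]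
  have hue' : u ≫ len0 (𝟙 Y.X - e) = (𝟙 Y.X - e) ≫ u := by
    rw [hlen, Preadditive.comp_sub, Preadditive.sub_comp, Category.comp_id, Category.id_comp, hue]
  obtain ⟨A1, i1, p1, a1, a2, a3, a4⟩ := exists_maps Y.X e hee he.1 u v huv hvu hbu hbv hue
  obtain ⟨A2, i2, p2, b1, b2, b3, b4⟩ :=
    exists_maps Y.X (𝟙 Y.X - e) hee' he'.1 u v huv hvu hbu hbv hue'
  exact split_of Y e he i1 p1 i2 p2 a1 a2 b1 b2 a3 a4 b3 b4

/-! ### decompositions into indecomposables -/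

/-- the size of an object -/
noncomputable def size (X : TOb G k) : ℕ :=
  ∑ t, (Module.finrank k (X.X.V t) + Module.finrank k (X.X.W t))

theorem SumD.size_eq {X Y Z : TOb G k} (S : SumD X Y Z) : size X = size Y + size Z := by
  unfold size
  rw [← Finset.sum_add_distrib]
  refine Finset.sum_congr rfl fun t _ => ?_
  have h1 := S.finrank_V t
  have h2 := S.lam_eq t
  simp only [lam] at h2
  omega

theorem isZ_of_size {X : TOb G k} (h : size X = 0) : IsZ X := by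
  have h0 : ∀ t, Module.finrank k (X.X.V t) = 0 ∧ Module.finrank k (X.X.W t) = 0 := by
    intro t
    have := (Finset.sum_eq_zero_iff.1 h) t (Finset.mem_univ t)
    omega
  change 𝟙 X.X = 0
  apply hm_ext
  · intro t
    have := Module.finrank_zero_iff.1 (h0 t).1
    ext x
    exact Subsingleton.elim _ _
  · intro t
    have := Module.finrank_zero_iff.1 (h0 t).2
    ext x
    exact Subsingleton.elim _ _
  · intro s t a; rfl
  · intro t; rfl
  · intro t; rfl
  · intro t; rfl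

theorem size_eq_zero {X : TOb G k} (h : IsZ X) : size X = 0 := by
  refine Finset.sum_eq_zero fun t _ => ?_
  have h1 : ∀ x : X.X.V t, x = 0 := fun x => LinearMap.congr_fun (congrArg (fun f => c0 f t) h) x
  have h2 : ∀ x : X.X.W t, x = 0 := fun x => LinearMap.congr_fun (congrArg (fun f => cW f t) h) x
  have : Subsingleton (X.X.V t) := ⟨fun a b => by rw [h1 a, h1 b]⟩
  have : Subsingleton (X.X.W t) := ⟨fun a b => by rw [h2 a, h2 b]⟩
  have e1 : Module.finrank k (X.X.V t) = 0 := Module.finrank_zero_of_subsingleton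
  have e2 : Module.finrank k (X.X.W t) = 0 := Module.finrank_zero_of_subsingleton
  omega

theorem split_small {X : TOb G k} (hz : ¬ IsZ X) (hi : ¬ Ind X) :
    ∃ Y Z, ∃ _ : SumD X Y Z, size Y < size X ∧ size Z < size X ∧
      ((∀ t, c0 X.d t = 0) → (∀ t, c0 Y.d t = 0) ∧ ∀ t, c0 Z.d t = 0) := by
  have : ∃ e ∈ Z0 X X, e ≫ e = e ∧ e ≠ 0 ∧ e ≠ 𝟙 X.X := by
    by_contra hc
    push Not at hc
    apply hi
    refine ⟨hz, fun e he hee => ?_⟩
    by_cases h0 : e = 0
    · exact Or.inl h0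
    · exact Or.inr (hc e he hee h0)
  obtain ⟨e, he, hee, h0, h1⟩ := this
  obtain ⟨Y, Z, S, hY, hZ, hm⟩ := exists_split X e he hee
  have hYs : size Y ≠ 0 := by
    intro h
    apply h0
    have := isZ_of_size h
    calc e = S.p1 ≫ 𝟙 Y.X ≫ S.i1 := by rw [Category.id_comp, hY]
      _ = 0 := by rw [show 𝟙 Y.X = 0 from this, Limits.zero_comp, Limits.comp_zero]
  have hZs : size Z ≠ 0 := by
    intro h
    apply h1
    have := isZ_of_size h
    have h2 : 𝟙 X.X - e = 0 := by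
      calc 𝟙 X.X - e = S.p2 ≫ 𝟙 Z.X ≫ S.i2 := by rw [Category.id_comp, hZ]
        _ = 0 := by rw [show 𝟙 Z.X = 0 from this, Limits.zero_comp, Limits.comp_zero]
    exact (sub_eq_zero.1 h2).symm
  have hs := S.size_eq
  exact ⟨Y, Z, S, by omega, by omega, hm⟩

/-- every T-framed object is a finite direct sum of indecomposables -/
theorem exists_dec (X : TOb G k) : ∃ l, Dec IsZ Ind Sm X l :=
  KS_303.exists_dec size (fun _ hz hi => by
    obtain ⟨Y, Z, S, h1, h2, -⟩ := split_small hz hi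
    exact ⟨Y, Z, ⟨S⟩, h1, h2⟩) X

theorem hT_zero_right {X : TOb G k} (h : IsZ X) (U : TOb G k) : hT U X = 0 := by
  have hs : Subsingleton (Cs U.X X.X) := by
    refine ⟨fun a b => Subtype.ext ?_⟩
    have : ∀ f : U.X ⟶ X.X, f = 0 := fun f => by
      rw [← Category.comp_id f, show 𝟙 X.X = 0 from h, Limits.comp_zero]
    rw [this a.1, this b.1]
  have h1 := hd_add_two_range (k := k) (DC_DC (X := U) (Y := X))
  have h2 : Module.finrank k (Cs U.X X.X) = 0 := Module.finrank_zero_of_subsingleton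
  unfold hT
  omega

theorem hT_zero_left {X : TOb G k} (h : IsZ X) (U : TOb G k) : hT X U = 0 := by
  have hs : Subsingleton (Cs X.X U.X) := by
    refine ⟨fun a b => Subtype.ext ?_⟩
    have : ∀ f : X.X ⟶ U.X, f = 0 := fun f => by
      rw [← Category.id_comp f, show 𝟙 X.X = 0 from h, Limits.zero_comp]
    rw [this a.1, this b.1]
  have h1 := hd_add_two_range (k := k) (DC_DC (X := X) (Y := U))
  have h2 : Module.finrank k (Cs X.X U.X) = 0 := Module.finrank_zero_of_subsingleton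
  unfold hT
  omega

theorem hD_zero_right {X : TOb G k} (h : IsZ X) (U : TOb G k) : hD U X = 0 := by
  have hs : Subsingleton (U.X ⟶ X.X) := by
    have : ∀ f : U.X ⟶ X.X, f = 0 := fun f => by
      rw [← Category.comp_id f, show 𝟙 X.X = 0 from h, Limits.comp_zero]
    exact ⟨fun a b => by rw [this a, this b]⟩
  have h1 := hd_add_two_range (k := k) (D_D (X := U) (Y := X))
  have h2 : Module.finrank k (U.X ⟶ X.X) = 0 := Module.finrank_zero_of_subsingleton
  unfold hD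
  omega

theorem hD_zero_left {X : TOb G k} (h : IsZ X) (U : TOb G k) : hD X U = 0 := by
  have hs : Subsingleton (X.X ⟶ U.X) := by
    have : ∀ f : X.X ⟶ U.X, f = 0 := fun f => by
      rw [← Category.id_comp f, show 𝟙 X.X = 0 from h, Limits.zero_comp]
    exact ⟨fun a b => by rw [this a, this b]⟩
  have h1 := hd_add_two_range (k := k) (D_D (X := X) (Y := U))
  have h2 : Module.finrank k (X.X ⟶ U.X) = 0 := Module.finrank_zero_of_subsingleton
  unfold hD
  omega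

theorem lam_zero {X : TOb G k} (h : IsZ X) (t : T) : lam X t = 0 := by
  have := size_eq_zero h
  have := (Finset.sum_eq_zero_iff.1 this) t (Finset.mem_univ t)
  unfold lam
  omega

section additive

variable {X : TOb G k} {l : List (TOb G k)} (h : Dec IsZ Ind Sm X l)
include h

theorem dec_hT_right (U : TOb G k) : hT U X = (l.map (hT U)).sum :=
  h.map_sum (hT U) (fun _ hz => hT_zero_right hz U) (fun _ _ _ ⟨S⟩ => S.hT_right U)

theorem dec_hT_left (U : TOb G k) : hT X U = (l.map fun Y => hT Y U).sum :=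
  h.map_sum (fun Y => hT Y U) (fun _ hz => hT_zero_left hz U) (fun _ _ _ ⟨S⟩ => S.hT_left U)

theorem dec_hD_right (U : TOb G k) : hD U X = (l.map (hD U)).sum :=
  h.map_sum (hD U) (fun _ hz => hD_zero_right hz U) (fun _ _ _ ⟨S⟩ => S.hD_right U)

theorem dec_hD_left (U : TOb G k) : hD X U = (l.map fun Y => hD Y U).sum :=
  h.map_sum (fun Y => hD Y U) (fun _ hz => hD_zero_left hz U) (fun _ _ _ ⟨S⟩ => S.hD_left U)

theorem dec_lam : lam X = (l.map lam).sum :=
  h.map_sum lam (fun _ hz => funext (lam_zero hz)) (fun _ _ _ ⟨S⟩ => funext S.lam_eq)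

end additive

/-! ### minimal objects -/

section minimal

/-- a T-framed object with `c0 d = 0` as a minimal object -/
def toF (Y : TOb G k) (h : ∀ t, c0 Y.d t = 0) : FObj G k where
  X := Y.X
  B := fun a => c1 Y.d a
  i := ci Y.d
  j := cj Y.d
  e := c2 Y.d
  mc t := by
    have := congrArg (fun f => c2 f t) Y.dd
    simp only [c2_comp, h, LinearMap.zero_comp, LinearMap.comp_zero, zero_add, c2_zero] at this
    exact this
  gB {s t} a := by
    have := congrArg (fun f => c1 f a) Y.dg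
    simpa using this
  gi t := by
    have := congrArg (fun f => ci f t) Y.dg
    simpa using this
  gj t := by
    have := congrArg (fun f => cj f t) Y.dg
    simpa using this
  ge t := by
    have := congrArg (fun f => c2 f t) Y.dg
    simpa using this

theorem tOb_ext {X : Gob G k} {d d' : X ⟶ X} (h : d = d') (a : d ≫ d = 0)
    (b : d ≫ gam X = -(gam X ≫ d)) (c : ∀ t, cW d t = 0) (a' : d' ≫ d' = 0)
    (b' : d' ≫ gam X = -(gam X ≫ d')) (c' : ∀ t, cW d' t = 0) :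
    (⟨X, d, a, b, c⟩ : TOb G k) = ⟨X, d', a', b', c'⟩ := by
  subst h; rfl

theorem toF_toTOb (Y : TOb G k) (h : ∀ t, c0 Y.d t = 0) : (toF Y h).toTOb = Y := by
  obtain ⟨X, d, dd, dg, dW⟩ := Y
  have : (toF ⟨X, d, dd, dg, dW⟩ h).dm = d := by
    apply hm_ext
    · intro t; exact (h t).symm
    · intro t; exact (dW t).symm
    · intro s t a; rfl
    · intro t; rfl
    · intro t; rfl
    · intro t; rfl
  exact tOb_ext this _ _ _ _ _ _

/-- every minimal object is a finite direct sum of minimal indecomposable objects -/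
theorem exists_decF (X : FObj G k) :
    ∃ l : List (FObj G k), Dec (fun X : FObj G k => IsZ X.toTOb) (fun X => Ind X.toTOb)
      (fun X Y Z => Sm X.toTOb Y.toTOb Z.toTOb) X l := by
  refine KS_303.exists_dec (fun X : FObj G k => size X.toTOb) (fun X hz hi => ?_) X
  obtain ⟨Y, Z, S, h1, h2, h3⟩ := split_small hz hi
  obtain ⟨hY, hZ⟩ := h3 (fun t => rfl)
  refine ⟨toF Y hY, toF Z hZ, ?_, ?_, ?_⟩
  · rw [toF_toTOb, toF_toTOb]; exact ⟨S⟩
  · rw [toF_toTOb]; exact h1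
  · rw [toF_toTOb]; exact h2

/-- from minimal objects to objects -/
theorem dec_of_decF {X : FObj G k} {l : List (FObj G k)}
    (h : Dec (fun X : FObj G k => IsZ X.toTOb) (fun X => Ind X.toTOb)
      (fun X Y Z => Sm X.toTOb Y.toTOb Z.toTOb) X l) :
    Dec IsZ Ind Sm X.toTOb (l.map FObj.toTOb) := by
  induction h with
  | zero h => exact Dec.zero h
  | ind h => exact Dec.ind h
  | sum h _ _ ih1 ih2 =>
    rw [List.map_append]
    exact Dec.sum h ih1 ih2

end minimal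

end Crest.Agent.R175.KSb_303
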