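import Crest.Agent.R175.PTC_450

/-!
# T-framed objects (row 175, helper450): shift, direct sum, cone
-/

set_option autoImplicit false
set_option linter.unusedSectionVars false
set_option linter.unusedVariables false
set_option linter.unusedSimpArgs false

open CategoryTheory Module LinearMap

namespace Crest.Agent.R175.PTA

universe u v

variable {T : Type u} {G : MG T} {k : Type v} [Field k]

/-! ### direct sum in `Gob` -/

/-- direct sum of graded objects -/
@[reducible] def gsum (X Y : Gob G k) : Gob G k where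
  V t := X.V t × Y.V t
  W t := X.W t × Y.W t
  gV t := (X.gV t).prodMap (Y.gV t)
  gW t := (X.gW t).prodMap (Y.gW t)
  gV_sq t := by
    apply LinearMap.ext
    rintro ⟨x, y⟩
    exact Prod.ext (LinearMap.congr_fun (X.gV_sq t) x) (LinearMap.congr_fun (Y.gV_sq t) y)
  gW_sq t := by
    apply LinearMap.ext
    rintro ⟨x, y⟩
    exact Prod.ext (LinearMap.congr_fun (X.gW_sq t) x) (LinearMap.congr_fun (Y.gW_sq t) y)

/-- inclusion -/
def inl (X Y : Gob G k) : X ⟶ gsum X Y :=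
  mkH (fun t => LinearMap.inl k (X.V t) (Y.V t)) (fun t => LinearMap.inl k (X.W t) (Y.W t))
    (fun _ _ _ => 0) (fun _ => 0) (fun _ => 0) (fun _ => 0)

/-- inclusion -/
def inr (X Y : Gob G k) : Y ⟶ gsum X Y :=
  mkH (fun t => LinearMap.inr k (X.V t) (Y.V t)) (fun t => LinearMap.inr k (X.W t) (Y.W t))
    (fun _ _ _ => 0) (fun _ => 0) (fun _ => 0) (fun _ => 0)

/-- projection -/
def fst (X Y : Gob G k) : gsum X Y ⟶ X :=
  mkH (fun t => LinearMap.fst k (X.V t) (Y.V t)) (fun t => LinearMap.fst k (X.W t) (Y.W t))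
    (fun _ _ _ => 0) (fun _ => 0) (fun _ => 0) (fun _ => 0)

/-- projection -/
def snd (X Y : Gob G k) : gsum X Y ⟶ Y :=
  mkH (fun t => LinearMap.snd k (X.V t) (Y.V t)) (fun t => LinearMap.snd k (X.W t) (Y.W t))
    (fun _ _ _ => 0) (fun _ => 0) (fun _ => 0) (fun _ => 0)

section simps
variable (X Y : Gob G k) (t : T) {s : T} (a : G.E s t)
@[simp] theorem c0_inl : c0 (inl X Y) t = LinearMap.inl k (X.V t) (Y.V t) := rfl
@[simp] theorem cW_inl : cW (inl X Y) t = LinearMap.inl k (X.W t) (Y.W t) := rfl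
@[simp] theorem c1_inl : c1 (inl X Y) a = 0 := rfl
@[simp] theorem ci_inl : ci (inl X Y) t = 0 := rfl
@[simp] theorem cj_inl : cj (inl X Y) t = 0 := rfl
@[simp] theorem c2_inl : c2 (inl X Y) t = 0 := rfl
@[simp] theorem c0_inr : c0 (inr X Y) t = LinearMap.inr k (X.V t) (Y.V t) := rfl
@[simp] theorem cW_inr : cW (inr X Y) t = LinearMap.inr k (X.W t) (Y.W t) := rfl
@[simp] theorem c1_inr : c1 (inr X Y) a = 0 := rfl
@[simp] theorem ci_inr : ci (inr X Y) t = 0 := rfl
@[simp] theorem cj_inr : cj (inr X Y) t = 0 := rfl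
@[simp] theorem c2_inr : c2 (inr X Y) t = 0 := rfl
@[simp] theorem c0_fst : c0 (fst X Y) t = LinearMap.fst k (X.V t) (Y.V t) := rfl
@[simp] theorem cW_fst : cW (fst X Y) t = LinearMap.fst k (X.W t) (Y.W t) := rfl
@[simp] theorem c1_fst : c1 (fst X Y) a = 0 := rfl
@[simp] theorem ci_fst : ci (fst X Y) t = 0 := rfl
@[simp] theorem cj_fst : cj (fst X Y) t = 0 := rfl
@[simp] theorem c2_fst : c2 (fst X Y) t = 0 := rfl
@[simp] theorem c0_snd : c0 (snd X Y) t = LinearMap.snd k (X.V t) (Y.V t) := rfl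
@[simp] theorem cW_snd : cW (snd X Y) t = LinearMap.snd k (X.W t) (Y.W t) := rfl
@[simp] theorem c1_snd : c1 (snd X Y) a = 0 := rfl
@[simp] theorem ci_snd : ci (snd X Y) t = 0 := rfl
@[simp] theorem cj_snd : cj (snd X Y) t = 0 := rfl
@[simp] theorem c2_snd : c2 (snd X Y) t = 0 := rfl
end simps

variable [Fintype T]

theorem gVgV {T : Type u} {G : MG T} (X : Gob G k) (t : T) (x : X.V t) :
    X.gV t (X.gV t x) = x := LinearMap.congr_fun (X.gV_sq t) x

theorem gWgW {T : Type u} {G : MG T} (X : Gob G k) (t : T) (x : X.W t) :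
    X.gW t (X.gW t x) = x := LinearMap.congr_fun (X.gW_sq t) x

section sumlemmas

variable (X Y : Gob G k)

@[simp] theorem inl_fst : inl X Y ≫ fst X Y = 𝟙 X := by
  apply hm_ext <;> intros <;> simp
@[simp] theorem inl_snd : inl X Y ≫ snd X Y = 0 := by
  apply hm_ext <;> intros <;> simp
@[simp] theorem inr_fst : inr X Y ≫ fst X Y = 0 := by
  apply hm_ext <;> intros <;> simp
@[simp] theorem inr_snd : inr X Y ≫ snd X Y = 𝟙 Y := by
  apply hm_ext <;> intros <;> simp
theorem sum_one : fst X Y ≫ inl X Y + snd X Y ≫ inr X Y = 𝟙 (gsum X Y) := by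
  apply hm_ext
  · intro t
    apply LinearMap.ext
    rintro ⟨x, y⟩
    simp
  · intro t
    apply LinearMap.ext
    rintro ⟨x, y⟩
    simp
  all_goals intros; simp

@[simp] theorem bar_inl : bar (inl X Y) = inl X Y := by
  apply hm_ext
  · intro t
    apply LinearMap.ext
    intro x
    simp [gVgV]
  · intro t
    apply LinearMap.ext
    intro x
    simp [gWgW]
  all_goals intros; simp

@[simp] theorem bar_inr : bar (inr X Y) = inr X Y := by
  apply hm_ext
  · intro t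
    apply LinearMap.ext
    intro x
    simp [gVgV]
  · intro t
    apply LinearMap.ext
    intro x
    simp [gWgW]
  all_goals intros; simp

@[simp] theorem bar_fst : bar (fst X Y) = fst X Y := by
  apply hm_ext
  · intro t
    apply LinearMap.ext
    rintro ⟨x, y⟩
    simp [gVgV]
  · intro t
    apply LinearMap.ext
    rintro ⟨x, y⟩
    simp [gWgW]
  all_goals intros; simp

@[simp] theorem bar_snd : bar (snd X Y) = snd X Y := by
  apply hm_ext
  · intro t
    apply LinearMap.ext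
    rintro ⟨x, y⟩
    simp [gVgV]
  · intro t
    apply LinearMap.ext
    rintro ⟨x, y⟩
    simp [gWgW]
  all_goals intros; simp

variable {X Y} {Z : Gob G k}

@[simp] theorem inl_fst_assoc (f : X ⟶ Z) : inl X Y ≫ fst X Y ≫ f = f := by
  rw [← Category.assoc, inl_fst, Category.id_comp]
@[simp] theorem inl_snd_assoc (f : Y ⟶ Z) : inl X Y ≫ snd X Y ≫ f = 0 := by
  rw [← Category.assoc, inl_snd, Limits.zero_comp]
@[simp] theorem inr_fst_assoc (f : X ⟶ Z) : inr X Y ≫ fst X Y ≫ f = 0 := by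
  rw [← Category.assoc, inr_fst, Limits.zero_comp]
@[simp] theorem inr_snd_assoc (f : Y ⟶ Z) : inr X Y ≫ snd X Y ≫ f = f := by
  rw [← Category.assoc, inr_snd, Category.id_comp]

end sumlemmas

/-- `bar d = -d` implies `d γ = - γ d` -/
theorem dg_of_bar {X : Gob G k} {d : X ⟶ X} (h : bar d = -d) :
    d ≫ gam X = -(gam X ≫ d) := by
  rw [bar] at h
  calc d ≫ gam X = gam X ≫ (gam X ≫ d ≫ gam X) := by simp
    _ = _ := by rw [h, Preadditive.comp_neg]

/-! ### cone of an odd closed map -/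

theorem cone_dd_aux {A B Z : Gob G k} {i1 : A ⟶ Z} {i2 : B ⟶ Z} {p1 : Z ⟶ A} {p2 : Z ⟶ B}
    (h11 : i1 ≫ p1 = 𝟙 A) (h12 : i1 ≫ p2 = 0) (h21 : i2 ≫ p1 = 0) (h22 : i2 ≫ p2 = 𝟙 B)
    {a : A ⟶ A} {b : B ⟶ B} {g : A ⟶ B} (ha : a ≫ a = 0) (hb : b ≫ b = 0)
    (hg : a ≫ g + g ≫ b = 0) :
    (p1 ≫ a ≫ i1 + p2 ≫ b ≫ i2 + p1 ≫ g ≫ i2) ≫
      (p1 ≫ a ≫ i1 + p2 ≫ b ≫ i2 + p1 ≫ g ≫ i2) = 0 := by
  have e1 : ∀ {W : Gob G k} (f : A ⟶ W), i1 ≫ p1 ≫ f = f := fun f => by
    rw [← Category.assoc, h11, Category.id_comp]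
  have e2 : ∀ {W : Gob G k} (f : B ⟶ W), i1 ≫ p2 ≫ f = 0 := fun f => by
    rw [← Category.assoc, h12, Limits.zero_comp]
  have e3 : ∀ {W : Gob G k} (f : A ⟶ W), i2 ≫ p1 ≫ f = 0 := fun f => by
    rw [← Category.assoc, h21, Limits.zero_comp]
  have e4 : ∀ {W : Gob G k} (f : B ⟶ W), i2 ≫ p2 ≫ f = f := fun f => by
    rw [← Category.assoc, h22, Category.id_comp]
  have e5 : ∀ {W : Gob G k} (f : A ⟶ W), a ≫ a ≫ f = 0 := fun f => by
    rw [← Category.assoc, ha, Limits.zero_comp]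
  have e6 : ∀ {W : Gob G k} (f : B ⟶ W), b ≫ b ≫ f = 0 := fun f => by
    rw [← Category.assoc, hb, Limits.zero_comp]
  simp only [Preadditive.add_comp, Preadditive.comp_add, Category.assoc, e1, e2, e3, e4, e5,
    e6, Limits.comp_zero, add_zero, zero_add]
  have h2 : p1 ≫ (a ≫ g + g ≫ b) ≫ i2 = 0 := by
    rw [hg, Limits.zero_comp, Limits.comp_zero]
  rw [add_comm]
  simpa only [Preadditive.add_comp, Preadditive.comp_add, Category.assoc] using h2

/-- the cone of an odd closed map `g : X → Y` without frame-frame component -/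
@[reducible] def cone {X Y : TOb G k} (g : X.X ⟶ Y.X) (hb : bar g = -g)
    (hc : D X Y g = 0) (hW : ∀ t, cW g t = 0) : TOb G k where
  X := gsum X.X Y.X
  d := fst X.X Y.X ≫ X.d ≫ inl X.X Y.X + snd X.X Y.X ≫ Y.d ≫ inr X.X Y.X
    + fst X.X Y.X ≫ g ≫ inr X.X Y.X
  dd := by
    have h : X.d ≫ g + g ≫ Y.d = 0 := by
      rw [D_apply, hb, Preadditive.comp_neg, sub_neg_eq_add, add_comm] at hc
      exact hc
    exact cone_dd_aux (inl_fst _ _) (inl_snd _ _) (inr_fst _ _) (inr_snd _ _) X.dd Y.dd h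
  dg := by
    apply dg_of_bar
    rw [bar_add, bar_add, bar_comp, bar_comp, bar_comp, bar_comp, bar_comp, bar_comp,
      bar_fst, bar_snd, bar_inl, bar_inr, X.bar_d, Y.bar_d, hb]
    simp only [Preadditive.neg_comp, Preadditive.comp_neg]
    abel
  dW t := by simp [hW t]

section coneLemmas

variable {X Y : TOb G k} (g : X.X ⟶ Y.X) (hb : bar g = -g)
    (hc : D X Y g = 0) (hW : ∀ t, cW g t = 0)

theorem cone_d : (cone g hb hc hW).d = fst X.X Y.X ≫ X.d ≫ inl X.X Y.X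
    + snd X.X Y.X ≫ Y.d ≫ inr X.X Y.X + fst X.X Y.X ≫ g ≫ inr X.X Y.X := rfl

/-- the cone as an extension `Y → cone g → X` -/
@[reducible] def coneExt : Ext Y (cone g hb hc hW) X 1 1 where
  i := inr X.X Y.X
  p := fst X.X Y.X
  r := snd X.X Y.X
  σ := inl X.X Y.X
  hβ := one_mul 1
  hα := one_mul 1
  hi := by rw [bar_inr, one_smul]
  hp := by rw [bar_fst, one_smul]
  hr := by rw [bar_snd, one_smul]
  hσ := by rw [bar_inl, one_smul]
  Di := by
    rw [D_apply, cone_d, bar_inr]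
    simp [Preadditive.comp_add]
  Dp := by
    rw [D_apply, cone_d, bar_fst]
    simp [Preadditive.add_comp]
  ir := by simp
  σp := by simp
  ip := by simp
  σr := by simp
  one := by rw [add_comm]; exact sum_one _ _

theorem coneExt_g : (coneExt g hb hc hW).g = g := by
  change inl X.X Y.X ≫ (fst X.X Y.X ≫ X.d ≫ inl X.X Y.X
    + snd X.X Y.X ≫ Y.d ≫ inr X.X Y.X + fst X.X Y.X ≫ g ≫ inr X.X Y.X) ≫ snd X.X Y.X = g
  simp [Preadditive.comp_add, Preadditive.add_comp]

theorem lam_cone (t : T) : lam (cone g hb hc hW) t = lam X t + lam Y t :=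
  Module.finrank_prod

theorem hT_cone_right (Z : TOb G k) :
    hT Z (cone g hb hc hW) ≤ hT Z X + hT Z Y := by
  have := (coneExt g hb hc hW).h_right_le (Idl.CsI G k) Z
  rw [add_comm] at this
  exact this

theorem hT_cone_left (Z : TOb G k) :
    hT (cone g hb hc hW) Z ≤ hT X Z + hT Y Z :=
  (coneExt g hb hc hW).h_left_le (Idl.CsI G k) Z

theorem hD_cone_right (Z : TOb G k) :
    hD Z (cone g hb hc hW) ≤ hD Z X + hD Z Y := by
  rw [Idl.hD_eq, Idl.hD_eq, Idl.hD_eq, add_comm]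
  exact (coneExt g hb hc hW).h_right_le (Idl.full G k) Z

theorem hD_cone_left (Z : TOb G k) :
    hD (cone g hb hc hW) Z ≤ hD X Z + hD Y Z := by
  rw [Idl.hD_eq, Idl.hD_eq, Idl.hD_eq]
  exact (coneExt g hb hc hW).h_left_le (Idl.full G k) Z

/-- strict: `f g` is not a coboundary for some closed `f : Z → X` (full Hom) -/
theorem hD_cone_right_lt (Z : TOb G k) (f : Z.X ⟶ X.X) (hf : D Z X f = 0)
    (hno : ∀ y : Z.X ⟶ Y.X, D Z Y y ≠ f ≫ g) :
    hD Z (cone g hb hc hW) + 2 ≤ hD Z X + hD Z Y := by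
  rw [Idl.hD_eq, Idl.hD_eq, Idl.hD_eq, add_comm ((Idl.full G k).h Z X)]
  refine (coneExt g hb hc hW).h_right_lt (Idl.full G k) Z ⟨f, trivial⟩ hf ?_
  intro y
  rw [coneExt_g]
  exact hno y.1

/-- strict: `g f` is not a coboundary for some closed `f : Y → Z` (full Hom) -/
theorem hD_cone_left_lt (Z : TOb G k) (f : Y.X ⟶ Z.X) (hf : D Y Z f = 0)
    (hno : ∀ y : X.X ⟶ Z.X, D X Z y ≠ g ≫ f) :
    hD (cone g hb hc hW) Z + 2 ≤ hD X Z + hD Y Z := by
  rw [Idl.hD_eq, Idl.hD_eq, Idl.hD_eq]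
  refine (coneExt g hb hc hW).h_left_lt (Idl.full G k) Z ⟨f, trivial⟩ hf ?_
  intro y
  rw [coneExt_g]
  exact hno y.1

/-- strict, separate frames -/
theorem hT_cone_right_lt (Z : TOb G k) (f : Z.X ⟶ X.X) (hfW : ∀ t, cW f t = 0)
    (hf : D Z X f = 0)
    (hno : ∀ y : Z.X ⟶ Y.X, (∀ t, cW y t = 0) → D Z Y y ≠ f ≫ g) :
    hT Z (cone g hb hc hW) + 2 ≤ hT Z X + hT Z Y := by
  rw [add_comm (hT Z X)]
  refine (coneExt g hb hc hW).h_right_lt (Idl.CsI G k) Z ⟨f, hfW⟩ hf ?_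
  intro y
  rw [coneExt_g]
  exact hno y.1 y.2

/-- strict, separate frames -/
theorem hT_cone_left_lt (Z : TOb G k) (f : Y.X ⟶ Z.X) (hfW : ∀ t, cW f t = 0)
    (hf : D Y Z f = 0)
    (hno : ∀ y : X.X ⟶ Z.X, (∀ t, cW y t = 0) → D X Z y ≠ g ≫ f) :
    hT (cone g hb hc hW) Z + 2 ≤ hT X Z + hT Y Z := by
  refine (coneExt g hb hc hW).h_left_lt (Idl.CsI G k) Z ⟨f, hfW⟩ hf ?_
  intro y
  rw [coneExt_g]
  exact hno y.1 y.2

end coneLemmas

/-! ### direct sum -/

section dsum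

theorem D_zero' (X Y : TOb G k) : D X Y (0 : X.X ⟶ Y.X) = 0 := map_zero _

/-- direct sum (the cone of `0`) -/
@[reducible] def dsum (X Y : TOb G k) : TOb G k :=
  cone (X := X) (Y := Y) 0 (by simp) (D_zero' X Y) (fun t => rfl)

/-- the direct sum as an extension -/
@[reducible] def dsumExt (X Y : TOb G k) : Ext Y (dsum X Y) X 1 1 :=
  coneExt (X := X) (Y := Y) 0 (by simp) (D_zero' X Y) (fun t => rfl)

variable (X Y Z : TOb G k)

theorem dsum_d : (dsum X Y).d = fst X.X Y.X ≫ X.d ≫ inl X.X Y.X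
    + snd X.X Y.X ≫ Y.d ≫ inr X.X Y.X := by
  rw [cone_d, Limits.zero_comp, Limits.comp_zero, add_zero]

theorem dsumExt_g : (dsumExt X Y).g = 0 := coneExt_g ..

theorem lam_dsum (t : T) : lam (dsum X Y) t = lam X t + lam Y t := lam_cone ..

theorem h_dsum_right (J : Idl G k) : J.h Z (dsum X Y) = J.h Z X + J.h Z Y := by
  rw [(dsumExt X Y).h_right_eq J Z, add_comm]
  intro f _
  exact ⟨0, by rw [dsumExt_g, Limits.comp_zero]; exact map_zero _⟩

theorem h_dsum_left (J : Idl G k) : J.h (dsum X Y) Z = J.h X Z + J.h Y Z := by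
  rw [(dsumExt X Y).h_left_eq J Z]
  intro f _
  exact ⟨0, by rw [dsumExt_g, Limits.zero_comp]; exact map_zero _⟩

theorem hT_dsum_right : hT Z (dsum X Y) = hT Z X + hT Z Y := h_dsum_right X Y Z (Idl.CsI G k)

theorem hT_dsum_left : hT (dsum X Y) Z = hT X Z + hT Y Z := h_dsum_left X Y Z (Idl.CsI G k)

theorem hD_dsum_right : hD Z (dsum X Y) = hD Z X + hD Z Y := by
  rw [Idl.hD_eq, Idl.hD_eq, Idl.hD_eq]; exact h_dsum_right X Y Z (Idl.full G k)

theorem hD_dsum_left : hD (dsum X Y) Z = hD X Z + hD Y Z := by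
  rw [Idl.hD_eq, Idl.hD_eq, Idl.hD_eq]; exact h_dsum_left X Y Z (Idl.full G k)

theorem dT_dsum [DecidableEq T] (t : T) : dT (dsum X Y) t = dT X t + dT Y t :=
  hT_dsum_left X Y _

end dsum

/-! ### shift of the parity -/

/-- parity shift in `Gob` -/
@[reducible] def gsh {T : Type u} {G : MG T} (X : Gob G k) : Gob G k where
  V := X.V
  W := X.W
  gV t := -X.gV t
  gW t := -X.gW t
  gV_sq t := by
    apply LinearMap.ext; intro x
    have := LinearMap.congr_fun (X.gV_sq t) x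
    simpa using this
  gW_sq t := by
    apply LinearMap.ext; intro x
    have := LinearMap.congr_fun (X.gW_sq t) x
    simpa using this

/-- the odd isomorphism `X → sh X` -/
def toSh {T : Type u} {G : MG T} (X : Gob G k) : X ⟶ gsh X :=
  mkH (fun t => (LinearMap.id : X.V t →ₗ[k] X.V t))
    (fun t => (LinearMap.id : X.W t →ₗ[k] X.W t))
    (fun _ _ _ => 0) (fun _ => 0) (fun _ => 0) (fun _ => 0)

/-- the odd isomorphism `sh X → X` -/
def ofSh {T : Type u} {G : MG T} (X : Gob G k) : gsh X ⟶ X :=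
  mkH (fun t => (LinearMap.id : X.V t →ₗ[k] X.V t))
    (fun t => (LinearMap.id : X.W t →ₗ[k] X.W t))
    (fun _ _ _ => 0) (fun _ => 0) (fun _ => 0) (fun _ => 0)

section shsimps
variable (X : Gob G k) (t : T) {s : T} (a : G.E s t)
theorem c0_toSh : c0 (toSh X) t = (LinearMap.id : X.V t →ₗ[k] X.V t) := rfl
theorem cW_toSh : cW (toSh X) t = (LinearMap.id : X.W t →ₗ[k] X.W t) := rfl
@[simp] theorem c1_toSh : c1 (toSh X) a = 0 := rfl
@[simp] theorem ci_toSh : ci (toSh X) t = 0 := rfl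
@[simp] theorem cj_toSh : cj (toSh X) t = 0 := rfl
@[simp] theorem c2_toSh : c2 (toSh X) t = 0 := rfl
theorem c0_ofSh : c0 (ofSh X) t = (LinearMap.id : X.V t →ₗ[k] X.V t) := rfl
theorem cW_ofSh : cW (ofSh X) t = (LinearMap.id : X.W t →ₗ[k] X.W t) := rfl
@[simp] theorem c1_ofSh : c1 (ofSh X) a = 0 := rfl
@[simp] theorem ci_ofSh : ci (ofSh X) t = 0 := rfl
@[simp] theorem cj_ofSh : cj (ofSh X) t = 0 := rfl
@[simp] theorem c2_ofSh : c2 (ofSh X) t = 0 := rfl

@[simp] theorem toSh_ofSh : toSh X ≫ ofSh X = 𝟙 X := by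
  apply hm_ext
  · intro t; rfl
  · intro t; rfl
  all_goals intros; simp

@[simp] theorem ofSh_toSh : ofSh X ≫ toSh X = 𝟙 (gsh X) := by
  apply hm_ext
  · intro t; rfl
  · intro t; rfl
  all_goals intros; simp

theorem bar_toSh : bar (toSh X) = -toSh X := by
  apply hm_ext
  · intro t
    rw [c0_bar, c0_neg, c0_toSh]
    apply LinearMap.ext; intro x
    simp [gVgV]
  · intro t
    rw [cW_bar, cW_neg, cW_toSh]
    apply LinearMap.ext; intro x
    simp [gWgW]
  all_goals intros; simp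

theorem bar_ofSh : bar (ofSh X) = -ofSh X := by
  apply hm_ext
  · intro t
    rw [c0_bar, c0_neg, c0_ofSh]
    apply LinearMap.ext; intro x
    simp [gVgV]
  · intro t
    rw [cW_bar, cW_neg, cW_ofSh]
    apply LinearMap.ext; intro x
    simp [gWgW]
  all_goals intros; simp

variable {X}

@[simp] theorem toSh_ofSh_assoc {Z : Gob G k} (f : X ⟶ Z) : toSh X ≫ ofSh X ≫ f = f := by
  rw [← Category.assoc, toSh_ofSh, Category.id_comp]

@[simp] theorem ofSh_toSh_assoc {Z : Gob G k} (f : gsh X ⟶ Z) :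
    ofSh X ≫ toSh X ≫ f = f := by
  rw [← Category.assoc, ofSh_toSh, Category.id_comp]

end shsimps

/-- the parity shift: `(γ, d)` is replaced by `(-γ, -d)` -/
@[reducible] def sh (X : TOb G k) : TOb G k where
  X := gsh X.X
  d := -(ofSh X.X ≫ X.d ≫ toSh X.X)
  dd := by simp
  dg := by
    apply dg_of_bar
    rw [bar_neg, bar_comp, bar_comp, bar_ofSh, bar_toSh, X.bar_d]
    simp
  dW t := by simp

theorem sh_d (X : TOb G k) : (sh X).d = -(ofSh X.X ≫ X.d ≫ toSh X.X) := rfl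

theorem D_toSh (X : TOb G k) : D X (sh X) (toSh X.X) = 0 := by
  rw [D_apply, bar_toSh, sh_d]
  simp

theorem D_ofSh (X : TOb G k) : D (sh X) X (ofSh X.X) = 0 := by
  rw [D_apply, bar_ofSh, sh_d]
  simp

/-- the odd homotopy equivalence `X → sh X` -/
def shEquiv (X : TOb G k) : OEquiv (-1 : k) X (sh X) where
  p := toSh X.X
  q := ofSh X.X
  s := 0
  r := 0
  hε := by ring
  bp := by rw [bar_toSh, neg_one_smul]
  bq := by rw [bar_ofSh, neg_one_smul]
  Dp := D_toSh X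
  Dq := D_ofSh X
  pq := by simp
  qp := by simp

@[simp] theorem hT_sh_left (X Z : TOb G k) : hT (sh X) Z = hT X Z :=
  ((shEquiv X).hT_left Z).symm
@[simp] theorem hT_sh_right (X Z : TOb G k) : hT Z (sh X) = hT Z X :=
  ((shEquiv X).hT_right Z).symm
@[simp] theorem hD_sh_left (X Z : TOb G k) : hD (sh X) Z = hD X Z :=
  ((shEquiv X).hD_left Z).symm
@[simp] theorem hD_sh_right (X Z : TOb G k) : hD Z (sh X) = hD Z X :=
  ((shEquiv X).hD_right Z).symm
@[simp] theorem lam_sh (X : TOb G k) (t : T) : lam (sh X) t = lam X t := rfl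
@[simp] theorem dT_sh [DecidableEq T] (X : TOb G k) (t : T) : dT (sh X) t = dT X t :=
  hT_sh_left X _

/-- cone of an even closed map -/
@[reducible] def econe {X Y : TOb G k} (f : X.X ⟶ Y.X) (hb : bar f = f)
    (hc : D X Y f = 0) (hW : ∀ t, cW f t = 0) : TOb G k :=
  cone (X := sh X) (Y := Y) (ofSh X.X ≫ f)
    (by rw [bar_comp, bar_ofSh, hb, Preadditive.neg_comp])
    (by rw [D_comp_left (D_ofSh X), hc, Limits.comp_zero])
    (fun t => by simp [hW t])

end Crest.Agent.R175.PTA
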