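import Crest.Agent.R175.Cls_133
import Crest.Agent.R175.FmS_303

/-!
Row 175 (S0263): matrix functors `Φ : FDat G k` (helper27) on the classes of `Cls_133` (helper303).

* `mk_free_add`, `mk_free_frames` : `⟦free 0 n⟧ = ∑ t, n t • frC t`.
* `FC Φ : Cls G k →+ Cls G k`, `FC_mk : FC Φ ⟦X⟧ = ⟦Φ.tob X⟧` (rfl).
* `FC_fr`, `FC_fr_of` : `FC Φ (frC a) = ∑ b ~ a, frC b`.
* for `Ψ : ADat G k`: `hC_FC` (adjunction), `lamC_FC`, `dC_FC`.
* `shC` : parity shift on classes, `FC_shC`, `hC_shC_left/right`, `lamC_shC`.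
-/

set_option autoImplicit false
set_option linter.unusedSectionVars false

open CategoryTheory

namespace Crest.Agent.R175.FmCls_303

open Crest.Agent.R175.PTA Crest.Agent.R175.Cls_133 Crest.Agent.R175.Fm_27
open Crest.Agent.R175.FmS_303

universe u v

/-! ### free objects as classes -/

section free

variable {T : Type u} {G : MG T} {k : Type v} [Field k] [Fintype T]

theorem mk_free_add (m n m' n' : T → ℕ) :
    (⟦free G k (m + m') (n + n')⟧ : Cls G k) = ⟦free G k m n⟧ + ⟦free G k m' n'⟧ :=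
  (Quotient.sound (hiso_free_add m n m' n')).symm

theorem mk_free_smul (c : ℕ) (m n : T → ℕ) :
    (⟦free G k (c • m) (c • n)⟧ : Cls G k) = c • ⟦free G k m n⟧ := by
  induction c with
  | zero => rw [zero_smul, zero_smul, zero_smul, mk_zero]
  | succ c ih => rw [succ_nsmul, succ_nsmul, succ_nsmul, mk_free_add, ih]

theorem mk_free_sum {ι : Type*} (s : Finset ι) (f g : ι → T → ℕ) :
    (⟦free G k (∑ x ∈ s, f x) (∑ x ∈ s, g x)⟧ : Cls G k) = ∑ x ∈ s, ⟦free G k (f x) (g x)⟧ := by
  classical
  induction s using Finset.induction_on with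
  | empty => rw [Finset.sum_empty, Finset.sum_empty, Finset.sum_empty, mk_zero]
  | insert a s ha ih => rw [Finset.sum_insert ha, Finset.sum_insert ha, Finset.sum_insert ha,
      mk_free_add, ih]

/-- `free 0 n` is a sum of frames -/
theorem mk_free_frames [DecidableEq T] (n : T → ℕ) :
    (⟦free G k 0 n⟧ : Cls G k) = ∑ t, n t • frC G k t := by
  have h1 : n = ∑ b, n b • (Pi.single b 1 : T → ℕ) := by
    funext t
    rw [Finset.sum_apply]
    simp [Pi.single_apply]
  have h2 : (0 : T → ℕ) = ∑ b : T, n b • (0 : T → ℕ) := by simp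
  conv_lhs => rw [h1, h2]
  rw [mk_free_sum]
  exact Finset.sum_congr rfl fun b _ => mk_free_smul _ _ _

/-- a set of frames -/
theorem mk_free_set [DecidableEq T] (s : Finset T) (n : T → ℕ) (hn : ∀ b ∈ s, n b = 1)
    (hn' : ∀ b, b ∉ s → n b = 0) : (⟦free G k 0 n⟧ : Cls G k) = ∑ b ∈ s, frC G k b := by
  rw [mk_free_frames, ← Finset.sum_subset (Finset.subset_univ s) fun b _ hb => by
    rw [hn' b hb, zero_smul]]
  exact Finset.sum_congr rfl fun b hb => by rw [hn b hb, one_smul]

end free

/-! ### the parity shift -/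

section shift

variable {T : Type u} {G : MG T} {k : Type v} [Field k] [Fintype T]

/-- the shift of a homotopy equivalence -/
theorem hiso_sh_map {X Y : TOb G k} (h : HIso X Y) : HIso (sh X) (sh Y) := by
  obtain ⟨e⟩ := h
  have key : ∀ {X Y : TOb G k} (p : X.X ⟶ Y.X), D (sh X) (sh Y) (ofSh X.X ≫ p ≫ toSh Y.X)
      = - (ofSh X.X ≫ D X Y p ≫ toSh Y.X) := by
    intro X Y p
    have h1 := D_comp (X := sh X) (Y := X) (Z := sh Y) (ofSh X.X) (p ≫ toSh Y.X)
    have h2 := D_comp (X := X) (Y := Y) (Z := sh Y) p (toSh Y.X)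
    rw [h1, h2, D_ofSh, D_toSh, Limits.zero_comp, Limits.comp_zero, bar_toSh]
    simp
  refine ⟨?_⟩
  exact
    { p := ofSh X.X ≫ e.p ≫ toSh Y.X
      q := ofSh Y.X ≫ e.q ≫ toSh X.X
      s := -(ofSh X.X ≫ e.s ≫ toSh X.X)
      r := -(ofSh Y.X ≫ e.r ≫ toSh Y.X)
      bp := by rw [bar_comp, bar_comp, bar_ofSh, bar_toSh, e.bp]; simp
      bq := by rw [bar_comp, bar_comp, bar_ofSh, bar_toSh, e.bq]; simp
      Dp := by rw [key, e.Dp]; simp
      Dq := by rw [key, e.Dq]; simp
      pq := by
        rw [map_neg, key, neg_neg, Category.assoc, Category.assoc, toSh_ofSh_assoc,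
          ← Category.assoc e.p, e.pq, Preadditive.add_comp, Preadditive.comp_add,
          Category.id_comp, ofSh_toSh]
      qp := by
        rw [map_neg, key, neg_neg, Category.assoc, Category.assoc, toSh_ofSh_assoc,
          ← Category.assoc e.q, e.qp, Preadditive.add_comp, Preadditive.comp_add,
          Category.id_comp, ofSh_toSh] }

/-- the shift on classes -/
def shC : Cls G k → Cls G k := Quotient.map sh fun _ _ h => hiso_sh_map h

theorem shC_mk (X : TOb G k) : shC (⟦X⟧ : Cls G k) = ⟦sh X⟧ := rfl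

theorem hC_shC_left (x y : Cls G k) : hC (shC x) y = hC x y := by
  induction x using Quotient.inductionOn
  induction y using Quotient.inductionOn
  exact hT_sh_left _ _

theorem hC_shC_right (x y : Cls G k) : hC x (shC y) = hC x y := by
  induction x using Quotient.inductionOn
  induction y using Quotient.inductionOn
  exact hT_sh_right _ _

end shift

/-! ### matrix functors on classes -/

section functor

variable {T : Type} {G : MG T} {k : Type v} [Field k] [Fintype T]

open Classical in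
/-- a matrix functor on classes -/
noncomputable def FC (Φ : FDat G k) : Cls G k →+ Cls G k where
  toFun := Quotient.map Φ.tob fun _ _ h => Φ.hIso h
  map_zero' := Quotient.sound (FmS_303.hiso_zero Φ)
  map_add' x y := by
    induction x using Quotient.inductionOn
    induction y using Quotient.inductionOn
    exact Quotient.sound (FmS_303.hiso_dsum Φ _ _)

open Classical in
theorem FC_mk (Φ : FDat G k) (X : TOb G k) : FC Φ (⟦X⟧ : Cls G k) = ⟦Φ.tob X⟧ := rfl

open Classical in
/-- **`F (x_a) = ∑_{b ~ a} x_b`**, the neighbours given as a finset -/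
theorem FC_fr_of (Φ : FDat G k) [DecidableEq T] (a : T) (s : Finset T)
    (hs : ∀ b, b ∈ s ↔ Φ.N a b) : FC Φ (frC G k a) = ∑ b ∈ s, frC G k b := by
  rw [frC_def, FC_mk, Quotient.sound (hiso_frm Φ a)]
  exact mk_free_set s _ (fun b hb => if_pos ((hs b).1 hb)) (fun b hb => if_neg fun h => hb ((hs b).2 h))

open Classical in
/-- **`F (x_a) = ∑_{b ~ a} x_b`** -/
theorem FC_fr (Φ : FDat G k) [DecidableEq T] (a : T) :
    FC Φ (frC G k a) = ∑ b ∈ Finset.univ.filter (fun b => Φ.N a b), frC G k b :=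
  FC_fr_of Φ a _ fun b => by simp

/-- **adjunction on classes** -/
theorem hC_FC (Ψ : ADat G k) (x y : Cls G k) : hC (FC Ψ.toFDat x) y = hC x (FC Ψ.toFDat y) := by
  induction x using Quotient.inductionOn
  induction y using Quotient.inductionOn
  exact Ψ.hT_FT _ _

open Classical in
/-- frames of `F x` -/
theorem lamC_FC (Ψ : ADat G k) (x : Cls G k) (b : T) :
    lamC (FC Ψ.toFDat x) b = ∑ a, if Ψ.N a b then lamC x a else 0 := by
  induction x using Quotient.inductionOn
  exact Ψ.lam_FT _ _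

/-- frames of `F x`, the neighbours given as a finset -/
theorem lamC_FC_of (Ψ : ADat G k) (x : Cls G k) (b : T) (s : Finset T)
    (hs : ∀ a, a ∈ s ↔ Ψ.N a b) : lamC (FC Ψ.toFDat x) b = ∑ a ∈ s, lamC x a := by
  classical
  rw [lamC_FC, ← Finset.sum_filter]
  exact Finset.sum_congr (by ext a; simp [hs]) fun _ _ => rfl

/-- `h (x_a, F x) = ∑_{b ~ a} h (x_b, x)` -/
theorem dC_FC_of (Ψ : ADat G k) [DecidableEq T] (x : Cls G k) (a : T) (s : Finset T)
    (hs : ∀ b, b ∈ s ↔ Ψ.N a b) :
    hC (frC G k a) (FC Ψ.toFDat x) = ∑ b ∈ s, hC (frC G k b) x := by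
  rw [← hC_FC, FC_fr_of Ψ.toFDat a s hs, hC_sum_left]

/-- `F` and the parity shift -/
theorem FC_shC (Φ : FDat G k) (x : Cls G k) : FC Φ (shC x) = shC (FC Φ x) := by
  induction x using Quotient.inductionOn
  exact Quotient.sound (FmS_303.hiso_sh Φ _)

end functor

end Crest.Agent.R175.FmCls_303
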