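import Crest.Agent.R175.Lev_788
import Crest.Agent.R175.FmCls_303
import Crest.Agent.R175.Fm7_27

/-!
Row 175 (S0263), helper788: the concrete level `lev A : Lev Λ M` over `Cls (UG M Λ) ℂ` from an action
`A : ActI M Λ` of the Artin group on the classes.
-/

set_option autoImplicit false
set_option linter.unusedSectionVars false
set_option linter.unusedVariables false

open CategoryTheory
open scoped Classical

namespace Crest.Agent.R175.LevC_788

open Crest.GroupTheory Crest.Agent.R175.PTA Crest.Agent.R175.Cls_133 Crest.Agent.R175.UG_27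
open Crest.Agent.R175.Unf_109 Crest.Agent.R175.Fm_27 Crest.Agent.R175.FmCls_303
open Crest.Agent.R175.Lev_788

variable {S : Type} [Fintype S]

/-- the functor `F_m` on classes -/
noncomputable def FmC (M : CoxeterMatrix S) {Λ : Finset ℕ} (h4 : ∀ m ∈ Λ, 4 ≤ m) {m : ℕ}
    (hm : m ∈ Λ) : Cls (UG M Λ) ℂ →+ Cls (UG M Λ) ℂ :=
  FC (Fm M (algebraMap ℝ ℂ) hm ((by norm_num : 2 ≤ 4).trans (h4 m hm))).toFDat

/-- the neighbours of `(t, i)` -/
noncomputable def nb2 (Λ : Finset ℕ) (m : ℕ) (t : S) (i : J Λ) : Finset (S × J Λ) :=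
  (nbs Λ m i).map ⟨fun j => (t, j), fun _ _ h => (Prod.ext_iff.1 h).2⟩

theorem mem_nb2 {Λ : Finset ℕ} {m : ℕ} {t : S} {i : J Λ} (b : S × J Λ) :
    b ∈ nb2 Λ m t i ↔ t = b.1 ∧ nb Λ m i b.2 := by
  unfold nb2
  rw [Finset.mem_map]
  constructor
  · rintro ⟨j, hj, rfl⟩
    exact ⟨rfl, mem_nbs.1 hj⟩
  · rintro ⟨h1, h2⟩
    refine ⟨b.2, mem_nbs.2 h2, ?_⟩
    subst h1
    rfl

theorem sum_nb2 {Λ : Finset ℕ} {m : ℕ} {t : S} {i : J Λ} {N : Type*} [AddCommMonoid N]
    (f : S × J Λ → N) : ∑ b ∈ nb2 Λ m t i, f b = ∑ j ∈ nbs Λ m i, f (t, j) := by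
  unfold nb2
  rw [Finset.sum_map]
  rfl

/-- the action on the classes at one level -/
structure ActI (M : CoxeterMatrix S) {Λ : Finset ℕ} (h4 : ∀ m ∈ Λ, 4 ≤ m) where
  [act : DistribMulAction (ArtinGroup M) (Cls (UG M Λ) ℂ)]
  h_act : ∀ (s : S) (x y : Cls (UG M Λ) ℂ), hC (artinGen M s • x) (artinGen M s • y) = hC x y
  lam_act : ∀ (s : S) (x : Cls (UG M Λ) ℂ) (a), lamC (artinGen M s • x) a = lamC x a
  fr_act : ∀ (s t : S) (j : J Λ), t ≠ s → artinGen M s • frC (UG M Λ) ℂ (t, j) = frC (UG M Λ) ℂ (t, j)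
  F_act : ∀ (m : ℕ) (hm : m ∈ Λ) (s : S) (x : Cls (UG M Λ) ℂ),
    FmC M h4 hm (artinGen M s • x) = artinGen M s • FmC M h4 hm x

variable {M : CoxeterMatrix S} {Λ : Finset ℕ} {h4 : ∀ m ∈ Λ, 4 ≤ m}

/-- **the level** -/
noncomputable def lev (A : ActI M h4) : Lev.{1} Λ M where
  Ob := Cls (UG M Λ) ℂ
  acm := inferInstance
  act := A.act
  h := hC
  lam := fun x s j => lamC x (s, j)
  fr := fun s j => frC (UG M Λ) ℂ (s, j)
  F := fun m x => if hm : m ∈ Λ then FmC M h4 hm x else x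
  h_add := fun x y z => hC_add_right x y z
  h_zero := fun x => hC_zero_right x
  h_symm := fun x y => hC_symm x y
  h_act := A.h_act
  lam_act := fun s x => by
    funext t j
    exact A.lam_act s x (t, j)
  lam_add := fun x y => by
    funext t j
    exact lamC_add x y (t, j)
  lam_zero := by
    funext t j
    exact lamC_zero (t, j)
  fr_act := fun s t j h => A.fr_act s t j h
  fr_fr := fun s i t j => hC_fr _ _
  fr_lam := fun t i s j => by
    rw [lamC_fr]
    simp only [Prod.mk.injEq]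
  F_act := fun m hm s x => by
    simp only [dif_pos hm]
    exact A.F_act m hm s x
  F_fr := fun m hm t i => by
    rw [dif_pos hm]
    unfold FmC
    rw [FC_fr_of _ (t, i) (nb2 Λ m t i) (fun b => by rw [mem_nb2]; rfl), sum_nb2]
  F_adj := fun m hm x y => by
    simp only [dif_pos hm]
    exact hC_FC _ x y
  F_lam := fun m hm x t j => by
    rw [dif_pos hm]
    unfold FmC
    rw [lamC_FC_of _ x (t, j) (nb2 Λ m t j) (fun b => by
      rw [mem_nb2]
      exact ⟨fun h => ⟨h.1.symm, h.2.symm⟩, fun h => ⟨h.1.symm, h.2.symm⟩⟩), sum_nb2]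

end Crest.Agent.R175.LevC_788
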