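import Crest.Agent.R175.TwF_253

/-!
# Twists, abstract part 5 (row 175, helper253): `T`, `T'` respect homotopy equivalence and are
mutually inverse up to homotopy; `T` splits off the Hom complexes.
-/

set_option autoImplicit false

universe v u

namespace Crest.Agent.R175.TwA_253

open CategoryTheory Preadditive

variable {C : Type u} [Category.{v} C] [Preadditive C] {F : Sph C} {X Y Z : Tw C}

section zero

theorem Tm_zero {S : Sum2 (F.Q X.X) X.X} {S' : Sum2 (F.Q Y.X) Y.X} :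
    Tm F X Y S S' 0 = 0 := by
  have h := Tm_add (S := S) (S' := S') (0 : X.X ⟶ Y.X) 0
  rw [add_zero] at h
  exact left_eq_add.1 h

theorem Tm'_zero {S : Sum2 X.X (F.Q X.X)} {S' : Sum2 Y.X (F.Q Y.X)} :
    Tm' F X Y S S' 0 = 0 := by
  have h := Tm'_add (S := S) (S' := S') (0 : X.X ⟶ Y.X) 0
  rw [add_zero] at h
  exact left_eq_add.1 h

theorem D_zero : D X Y 0 = 0 := by
  unfold D bar; simp

end zero

/-- `T` respects homotopy equivalence -/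
theorem T_HEq (H : HEq X Y) (S : Sum2 (F.Q X.X) X.X) (S' : Sum2 (F.Q Y.X) Y.X) :
    HEq (T F X S) (T F Y S') := by
  obtain ⟨f, g, h, h', a, b, c, d, e, e'⟩ := H
  refine ⟨Tm F X Y S S' f, Tm F Y X S' S g, Tm F X X S S h, Tm F Y Y S' S' h',
    ?_, ?_, ?_, ?_, ?_, ?_⟩
  · rw [bar_Tm, a]
  · rw [bar_Tm, b]
  · rw [D_Tm, c, Tm_zero]
  · rw [D_Tm, d, Tm_zero]
  · rw [← Tm_comp, e, Tm_add, Tm_id, D_Tm]
  · rw [← Tm_comp, e', Tm_add, Tm_id, D_Tm]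

/-- `T'` respects homotopy equivalence -/
theorem T'_HEq (H : HEq X Y) (S : Sum2 X.X (F.Q X.X)) (S' : Sum2 Y.X (F.Q Y.X)) :
    HEq (T' F X S) (T' F Y S') := by
  obtain ⟨f, g, h, h', a, b, c, d, e, e'⟩ := H
  refine ⟨Tm' F X Y S S' f, Tm' F Y X S' S g, Tm' F X X S S h, Tm' F Y Y S' S' h',
    ?_, ?_, ?_, ?_, ?_, ?_⟩
  · rw [bar_Tm', a]
  · rw [bar_Tm', b]
  · rw [D_Tm', c, Tm'_zero]
  · rw [D_Tm', d, Tm'_zero]
  · rw [← Tm'_comp, e, Tm'_add, Tm'_id, D_Tm']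
  · rw [← Tm'_comp, e', Tm'_add, Tm'_id, D_Tm']

/-- `T' T X ≃ X` -/
theorem T'_T_HEq (S : Sum2 (F.Q X.X) X.X) (R : Sum2 (T F X S).X (F.Q (T F X S).X)) :
    HEq (T' F (T F X S) R) X := by
  refine ⟨pr F X S R, io F X S R, -ht F X S R, 0, bar_pr, bar_io, D_pr, D_io, ?_, ?_⟩
  · rw [D_neg, D_ht]; abel
  · rw [io_pr, D_zero, add_zero]

/-- `T T' X ≃ X` -/
theorem T_T'_HEq (S : Sum2 X.X (F.Q X.X)) (R : Sum2 (F.Q (T' F X S).X) (T' F X S).X) :
    HEq (T F (T' F X S) R) X := by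
  refine ⟨pr' F X S R, io' F X S R, -ht' F X S R, 0, bar_pr', bar_io', D_pr', D_io', ?_, ?_⟩
  · rw [D_neg, D_ht']; abel
  · rw [io_pr', D_zero, add_zero]

section split

variable (F X Y) (S : Sum2 (F.Q X.X) X.X) (R : Sum2 (T F X S).X (F.Q (T F X S).X))
  (S' : Sum2 (F.Q Y.X) Y.X) (R' : Sum2 (T F Y S').X (F.Q (T F Y S').X))

/-- the retraction `Hom(T X, T Y) → Hom(X, Y)` -/
def Rt (g : (T F X S).X ⟶ (T F Y S').X) : X.X ⟶ Y.X :=
  io F X S R ≫ Tm' F (T F X S) (T F Y S') R R' g ≫ pr F Y S' R'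

theorem Rt_Tm (f : X.X ⟶ Y.X) : Rt F X Y S R S' R' (Tm F X Y S S' f) = f := by
  unfold Rt
  rw [← Category.assoc, io_nat, Category.assoc, io_pr, Category.comp_id]

theorem D_Rt (g : (T F X S).X ⟶ (T F Y S').X) :
    D X Y (Rt F X Y S R S' R' g) = Rt F X Y S R S' R' (D (T F X S) (T F Y S') g) := by
  unfold Rt
  rw [D_sandwich bar_pr D_io D_pr, D_Tm']

end split

section split'

variable (F X Y) (S : Sum2 X.X (F.Q X.X)) (R : Sum2 (F.Q (T' F X S).X) (T' F X S).X)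
  (S' : Sum2 Y.X (F.Q Y.X)) (R' : Sum2 (F.Q (T' F Y S').X) (T' F Y S').X)

/-- the retraction `Hom(T' X, T' Y) → Hom(X, Y)` -/
def Rt' (g : (T' F X S).X ⟶ (T' F Y S').X) : X.X ⟶ Y.X :=
  io' F X S R ≫ Tm F (T' F X S) (T' F Y S') R R' g ≫ pr' F Y S' R'

theorem Rt_Tm' (f : X.X ⟶ Y.X) : Rt' F X Y S R S' R' (Tm' F X Y S S' f) = f := by
  unfold Rt'
  rw [← Category.assoc, io_nat', Category.assoc, io_pr', Category.comp_id]

theorem D_Rt' (g : (T' F X S).X ⟶ (T' F Y S').X) :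
    D X Y (Rt' F X Y S R S' R' g) = Rt' F X Y S R S' R' (D (T' F X S) (T' F Y S') g) := by
  unfold Rt'
  rw [D_sandwich bar_pr' D_io' D_pr', D_Tm]

end split'

end Crest.Agent.R175.TwA_253
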