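import Crest.Agent.R175.TwF_253

/-!
# Twists, abstract part: strict isomorphisms, `T_{U ⊔ s} ≅ T_s T_U`, `T_U X ≅ X` for `Q_U X = 0`
(row 175, helper83; over helper253's `Sph`, `Tw`, `T`).

* `SI X Y` : strict isomorphisms `X ≅ Y` of differential objects (commuting with `e` and `d`);
  `SI.refl/symm/trans`, `SI.heq : HEq X Y`.
* `ofZero : 𝟙 (F.Q X.X) = 0 → SI (T F X S) X` and the same for `T'`.
* `Split F F₁ F₂` : natural decomposition `F.Q A = F₁.Q A ⊕ F₂.Q A` compatible with `eps`;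
  `T_split : (∀ A, 𝟙 (F₂.Q (F₁.Q A)) = 0) → SI (T F X S) (T F₂ (T F₁ X S₁) S₂)`.
* `Tm_SI` : `T` respects strict isomorphisms.
-/

universe v u

namespace Crest.Agent.R175.TwS_83

open CategoryTheory Preadditive
open Crest.Agent.R175.TwA_253

variable {C : Type u} [Category.{v} C] [Preadditive C]

/-- strict isomorphism of differential objects -/
structure SI (X Y : Tw C) where
  f : X.X ⟶ Y.X
  g : Y.X ⟶ X.X
  fg : f ≫ g = 𝟙 _
  gf : g ≫ f = 𝟙 _
  fe : f ≫ Y.e = X.e ≫ f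
  fd : f ≫ Y.d = X.d ≫ f

attribute [reassoc (attr := simp)] SI.fg SI.gf
attribute [reassoc] SI.fe SI.fd

namespace SI

variable {X Y Z : Tw C}

@[reassoc] theorem ge (s : SI X Y) : s.g ≫ X.e = Y.e ≫ s.g := by
  have h : s.g ≫ s.f ≫ Y.e ≫ s.g = s.g ≫ X.e ≫ s.f ≫ s.g := by
    rw [s.fe_assoc]
  simpa using h.symm

@[reassoc] theorem gd (s : SI X Y) : s.g ≫ X.d = Y.d ≫ s.g := by
  have h : s.g ≫ s.f ≫ Y.d ≫ s.g = s.g ≫ X.d ≫ s.f ≫ s.g := by
    rw [s.fd_assoc]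
  simpa using h.symm

def refl (X : Tw C) : SI X X := ⟨𝟙 _, 𝟙 _, by simp, by simp, by simp, by simp⟩

def symm (s : SI X Y) : SI Y X := ⟨s.g, s.f, s.gf, s.fg, s.ge, s.gd⟩

def trans (s : SI X Y) (t : SI Y Z) : SI X Z where
  f := s.f ≫ t.f
  g := t.g ≫ s.g
  fg := by simp
  gf := by simp
  fe := by rw [Category.assoc, t.fe, s.fe_assoc]
  fd := by rw [Category.assoc, t.fd, s.fd_assoc]

theorem bar_f (s : SI X Y) : bar X Y s.f = s.f := by
  unfold bar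
  rw [s.fe, X.ee_assoc]

theorem bar_g (s : SI X Y) : bar Y X s.g = s.g := s.symm.bar_f

theorem D_f (s : SI X Y) : D X Y s.f = 0 := by
  unfold D
  rw [s.bar_f, s.fd, sub_self]

theorem D_g (s : SI X Y) : D Y X s.g = 0 := s.symm.D_f

theorem heq (s : SI X Y) : TwA_253.HEq X Y :=
  ⟨s.f, s.g, 0, 0, s.bar_f, s.bar_g, s.D_f, s.D_g, by simp [D, bar], by simp [D, bar]⟩

end SI

/-- `T` respects strict isomorphisms -/
def Tm_SI {F : Sph C} {X Y : Tw C} (s : SI X Y) (S : Sum2 (F.Q X.X) X.X)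
    (S' : Sum2 (F.Q Y.X) Y.X) : SI (T F X S) (T F Y S') where
  f := Tm F X Y S S' s.f
  g := Tm F Y X S' S s.g
  fg := by rw [← Tm_comp, s.fg, Tm_id]
  gf := by rw [← Tm_comp, s.gf, Tm_id]
  fe := by
    have h := bar_Tm (S := S) (S' := S') s.f
    rw [s.bar_f] at h
    conv_rhs => rw [← h]
    unfold bar
    rw [Tw.ee_assoc]
  fd := by
    have h := D_Tm (S := S) (S' := S') s.f
    rw [s.D_f] at h
    unfold D at h
    rw [bar_Tm, s.bar_f] at h
    have h0 : Tm F X Y S S' 0 = 0 := by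
      have := Tm_add (S := S) (S' := S') (0 : X.X ⟶ Y.X) 0
      rw [add_zero] at this
      exact left_eq_add.1 this
    rw [h0] at h
    exact sub_eq_zero.1 h

/-- `T_U X ≅ X` if `Q_U X = 0` -/
def ofZero {F : Sph C} {X : Tw C} (S : Sum2 (F.Q X.X) X.X) (h : 𝟙 (F.Q X.X) = 0) :
    SI (T F X S) X where
  f := S.snd
  g := S.inr
  fg := by
    have h1 : S.fst ≫ S.inl = 0 := by
      rw [← Category.comp_id S.fst, h]; simp
    have h2 := S.total
    rwa [h1, zero_add] at h2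
  gf := S.inr_snd
  fe := by
    change _ = (-(S.fst ≫ F.m X.e ≫ S.inl) + S.snd ≫ X.e ≫ S.inr) ≫ S.snd
    simp [Preadditive.add_comp]
  fd := by
    have h3 : F.eps X.X = 0 := by
      rw [← Category.id_comp (F.eps X.X), h]; simp
    change _ = (-(S.fst ≫ F.m X.d ≫ S.inl) + S.fst ≫ F.eps X.X ≫ S.inr
      + S.snd ≫ X.d ≫ S.inr) ≫ S.snd
    simp [Preadditive.add_comp, h3]

/-- `T'_U X ≅ X` if `Q_U X = 0` -/
def ofZero' {F : Sph C} {X : Tw C} (S : Sum2 X.X (F.Q X.X)) (h : 𝟙 (F.Q X.X) = 0) :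
    SI (T' F X S) X where
  f := S.fst
  g := S.inl
  fg := by
    have h1 : S.snd ≫ S.inr = 0 := by
      rw [← Category.comp_id S.snd, h]; simp
    have h2 := S.total
    rwa [h1, add_zero] at h2
  gf := S.inl_fst
  fe := by
    change _ = (S.fst ≫ X.e ≫ S.inl - S.snd ≫ F.m X.e ≫ S.inr) ≫ S.fst
    simp [Preadditive.sub_comp]
  fd := by
    change _ = (S.fst ≫ X.d ≫ S.inl + S.fst ≫ F.eta X.X ≫ S.inr
      - S.snd ≫ F.m X.d ≫ S.inr) ≫ S.fst
    simp [Preadditive.add_comp, Preadditive.sub_comp]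

/-- natural decomposition `Q = Q₁ ⊕ Q₂` compatible with the counits -/
structure Split (F F₁ F₂ : Sph C) where
  inl : ∀ A : C, F₁.Q A ⟶ F.Q A
  inr : ∀ A : C, F₂.Q A ⟶ F.Q A
  fst : ∀ A : C, F.Q A ⟶ F₁.Q A
  snd : ∀ A : C, F.Q A ⟶ F₂.Q A
  inl_fst : ∀ A, inl A ≫ fst A = 𝟙 _
  inl_snd : ∀ A, inl A ≫ snd A = 0
  inr_fst : ∀ A, inr A ≫ fst A = 0
  inr_snd : ∀ A, inr A ≫ snd A = 𝟙 _
  total : ∀ A, fst A ≫ inl A + snd A ≫ inr A = 𝟙 _
  inl_nat : ∀ {A B : C} (f : A ⟶ B), F₁.m f ≫ inl B = inl A ≫ F.m f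
  inr_nat : ∀ {A B : C} (f : A ⟶ B), F₂.m f ≫ inr B = inr A ≫ F.m f
  inl_eps : ∀ A, inl A ≫ F.eps A = F₁.eps A
  inr_eps : ∀ A, inr A ≫ F.eps A = F₂.eps A

namespace Split

attribute [reassoc (attr := simp)] inl_fst inl_snd inr_fst inr_snd
attribute [reassoc] inl_nat inr_nat inl_eps inr_eps

variable {F F₁ F₂ : Sph C} (P : Split F F₁ F₂)

@[reassoc] theorem inl_nat' {A B : C} (f : A ⟶ B) : P.inl A ≫ F.m f = F₁.m f ≫ P.inl B :=
  (P.inl_nat f).symm

@[reassoc] theorem inr_nat' {A B : C} (f : A ⟶ B) : P.inr A ≫ F.m f = F₂.m f ≫ P.inr B :=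
  (P.inr_nat f).symm

@[reassoc] theorem fst_nat {A B : C} (f : A ⟶ B) : F.m f ≫ P.fst B = P.fst A ≫ F₁.m f := by
  have h : F.m f = (P.fst A ≫ P.inl A + P.snd A ≫ P.inr A) ≫ F.m f := by
    rw [P.total, Category.id_comp]
  rw [h, Preadditive.add_comp, Preadditive.add_comp, Category.assoc, Category.assoc,
    Category.assoc, Category.assoc, P.inl_nat'_assoc, P.inr_nat'_assoc,
    P.inl_fst, P.inr_fst]
  simp

@[reassoc] theorem snd_nat {A B : C} (f : A ⟶ B) : F.m f ≫ P.snd B = P.snd A ≫ F₂.m f := by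
  have h : F.m f = (P.fst A ≫ P.inl A + P.snd A ≫ P.inr A) ≫ F.m f := by
    rw [P.total, Category.id_comp]
  rw [h, Preadditive.add_comp, Preadditive.add_comp, Category.assoc, Category.assoc,
    Category.assoc, Category.assoc, P.inl_nat'_assoc, P.inr_nat'_assoc,
    P.inl_snd, P.inr_snd]
  simp

theorem eps_eq (A : C) : F.eps A = P.fst A ≫ F₁.eps A + P.snd A ≫ F₂.eps A := by
  rw [← P.inl_eps, ← P.inr_eps, ← Category.assoc, ← Category.assoc, ← Preadditive.add_comp,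
    P.total, Category.id_comp]

variable {X : Tw C} (S : Sum2 (F.Q X.X) X.X) (S₁ : Sum2 (F₁.Q X.X) X.X)
  (S₂ : Sum2 (F₂.Q (T F₁ X S₁).X) (T F₁ X S₁).X)

/-- the isomorphism `T X → T₂ T₁ X` -/
def sf : S.S ⟶ S₂.S :=
  S.fst ≫ (P.fst X.X ≫ S₁.inl ≫ S₂.inr + P.snd X.X ≫ F₂.m S₁.inr ≫ S₂.inl)
    + S.snd ≫ S₁.inr ≫ S₂.inr

/-- its inverse -/
def sg : S₂.S ⟶ S.S :=
  S₂.fst ≫ F₂.m S₁.snd ≫ P.inr X.X ≫ S.inl
    + S₂.snd ≫ (S₁.fst ≫ P.inl X.X ≫ S.inl + S₁.snd ≫ S.inr)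

@[reassoc] theorem inl_sf : S.inl ≫ P.sf S S₁ S₂ =
    P.fst X.X ≫ S₁.inl ≫ S₂.inr + P.snd X.X ≫ F₂.m S₁.inr ≫ S₂.inl := by
  simp [sf]

@[reassoc] theorem inr_sf : S.inr ≫ P.sf S S₁ S₂ = S₁.inr ≫ S₂.inr := by
  simp [sf]

@[reassoc] theorem inl_sg : S₂.inl ≫ P.sg S S₁ S₂ = F₂.m S₁.snd ≫ P.inr X.X ≫ S.inl := by
  simp [sg]

@[reassoc] theorem inr_sg : S₂.inr ≫ P.sg S S₁ S₂ =
    S₁.fst ≫ P.inl X.X ≫ S.inl + S₁.snd ≫ S.inr := by
  simp [sg]

/-- `T X ≅ T₂ T₁ X` if `Q₂ Q₁ X = 0` -/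
def T_split (h : 𝟙 (F₂.Q (F₁.Q X.X)) = 0) :
    SI (T F X S) (T F₂ (T F₁ X S₁) S₂) where
  f := P.sf S S₁ S₂
  g := P.sg S S₁ S₂
  fg := by
    apply S.ext
    · rw [P.inl_sf_assoc, Preadditive.add_comp, Category.assoc, Category.assoc, Category.assoc,
        Category.assoc, P.inr_sg, P.inl_sg, Preadditive.comp_add, S₁.inl_fst_assoc,
        S₁.inl_snd_assoc, Limits.zero_comp, add_zero, Sum2.m_inr_snd_assoc,
        ← Category.assoc, ← Category.assoc, ← Preadditive.add_comp, P.total]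
      simp
    · rw [P.inr_sf_assoc, P.inr_sg]
      simp
  gf := by
    have hz : F₂.m S₁.fst = 0 := by
      rw [← Category.comp_id (F₂.m S₁.fst), h, Limits.comp_zero]
    have h1 : F₂.m S₁.snd ≫ F₂.m S₁.inr = 𝟙 _ := by
      have h2 := congrArg F₂.m S₁.total
      rw [F₂.m_add, F₂.m_comp, F₂.m_comp, hz, Limits.zero_comp, zero_add, F₂.m_id] at h2
      exact h2
    apply S₂.ext
    · rw [P.inl_sg_assoc, P.inl_sf, Preadditive.comp_add, P.inr_fst_assoc, P.inr_snd_assoc, Limits.zero_comp,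
        zero_add, reassoc_of% h1]
      simp
    · rw [P.inr_sg_assoc, Preadditive.add_comp]
      simp only [Category.assoc]
      rw [P.inl_sf, P.inr_sf, Preadditive.comp_add, P.inl_fst_assoc, P.inl_snd_assoc,
        Limits.zero_comp, add_zero, ← Category.assoc, ← Category.assoc,
        ← Preadditive.add_comp, S₁.total]
      simp
  fe := by
    apply S.ext
    · rw [P.inl_sf_assoc, T_e_inl_assoc, Preadditive.add_comp, Preadditive.neg_comp]
      simp only [Category.assoc]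
      rw [T_e_inr, T_e_inl, P.inl_sf, T_e_inl_assoc, Preadditive.comp_neg,
        ← F₂.m_comp_assoc, T_e_inr, F₂.m_comp, Preadditive.comp_add, P.fst_nat_assoc,
        P.snd_nat_assoc]
      simp only [Preadditive.comp_neg, Preadditive.neg_comp, Category.assoc]
      abel
    · rw [P.inr_sf_assoc, T_e_inr, T_e_inr_assoc, T_e_inr_assoc, P.inr_sf]
  fd := by
    apply S.ext
    · rw [P.inl_sf_assoc, T_d_inl_assoc, Preadditive.add_comp, Preadditive.add_comp,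
        Preadditive.neg_comp]
      simp only [Category.assoc]
      rw [T_d_inr, T_d_inl, P.inl_sf, P.inr_sf, T_d_inl_assoc, Preadditive.comp_add,
        Preadditive.comp_neg, ← F₂.m_comp_assoc, T_d_inr, F₂.m_comp, F₂.eps_nat_assoc, P.eps_eq]
      simp only [Preadditive.comp_neg, Preadditive.neg_comp, Preadditive.add_comp,
        Preadditive.comp_add, Category.assoc, P.fst_nat_assoc, P.snd_nat_assoc]
      abel
    · rw [P.inr_sf_assoc, T_d_inr, T_d_inr_assoc, T_d_inr_assoc, P.inr_sf]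

end Split

end Crest.Agent.R175.TwS_83
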