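import Crest.Agent.R175.PTA_534

/-!
# Small facts on T-framed objects (task 513)

* `hd_eq`, `hd_zero_map`, `hd_of_finrank_zero`
* `hT_frm_right : hT X (frm G k t) = hd (c0 X.d t)`, `hT_frm_left`, `dT_eq`; for minimal objects
  `hT_frm_right_F`, `hT_frm_left_F`, `dT_F` : `= finrank (V t)`; `hT_frm_frm : hT (frm s) (frm t) = 0`
* `hT_self_pos`, `subsingleton_V_of_hT`, `subsingleton_of_hD` : a minimal object with trivial frames
  and `hT U U = 0` is zero
* `isIso_of_bijective` : a morphism of `Gob` with bijective `c0`, `cW` is an isomorphism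
* `HEquiv.lam_eq` (any `TOb`), `HEquiv.isIso` (minimal objects: a homotopy equivalence is an
  isomorphism), `HEquiv.eV`, `HEquiv.eW` with the compatibilities, `HEquiv.ofIso`.
-/

set_option autoImplicit false
set_option linter.unusedSectionVars false
set_option linter.unusedVariables false
set_option linter.unusedSimpArgs false

open CategoryTheory

namespace Crest.Agent.R175.Unfr_83

open Crest.Agent.R175.PTA

universe u v w

/-! ### `hd` -/

section hd

variable {k : Type v} [Field k] {K : Type w} [AddCommGroup K] [Module k K]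

theorem hd_eq [FiniteDimensional k K] (D : K →ₗ[k] K) :
    hd D = Module.finrank k K - 2 * Module.finrank k (LinearMap.range D) := by
  have := LinearMap.finrank_range_add_finrank_ker D
  unfold hd
  omega

theorem hd_zero_map : hd (0 : K →ₗ[k] K) = Module.finrank k K := by
  unfold hd
  rw [LinearMap.ker_zero, LinearMap.range_zero, finrank_top, finrank_bot, Nat.sub_zero]

theorem hd_of_subsingleton [Subsingleton K] (D : K →ₗ[k] K) : hd D = 0 := by
  unfold hd
  have : Module.finrank k (LinearMap.ker D) = 0 := Module.finrank_zero_of_subsingleton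
  omega

theorem hd_of_finrank_zero [FiniteDimensional k K] (D : K →ₗ[k] K)
    (h : Module.finrank k K = 0) : hd D = 0 := by
  rw [hd_eq, h, Nat.zero_sub]

/-- `hd D = 0` : the complex is exact. -/
theorem exact_of_hd [FiniteDimensional k K] {D : K →ₗ[k] K} (hD : ∀ x, D (D x) = 0)
    (h : hd D = 0) {x : K} (hx : D x = 0) : ∃ y, D y = x := by
  have h1 := hd_add_range hD
  rw [h, Nat.zero_add] at h1
  have h2 : LinearMap.range D = LinearMap.ker D :=
    Submodule.eq_of_le_of_finrank_eq (range_le_ker hD) h1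
  have h3 : x ∈ LinearMap.range D := by
    rw [h2]; exact hx
  exact h3

/-- exactness gives `hd D = 0` -/
theorem hd_eq_zero_of_exact {D : K →ₗ[k] K} [FiniteDimensional k K]
    (h : ∀ x, D x = 0 → ∃ y, D y = x) : hd D = 0 := by
  unfold hd
  have : LinearMap.ker D ≤ LinearMap.range D := fun x hx => h x hx
  have := Submodule.finrank_mono this
  omega

end hd

/-! ### frames -/

section frames

variable {T : Type u} {G : MG T} {k : Type v} [Field k] [Fintype T] [DecidableEq T]

instance subV (t s : T) : Subsingleton ((frm G k t).X.V s) :=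
  inferInstanceAs (Subsingleton (Fin 0 → k))

theorem subW {t s : T} (h : s ≠ t) : Subsingleton ((frm G k t).X.W s) := by
  have h1 : (Pi.single t 1 : T → ℕ) s = 0 := Pi.single_eq_of_ne h 1
  have : IsEmpty (Fin ((Pi.single t 1 : T → ℕ) s)) := by rw [h1]; infer_instance
  exact inferInstanceAs (Subsingleton (Fin ((Pi.single t 1 : T → ℕ) s) → k))

/-- `W t = k` for the frame at `t` -/
noncomputable def evW (t : T) : (frm G k t).X.W t ≃ₗ[k] k :=
  letI : Unique (Fin ((Pi.single t 1 : T → ℕ) t)) :=
    Equiv.unique (finCongr (Pi.single_eq_same t 1))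
  LinearEquiv.funUnique (Fin ((Pi.single t 1 : T → ℕ) t)) k k

theorem gW_frm (t s : T) : (frm G k t).X.gW s = LinearMap.id := rfl
theorem gV_frm (t s : T) : (frm G k t).X.gV s = LinearMap.id := rfl
theorem d_frm (t : T) : (frm G k t).d = 0 := rfl

theorem hT_frm_frm (s t : T) : hT (frm G k s) (frm G k t) = 0 := by
  have : Subsingleton (Cs (frm G k s).X (frm G k t).X) := by
    constructor
    intro f g
    apply Subtype.ext
    apply hm_ext
    · intro r; ext x; exact Subsingleton.elim _ _
    · intro r; rw [f.2 r, g.2 r]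
    · intro r r' a; ext x; exact Subsingleton.elim _ _
    · intro r; ext x; exact Subsingleton.elim _ _
    · intro r; ext x; rw [Subsingleton.elim x 0, map_zero, map_zero]
    · intro r; ext x; exact Subsingleton.elim _ _
  exact hd_of_subsingleton _

/-- `Cs X x_t = Hom(V t, k)` -/
noncomputable def eR (X : Gob G k) (t : T) :
    Cs X (frm G k t).X ≃ₗ[k] Module.Dual k (X.V t) :=
  LinearEquiv.ofBijective
    { toFun := fun f => (evW (G := G) (k := k) t).toLinearMap ∘ₗ cj f.1 t
      map_add' := fun f g => by simp [LinearMap.comp_add]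
      map_smul' := fun c f => by simp [LinearMap.comp_smul] }
    (by
      constructor
      · intro f g hfg
        apply Subtype.ext
        apply hm_ext
        · intro r; ext x; exact Subsingleton.elim _ _
        · intro r; rw [f.2 r, g.2 r]
        · intro r r' a; ext x; exact Subsingleton.elim _ _
        · intro r; ext x; exact Subsingleton.elim _ _
        · intro r
          by_cases h : r = t
          · subst h
            ext x
            have := LinearMap.congr_fun hfg x
            exact (evW (G := G) (k := k) r).injective this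
          · have := subW (G := G) (k := k) h
            ext x; exact Subsingleton.elim _ _
        · intro r; ext x; exact Subsingleton.elim _ _
      · intro ψ
        refine ⟨⟨mkH (fun _ => 0) (fun _ => 0) (fun _ _ _ => 0) (fun _ => 0)
          (Function.update 0 t ((evW (G := G) (k := k) t).symm.toLinearMap ∘ₗ ψ))
          (fun _ => 0), fun _ => rfl⟩, ?_⟩
        ext x
        simp)

@[simp] theorem eR_apply (X : Gob G k) (t : T) (f : Cs X (frm G k t).X) (x : X.V t) :
    eR X t f x = evW (G := G) (k := k) t (cj f.1 t x) := rfl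

/-- `Cs x_t X = V t` -/
noncomputable def eL (X : Gob G k) (t : T) :
    Cs (frm G k t).X X ≃ₗ[k] X.V t :=
  LinearEquiv.ofBijective
    { toFun := fun f => ci f.1 t ((evW (G := G) (k := k) t).symm 1)
      map_add' := fun f g => by simp
      map_smul' := fun c f => by simp }
    (by
      constructor
      · intro f g hfg
        apply Subtype.ext
        apply hm_ext
        · intro r; ext x; rw [Subsingleton.elim x 0, map_zero, map_zero]
        · intro r; rw [f.2 r, g.2 r]
        · intro r r' a; ext x; rw [Subsingleton.elim x 0, map_zero, map_zero]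
        · intro r
          by_cases h : r = t
          · subst h
            ext x
            have h1 : x = (evW (G := G) (k := k) r x) • (evW (G := G) (k := k) r).symm 1 := by
              apply (evW (G := G) (k := k) r).injective
              simp
            rw [h1, map_smul, map_smul]
            exact congrArg _ hfg
          · have := subW (G := G) (k := k) h
            ext x; rw [Subsingleton.elim x 0, map_zero, map_zero]
        · intro r; ext x; rw [Subsingleton.elim x 0, map_zero, map_zero]
        · intro r; ext x; rw [Subsingleton.elim x 0, map_zero, map_zero]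
      · intro y
        refine ⟨⟨mkH (fun _ => 0) (fun _ => 0) (fun _ _ _ => 0)
          (Function.update 0 t
            ((LinearMap.toSpanSingleton k _ y) ∘ₗ (evW (G := G) (k := k) t).toLinearMap))
          (fun _ => 0) (fun _ => 0), mem_Cs.2 fun _ => rfl⟩, ?_⟩
        change (Function.update (0 : ∀ s, (frm G k t).X.W s →ₗ[k] X.V s) t
            ((LinearMap.toSpanSingleton k _ y) ∘ₗ (evW (G := G) (k := k) t).toLinearMap)) t
            ((evW (G := G) (k := k) t).symm 1) = y
        rw [Function.update_self]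
        simp)

@[simp] theorem eL_apply (X : Gob G k) (t : T) (f : Cs (frm G k t).X X) :
    eL X t f = ci f.1 t ((evW (G := G) (k := k) t).symm 1) := rfl

theorem rank_gV_comp (X : Gob G k) (t : T) (f : X.V t →ₗ[k] X.V t) :
    Module.finrank k (LinearMap.range (X.gV t ∘ₗ f)) =
      Module.finrank k (LinearMap.range f) := by
  have hg : Function.Injective (X.gV t) := by
    intro x y h
    have h1 := congrArg (X.gV t) h
    have h2 := LinearMap.congr_fun (X.gV_sq t)
    simp only [LinearMap.comp_apply, LinearMap.id_apply] at h2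
    rwa [h2, h2] at h1
  rw [LinearMap.range_comp]
  exact (Submodule.equivMapOfInjective _ hg _).finrank_eq.symm

/-- number of projectives at `t` : homology of the length 0 part of `d` -/
theorem hT_frm_right (X : TOb G k) (t : T) : hT X (frm G k t) = hd (c0 X.d t) := by
  have h1 : hT X (frm G k t) =
      hd (-(X.X.gV t ∘ₗ c0 X.d t).dualMap : Module.Dual k (X.X.V t) →ₗ[k] _) := by
    apply hd_congr _ _ (eR X.X t)
    intro f
    ext x
    simp [D_apply, d_frm, gW_frm, f.2 t]
  rw [h1, hd_eq, hd_eq, LinearMap.range_neg,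
    LinearMap.finrank_range_dualMap_eq_finrank_range, rank_gV_comp, Subspace.dual_finrank_eq]

theorem hT_frm_left (X : TOb G k) (t : T) : hT (frm G k t) X = hd (c0 X.d t) := by
  apply hd_congr _ _ (eL X.X t)
  intro f
  simp [D_apply, d_frm, f.2 t]

theorem dT_eq (X : TOb G k) (t : T) : dT X t = hd (c0 X.d t) := hT_frm_right X t

theorem hT_frm_right_F (X : FObj G k) (t : T) :
    hT X.toTOb (frm G k t) = Module.finrank k (X.X.V t) := by
  rw [hT_frm_right]
  exact hd_zero_map

theorem hT_frm_left_F (X : FObj G k) (t : T) :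
    hT (frm G k t) X.toTOb = Module.finrank k (X.X.V t) := by
  rw [hT_frm_left]
  exact hd_zero_map

theorem dT_F (X : FObj G k) (t : T) : dT X.toTOb t = Module.finrank k (X.X.V t) :=
  hT_frm_right_F X t

end frames

/-! ### length 0 parts -/

section len0

variable {T : Type u} {G : MG T} {k : Type v} [Field k] [Fintype T]

@[simp] theorem cW_D {X Y : TOb G k} (f : X.X ⟶ Y.X) (t : T) : cW (D X Y f) t = 0 := by
  simp [D_apply]

theorem c0_D_F (X Y : FObj G k) (f : X.X ⟶ Y.X) (t : T) :
    c0 (D X.toTOb Y.toTOb f) t = 0 := by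
  change c0 (f ≫ Y.dm - X.dm ≫ bar f) t = 0
  simp

/-- a minimal object without frames and with `hT U U = 0` is zero -/
theorem subsingleton_V_of_hT (X : FObj G k) (hW : ∀ t, Subsingleton (X.X.W t))
    (h : hT X.toTOb X.toTOb = 0) (t : T) : Subsingleton (X.X.V t) := by
  have hid : (𝟙 X.X : X.X ⟶ X.X) ∈ Cs X.X X.X := by
    intro s
    ext x
    exact (hW s).elim _ _
  obtain ⟨y, hy⟩ := exact_of_hd (D := DC X.toTOb X.toTOb) DC_DC h (x := ⟨𝟙 X.X, hid⟩)
    (Subtype.ext (D_id (X := X.toTOb)))
  have h1 : c0 (D X.toTOb X.toTOb y.1) t = c0 (𝟙 X.X) t := by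
    have := congrArg Subtype.val hy
    rw [DC_coe] at this
    rw [this]
  rw [c0_D_F, c0_id] at h1
  constructor
  intro x y
  have h2 := LinearMap.congr_fun h1 x
  have h3 := LinearMap.congr_fun h1 y
  simp only [LinearMap.zero_apply, LinearMap.id_apply] at h2 h3
  rw [← h2, ← h3]

theorem hT_self_pos (X : FObj G k) (hW : ∀ t, Module.finrank k (X.X.W t) = 0)
    {t : T} (ht : Module.finrank k (X.X.V t) ≠ 0) : 0 < hT X.toTOb X.toTOb := by
  rcases Nat.eq_zero_or_pos (hT X.toTOb X.toTOb) with h | h
  · exfalso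
    have := subsingleton_V_of_hT X (fun s => Module.finrank_zero_iff.1 (hW s)) h t
    exact ht Module.finrank_zero_of_subsingleton
  · exact h

/-- a minimal object with `hD X X = 0` is zero -/
theorem subsingleton_of_hD (X : FObj G k) (h : hD X.toTOb X.toTOb = 0) (t : T) :
    Subsingleton (X.X.V t) ∧ Subsingleton (X.X.W t) := by
  obtain ⟨y, hy⟩ := exact_of_hd (D := D X.toTOb X.toTOb) D_D h (x := 𝟙 X.X)
    (D_id (X := X.toTOb))
  have h1 : c0 (D X.toTOb X.toTOb y) t = c0 (𝟙 X.X) t := by rw [hy]
  have h4 : cW (D X.toTOb X.toTOb y) t = cW (𝟙 X.X) t := by rw [hy]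
  rw [c0_D_F, c0_id] at h1
  rw [cW_D, cW_id] at h4
  constructor
  · constructor
    intro x y
    have h2 := LinearMap.congr_fun h1 x
    have h3 := LinearMap.congr_fun h1 y
    simp only [LinearMap.zero_apply, LinearMap.id_apply] at h2 h3
    rw [← h2, ← h3]
  · constructor
    intro x y
    have h2 := LinearMap.congr_fun h4 x
    have h3 := LinearMap.congr_fun h4 y
    simp only [LinearMap.zero_apply, LinearMap.id_apply] at h2 h3
    rw [← h2, ← h3]

end len0

/-! ### isomorphisms -/

section iso

variable {T : Type u} {G : MG T} {k : Type v} [Field k] [Fintype T]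

/-- a morphism without length 0 part is nilpotent -/
theorem nil3 {X Y Z W : Gob G k} (f : X ⟶ Y) (g : Y ⟶ Z) (h : Z ⟶ W)
    (f0 : ∀ t, c0 f t = 0) (fW : ∀ t, cW f t = 0) (g0 : ∀ t, c0 g t = 0) (gW : ∀ t, cW g t = 0)
    (h0 : ∀ t, c0 h t = 0) (hW : ∀ t, cW h t = 0) : f ≫ g ≫ h = 0 := by
  apply hm_ext <;> intros <;> simp [f0, fW, g0, gW, h0, hW]

theorem isIso_one_add {X : Gob G k} (n : X ⟶ X) (h0 : ∀ t, c0 n t = 0)
    (hW : ∀ t, cW n t = 0) : IsIso (𝟙 X + n) := by
  have h3 : n ≫ n ≫ n = 0 := nil3 n n n h0 hW h0 hW h0 hW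
  refine ⟨𝟙 X - n + n ≫ n, ?_, ?_⟩
  · simp only [Preadditive.add_comp, Preadditive.comp_add, Preadditive.comp_sub,
      Category.id_comp, Category.comp_id, h3]
    abel
  · have h3' : (n ≫ n) ≫ n = 0 := by rw [Category.assoc]; exact h3
    simp only [Preadditive.add_comp, Preadditive.comp_add, Preadditive.sub_comp,
      Category.id_comp, Category.comp_id, h3']
    abel

theorem isIso_of_bijective {X Y : Gob G k} (f : X ⟶ Y)
    (h0 : ∀ t, Function.Bijective (c0 f t)) (hW : ∀ t, Function.Bijective (cW f t)) :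
    IsIso f := by
  let e0 : ∀ t, X.V t ≃ₗ[k] Y.V t := fun t => LinearEquiv.ofBijective (c0 f t) (h0 t)
  let eW : ∀ t, X.W t ≃ₗ[k] Y.W t := fun t => LinearEquiv.ofBijective (cW f t) (hW t)
  let m : X ⟶ Y := mkH (fun t => (e0 t).toLinearMap) (fun t => (eW t).toLinearMap)
    (fun _ _ _ => 0) (fun _ => 0) (fun _ => 0) (fun _ => 0)
  let m' : Y ⟶ X := mkH (fun t => (e0 t).symm.toLinearMap) (fun t => (eW t).symm.toLinearMap)
    (fun _ _ _ => 0) (fun _ => 0) (fun _ => 0) (fun _ => 0)
  have hmm' : m ≫ m' = 𝟙 X := by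
    apply hm_ext <;> intros <;> simp [m, m']
  have hm'm : m' ≫ m = 𝟙 Y := by
    apply hm_ext <;> intros <;> simp [m, m']
  have e0f : ∀ t, (e0 t).toLinearMap = c0 f t := fun t => by ext x; rfl
  have eWf : ∀ t, (eW t).toLinearMap = cW f t := fun t => by ext x; rfl
  have hm : IsIso m := ⟨m', hmm', hm'm⟩
  have hn : IsIso (𝟙 X + (f - m) ≫ m') := by
    apply isIso_one_add
    · intro t
      simp [m, e0f]
    · intro t
      simp [m, eWf]
  have hf : f = (𝟙 X + (f - m) ≫ m') ≫ m := by
    rw [Preadditive.add_comp, Category.assoc, hm'm, Category.id_comp, Category.comp_id]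
    abel
  rw [hf]
  infer_instance

theorem bijective_of_isIso {X Y : Gob G k} (f : X ⟶ Y) [IsIso f] (t : T) :
    Function.Bijective (c0 f t) ∧ Function.Bijective (cW f t) := by
  have h1 : f ≫ inv f = 𝟙 X := IsIso.hom_inv_id f
  have h2 : inv f ≫ f = 𝟙 Y := IsIso.inv_hom_id f
  have a1 : c0 (inv f) t ∘ₗ c0 f t = LinearMap.id := by
    rw [← c0_comp, h1, c0_id]
  have a2 : c0 f t ∘ₗ c0 (inv f) t = LinearMap.id := by
    rw [← c0_comp, h2, c0_id]
  have a3 : cW (inv f) t ∘ₗ cW f t = LinearMap.id := by
    rw [← cW_comp, h1, cW_id]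
  have a4 : cW f t ∘ₗ cW (inv f) t = LinearMap.id := by
    rw [← cW_comp, h2, cW_id]
  exact ⟨⟨(Function.LeftInverse.injective (g := c0 (inv f) t) (LinearMap.congr_fun a1)),
    (Function.RightInverse.surjective (g := c0 (inv f) t) (LinearMap.congr_fun a2))⟩,
    ⟨(Function.LeftInverse.injective (g := cW (inv f) t) (LinearMap.congr_fun a3)),
    (Function.RightInverse.surjective (g := cW (inv f) t) (LinearMap.congr_fun a4))⟩⟩

end iso

/-! ### homotopy equivalences -/

section heq

variable {T : Type u} {G : MG T} {k : Type v} [Field k] [Fintype T]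

variable {X Y : TOb G k}

theorem cW_pq (h : HEquiv X Y) (t : T) : cW h.q t ∘ₗ cW h.p t = LinearMap.id := by
  have := congrArg (fun f => cW f t) h.pq
  simpa using this

theorem cW_qp (h : HEquiv X Y) (t : T) : cW h.p t ∘ₗ cW h.q t = LinearMap.id := by
  have := congrArg (fun f => cW f t) h.qp
  simpa using this

/-- the frames are invariant under homotopy equivalence (any objects) -/
def eW (h : HEquiv X Y) (t : T) : X.X.W t ≃ₗ[k] Y.X.W t :=
  LinearEquiv.ofLinearMap (cW h.p t) (cW h.q t) (cW_qp h t) (cW_pq h t)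

@[simp] theorem eW_apply (h : HEquiv X Y) (t : T) (x : X.X.W t) : eW h t x = cW h.p t x := rfl

theorem lam_eq (h : HEquiv X Y) (t : T) : lam X t = lam Y t := (eW h t).finrank_eq

theorem lam_eq' (h : HIso X Y) (t : T) : lam X t = lam Y t := h.elim fun h => lam_eq h t

/-- a strict isomorphism (even, closed) is a homotopy equivalence -/
noncomputable def ofIso (p : X.X ⟶ Y.X) [IsIso p] (bp : bar p = p) (Dp : D X Y p = 0) :
    HEquiv X Y where
  p := p
  q := inv p
  s := 0
  r := 0
  bp := bp
  bq := by
    have h1 : bar (inv p) ≫ p = 𝟙 _ := by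
      have : bar (inv p) ≫ bar p = 𝟙 _ := by rw [← bar_comp, IsIso.inv_hom_id, bar_id]
      rwa [bp] at this
    exact (IsIso.eq_inv_of_inv_hom_id h1)
  Dp := Dp
  Dq := by
    have h1 : D X X (p ≫ inv p) = p ≫ D Y X (inv p) + D X Y p ≫ bar (inv p) := D_comp _ _
    rw [IsIso.hom_inv_id, D_id, Dp, Limits.zero_comp, add_zero] at h1
    have h2 : inv p ≫ p ≫ D Y X (inv p) = 0 := by rw [← h1, Limits.comp_zero]
    rwa [IsIso.inv_hom_id_assoc] at h2
  pq := by simp
  qp := by simp

end heq

section heqF

variable {T : Type u} {G : MG T} {k : Type v} [Field k] [Fintype T]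

variable {X Y : FObj G k}

theorem c0_pq (h : HEquiv X.toTOb Y.toTOb) (t : T) :
    c0 h.q t ∘ₗ c0 h.p t = LinearMap.id := by
  have h1 : c0 (h.p ≫ h.q) t = c0 (𝟙 X.X + D X.toTOb X.toTOb h.s) t := by rw [h.pq]
  exact h1.trans ((congrArg (fun g => LinearMap.id + g) (c0_D_F X X h.s t)).trans (add_zero _))

theorem c0_qp (h : HEquiv X.toTOb Y.toTOb) (t : T) :
    c0 h.p t ∘ₗ c0 h.q t = LinearMap.id := by
  have h1 : c0 (h.q ≫ h.p) t = c0 (𝟙 Y.X + D Y.toTOb Y.toTOb h.r) t := by rw [h.qp]
  exact h1.trans ((congrArg (fun g => LinearMap.id + g) (c0_D_F Y Y h.r t)).trans (add_zero _))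

/-- the multiplicity spaces of homotopy equivalent minimal objects are isomorphic -/
def eV (h : HEquiv X.toTOb Y.toTOb) (t : T) : X.X.V t ≃ₗ[k] Y.X.V t :=
  LinearEquiv.ofLinearMap (c0 h.p t) (c0 h.q t) (c0_qp h t) (c0_pq h t)

@[simp] theorem eV_apply (h : HEquiv X.toTOb Y.toTOb) (t : T) (x : X.X.V t) :
    eV h t x = c0 h.p t x := rfl

theorem finrank_V_eq (h : HEquiv X.toTOb Y.toTOb) (t : T) :
    Module.finrank k (X.X.V t) = Module.finrank k (Y.X.V t) := (eV h t).finrank_eq

theorem finrank_V_eq' (h : HIso X.toTOb Y.toTOb) (t : T) :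
    Module.finrank k (X.X.V t) = Module.finrank k (Y.X.V t) := h.elim fun h => finrank_V_eq h t

/-- a homotopy equivalence of minimal objects is an isomorphism -/
theorem isIso_p (h : HEquiv X.toTOb Y.toTOb) : IsIso h.p :=
  isIso_of_bijective h.p (fun t => (eV h t).bijective) (fun t => (eW h t).bijective)

/-- homotopy equivalent minimal objects are strictly isomorphic -/
theorem exists_iso (h : HIso X.toTOb Y.toTOb) :
    ∃ p : X.X ≅ Y.X, bar p.hom = p.hom ∧ D X.toTOb Y.toTOb p.hom = 0 := by
  obtain ⟨h⟩ := h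
  have := isIso_p h
  exact ⟨asIso h.p, h.bp, h.Dp⟩

/-! components of a closed even map of minimal objects -/

section closed

variable {f : X.X ⟶ Y.X} (bf : bar f = f) (Df : D X.toTOb Y.toTOb f = 0)

include bf

theorem even_V (t : T) (x : X.X.V t) : c0 f t (X.X.gV t x) = Y.X.gV t (c0 f t x) := by
  have h1 : c0 (bar f) t = c0 f t := by rw [bf]
  rw [c0_bar] at h1
  have h2 := LinearMap.congr_fun h1 (X.X.gV t x)
  have h3 := LinearMap.congr_fun (X.X.gV_sq t) x
  simp only [LinearMap.comp_apply, LinearMap.id_apply] at h2 h3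
  rw [← h2, h3]

theorem even_W (t : T) (x : X.X.W t) : cW f t (X.X.gW t x) = Y.X.gW t (cW f t x) := by
  have h1 : cW (bar f) t = cW f t := by rw [bf]
  rw [cW_bar] at h1
  have h2 := LinearMap.congr_fun h1 (X.X.gW t x)
  have h3 := LinearMap.congr_fun (X.X.gW_sq t) x
  simp only [LinearMap.comp_apply, LinearMap.id_apply] at h2 h3
  rw [← h2, h3]

include Df

theorem closed_eq : f ≫ Y.dm = X.dm ≫ f := by
  have h := D_apply (X := X.toTOb) (Y := Y.toTOb) f
  rw [Df, bf] at h
  exact (sub_eq_zero.1 h.symm)

theorem closed_B {s t : T} (a : G.E s t) (x : X.X.V s) :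
    c0 f t (X.B a x) = Y.B a (c0 f s x) := by
  have h := congrArg (fun g => c1 g a) (closed_eq bf Df)
  simp only [c1_comp, FObj.c0_dm, FObj.c1_dm, LinearMap.zero_comp, LinearMap.comp_zero,
    add_zero, zero_add] at h
  exact (LinearMap.congr_fun h x).symm

theorem closed_i (t : T) (x : X.X.W t) : c0 f t (X.i t x) = Y.i t (cW f t x) := by
  have h := congrArg (fun g => ci g t) (closed_eq bf Df)
  simp only [ci_comp, FObj.c0_dm, FObj.cW_dm, FObj.ci_dm, LinearMap.zero_comp,
    LinearMap.comp_zero, add_zero, zero_add] at h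
  exact (LinearMap.congr_fun h x).symm

theorem closed_j (t : T) (x : X.X.V t) : cW f t (X.j t x) = Y.j t (c0 f t x) := by
  have h := congrArg (fun g => cj g t) (closed_eq bf Df)
  simp only [cj_comp, FObj.c0_dm, FObj.cW_dm, FObj.cj_dm, LinearMap.zero_comp,
    LinearMap.comp_zero, add_zero, zero_add] at h
  exact (LinearMap.congr_fun h x).symm

end closed

end heqF

end Crest.Agent.R175.Unfr_83
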