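import Crest.Agent.R175.TUh_988
import Crest.Agent.R175.TwJ_253
import Crest.Agent.R175.TwV_83

/-!
Row 175: **`hT (TU X) (TU Y) = hT X Y`**, `hT (TV X) (TV Y) = hT X Y`, `dT (TU X) t = dT X t` for `¬ U t`.
-/

set_option autoImplicit false
set_option linter.unusedSectionVars false

open CategoryTheory

namespace Crest.Agent.R175.TUh_988

open Crest.Agent.R175.PTA Crest.Agent.R175.TwG_253 Crest.Agent.R175.TU_788
open Crest.Agent.R175.TwA_253 (Tw Sum2 Sph Tm Tm')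
open Crest.Agent.R175.TwS_83 (SI)

universe v

noncomputable section

variable {T : Type v} {G : MG T} {k : Type v} [Field k] [Fintype T]

theorem hmap_smul {X Y : Gob G k} (c : k) (f : X ⟶ Y) (t : T) (x : HP X t) :
    hmap (c • f) t x = c • hmap f t x := by
  apply HP_ext
  · simp [hmap_0]
  · intro s a; simp [hmap_1]
  · simp [hmap_w]
  · simp [hmap_2, Finset.smul_sum]

theorem m_smul (U : T → Prop) {X Y : Gob G k} (c : k) (f : X ⟶ Y) :
    mG U (c • f) = c • mG U f := by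
  apply hm_ext
  · intro t; apply LinearMap.ext; intro x
    simp only [c0_smul, LinearMap.smul_apply, c0_mG, hmap_smul, map_smul]
  · intro t; apply LinearMap.ext; intro x; exact Subsingleton.elim _ _
  · intro s t a; simp [c1_mG]
  · intro t; simp [ci_mG]
  · intro t; simp [cj_mG]
  · intro t; simp [c2_mG]

/-- the inequality for the twist, abstractly -/
theorem hT_le_gen (F : Sph (Gob G k)) (hm : ∀ {A B : Gob G k} (f : A ⟶ B), F.m f ∈ Cs (F.Q A) (F.Q B))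
    (hs : ∀ {A B : Gob G k} (c : k) (f : A ⟶ B), F.m (c • f) = c • F.m f) (X Y : TOb G k)
    (S : Sum2 (F.Q (toTw X).X) (toTw X).X) (S' : Sum2 (F.Q (toTw Y).X) (toTw Y).X)
    (hp : FmU_83.Pu (TwA_253.T F (toTw X) S).e) (hd : ∀ t, cW (TwA_253.T F (toTw X) S).d t = 0)
    (hp' : FmU_83.Pu (TwA_253.T F (toTw Y) S').e)
    (hd' : ∀ t, cW (TwA_253.T F (toTw Y) S').d t = 0) :
    hT X Y ≤ hT (ofTw (TwA_253.T F (toTw X) S) hp hd) (ofTw (TwA_253.T F (toTw Y) S') hp' hd') := by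
  have R : Sum2 (TwA_253.T F (toTw X) S).X (F.Q (TwA_253.T F (toTw X) S).X) := sm _ _
  have R' : Sum2 (TwA_253.T F (toTw Y) S').X (F.Q (TwA_253.T F (toTw Y) S').X) := sm _ _
  have hC : ∀ f : X.X ⟶ Y.X, f ∈ Cs X.X Y.X → Tm F (toTw X) (toTw Y) S S' f ∈ Cs S.S S'.S := by
    intro f hf
    refine Submodule.add_mem _ (Cs_comp_left _ (Cs_comp_right (hm _) _)) ?_
    exact Cs_comp_left _ (Cs_comp_right hf _)
  have hsm : ∀ (c : k) (f : X.X ⟶ Y.X), Tm F (toTw X) (toTw Y) S S' (c • f) =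
      c • Tm F (toTw X) (toTw Y) S S' f := by
    intro c f
    unfold Tm TwA_253.bar
    simp only [Linear.smul_comp, Linear.comp_smul, hs, smul_add]
  refine hd_le_of_inj (D := DC X Y)
    (D' := DC (ofTw (TwA_253.T F (toTw X) S) hp hd) (ofTw (TwA_253.T F (toTw Y) S') hp' hd'))
    (fun f => DC_DC f) (fun f => DC_DC f)
    ({ toFun := fun f => ⟨Tm F (toTw X) (toTw Y) S S' f.1, hC f.1 f.2⟩
       map_add' := fun f g => Subtype.ext (TwA_253.Tm_add (S := S) (S' := S') f.1 g.1)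
       map_smul' := fun c f => Subtype.ext (hsm c f.1) } : Cs X.X Y.X →ₗ[k] Cs _ _)
    (fun f hf => ?_) (fun f hf => ?_)
  · apply Subtype.ext
    have hf' : TwA_253.D (toTw X) (toTw Y) f.1 = 0 := congrArg Subtype.val hf
    have h1 := D_ofTw hp hd hp' hd' (Tm F (toTw X) (toTw Y) S S' f.1)
    refine h1.trans ?_
    rw [TwA_253.D_Tm, hf', TwA_253.Tm_zero]
    rfl
  · rintro ⟨g, hg⟩
    have hg1 : Tm F (toTw X) (toTw Y) S S' f.1 =
        TwA_253.D (TwA_253.T F (toTw X) S) (TwA_253.T F (toTw Y) S') g.1 :=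
      (congrArg Subtype.val hg).trans (D_ofTw hp hd hp' hd' g.1)
    have hgC : TwA_253.Rt F (toTw X) (toTw Y) S R S' R' g.1 ∈ Cs X.X Y.X := by
      refine Cs_comp_left _ (Cs_comp_right ?_ _)
      refine Submodule.add_mem _ (Cs_comp_left _ (Cs_comp_right ?_ _))
        (Cs_comp_left _ (Cs_comp_right (hm _) _))
      exact g.2
    refine ⟨⟨TwA_253.Rt F (toTw X) (toTw Y) S R S' R' g.1, hgC⟩, ?_⟩
    apply Subtype.ext
    have h1 := TwA_253.D_Rt F (toTw X) (toTw Y) S R S' R' g.1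
    have h2 := congrArg (TwA_253.Rt F (toTw X) (toTw Y) S R S' R') hg1
    have h3 := TwA_253.Rt_Tm F (toTw X) (toTw Y) S R S' R' f.1
    exact (h1.trans (h2.symm.trans h3)).symm

/-- the inequality for the inverse twist, abstractly -/
theorem hT_le_gen' (F : Sph (Gob G k)) (hm : ∀ {A B : Gob G k} (f : A ⟶ B), F.m f ∈ Cs (F.Q A) (F.Q B))
    (hs : ∀ {A B : Gob G k} (c : k) (f : A ⟶ B), F.m (c • f) = c • F.m f) (X Y : TOb G k)
    (S : Sum2 (toTw X).X (F.Q (toTw X).X)) (S' : Sum2 (toTw Y).X (F.Q (toTw Y).X))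
    (hp : FmU_83.Pu (TwA_253.T' F (toTw X) S).e) (hd : ∀ t, cW (TwA_253.T' F (toTw X) S).d t = 0)
    (hp' : FmU_83.Pu (TwA_253.T' F (toTw Y) S').e)
    (hd' : ∀ t, cW (TwA_253.T' F (toTw Y) S').d t = 0) :
    hT X Y ≤ hT (ofTw (TwA_253.T' F (toTw X) S) hp hd) (ofTw (TwA_253.T' F (toTw Y) S') hp' hd') := by
  have R : Sum2 (F.Q (TwA_253.T' F (toTw X) S).X) (TwA_253.T' F (toTw X) S).X := sm _ _
  have R' : Sum2 (F.Q (TwA_253.T' F (toTw Y) S').X) (TwA_253.T' F (toTw Y) S').X := sm _ _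
  have hC : ∀ f : X.X ⟶ Y.X, f ∈ Cs X.X Y.X → Tm' F (toTw X) (toTw Y) S S' f ∈ Cs S.S S'.S := by
    intro f hf
    refine Submodule.add_mem _ (Cs_comp_left _ (Cs_comp_right hf _)) ?_
    exact Cs_comp_left _ (Cs_comp_right (hm _) _)
  have hsm : ∀ (c : k) (f : X.X ⟶ Y.X), Tm' F (toTw X) (toTw Y) S S' (c • f) =
      c • Tm' F (toTw X) (toTw Y) S S' f := by
    intro c f
    unfold Tm' TwA_253.bar
    simp only [Linear.smul_comp, Linear.comp_smul, hs, smul_add]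
  refine hd_le_of_inj (D := DC X Y)
    (D' := DC (ofTw (TwA_253.T' F (toTw X) S) hp hd) (ofTw (TwA_253.T' F (toTw Y) S') hp' hd'))
    (fun f => DC_DC f) (fun f => DC_DC f)
    ({ toFun := fun f => ⟨Tm' F (toTw X) (toTw Y) S S' f.1, hC f.1 f.2⟩
       map_add' := fun f g => Subtype.ext (TwA_253.Tm'_add (S := S) (S' := S') f.1 g.1)
       map_smul' := fun c f => Subtype.ext (hsm c f.1) } : Cs X.X Y.X →ₗ[k] Cs _ _)
    (fun f hf => ?_) (fun f hf => ?_)
  · apply Subtype.ext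
    have hf' : TwA_253.D (toTw X) (toTw Y) f.1 = 0 := congrArg Subtype.val hf
    have h1 := D_ofTw hp hd hp' hd' (Tm' F (toTw X) (toTw Y) S S' f.1)
    refine h1.trans ?_
    rw [TwA_253.D_Tm', hf', TwA_253.Tm'_zero]
    rfl
  · rintro ⟨g, hg⟩
    have hg1 : Tm' F (toTw X) (toTw Y) S S' f.1 =
        TwA_253.D (TwA_253.T' F (toTw X) S) (TwA_253.T' F (toTw Y) S') g.1 :=
      (congrArg Subtype.val hg).trans (D_ofTw hp hd hp' hd' g.1)
    have hgC : TwA_253.Rt' F (toTw X) (toTw Y) S R S' R' g.1 ∈ Cs X.X Y.X := by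
      refine Cs_comp_left _ (Cs_comp_right ?_ _)
      refine Submodule.add_mem _ (Cs_comp_left _ (Cs_comp_right (hm _) _))
        (Cs_comp_left _ (Cs_comp_right ?_ _))
      exact g.2
    refine ⟨⟨TwA_253.Rt' F (toTw X) (toTw Y) S R S' R' g.1, hgC⟩, ?_⟩
    apply Subtype.ext
    have h1 := TwA_253.D_Rt' F (toTw X) (toTw Y) S R S' R' g.1
    have h2 := congrArg (TwA_253.Rt' F (toTw X) (toTw Y) S R S' R') hg1
    have h3 := TwA_253.Rt_Tm' F (toTw X) (toTw Y) S R S' R' f.1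
    exact (h1.trans (h2.symm.trans h3)).symm

variable (U : T → Prop) (hU : ∀ s t, U s → U t → IsEmpty (G.E s t))

theorem mG_mem_Cs {X Y : Gob G k} (f : X ⟶ Y) : mG U f ∈ Cs (QG U X) (QG U Y) := fun _ => rfl

theorem hT_le_TU (X Y : TOb G k) : hT X Y ≤ hT (TU U hU X) (TU U hU Y) :=
  hT_le_gen (sphG U hU) (mG_mem_Cs U) (m_smul U) X Y _ _ _ _ _ _

theorem hT_le_TV (X Y : TOb G k) : hT X Y ≤ hT (TV U hU X) (TV U hU Y) :=
  hT_le_gen' (sphG U hU) (mG_mem_Cs U) (m_smul U) X Y _ _ _ _ _ _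

/-- **`hT (TU X) (TU Y) = hT X Y`** -/
theorem hT_TU (X Y : TOb G k) : hT (TU U hU X) (TU U hU Y) = hT X Y := by
  refine le_antisymm ?_ (hT_le_TU U hU X Y)
  refine (hT_le_TV U hU (TU U hU X) (TU U hU Y)).trans (le_of_eq ?_)
  exact ((TV_TU U hU X).hT_left _).trans ((TV_TU U hU Y).hT_right _)

/-- **`hT (TV X) (TV Y) = hT X Y`** -/
theorem hT_TV (X Y : TOb G k) : hT (TV U hU X) (TV U hU Y) = hT X Y := by
  refine le_antisymm ?_ (hT_le_TV U hU X Y)
  refine (hT_le_TU U hU (TV U hU X) (TV U hU Y)).trans (le_of_eq ?_)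
  exact ((TU_TV U hU X).hT_left _).trans ((TU_TV U hU Y).hT_right _)

end

end Crest.Agent.R175.TUh_988
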