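import Crest.Agent.R175.PTD_450

/-!
# T-framed objects (row 175, helper450): minimal model

For `(2 : k) ≠ 0` every `X : TOb G k` is homotopy equivalent to a minimal object.
-/

set_option autoImplicit false
set_option linter.unusedSectionVars false
set_option linter.unusedVariables false
set_option linter.unusedSimpArgs false

open CategoryTheory Module LinearMap

namespace Crest.Agent.R175.PTA

universe u v

section linalg

variable {k : Type*} [Field k] {V V' : Type*} [AddCommGroup V] [Module k V]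
  [AddCommGroup V'] [Module k V']

/-- generalized inverse -/
theorem exists_ginv (f : V →ₗ[k] V') : ∃ g : V' →ₗ[k] V, ∀ x, f (g (f x)) = f x := by
  obtain ⟨s, hs⟩ := f.rangeRestrict.exists_rightInverse_of_surjective f.range_rangeRestrict
  obtain ⟨g, hg⟩ := LinearMap.exists_extend s
  refine ⟨g, fun x => ?_⟩
  have h1 : g (f x) = s ⟨f x, ⟨x, rfl⟩⟩ := LinearMap.congr_fun hg ⟨f x, ⟨x, rfl⟩⟩
  rw [h1]
  exact congrArg Subtype.val (LinearMap.congr_fun hs ⟨f x, ⟨x, rfl⟩⟩)

/-- odd contraction of a differential -/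
theorem exists_contraction (h2 : (2 : k) ≠ 0) (δ γ : V →ₗ[k] V) (hδ : ∀ x, δ (δ x) = 0)
    (hγ : ∀ x, γ (γ x) = x) (hδγ : ∀ x, δ (γ x) = -γ (δ x)) :
    ∃ h : V →ₗ[k] V, (∀ x, h (h x) = 0) ∧ (∀ x, h (δ (h x)) = h x) ∧
      (∀ x, δ (h (δ x)) = δ x) ∧ (∀ x, γ (h (γ x)) = -h x) := by
  obtain ⟨g, hg⟩ := exists_ginv δ
  -- odd part
  let g1 : V →ₗ[k] V := (2⁻¹ : k) • (g - γ ∘ₗ g ∘ₗ γ)
  have hg1 : ∀ x, g1 x = (2⁻¹ : k) • (g x - γ (g (γ x))) := fun x => rfl
  have a1 : ∀ x, δ (g1 (δ x)) = δ x := by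
    intro x
    have this : γ (δ x) = -δ (γ x) := by rw [hδγ, neg_neg]
    have key : δ (γ (g (γ (δ x)))) = -δ x := by
      rw [hδγ, this, map_neg, map_neg, hg, map_neg, neg_neg, hδγ, map_neg, hγ]
    rw [hg1, map_smul, map_sub, hg, key, sub_neg_eq_add, ← two_smul k,
      smul_smul, inv_mul_cancel₀ h2, one_smul]
  have b1 : ∀ x, γ (g1 (γ x)) = -g1 x := by
    intro x
    rw [hg1, hg1, map_smul, map_sub, hγ, hγ, ← smul_neg, neg_sub]
  let g2 : V →ₗ[k] V := g1 ∘ₗ δ ∘ₗ g1
  have hg2 : ∀ x, g2 x = g1 (δ (g1 x)) := fun x => rfl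
  have a2 : ∀ x, δ (g2 (δ x)) = δ x := by intro x; rw [hg2, a1, a1]
  have a2' : ∀ x, g2 (δ (g2 x)) = g2 x := by
    intro x; rw [hg2, hg2, a1, a1]
  have b2 : ∀ x, γ (g2 (γ x)) = -g2 x := by
    intro x
    rw [hg2, hg2]
    have h1 : g1 (γ x) = -γ (g1 x) := by
      have := b1 x
      have := congrArg γ this
      rw [hγ, map_neg] at this
      exact this
    have h3 : ∀ y, g1 (γ y) = -γ (g1 y) := by
      intro y
      have := congrArg γ (b1 y)
      rw [hγ, map_neg] at this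
      exact this
    rw [h1, map_neg, map_neg, map_neg, hδγ, map_neg, map_neg, neg_neg, h3, map_neg, hγ]
  let g3 : V →ₗ[k] V := g2 - g2 ∘ₗ g2 ∘ₗ δ
  have hg3 : ∀ x, g3 x = g2 x - g2 (g2 (δ x)) := fun x => rfl
  refine ⟨g3, ?_, ?_, ?_, ?_⟩
  · intro x
    rw [hg3, hg3]
    simp only [map_sub, a2', sub_self]
  · intro x
    rw [hg3 (δ (g3 x)), hδ, map_zero, map_zero, sub_zero, hg3, map_sub, map_sub, a2', a2']
  · intro x
    rw [hg3, hδ, map_zero, map_zero, sub_zero, a2]
  · intro x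
    have h3 : ∀ y, g2 (γ y) = -γ (g2 y) := by
      intro y
      have := congrArg γ (b2 y)
      rw [hγ, map_neg] at this
      exact this
    rw [hg3, hg3, hδγ]
    simp only [map_sub, map_neg, h3, hγ, neg_neg]
    abel

end linalg

variable {T : Type u} {G : MG T} {k : Type v} [Field k]

/-- maps of length ≥ 1 -/
def IsRad {X Y : Gob G k} (f : X ⟶ Y) : Prop := (∀ t, c0 f t = 0) ∧ (∀ t, cW f t = 0)

variable [Fintype T]

theorem IsRad.comp_left {X Y Z : Gob G k} (f : X ⟶ Y) {g : Y ⟶ Z} (h : IsRad g) :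
    IsRad (f ≫ g) :=
  ⟨fun t => by simp [h.1 t], fun t => by simp [h.2 t]⟩

theorem IsRad.comp_right {X Y Z : Gob G k} {f : X ⟶ Y} (h : IsRad f) (g : Y ⟶ Z) :
    IsRad (f ≫ g) :=
  ⟨fun t => by simp [h.1 t], fun t => by simp [h.2 t]⟩

theorem IsRad.add {X Y : Gob G k} {f g : X ⟶ Y} (h : IsRad f) (h' : IsRad g) :
    IsRad (f + g) :=
  ⟨fun t => by simp [h.1 t, h'.1 t], fun t => by simp [h.2 t, h'.2 t]⟩

theorem IsRad.neg {X Y : Gob G k} {f : X ⟶ Y} (h : IsRad f) : IsRad (-f) :=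
  ⟨fun t => by simp [h.1 t], fun t => by simp [h.2 t]⟩

theorem IsRad.bar {X Y : Gob G k} {f : X ⟶ Y} (h : IsRad f) : IsRad (PTA.bar f) :=
  IsRad.comp_left _ (h.comp_right _)

/-- the product of two maps of length ≥ 1 has only a length 2 component -/
theorem IsRad.comp {X Y Z : Gob G k} {f : X ⟶ Y} {g : Y ⟶ Z}
    (hf : IsRad f) (hg : IsRad g) :
    (∀ (s t : T) (a : G.E s t), c1 (f ≫ g) a = 0) ∧ (∀ t, ci (f ≫ g) t = 0) ∧
      (∀ t, cj (f ≫ g) t = 0) :=
  ⟨fun s t a => by simp [hf.1 s, hg.1 t], fun t => by simp [hf.2 t, hg.1 t],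
    fun t => by simp [hf.1 t, hg.2 t]⟩

/-- products of three maps of length ≥ 1 vanish -/
theorem rad3 {X Y Z W : Gob G k} {f : X ⟶ Y} {g : Y ⟶ Z} {h : Z ⟶ W}
    (hf : IsRad f) (hg : IsRad g) (hh : IsRad h) : f ≫ g ≫ h = 0 := by
  obtain ⟨e1, ei, ej⟩ := hg.comp hh
  have hgh : IsRad (g ≫ h) := hh.comp_left g
  generalize g ≫ h = m at *
  apply hm_ext
  · intro t; simp [hf.1 t]
  · intro t; simp [hf.2 t]
  · intro s t a; simp [hf.1 s, hgh.1 t]
  · intro t; simp [hf.2 t, hgh.1 t]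
  · intro t; simp [hf.1 t, hgh.2 t]
  · intro t; simp [hf.1 t, hgh.1 t, e1, ei]

/-- a minimal `TOb` is an `FObj` -/
def TOb.toFObj (X : TOb G k) (h : ∀ t, c0 X.d t = 0) : FObj G k where
  X := X.X
  B a := c1 X.d a
  i t := ci X.d t
  j t := cj X.d t
  e t := c2 X.d t
  mc t := by
    have := congrArg (fun f => c2 f t) X.dd
    change c2 (X.d ≫ X.d) t = 0 at this
    rw [c2_comp, h t, LinearMap.comp_zero, LinearMap.zero_comp, zero_add, zero_add] at this
    exact this
  gB {s t} a := by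
    have := congrArg (fun f => c1 f a) X.dg
    simpa using this
  gi t := by
    have := congrArg (fun f => ci f t) X.dg
    simpa using this
  gj t := by
    have := congrArg (fun f => cj f t) X.dg
    simpa using this
  ge t := by
    have := congrArg (fun f => c2 f t) X.dg
    simpa using this

theorem TOb.toFObj_dm (X : TOb G k) (h : ∀ t, c0 X.d t = 0) : (X.toFObj h).dm = X.d := by
  apply hm_ext
  · intro t; exact (h t).symm
  · intro t; exact (X.dW t).symm
  all_goals intros; rfl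

theorem TOb.eq_of_d {X : Gob G k} {d d' : X ⟶ X} (h : d = d') {dd dg dW dd' dg' dW'} :
    (⟨X, d, dd, dg, dW⟩ : TOb G k) = ⟨X, d', dd', dg', dW'⟩ := by
  subst h; rfl

theorem TOb.toFObj_toTOb (X : TOb G k) (h : ∀ t, c0 X.d t = 0) :
    (X.toFObj h).toTOb = X := by
  cases X with
  | mk X d dd dg dW =>
    have := TOb.toFObj_dm (TOb.mk X d dd dg dW) h
    exact TOb.eq_of_d this

namespace Min

variable (X : TOb G k)

/-- contraction data for the length 0 part -/
structure Con where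
  /-- the contraction -/
  h : ∀ t, X.X.V t →ₗ[k] X.X.V t
  hh : ∀ t x, h t (h t x) = 0
  hdh : ∀ t x, h t (c0 X.d t (h t x)) = h t x
  dhd : ∀ t x, c0 X.d t (h t (c0 X.d t x)) = c0 X.d t x
  ghg : ∀ t x, X.X.gV t (h t (X.X.gV t x)) = -h t x

theorem c0_dd (t : T) (x : X.X.V t) : c0 X.d t (c0 X.d t x) = 0 := by
  have := congrArg (fun f => c0 f t x) X.dd
  exact this

theorem c0_dg (t : T) (x : X.X.V t) :
    c0 X.d t (X.X.gV t x) = -X.X.gV t (c0 X.d t x) := by
  have := congrArg (fun f => c0 f t x) X.dg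
  have h2 : X.X.gV t (c0 X.d t x) = -c0 X.d t (X.X.gV t x) := by simpa using this
  rw [h2, neg_neg]

theorem exists_con (h2 : (2 : k) ≠ 0) : Nonempty (Con X) := by
  have := fun t => exists_contraction h2 (c0 X.d t) (X.X.gV t) (c0_dd X t)
    (gVgV X.X t) (c0_dg X t)
  choose h h1 h2 h3 h4 using this
  exact ⟨⟨h, h1, h2, h3, h4⟩⟩

variable {X} (K : Con X)

/-- the projection `1 - δh - hδ` -/
def pi (t : T) : X.X.V t →ₗ[k] X.X.V t :=
  LinearMap.id - c0 X.d t ∘ₗ K.h t - K.h t ∘ₗ c0 X.d t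

theorem pi_apply (t : T) (x : X.X.V t) :
    pi K t x = x - c0 X.d t (K.h t x) - K.h t (c0 X.d t x) := rfl

theorem pi_h (t : T) (x : X.X.V t) : pi K t (K.h t x) = 0 := by
  rw [pi_apply, K.hh, map_zero, K.hdh]; simp

theorem h_pi (t : T) (x : X.X.V t) : K.h t (pi K t x) = 0 := by
  rw [pi_apply, map_sub, map_sub, K.hdh, K.hh]; simp

theorem pi_d (t : T) (x : X.X.V t) : pi K t (c0 X.d t x) = 0 := by
  rw [pi_apply, K.dhd, c0_dd, map_zero]; simp

theorem d_pi (t : T) (x : X.X.V t) : c0 X.d t (pi K t x) = 0 := by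
  rw [pi_apply, map_sub, map_sub, c0_dd, K.dhd]; simp

theorem pi_pi (t : T) (x : X.X.V t) : pi K t (pi K t x) = pi K t x := by
  conv_lhs => rw [pi_apply]
  rw [h_pi, d_pi, map_zero, map_zero, sub_zero, sub_zero]

theorem h_g (t : T) (x : X.X.V t) : K.h t (X.X.gV t x) = -X.X.gV t (K.h t x) := by
  have := congrArg (X.X.gV t) (K.ghg t x)
  rw [gVgV, map_neg] at this
  exact this

theorem pi_g (t : T) (x : X.X.V t) : pi K t (X.X.gV t x) = X.X.gV t (pi K t x) := by
  rw [pi_apply, pi_apply, h_g, c0_dg, map_neg, map_neg, c0_dg, h_g, neg_neg, neg_neg,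
    map_sub, map_sub]

/-- the graded object of the minimal model -/
@[reducible] def gob : Gob G k where
  V t := LinearMap.range (pi K t)
  W t := X.X.W t
  gV t := (X.X.gV t).restrict (by
    rintro _ ⟨x, rfl⟩
    exact ⟨X.X.gV t x, pi_g K t x⟩)
  gW t := X.X.gW t
  gV_sq t := by
    apply LinearMap.ext
    intro x
    apply Subtype.ext
    exact gVgV X.X t x.1
  gW_sq t := X.X.gW_sq t

/-- inclusion -/
def r0 : gob K ⟶ X.X :=
  mkH (fun t => (LinearMap.range (pi K t)).subtype) (fun t => LinearMap.id)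
    (fun _ _ _ => 0) (fun _ => 0) (fun _ => 0) (fun _ => 0)

/-- projection -/
def q0 : X.X ⟶ gob K :=
  mkH (fun t => (pi K t).rangeRestrict) (fun t => LinearMap.id)
    (fun _ _ _ => 0) (fun _ => 0) (fun _ => 0) (fun _ => 0)

/-- the contraction as a morphism -/
def A : X.X ⟶ X.X :=
  mkH K.h (fun _ => 0) (fun _ _ _ => 0) (fun _ => 0) (fun _ => 0) (fun _ => 0)

variable (X) in
/-- the length 0 part of `d` -/
def d0 : X.X ⟶ X.X :=
  mkH (c0 X.d) (fun _ => 0) (fun _ _ _ => 0) (fun _ => 0) (fun _ => 0) (fun _ => 0)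

variable (X) in
/-- the part of length ≥ 1 of `d` -/
def B : X.X ⟶ X.X := X.d - d0 X

theorem d_eq : X.d = d0 X + B X := by unfold B; abel

theorem rad_B : IsRad (B X) := by
  constructor
  · intro t; simp [B, d0]
  · intro t; simp [B, d0]

theorem A_A : A K ≫ A K = 0 := by
  apply hm_ext
  · intro t
    apply LinearMap.ext; intro x
    exact K.hh t x
  all_goals intros; simp [A]

theorem A_A_assoc {Z : Gob G k} (f : X.X ⟶ Z) : A K ≫ A K ≫ f = 0 := by
  rw [← Category.assoc, A_A, Limits.zero_comp]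

theorem A_d0_A : A K ≫ d0 X ≫ A K = A K := by
  apply hm_ext
  · intro t
    apply LinearMap.ext; intro x
    exact K.hdh t x
  all_goals intros; simp [A, d0]

theorem A_d0_A_assoc {Z : Gob G k} (f : X.X ⟶ Z) : A K ≫ d0 X ≫ A K ≫ f = A K ≫ f := by
  have := A_d0_A K
  calc A K ≫ d0 X ≫ A K ≫ f = (A K ≫ d0 X ≫ A K) ≫ f := by simp only [Category.assoc]
    _ = _ := by rw [this]

theorem B3 : B X ≫ A K ≫ B X ≫ A K ≫ B X = 0 := by
  have := rad3 (rad_B (X := X)) (IsRad.comp_left (A K) (rad_B (X := X)))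
    (IsRad.comp_left (A K) (rad_B (X := X)))
  simpa only [Category.assoc] using this

theorem B3_assoc {Z : Gob G k} (f : X.X ⟶ Z) :
    B X ≫ A K ≫ B X ≫ A K ≫ B X ≫ f = 0 := by
  have := B3 K
  calc B X ≫ A K ≫ B X ≫ A K ≫ B X ≫ f = (B X ≫ A K ≫ B X ≫ A K ≫ B X) ≫ f := by
        simp only [Category.assoc]
    _ = _ := by rw [this, Limits.zero_comp]

/-- the perturbed contraction -/
def S : X.X ⟶ X.X :=
  A K - A K ≫ B X ≫ A K + A K ≫ B X ≫ A K ≫ B X ≫ A K

theorem S_S : S K ≫ S K = 0 := by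
  unfold S
  simp only [Preadditive.add_comp, Preadditive.comp_add, Preadditive.sub_comp,
    Preadditive.comp_sub, Category.assoc, A_A, A_A_assoc, Limits.comp_zero]
  simp

theorem S_d_S : S K ≫ X.d ≫ S K = S K := by
  rw [d_eq]
  unfold S
  simp only [Preadditive.add_comp, Preadditive.comp_add, Preadditive.sub_comp,
    Preadditive.comp_sub, Category.assoc, A_A, A_A_assoc, A_d0_A, A_d0_A_assoc, B3,
    B3_assoc, Limits.comp_zero]
  abel

theorem S_a : S K ≫ (𝟙 X.X + B X ≫ A K) = A K := by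
  unfold S
  simp only [Preadditive.add_comp, Preadditive.comp_add, Preadditive.sub_comp,
    Preadditive.comp_sub, Category.assoc, A_A, A_A_assoc, B3,
    B3_assoc, Limits.comp_zero, Category.comp_id]
  abel

theorem b_S : (𝟙 X.X + A K ≫ B X) ≫ S K = A K := by
  unfold S
  simp only [Preadditive.add_comp, Preadditive.comp_add, Preadditive.sub_comp,
    Preadditive.comp_sub, Category.assoc, A_A, A_A_assoc, B3,
    B3_assoc, Limits.comp_zero, Category.id_comp]
  abel

theorem r0_A : r0 K ≫ A K = 0 := by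
  apply hm_ext
  · intro t
    apply LinearMap.ext
    rintro ⟨_, ⟨x, rfl⟩⟩
    exact h_pi K t x
  all_goals intros; simp [A, r0]

theorem A_q0 : A K ≫ q0 K = 0 := by
  apply hm_ext
  · intro t
    apply LinearMap.ext; intro x
    apply Subtype.ext
    exact pi_h K t x
  all_goals intros; simp [A, q0]

theorem r0_q0 : r0 K ≫ q0 K = 𝟙 (gob K) := by
  apply hm_ext
  · intro t
    apply LinearMap.ext
    rintro ⟨_, ⟨x, rfl⟩⟩
    apply Subtype.ext
    exact pi_pi K t x
  · intro t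
    apply LinearMap.ext; intro x
    rfl
  all_goals intros; simp [q0, r0]

theorem q0_r0 : q0 K ≫ r0 K + A K ≫ d0 X + d0 X ≫ A K = 𝟙 X.X := by
  apply hm_ext
  · intro t
    apply LinearMap.ext; intro x
    change pi K t x + c0 X.d t (K.h t x) + K.h t (c0 X.d t x) = x
    rw [pi_apply]; abel
  · intro t
    apply LinearMap.ext; intro x
    simp [A, d0, q0, r0]
  all_goals intros; simp [A, d0, q0, r0]

theorem bar_A : bar (A K) = -A K := by
  apply hm_ext
  · intro t
    rw [c0_bar]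
    apply LinearMap.ext; intro x
    exact K.ghg t x
  all_goals intros; simp [A]

theorem bar_d0 : bar (d0 X) = -d0 X := by
  apply hm_ext
  · intro t
    rw [c0_bar]
    apply LinearMap.ext; intro x
    change X.X.gV t (c0 X.d t (X.X.gV t x)) = -c0 X.d t x
    rw [c0_dg, map_neg, gVgV]
  all_goals intros; simp [d0]

theorem bar_B : bar (B X) = -B X := by
  unfold B
  rw [bar_sub, bar_d0, X.bar_d]
  abel

theorem bar_S : bar (S K) = -S K := by
  unfold S
  simp only [bar_add, bar_sub, bar_comp, bar_A, bar_B, Preadditive.neg_comp,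
    Preadditive.comp_neg, neg_neg]
  abel

theorem bar_r0 : bar (r0 K) = r0 K := by
  apply hm_ext
  · intro t
    rw [c0_bar]
    apply LinearMap.ext; intro x
    exact gVgV X.X t x.1
  · intro t
    rw [cW_bar]
    apply LinearMap.ext; intro x
    exact gWgW X.X t x
  all_goals intros; simp [r0]

theorem bar_q0 : bar (q0 K) = q0 K := by
  apply hm_ext
  · intro t
    rw [c0_bar]
    apply LinearMap.ext; intro x
    apply Subtype.ext
    change X.X.gV t (pi K t (X.X.gV t x)) = pi K t x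
    rw [pi_g, gVgV]
  · intro t
    rw [cW_bar]
    apply LinearMap.ext; intro x
    exact gWgW X.X t x
  all_goals intros; simp [q0]

/-- the elimination data -/
@[reducible] def ed : ElimData X where
  C := gob K
  r := r0 K
  q := q0 K
  s := S K
  a := (𝟙 X.X + B X ≫ A K) ≫ d0 X
  b := d0 X ≫ (𝟙 X.X + A K ≫ B X)
  hr := bar_r0 K
  hq := bar_q0 K
  hs := bar_S K
  rq := r0_q0 K
  rs := by
    have : ∀ {Z : Gob G k} (f : X.X ⟶ Z), r0 K ≫ A K ≫ f = 0 := fun f => by
      rw [← Category.assoc, r0_A, Limits.zero_comp]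
    unfold S
    simp [Preadditive.comp_add, Preadditive.comp_sub, r0_A, this]
  sq := by
    unfold S
    simp only [Preadditive.add_comp, Preadditive.sub_comp, Category.assoc, A_q0,
      Limits.comp_zero]
    simp
  ss := S_S K
  sds := S_d_S K
  one := by
    rw [← Category.assoc (S K), S_a, Category.assoc (d0 X), b_S]
    exact q0_r0 K

theorem c0_S (t : T) : c0 (S K) t = K.h t := by
  have hB : c0 (B X) t = 0 := (rad_B (X := X)).1 t
  unfold S
  simp [hB, A]

theorem c0_d (t : T) : c0 (ed K).tob.d t = 0 := by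
  change c0 (r0 K ≫ (X.d - X.d ≫ S K ≫ X.d) ≫ q0 K) t = 0
  apply LinearMap.ext
  rintro ⟨x, hx⟩
  apply Subtype.ext
  simp only [c0_comp, c0_sub, c0_S]
  change pi K t (c0 X.d t x - c0 X.d t (K.h t (c0 X.d t x))) = 0
  rw [K.dhd, sub_self, map_zero]

end Min

/-- the minimal model -/
noncomputable def minF (h2 : (2 : k) ≠ 0) (X : TOb G k) : FObj G k :=
  (Min.ed (Min.exists_con X h2).some).tob.toFObj (Min.c0_d _)

theorem hiso_minF (h2 : (2 : k) ≠ 0) (X : TOb G k) : HIso X (minF h2 X).toTOb := by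
  unfold minF
  rw [TOb.toFObj_toTOb]
  exact ElimData.hiso _

/-- every `TOb` is homotopy equivalent to a minimal object -/
theorem exists_min (h2 : (2 : k) ≠ 0) (X : TOb G k) : ∃ F : FObj G k, HIso X F.toTOb :=
  ⟨minF h2 X, hiso_minF h2 X⟩

theorem minF_W (h2 : (2 : k) ≠ 0) (X : TOb G k) (t : T) :
    (minF h2 X).X.W t = X.X.W t := rfl

end Crest.Agent.R175.PTA
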