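import Crest.Agent.R175.PTA_534

/-!
Row 175 (S0263), block GRAD (helper128): LEMMA 175-131-1 (1) and the gauge, on minimal objects.

`X : FObj G k` minimal, `2 ≠ 0`, `hT X X = 0`.  Then there is an even family `F t : V t → V t` which
commutes with `B`, `F i = 0`, `j F = 0` and `F e - e F - e ∈ Sx X`, the space of the length-2 parts
of the commutators of the even length-1 maps with `(B, i, j)` (`exists_F`); `Sx X` is stable under
`ad F` (`adF_mem`); for `s ∈ Sx X` the objects with `e` and `e - s` are isomorphic by an even closed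
map `1 + g`, `g` of length 1 (`gauge`).
-/

set_option autoImplicit false
set_option linter.unusedSectionVars false

open CategoryTheory

namespace Crest.Agent.R175.Grad1_128

open Crest.Agent.R175.PTA

universe u v

variable {T : Type u} {k : Type v} [Field k] [Fintype T] {G : MG T}

/-- families of endomorphisms of the `V t`. -/
abbrev Fam (X : Gob G k) : Type (max u v) := ∀ t, X.V t →ₗ[k] X.V t

/-- the length-1 part of the differential. -/
def d1 (X : FObj G k) : X.X ⟶ X.X :=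
  mkH (fun _ => 0) (fun _ => 0) (fun _ _ a => X.B a) X.i X.j (fun _ => 0)

/-- a family in the length-2 slot. -/
def l2 {X : Gob G k} (e : Fam X) : X ⟶ X :=
  mkH (fun _ => 0) (fun _ => 0) (fun _ _ _ => 0) (fun _ => 0) (fun _ => 0) e

/-- a family in the length-0 slot. -/
def l0 {X : Gob G k} (F : Fam X) : X ⟶ X :=
  mkH F (fun _ => 0) (fun _ _ _ => 0) (fun _ => 0) (fun _ => 0) (fun _ => 0)

theorem dm_eq (X : FObj G k) : X.dm = d1 X + l2 X.e := by
  apply hm_ext <;> intros <;> simp [d1, l2]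

/-- even maps of length 1. -/
def L1 (X : Gob G k) : Submodule k (X ⟶ X) where
  carrier := {g | bar g = g ∧ (∀ t, c0 g t = 0) ∧ (∀ t, cW g t = 0) ∧ ∀ t, c2 g t = 0}
  add_mem' := by
    rintro f g ⟨hf, hf0, hfW, hf2⟩ ⟨hg, hg0, hgW, hg2⟩
    refine ⟨by rw [bar_add, hf, hg], fun t => ?_, fun t => ?_, fun t => ?_⟩
    · rw [c0_add, hf0, hg0, add_zero]
    · rw [cW_add, hfW, hgW, add_zero]
    · rw [c2_add, hf2, hg2, add_zero]
  zero_mem' := ⟨bar_zero, fun _ => rfl, fun _ => rfl, fun _ => rfl⟩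
  smul_mem' := by
    rintro c f ⟨hf, hf0, hfW, hf2⟩
    refine ⟨by rw [bar_smul, hf], fun t => ?_, fun t => ?_, fun t => ?_⟩
    · rw [c0_smul, hf0, smul_zero]
    · rw [cW_smul, hfW, smul_zero]
    · rw [c2_smul, hf2, smul_zero]

/-- the length-2 part of the commutator with the differential. -/
def dlt (X : FObj G k) : (X.X ⟶ X.X) →ₗ[k] Fam X.X where
  toFun g := fun t => c2 (g ≫ d1 X - d1 X ≫ g) t
  map_add' f g := by
    funext t
    rw [Pi.add_apply, ← c2_add]
    congr 1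
    rw [Preadditive.add_comp, Preadditive.comp_add]
    abel
  map_smul' c f := by
    funext t
    rw [RingHom.id_apply, Pi.smul_apply, ← c2_smul]
    congr 1
    rw [Linear.smul_comp, Linear.comp_smul, smul_sub]

theorem dlt_apply (X : FObj G k) (g : X.X ⟶ X.X) (t : T) :
    dlt X g t = c2 (g ≫ d1 X - d1 X ≫ g) t := rfl

/-- the space of the length-2 commutators of the even length-1 maps with `(B, i, j)`. -/
def Sx (X : FObj G k) : Submodule k (Fam X.X) := (L1 X.X).map (dlt X)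

/-- the commutator of an even length-1 map with `(B,i,j)` is of length 2. -/
theorem comm_eq (X : FObj G k) {g : X.X ⟶ X.X} (hg : g ∈ L1 X.X) :
    g ≫ d1 X - d1 X ≫ g = l2 (dlt X g) := by
  obtain ⟨-, h0, hW, -⟩ := hg
  apply hm_ext
  · intro t; simp [d1, l2]
  · intro t; simp [d1, l2]
  · intro s t a; simp [d1, l2, h0]
  · intro t; simp [d1, l2, h0, hW]
  · intro t; simp [d1, l2, h0, hW]
  · intro t; rfl

/-- the length-0 part of `D f` vanishes for minimal objects. -/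
theorem c0_D (X Y : FObj G k) (f : X.X ⟶ Y.X) (t : T) : c0 (D X.toTOb Y.toTOb f) t = 0 := by
  rw [D_apply]; simp

/-- if `h_T(X,X) = 0` every cocycle with separate frames is a coboundary. -/
theorem exact_of_hT {X Y : TOb G k} (h : hT X Y = 0) {f : X.X ⟶ Y.X} (hf : f ∈ Cs X.X Y.X)
    (hD : D X Y f = 0) : ∃ g ∈ Cs X.X Y.X, D X Y g = f := by
  have h1 : LinearMap.range (DC X Y) ≤ LinearMap.ker (DC X Y) := range_le_ker DC_DC
  have h2 : LinearMap.range (DC X Y) = LinearMap.ker (DC X Y) := by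
    refine Submodule.eq_of_le_of_finrank_le h1 ?_
    have h3 : hd (DC X Y) = 0 := h
    rw [hd] at h3
    omega
  have h4 : (⟨f, hf⟩ : Cs X.X Y.X) ∈ LinearMap.ker (DC X Y) := by
    rw [LinearMap.mem_ker]
    exact Subtype.ext hD
  rw [← h2] at h4
  obtain ⟨g, hg⟩ := h4
  exact ⟨g.1, g.2, congrArg Subtype.val hg⟩

/-- even version. -/
theorem exact_even {X Y : TOb G k} (h2 : (2 : k) ≠ 0) (h : hT X Y = 0) {f : X.X ⟶ Y.X}
    (hf : f ∈ Cs X.X Y.X) (hD : D X Y f = 0) (ho : bar f = -f) :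
    ∃ g ∈ Cs X.X Y.X, bar g = g ∧ D X Y g = f := by
  obtain ⟨g, hg, hgf⟩ := exact_of_hT h hf hD
  refine ⟨(2 : k)⁻¹ • (g + bar g), Submodule.smul_mem _ _ (Submodule.add_mem _ hg
    (bar_mem_Cs hg)), ?_, ?_⟩
  · rw [bar_smul, bar_add, bar_bar, add_comm]
  · have h3 : D X Y (bar g) = f := by
      have h4 := bar_D g
      rw [hgf, ho] at h4
      exact (neg_injective h4).symm
    rw [map_smul, map_add, hgf, h3, ← two_smul k, smul_smul, inv_mul_cancel₀ h2, one_smul]

theorem c0_of_odd_even (X : Gob G k) {g : X ⟶ X} (hg : bar g = g) (t : T) :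
    X.gV t ∘ₗ c0 g t = c0 g t ∘ₗ X.gV t := by
  have h := congrArg (fun f => c0 f t ∘ₗ X.gV t) hg
  simp only [c0_bar] at h
  rw [LinearMap.comp_assoc, LinearMap.comp_assoc, X.gV_sq, LinearMap.comp_id] at h
  exact h

/-- `l2 e` is an odd cocycle of a minimal object. -/
theorem D_l2 (X : FObj G k) : D X.toTOb X.toTOb (l2 X.e) = 0 := by
  rw [D_apply]
  apply hm_ext <;> intros <;> simp [l2]

theorem bar_l2 (X : FObj G k) : bar (l2 X.e) = -l2 X.e := by
  apply hm_ext
  · intro t; simp [l2]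
  · intro t; simp [l2]
  · intro s t a; simp [l2]
  · intro t; simp [l2]
  · intro t; simp [l2]
  · intro t
    rw [c2_bar, c2_neg]
    show X.X.gV t ∘ₗ X.e t ∘ₗ X.X.gV t = -X.e t
    rw [← LinearMap.comp_assoc, X.ge, LinearMap.neg_comp, LinearMap.comp_assoc, X.X.gV_sq,
      LinearMap.comp_id]

theorem alg_aux {A : Type*} [AddCommGroup A] {a b s1 i1 s2 i2 e : A}
    (h : a + s1 + i1 - (b + s2 + i2) = e) :
    -(s1 + i1 - (s2 + i2)) = -b - -a - e := by
  subst h; abel

/-- LEMMA 175-131-1 (1). -/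
theorem exists_F (X : FObj G k) (h2 : (2 : k) ≠ 0) (h : hT X.toTOb X.toTOb = 0) :
    ∃ F : Fam X.X, (∀ t, X.X.gV t ∘ₗ F t = F t ∘ₗ X.X.gV t) ∧
      (∀ (s t : T) (a : G.E s t), F t ∘ₗ X.B a = X.B a ∘ₗ F s) ∧
      (∀ t, F t ∘ₗ X.i t = 0) ∧ (∀ t, X.j t ∘ₗ F t = 0) ∧
      (fun t => F t ∘ₗ X.e t - X.e t ∘ₗ F t - X.e t) ∈ Sx X := by
  obtain ⟨f, hf, hbar, hD⟩ := exact_even (X := X.toTOb) (Y := X.toTOb) h2 h
    (f := l2 X.e) (fun t => rfl) (D_l2 X) (bar_l2 X)
  rw [D_apply, hbar] at hD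
  have hD' : f ≫ X.dm - X.dm ≫ f = l2 X.e := hD
  -- the even length-1 part
  let g : X.X ⟶ X.X := mkH (fun _ => 0) (fun _ => 0) (fun _ _ a => c1 f a) (ci f) (cj f)
    (fun _ => 0)
  have hg : g ∈ L1 X.X := by
    refine ⟨?_, fun _ => rfl, fun _ => rfl, fun _ => rfl⟩
    apply hm_ext
    · intro t; simp [g]
    · intro t; simp [g]
    · intro s t a
      have := congrArg (fun f => c1 f a) hbar
      simp only [c1_bar] at this
      rw [c1_bar]
      exact this
    · intro t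
      have := congrArg (fun f => ci f t) hbar
      simp only [ci_bar] at this
      rw [ci_bar]
      exact this
    · intro t
      have := congrArg (fun f => cj f t) hbar
      simp only [cj_bar] at this
      rw [cj_bar]
      exact this
    · intro t; simp [g]
  refine ⟨fun t => -c0 f t, fun t => ?_, fun s t a => ?_, fun t => ?_, fun t => ?_, ?_⟩
  · rw [LinearMap.comp_neg, LinearMap.neg_comp, c0_of_odd_even X.X hbar]
  · have := congrArg (fun f => c1 f a) hD'
    simp only [c1_sub, c1_comp, FObj.c0_dm, FObj.c1_dm, LinearMap.zero_comp, LinearMap.comp_zero,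
      add_zero, zero_add] at this
    have h3 : X.B a ∘ₗ c0 f s - c0 f t ∘ₗ X.B a = 0 := this
    rw [LinearMap.comp_neg, LinearMap.neg_comp, sub_eq_zero.1 h3]
  · have := congrArg (fun f => ci f t) hD'
    simp only [ci_sub, ci_comp, FObj.c0_dm, FObj.cW_dm, FObj.ci_dm, LinearMap.zero_comp,
      LinearMap.comp_zero, add_zero, zero_add] at this
    have h3 : X.i t ∘ₗ cW f t - c0 f t ∘ₗ X.i t = 0 := this
    rw [hf t, LinearMap.comp_zero, zero_sub] at h3
    rw [LinearMap.neg_comp, h3]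
  · have := congrArg (fun f => cj f t) hD'
    simp only [cj_sub, cj_comp, FObj.c0_dm, FObj.cW_dm, FObj.cj_dm, LinearMap.zero_comp,
      LinearMap.comp_zero, add_zero, zero_add] at this
    have h3 : X.j t ∘ₗ c0 f t - cW f t ∘ₗ X.j t = 0 := this
    rw [hf t, LinearMap.zero_comp, sub_zero] at h3
    rw [LinearMap.comp_neg, h3, neg_zero]
  · refine ⟨-g, (L1 X.X).neg_mem hg, ?_⟩
    funext t
    have := congrArg (fun f => c2 f t) hD'
    simp only [c2_sub, c2_comp, FObj.c0_dm, FObj.c1_dm, FObj.ci_dm, FObj.cj_dm, FObj.c2_dm,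
      LinearMap.zero_comp, LinearMap.comp_zero, add_zero, zero_add] at this
    have h3 : X.e t ∘ₗ c0 f t + (∑ s, ∑ a : G.E t s, X.B (G.rev a) ∘ₗ c1 f a) + X.i t ∘ₗ cj f t -
        (c0 f t ∘ₗ X.e t + (∑ s, ∑ a : G.E t s, c1 f (G.rev a) ∘ₗ X.B a) + ci f t ∘ₗ X.j t) =
        X.e t := this
    have h4 : dlt X g t = (∑ s, ∑ a : G.E t s, X.B (G.rev a) ∘ₗ c1 f a) + X.i t ∘ₗ cj f t -
        ((∑ s, ∑ a : G.E t s, c1 f (G.rev a) ∘ₗ X.B a) + ci f t ∘ₗ X.j t) := by
      rw [dlt_apply]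
      simp [d1, g]
    rw [map_neg, Pi.neg_apply, h4, LinearMap.comp_neg, LinearMap.neg_comp]
    exact alg_aux h3

/-- `Sx X` is stable under `ad F`. -/
theorem adF_mem (X : FObj G k) {F : Fam X.X} (hg : ∀ t, X.X.gV t ∘ₗ F t = F t ∘ₗ X.X.gV t)
    (hB : ∀ (s t : T) (a : G.E s t), F t ∘ₗ X.B a = X.B a ∘ₗ F s)
    (hi : ∀ t, F t ∘ₗ X.i t = 0) (hj : ∀ t, X.j t ∘ₗ F t = 0) {s : Fam X.X} (hs : s ∈ Sx X) :
    (fun t => F t ∘ₗ s t - s t ∘ₗ F t) ∈ Sx X := by
  obtain ⟨g, hgL, rfl⟩ := hs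
  have hcomm : l0 F ≫ d1 X = d1 X ≫ l0 F := by
    apply hm_ext
    · intro t; simp [l0, d1]
    · intro t; simp [l0, d1]
    · intro s t a; simp [l0, d1, hB]
    · intro t; simp [l0, d1, hi]
    · intro t; simp [l0, d1, hj]
    · intro t; simp [l0, d1]
  have hbF : bar (l0 F) = l0 F := by
    apply hm_ext
    · intro t
      rw [c0_bar]
      show X.X.gV t ∘ₗ F t ∘ₗ X.X.gV t = F t
      rw [← LinearMap.comp_assoc, hg, LinearMap.comp_assoc, X.X.gV_sq, LinearMap.comp_id]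
    · intro t; simp [l0]
    · intro s t a; simp [l0]
    · intro t; simp [l0]
    · intro t; simp [l0]
    · intro t; simp [l0]
  have hL : g ≫ l0 F - l0 F ≫ g ∈ L1 X.X := by
    obtain ⟨h1, h2, h3, h4⟩ := hgL
    refine ⟨?_, fun t => ?_, fun t => ?_, fun t => ?_⟩
    · rw [bar_sub, bar_comp, bar_comp, h1, hbF]
    · simp [l0, h2]
    · simp [l0, h3]
    · simp [l0, h2, h4]
  refine ⟨g ≫ l0 F - l0 F ≫ g, hL, ?_⟩
  have h5 : (g ≫ l0 F - l0 F ≫ g) ≫ d1 X - d1 X ≫ (g ≫ l0 F - l0 F ≫ g) =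
      (g ≫ d1 X - d1 X ≫ g) ≫ l0 F - l0 F ≫ (g ≫ d1 X - d1 X ≫ g) := by
    simp only [Preadditive.sub_comp, Preadditive.comp_sub, Category.assoc]
    rw [hcomm, ← Category.assoc (d1 X) (l0 F) g, ← hcomm, Category.assoc]
    abel
  funext t
  rw [dlt_apply, h5, comm_eq X hgL]
  simp [l0, l2]

/-- the object with another `e`. -/
abbrev setE (X : FObj G k) (e' : Fam X.X) (h : ∀ t, X.X.gV t ∘ₗ e' t = -(e' t ∘ₗ X.X.gV t)) :
    FObj G k where
  X := X.X
  B := X.B
  i := X.i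
  j := X.j
  e := e'
  mc := X.mc
  gB := X.gB
  gi := X.gi
  gj := X.gj
  ge := h

/-- elements of `Sx X` are odd. -/
theorem odd_of_mem (X : FObj G k) {s : Fam X.X} (hs : s ∈ Sx X) (t : T) :
    X.X.gV t ∘ₗ s t = -(s t ∘ₗ X.X.gV t) := by
  obtain ⟨g, hgL, rfl⟩ := hs
  have hd : bar (d1 X) = -d1 X := by
    have h := TOb.bar_d X.toTOb
    have h' : bar X.dm = -X.dm := h
    apply hm_ext
    · intro t; simp [d1]
    · intro t; simp [d1]
    · intro s t a
      have := congrArg (fun f => c1 f a) h'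
      simp only [c1_bar, c1_neg, FObj.c1_dm] at this
      rw [c1_bar, c1_neg]
      exact this
    · intro t
      have := congrArg (fun f => ci f t) h'
      simp only [ci_bar, ci_neg, FObj.ci_dm] at this
      rw [ci_bar, ci_neg]
      exact this
    · intro t
      have := congrArg (fun f => cj f t) h'
      simp only [cj_bar, cj_neg, FObj.cj_dm] at this
      rw [cj_bar, cj_neg]
      exact this
    · intro t; simp [d1]
  have h1 : bar (g ≫ d1 X - d1 X ≫ g) = -(g ≫ d1 X - d1 X ≫ g) := by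
    rw [bar_sub, bar_comp, bar_comp, hd, hgL.1]
    simp only [Preadditive.comp_neg, Preadditive.neg_comp]
    abel
  have h2 := congrArg (fun f => c2 f t ∘ₗ X.X.gV t) h1
  simp only [c2_bar, c2_neg, LinearMap.neg_comp] at h2
  rw [LinearMap.comp_assoc, LinearMap.comp_assoc, X.X.gV_sq, LinearMap.comp_id] at h2
  exact h2

theorem odd_sub (X : FObj G k) {s : Fam X.X} (hs : s ∈ Sx X) (t : T) :
    X.X.gV t ∘ₗ (X.e t - s t) = -((X.e t - s t) ∘ₗ X.X.gV t) := by
  rw [LinearMap.comp_sub, X.ge, odd_of_mem X hs, LinearMap.sub_comp]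
  abel

/-- THE GAUGE: changing `e` by an element of `Sx X` does not change the object; the isomorphism is
`1 + g`, `g` even of length 1. -/
theorem gauge (X : FObj G k) {s : Fam X.X} (hs : s ∈ Sx X) :
    ∃ φ : HEquiv X.toTOb (setE X (fun t => X.e t - s t) (odd_sub X hs)).toTOb,
      (∃ g ∈ L1 X.X, φ.p = 𝟙 X.X + g) ∧ φ.p ≫ φ.q = 𝟙 X.X ∧ φ.q ≫ φ.p = 𝟙 X.X := by
  obtain ⟨g, hgL, hgs⟩ := id hs
  have h3 : g ≫ g ≫ g = 0 := by
    obtain ⟨h1, h2, h3, h4⟩ := hgL
    apply hm_ext <;> intros <;> simp [h2, h3, h4]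
  have hpq : (𝟙 X.X + g) ≫ (𝟙 X.X - g + g ≫ g) = 𝟙 X.X := by
    simp only [Preadditive.add_comp, Preadditive.comp_add, Preadditive.comp_sub,
      Category.id_comp, Category.comp_id, h3]
    abel
  have hqp : (𝟙 X.X - g + g ≫ g) ≫ (𝟙 X.X + g) = 𝟙 X.X := by
    simp only [Preadditive.add_comp, Preadditive.comp_add, Preadditive.sub_comp,
      Category.id_comp, Category.comp_id, Category.assoc, h3]
    abel
  have hbp : bar (𝟙 X.X + g) = 𝟙 X.X + g := by rw [bar_add, bar_id, hgL.1]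
  have hbq : bar (𝟙 X.X - g + g ≫ g) = 𝟙 X.X - g + g ≫ g := by
    rw [bar_add, bar_sub, bar_id, bar_comp, hgL.1]
  have hY : (setE X (fun t => X.e t - s t) (odd_sub X hs)).dm =
      d1 X + l2 X.e - l2 (dlt X g) := by
    rw [hgs]
    apply hm_ext
    · intro t; simp [d1, l2]
    · intro t; simp [d1, l2]
    · intro s t a; simp [d1, l2]
    · intro t; simp [d1, l2]
    · intro t; simp [d1, l2]
    · intro t; simp [d1, l2]
  have z1 : ∀ e : Fam X.X, g ≫ l2 e = 0 := by
    intro e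
    obtain ⟨h1, h2, h3, h4⟩ := hgL
    apply hm_ext <;> intros <;> simp [l2, h2]
  have z2 : ∀ e : Fam X.X, l2 e ≫ g = 0 := by
    intro e
    obtain ⟨h1, h2, h3, h4⟩ := hgL
    apply hm_ext <;> intros <;> simp [l2, h2]
  have hDp : D X.toTOb (setE X (fun t => X.e t - s t) (odd_sub X hs)).toTOb (𝟙 X.X + g) = 0 := by
    rw [D_apply, hbp]
    show (𝟙 X.X + g) ≫ (setE X (fun t => X.e t - s t) (odd_sub X hs)).dm -
      X.dm ≫ (𝟙 X.X + g) = 0
    rw [hY, dm_eq X]
    simp only [Preadditive.add_comp, Preadditive.comp_add, Preadditive.comp_sub,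
      Category.id_comp, Category.comp_id, z1, z2]
    have := comm_eq X hgL
    rw [← this]
    abel
  have hDq : D (setE X (fun t => X.e t - s t) (odd_sub X hs)).toTOb X.toTOb
      (𝟙 X.X - g + g ≫ g) = 0 := by
    have h5 := D_comp (X := X.toTOb)
      (Y := (setE X (fun t => X.e t - s t) (odd_sub X hs)).toTOb) (Z := X.toTOb) (𝟙 X.X + g)
      (𝟙 X.X - g + g ≫ g)
    have h6 : (𝟙 X.X + g) ≫ D (setE X (fun t => X.e t - s t) (odd_sub X hs)).toTOb X.toTOb
        (𝟙 X.X - g + g ≫ g) = 0 := by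
      have h7 : D X.toTOb X.toTOb ((𝟙 X.X + g) ≫ (𝟙 X.X - g + g ≫ g)) = 0 := by
        rw [hpq]; exact D_id
      have h8 := h5.symm.trans h7
      rw [hDp, Limits.zero_comp, add_zero] at h8
      exact h8
    have h9 := congrArg (fun f => (𝟙 X.X - g + g ≫ g) ≫ f) h6
    simp only [Limits.comp_zero] at h9
    rw [← Category.assoc, hqp, Category.id_comp] at h9
    exact h9
  exact ⟨{ p := 𝟙 X.X + g, q := 𝟙 X.X - g + g ≫ g, s := 0, r := 0, bp := hbp, bq := hbq,
           Dp := hDp, Dq := hDq, pq := by rw [map_zero, add_zero]; exact hpq,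
           qp := by rw [map_zero, add_zero]; exact hqp }, ⟨g, hgL, rfl⟩, hpq, hqp⟩

end Crest.Agent.R175.Grad1_128
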