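import Crest.Agent.R175.PTA_534

/-!
Row 175, task 513 (S0263-UNFR): elementary facts on T-framed objects over PTA_534.

* `hd_zero_map`, `hd_pos`: the homology dimension of a zero differential / of a space with a cycle
  which is not a boundary.
* `hT_self_pos`: a frame-free nonzero minimal object has `hT U U > 0`.
* `hT_frm_frm`: `hT (frm s) (frm t) = 0`.
* `hT_frm_right`, `dT_eq`, `hT_frm_left`: `hT X (frm t) = finrank (X.V t) = hT (frm t) X` for minimal `X`.
* `lam_congr`, `V_congr`: homotopy equivalent objects have the same `lam`; minimal homotopy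
  equivalent objects have the same `finrank (V t)`; also the linear equivalences themselves.
-/

set_option autoImplicit false
set_option linter.unusedSectionVars false
set_option linter.unusedVariables false

open CategoryTheory

namespace Crest.Agent.R175.Unfr_988

open Crest.Agent.R175.PTA

universe u v w

section hd

variable {k : Type v} [Field k] {K : Type w} [AddCommGroup K] [Module k K]

theorem hd_zero_map : hd (0 : K →ₗ[k] K) = Module.finrank k K := by
  rw [hd, LinearMap.ker_zero, LinearMap.range_zero, finrank_top, finrank_bot, Nat.sub_zero]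

theorem hd_of_subsingleton [Subsingleton K] (D : K →ₗ[k] K) : hd D = 0 := by
  have h : D = 0 := Subsingleton.elim _ _
  rw [h, hd_zero_map, Module.finrank_zero_of_subsingleton]

/-- a cycle which is not a boundary -/
theorem hd_pos [FiniteDimensional k K] {D : K →ₗ[k] K} (h : ∀ x, D (D x) = 0) {x : K}
    (hx : D x = 0) (hn : ∀ y, D y ≠ x) : 0 < hd D := by
  rw [hd, Nat.sub_pos_iff_lt]
  apply Submodule.finrank_lt_finrank_of_lt
  refine lt_of_le_of_ne (range_le_ker h) ?_
  intro he
  have h1 : x ∈ LinearMap.ker D := hx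
  rw [← he] at h1
  obtain ⟨y, hy⟩ := h1
  exact hn y hy

end hd

section obj

variable {T : Type u} {G : MG T} {k : Type v} [Field k] [Fintype T]

/-- A frame-free minimal object which is not zero has `hT U U > 0`. -/
theorem hT_self_pos (U : FObj G k) (hW : ∀ t, Subsingleton (U.X.W t)) {t : T}
    (hV : Nontrivial (U.X.V t)) : 0 < hT U.toTOb U.toTOb := by
  rw [hT_eq_FD]
  refine hd_pos (FD_FD U U) (x := Cp.mk (fun _ => LinearMap.id) (fun _ _ _ => 0) (fun _ => 0)
    (fun _ => 0) (fun _ => 0)) ?_ ?_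
  · have hgg : ∀ s, U.X.gV s ∘ₗ LinearMap.id ∘ₗ U.X.gV s = LinearMap.id := fun s => by
      rw [LinearMap.id_comp, Gob.gV_sq]
    apply Cp.ext'
    · intro s; simp
    · intro s s' a
      simp
    · intro s
      have : Subsingleton (U.X.W s) := hW s
      ext x
      rw [Subsingleton.elim x 0]
      simp
    · intro s
      have : Subsingleton (U.X.W s) := hW s
      ext x
      exact Subsingleton.elim _ _
    · intro s
      simp
  · intro y hy
    have h1 : Cp.f0 (FD U U y) t = Cp.f0 (Cp.mk (X := U.X) (Y := U.X) (fun _ => LinearMap.id)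
      (fun _ _ _ => 0) (fun _ => 0) (fun _ => 0) (fun _ => 0)) t := by rw [hy]
    rw [f0_FD, Cp.f0_mk] at h1
    obtain ⟨x, hx⟩ := exists_ne (0 : U.X.V t)
    have h2 := LinearMap.congr_fun h1 x
    exact hx (by simpa using h2.symm)

/-- variant: `V t` of positive dimension, `W` of dimension zero -/
theorem hT_self_pos' (U : FObj G k) (hW : ∀ t, lam U.toTOb t = 0) {t : T}
    (hV : Module.finrank k (U.X.V t) ≠ 0) : 0 < hT U.toTOb U.toTOb := by
  refine hT_self_pos U (fun s => ?_) (t := t) ?_
  · exact Module.finrank_zero_iff.1 (hW s)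
  · exact Module.nontrivial_of_finrank_pos (R := k) (Nat.pos_of_ne_zero hV)

/-- a frame-free minimal object with `hT U U = 0` is zero -/
theorem V_subsingleton_of_hT (U : FObj G k) (hW : ∀ t, Subsingleton (U.X.W t))
    (h : hT U.toTOb U.toTOb = 0) (t : T) : Subsingleton (U.X.V t) := by
  by_contra hn
  have := hT_self_pos U hW (t := t) (not_subsingleton_iff_nontrivial.1 hn)
  omega

/-! ### frames -/

section frames

variable [DecidableEq T]

instance frm_V_subsingleton (s t : T) : Subsingleton ((frm G k s).X.V t) := by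
  change Subsingleton (Fin ((0 : T → ℕ) t) → k)
  rw [Pi.zero_apply]
  infer_instance

theorem Cs_frm_ext (X : Gob G k) (s : T) {f g : Cs X (frm G k s).X}
    (h : ∀ t, cj f.1 t = cj g.1 t) : f = g := by
  apply Subtype.ext
  apply hm_ext
  · intro t; ext x; exact Subsingleton.elim _ _
  · intro t; rw [f.2 t, g.2 t]
  · intro t t' a; ext x; exact Subsingleton.elim _ _
  · intro t; ext x; exact Subsingleton.elim _ _
  · exact h
  · intro t; ext x; exact Subsingleton.elim _ _

theorem Cs_frm_ext_left (Y : Gob G k) (s : T) {f g : Cs (frm G k s).X Y}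
    (h : ∀ t, ci f.1 t = ci g.1 t) : f = g := by
  apply Subtype.ext
  apply hm_ext
  · intro t; ext x; rw [Subsingleton.elim x 0]; simp
  · intro t; rw [f.2 t, g.2 t]
  · intro t t' a; ext x; rw [Subsingleton.elim x 0]; simp
  · exact h
  · intro t; ext x; rw [Subsingleton.elim x 0]; simp
  · intro t; ext x; rw [Subsingleton.elim x 0]; simp

/-- two frames have no maps between them (separate frames) -/
theorem hT_frm_frm (s t : T) : hT (frm G k s) (frm G k t) = 0 := by
  have : Subsingleton (Cs (frm G k s).X (frm G k t).X) := by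
    refine ⟨fun f g => Cs_frm_ext _ _ fun r => ?_⟩
    ext x
    rw [Subsingleton.elim x 0]
    simp
  exact hd_of_subsingleton _

/-- `Hom(X, x_t)` with separate frames is the dual of `V t` -/
noncomputable def CsFrmEquiv (X : Gob G k) (t : T) :
    Cs X (frm G k t).X ≃ₗ[k] (∀ s, X.V s →ₗ[k] (frm G k t).X.W s) where
  toFun f := cj f.1
  map_add' f g := rfl
  map_smul' c f := rfl
  invFun g := ⟨mkH (fun _ => 0) (fun _ => 0) (fun _ _ _ => 0) (fun _ => 0) g (fun _ => 0),
    fun _ => rfl⟩
  left_inv f := Cs_frm_ext _ _ fun s => rfl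
  right_inv g := rfl

/-- `Hom(x_t, Y)` with separate frames is `V t` -/
noncomputable def CsFrmEquivLeft (Y : Gob G k) (t : T) :
    Cs (frm G k t).X Y ≃ₗ[k] (∀ s, (frm G k t).X.W s →ₗ[k] Y.V s) where
  toFun f := ci f.1
  map_add' f g := rfl
  map_smul' c f := rfl
  invFun g := ⟨mkH (fun _ => 0) (fun _ => 0) (fun _ _ _ => 0) g (fun _ => 0) (fun _ => 0),
    fun _ => rfl⟩
  left_inv f := Cs_frm_ext_left _ _ fun s => rfl
  right_inv g := rfl

theorem finrank_frm_W (t s : T) :
    Module.finrank k ((frm G k t).X.W s) = (Pi.single t 1 : T → ℕ) s := by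
  change Module.finrank k (Fin ((Pi.single t 1 : T → ℕ) s) → k) = _
  rw [Module.finrank_fintype_fun_eq_card, Fintype.card_fin]

theorem lam_frm (t s : T) : lam (frm G k t) s = (Pi.single t 1 : T → ℕ) s := finrank_frm_W t s

theorem finrank_pi_frm (X : Gob G k) (t : T) :
    Module.finrank k (∀ s, X.V s →ₗ[k] (frm G k t).X.W s) = Module.finrank k (X.V t) := by
  rw [Module.finrank_pi_fintype]
  rw [Finset.sum_eq_single t]
  · rw [Module.finrank_linearMap, finrank_frm_W, Pi.single_eq_same, mul_one]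
  · intro s _ hs
    rw [Module.finrank_linearMap, finrank_frm_W, Pi.single_eq_of_ne hs, mul_zero]
  · intro h; exact absurd (Finset.mem_univ t) h

theorem finrank_pi_frm_left (Y : Gob G k) (t : T) :
    Module.finrank k (∀ s, (frm G k t).X.W s →ₗ[k] Y.V s) = Module.finrank k (Y.V t) := by
  rw [Module.finrank_pi_fintype]
  rw [Finset.sum_eq_single t]
  · rw [Module.finrank_linearMap, finrank_frm_W, Pi.single_eq_same, one_mul]
  · intro s _ hs
    rw [Module.finrank_linearMap, finrank_frm_W, Pi.single_eq_of_ne hs, zero_mul]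
  · intro h; exact absurd (Finset.mem_univ t) h

theorem DC_frm_right (X : TOb G k) (hX : ∀ t, c0 X.d t = 0) (t : T) : DC X (frm G k t) = 0 := by
  apply LinearMap.ext
  intro f
  apply Cs_frm_ext
  intro s
  change cj (f.1 ≫ (0 : (frm G k t).X ⟶ (frm G k t).X) - X.d ≫ bar f.1) s = 0
  have hf : cW f.1 s = 0 := f.2 s
  simp [hf, hX s]

theorem DC_frm_left (Y : TOb G k) (hY : ∀ t, c0 Y.d t = 0) (t : T) : DC (frm G k t) Y = 0 := by
  apply LinearMap.ext
  intro f
  apply Cs_frm_ext_left
  intro s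
  change ci (f.1 ≫ Y.d - (0 : (frm G k t).X ⟶ (frm G k t).X) ≫ bar f.1) s = 0
  have hf : cW f.1 s = 0 := f.2 s
  simp [hf, hY s]

/-- `d_t(X) = dim V_t` for objects without length 0 part -/
theorem hT_frm_right' (X : TOb G k) (hX : ∀ t, c0 X.d t = 0) (t : T) :
    hT X (frm G k t) = Module.finrank k (X.X.V t) := by
  rw [hT, DC_frm_right X hX, hd_zero_map, (CsFrmEquiv X.X t).finrank_eq, finrank_pi_frm]

theorem hT_frm_left' (Y : TOb G k) (hY : ∀ t, c0 Y.d t = 0) (t : T) :
    hT (frm G k t) Y = Module.finrank k (Y.X.V t) := by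
  rw [hT, DC_frm_left Y hY, hd_zero_map, (CsFrmEquivLeft Y.X t).finrank_eq, finrank_pi_frm_left]

theorem hT_frm_right (X : FObj G k) (t : T) :
    hT X.toTOb (frm G k t) = Module.finrank k (X.X.V t) :=
  hT_frm_right' X.toTOb (fun _ => rfl) t

theorem hT_frm_left (Y : FObj G k) (t : T) :
    hT (frm G k t) Y.toTOb = Module.finrank k (Y.X.V t) :=
  hT_frm_left' Y.toTOb (fun _ => rfl) t

theorem dT_eq (X : FObj G k) (t : T) : dT X.toTOb t = Module.finrank k (X.X.V t) :=
  hT_frm_right X t

end frames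

/-! ### homotopy equivalences -/

theorem cW_D {X Y : TOb G k} (f : X.X ⟶ Y.X) (t : T) : cW (D X Y f) t = 0 := by
  rw [D_apply]; simp

theorem c0_D {X Y : TOb G k} (hX : ∀ t, c0 X.d t = 0) (hY : ∀ t, c0 Y.d t = 0)
    (f : X.X ⟶ Y.X) (t : T) : c0 (D X Y f) t = 0 := by
  rw [D_apply]; simp [hX t, hY t]

/-- the frame part of a homotopy equivalence -/
noncomputable def WEquiv {X Y : TOb G k} (h : HEquiv X Y) (t : T) : X.X.W t ≃ₗ[k] Y.X.W t :=
  LinearEquiv.ofLinearMap (cW h.p t) (cW h.q t)
    (by rw [← cW_comp, h.qp, cW_add, cW_id, cW_D, add_zero])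
    (by rw [← cW_comp, h.pq, cW_add, cW_id, cW_D, add_zero])

@[simp] theorem WEquiv_apply {X Y : TOb G k} (h : HEquiv X Y) (t : T) (x : X.X.W t) :
    WEquiv h t x = cW h.p t x := rfl

@[simp] theorem WEquiv_symm_apply {X Y : TOb G k} (h : HEquiv X Y) (t : T) (x : Y.X.W t) :
    (WEquiv h t).symm x = cW h.q t x := rfl

/-- the length 0 part of a homotopy equivalence of objects without length 0 differential -/
noncomputable def VEquiv {X Y : TOb G k} (hX : ∀ t, c0 X.d t = 0) (hY : ∀ t, c0 Y.d t = 0)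
    (h : HEquiv X Y) (t : T) : X.X.V t ≃ₗ[k] Y.X.V t :=
  LinearEquiv.ofLinearMap (c0 h.p t) (c0 h.q t)
    (by rw [← c0_comp, h.qp, c0_add, c0_id, c0_D hY hY, add_zero])
    (by rw [← c0_comp, h.pq, c0_add, c0_id, c0_D hX hX, add_zero])

@[simp] theorem VEquiv_apply {X Y : TOb G k} (hX : ∀ t, c0 X.d t = 0) (hY : ∀ t, c0 Y.d t = 0)
    (h : HEquiv X Y) (t : T) (x : X.X.V t) : VEquiv hX hY h t x = c0 h.p t x := rfl

@[simp] theorem VEquiv_symm_apply {X Y : TOb G k} (hX : ∀ t, c0 X.d t = 0)
    (hY : ∀ t, c0 Y.d t = 0) (h : HEquiv X Y) (t : T) (x : Y.X.V t) :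
    (VEquiv hX hY h t).symm x = c0 h.q t x := rfl

theorem lam_congr {X Y : TOb G k} (h : HIso X Y) (t : T) : lam X t = lam Y t := by
  obtain ⟨h⟩ := h
  exact (WEquiv h t).finrank_eq

theorem V_congr' {X Y : TOb G k} (hX : ∀ t, c0 X.d t = 0) (hY : ∀ t, c0 Y.d t = 0)
    (h : HIso X Y) (t : T) : Module.finrank k (X.X.V t) = Module.finrank k (Y.X.V t) := by
  obtain ⟨h⟩ := h
  exact (VEquiv hX hY h t).finrank_eq

theorem V_congr {X Y : FObj G k} (h : HIso X.toTOb Y.toTOb) (t : T) :
    Module.finrank k (X.X.V t) = Module.finrank k (Y.X.V t) :=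
  V_congr' (fun _ => rfl) (fun _ => rfl) h t

theorem lam_congr_F {X Y : FObj G k} (h : HIso X.toTOb Y.toTOb) (t : T) :
    Module.finrank k (X.X.W t) = Module.finrank k (Y.X.W t) := lam_congr h t

/-- the identity is a homotopy equivalence -/
def hrefl (X : TOb G k) : HEquiv X X where
  p := 𝟙 _
  q := 𝟙 _
  s := 0
  r := 0
  bp := bar_id
  bq := bar_id
  Dp := D_id
  Dq := D_id
  pq := by simp
  qp := by simp

end obj

end Crest.Agent.R175.Unfr_988
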