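import Crest.Agent.R175.PTB_534
import Crest.Agent.R175.Unfr_988
import Crest.Agent.R175.Grad1_128

/-!
Row 175 (S0263), helper788: a rigid object with a single (even) frame at `t` and `V t = 0` is the
frame object `x_t`.
-/

set_option autoImplicit false
set_option linter.unusedSectionVars false

open CategoryTheory

namespace Crest.Agent.R175.Z1_788

open Crest.Agent.R175.PTA

universe u v

variable {T : Type u} {k : Type v} [Field k] [Fintype T] [DecidableEq T] {G : MG T}

/-- the identity of `V` as a morphism -/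
def idV (X : Gob G k) : X ⟶ X :=
  mkH (fun _ => LinearMap.id) (fun _ => 0) (fun _ _ _ => 0) (fun _ => 0) (fun _ => 0) (fun _ => 0)

/-- if the frames are not connected with `V`, a rigid minimal object has `V = 0` -/
theorem V_zero_of_rigid (X : FObj G k) (hi : ∀ t, X.i t = 0) (hj : ∀ t, X.j t = 0)
    (h : hT X.toTOb X.toTOb = 0) (t : T) : Subsingleton (X.X.V t) := by
  have hc : idV X.X ∈ Cs X.X X.X := fun t => rfl
  have hb : bar (idV X.X) = idV X.X := by
    apply hm_ext <;> intros <;> simp [idV]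
  have hd : D X.toTOb X.toTOb (idV X.X) = 0 := by
    rw [D_apply, hb]
    apply hm_ext <;> intros <;> simp [idV, hi, hj]
  obtain ⟨g, -, hg⟩ := Grad1_128.exact_of_hT (X := X.toTOb) (Y := X.toTOb) h hc hd
  have h1 : c0 (D X.toTOb X.toTOb g) t = c0 (idV X.X) t := by rw [hg]
  rw [Unfr_988.c0_D (fun _ => rfl) (fun _ => rfl)] at h1
  refine ⟨fun x y => ?_⟩
  have hx : ∀ x : X.X.V t, x = 0 := fun x => by
    have := LinearMap.congr_fun h1 x
    simpa [idV] using this.symm
  rw [hx x, hx y]

theorem ext_W {X Y : Gob G k} (hX : ∀ s, Subsingleton (X.V s)) (hY : ∀ s, Subsingleton (Y.V s))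
    {f g : X ⟶ Y} (h : ∀ s, cW f s = cW g s) : f = g := by
  apply hm_ext
  · intro s; apply LinearMap.ext; intro x
    have := hY s
    exact Subsingleton.elim _ _
  · exact h
  · intro s t a; apply LinearMap.ext; intro x
    have := hY t
    exact Subsingleton.elim _ _
  · intro s; apply LinearMap.ext; intro x
    have := hY s
    exact Subsingleton.elim _ _
  · intro s; apply LinearMap.ext; intro x
    have := hX s
    rw [Subsingleton.elim x 0, map_zero, map_zero]
  · intro s; apply LinearMap.ext; intro x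
    have := hY s
    exact Subsingleton.elim _ _

/-- **(Z1)** -/
theorem z1 (X : FObj G k) {t : T} (hW : ∀ s, lam X.toTOb s = (Pi.single t 1 : T → ℕ) s)
    (hg : X.X.gW t = LinearMap.id) (hV : Subsingleton (X.X.V t))
    (h : hT X.toTOb X.toTOb = 0) : HIso X.toTOb (frm G k t) := by
  have hW0 : ∀ s, s ≠ t → Subsingleton (X.X.W s) := by
    intro s hs
    have h1 : Module.finrank k (X.X.W s) = 0 := by
      have := hW s
      rw [Pi.single_eq_of_ne hs] at this
      exact this
    exact Module.finrank_zero_iff.1 h1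
  have hi : ∀ s, X.i s = 0 := by
    intro s
    by_cases hs : s = t
    · subst hs
      ext x
      exact Subsingleton.elim _ _
    · have := hW0 s hs
      ext x
      rw [Subsingleton.elim x 0]; simp
  have hj : ∀ s, X.j s = 0 := by
    intro s
    by_cases hs : s = t
    · subst hs
      ext x
      rw [Subsingleton.elim x 0]; simp
    · have := hW0 s hs
      ext x
      exact Subsingleton.elim _ _
  have hV0 : ∀ s, Subsingleton (X.X.V s) := V_zero_of_rigid X hi hj h
  have hV1 : ∀ s, Subsingleton ((frm G k t).X.V s) := fun s => by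
    show Subsingleton (Fin ((0 : T → ℕ) s) → k)
    have : IsEmpty (Fin ((0 : T → ℕ) s)) := by simp; infer_instance
    infer_instance
  have he : ∀ s, Module.finrank k (X.X.W s) = Module.finrank k ((frm G k t).X.W s) := by
    intro s
    have h1 := hW s
    rw [← Unfr_988.lam_frm (G := G) (k := k) t s] at h1
    exact h1
  let φ : ∀ s, X.X.W s ≃ₗ[k] (frm G k t).X.W s := fun s => LinearEquiv.ofFinrankEq _ _ (he s)
  have hgW : ∀ s, X.X.gW s = LinearMap.id := by
    intro s
    by_cases hs : s = t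
    · subst hs; exact hg
    · have := hW0 s hs
      ext x
      exact Subsingleton.elim _ _
  have hgW' : ∀ s, (frm G k t).X.gW s = LinearMap.id := fun s => rfl
  let p : X.X ⟶ (frm G k t).X := mkH (fun _ => 0) (fun s => (φ s).toLinearMap) (fun _ _ _ => 0)
    (fun _ => 0) (fun _ => 0) (fun _ => 0)
  let q : (frm G k t).X ⟶ X.X := mkH (fun _ => 0) (fun s => (φ s).symm.toLinearMap)
    (fun _ _ _ => 0) (fun _ => 0) (fun _ => 0) (fun _ => 0)
  refine ⟨HEquiv.ofIso (X := X.toTOb) (Y := frm G k t) p q ?_ ?_ ?_ ?_ ?_ ?_⟩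
  · refine ext_W hV0 hV1 fun s => ?_
    rw [cW_bar, hgW, hgW']
    rfl
  · refine ext_W hV1 hV0 fun s => ?_
    rw [cW_bar, hgW, hgW']
    rfl
  · refine ext_W hV0 hV1 fun s => ?_
    rw [PTA.cW_D]; rfl
  · refine ext_W hV1 hV0 fun s => ?_
    rw [PTA.cW_D]; rfl
  · refine ext_W hV0 hV0 fun s => ?_
    show (φ s).symm.toLinearMap ∘ₗ (φ s).toLinearMap = LinearMap.id
    ext x; simp
  · refine ext_W hV1 hV1 fun s => ?_
    show (φ s).toLinearMap ∘ₗ (φ s).symm.toLinearMap = LinearMap.id
    apply LinearMap.ext; intro x; simp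

/-- the parity of the frames is invariant -/
theorem gW_id {X Y : TOb G k} (e : HEquiv X Y) (t : T) (h : X.X.gW t = LinearMap.id) :
    Y.X.gW t = LinearMap.id := by
  have h1 : cW (bar e.p) t = cW e.p t := by rw [e.bp]
  rw [cW_bar, h, LinearMap.comp_id] at h1
  have h2 := e.symm.cW_pq t
  change cW e.p t ∘ₗ cW e.q t = LinearMap.id at h2
  calc Y.X.gW t = Y.X.gW t ∘ₗ (cW e.p t ∘ₗ cW e.q t) := by rw [h2, LinearMap.comp_id]
    _ = (Y.X.gW t ∘ₗ cW e.p t) ∘ₗ cW e.q t := rfl
    _ = LinearMap.id := by rw [h1, h2]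

theorem gW_id_of_HIso {X Y : TOb G k} (e : HIso X Y) (t : T) (h : X.X.gW t = LinearMap.id) :
    Y.X.gW t = LinearMap.id := e.elim fun e => gW_id e t h

/-- **(Z1)** for objects which are not minimal -/
theorem z1_tob (hmin : ∀ X : TOb G k, ∃ F : FObj G k, HIso X F.toTOb) (X : TOb G k) {t : T}
    (hW : ∀ s, lam X s = (Pi.single t 1 : T → ℕ) s) (hg : X.X.gW t = LinearMap.id)
    (hV : hT X (frm G k t) = 0) (h : hT X X = 0) : HIso X (frm G k t) := by
  obtain ⟨F, hF⟩ := hmin X
  refine hF.trans (z1 F ?_ ?_ ?_ ?_)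
  · intro s
    rw [← hW s, hF.lam_eq s]
  · exact gW_id_of_HIso hF t hg
  · rw [hF.hT_left, Unfr_988.hT_frm_right] at hV
    exact Module.finrank_zero_iff.1 hV
  · rw [← hF.hT_left, ← hF.hT_right, h]

end Crest.Agent.R175.Z1_788
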