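import Crest.Agent.R175.Cls_133
import Crest.Agent.R175.Z1_788
import Crest.Agent.R175.PTM_450

/-!
Row 175 (S0263), helper788: the parity of the frames on classes, (Z1) on classes.

`EvC x` : the parity involution is `1` on the frames.  `z1C` : a rigid class with one (even) frame at
`t` and `d_t = 0` is the frame.
-/

set_option autoImplicit false
set_option linter.unusedSectionVars false

open CategoryTheory
open Crest.Agent.R175.PTA Crest.Agent.R175.Cls_133

namespace Crest.Agent.R175.EvW_788

universe u v

variable {T : Type u} {G : MG T} {k : Type v} [Field k] [Fintype T]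

/-- the parity involution is `1` on the frames -/
def EvT (X : TOb G k) : Prop := ∀ t, X.X.gW t = LinearMap.id

theorem evT_iff {X Y : TOb G k} (h : HIso X Y) : EvT X ↔ EvT Y := by
  classical
  exact ⟨fun hX t => Z1_788.gW_id_of_HIso h t (hX t), fun hY t => Z1_788.gW_id_of_HIso h.symm t (hY t)⟩

/-- the parity involution is `1` on the frames (classes) -/
def EvC : Cls G k → Prop := Quotient.lift EvT fun _ _ h => propext (evT_iff h)

@[simp] theorem evC_mk (X : TOb G k) : EvC (⟦X⟧ : Cls G k) ↔ EvT X := Iff.rfl

variable [DecidableEq T]

theorem evC_frC (t : T) : EvC (frC G k t) := fun _ => rfl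

/-- **(Z1)** for classes -/
theorem z1C (h2 : (2 : k) ≠ 0) {x : Cls G k} {t : T} (hl : ∀ s, lamC x s = if s = t then 1 else 0)
    (he : EvC x) (hd : hC (frC G k t) x = 0) (h : hC x x = 0) : x = frC G k t := by
  induction x using Quotient.inductionOn with
  | h X =>
    refine Quotient.sound (Z1_788.z1_tob (exists_min h2) X (t := t) ?_ (he t) ?_ h)
    · intro s
      have := hl s
      rw [lamC_mk] at this
      rw [this, Pi.single_apply]
    · rw [hC_symm] at hd
      exact hd

end Crest.Agent.R175.EvW_788
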