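import Crest.Agent.R175.TU_788
import Crest.Agent.R175.EvW_788

/-!
Row 175 (S0263), helper788: the frames of `TU U hU X`, `TV U hU X` are those of `X`.
-/

set_option autoImplicit false
set_option linter.unusedSectionVars false

open CategoryTheory

namespace Crest.Agent.R175.TU_788

open Crest.Agent.R175.PTA Crest.Agent.R175.TwG_253 Crest.Agent.R175.EvW_788

universe v

variable {T : Type v} {G : MG T} {k : Type v} [Field k] [Fintype T]
variable (U : T → Prop) (hU : ∀ s t, U s → U t → IsEmpty (G.E s t))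

instance (X : Gob G k) (t : T) : Subsingleton ((QG U X).W t) := inferInstanceAs (Subsingleton PUnit)

theorem qW_eq (X : Gob G k) (t : T) (x y : (QG U X).W t) : x = y := Subsingleton.elim x y

theorem finrank_QW (X : Gob G k) (t : T) : Module.finrank k ((QG U X).W t) = 0 :=
  Module.finrank_zero_of_subsingleton

theorem lam_TU (X : TOb G k) (t : T) : lam (TU U hU X) t = lam X t := by
  change Module.finrank k ((QG U X.X).W t × X.X.W t) = Module.finrank k (X.X.W t)
  rw [Module.finrank_prod, finrank_QW, zero_add]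

theorem lam_TV (X : TOb G k) (t : T) : lam (TV U hU X) t = lam X t := by
  change Module.finrank k (X.X.W t × (QG U X.X).W t) = Module.finrank k (X.X.W t)
  rw [Module.finrank_prod, finrank_QW, add_zero]

theorem gW_TU (X : TOb G k) (t : T) (x : (QG U X.X).W t × X.X.W t) :
    (TU U hU X).X.gW t x = (0, X.X.gW t x.2) := by
  refine Prod.ext (qW_eq U X.X t _ _) ?_
  change (cW (tw U hU X).e t x).2 = X.X.gW t x.2
  change (cW (-(fst (QG U X.X) X.X ≫ mG U (gam X.X) ≫ inl (QG U X.X) X.X)
    + snd (QG U X.X) X.X ≫ gam X.X ≫ inr (QG U X.X) X.X) t x).2 = X.X.gW t x.2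
  rw [cW_add, cW_neg]
  simp only [cW_comp, LinearMap.add_apply, LinearMap.neg_apply, LinearMap.comp_apply, cW_inl,
    cW_inr, cW_snd, cW_gam, LinearMap.inl_apply, LinearMap.inr_apply, LinearMap.snd_apply,
    Prod.snd_add, Prod.snd_neg, neg_zero, zero_add]

theorem gW_TV (X : TOb G k) (t : T) (x : X.X.W t × (QG U X.X).W t) :
    (TV U hU X).X.gW t x = (X.X.gW t x.1, 0) := by
  refine Prod.ext ?_ (qW_eq U X.X t _ _)
  change (cW (fst X.X (QG U X.X) ≫ gam X.X ≫ inl X.X (QG U X.X)
    - snd X.X (QG U X.X) ≫ mG U (gam X.X) ≫ inr X.X (QG U X.X)) t x).1 = X.X.gW t x.1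
  rw [cW_sub]
  simp only [cW_comp, LinearMap.sub_apply, LinearMap.comp_apply, cW_inl,
    cW_inr, cW_fst, cW_gam, LinearMap.inl_apply, LinearMap.inr_apply, LinearMap.fst_apply,
    Prod.fst_sub, sub_zero]

theorem evT_TU (X : TOb G k) (h : EvT X) : EvT (TU U hU X) := by
  intro t
  refine LinearMap.ext fun (x : (QG U X.X).W t × X.X.W t) => ?_
  rw [gW_TU, h t]
  exact Prod.ext (qW_eq U X.X t _ _) rfl

theorem evT_TV (X : TOb G k) (h : EvT X) : EvT (TV U hU X) := by
  intro t
  refine LinearMap.ext fun (x : X.X.W t × (QG U X.X).W t) => ?_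
  rw [gW_TV, h t]
  exact Prod.ext rfl (qW_eq U X.X t _ _)

end Crest.Agent.R175.TU_788
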