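import Crest.Agent.R175.TUhF_988
import Crest.Agent.R175.TUhT_988
import Crest.Agent.R175.TUlam_788
import Crest.Agent.R175.LevC_788
import Crest.Agent.R175.Act2_732

/-!
Row 175 (S0263), helper788: `actI : ActI M hΛ.four` from the permutations `P` of the classes, the
product over the fibre (`gen`) and `F_m T ≃ T F_m` (`hF`).
-/

set_option autoImplicit false
set_option linter.unusedSectionVars false
set_option linter.unusedVariables false

open CategoryTheory
open scoped Classical

namespace Crest.Agent.R175.ActC_788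

open Crest.GroupTheory Crest.Agent.R175.PTA Crest.Agent.R175.Cls_133 Crest.Agent.R175.UG_27
open Crest.Agent.R175.Unf_109 Crest.Agent.R175.LevC_788 Crest.Agent.R175.Act2_732
open Crest.Agent.R175.TU_788

variable {S : Type} [Fintype S] (M : CoxeterMatrix S) (Λ : Finset ℕ)

/-- the fibre is without edges -/
theorem fib_hU (s : S) : ∀ a b : S × J Λ, a.1 = s → b.1 = s → IsEmpty ((UG M Λ).E a b) :=
  fun _ _ h h' => isEmpty_fibre (h.trans h'.symm)

/-- the twist of the fibre of `s` -/
noncomputable abbrev TF (s : S) (X : TOb (UG M Λ) ℂ) : TOb (UG M Λ) ℂ :=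
  TU (fun a : S × J Λ => a.1 = s) (fib_hU M Λ s) X

variable {M Λ} (hΛ : Good M Λ) (P : Twc (UG M Λ) (Cls (UG M Λ) ℂ))

/-- **the action** -/
noncomputable def actI
    (gen : ∀ (s : S) (X : TOb (UG M Λ) ℂ),
      P.unf hΛ (artinGen M s) (⟦X⟧ : Cls (UG M Λ) ℂ) = ⟦TF M Λ s X⟧)
    (hF : ∀ (m : ℕ) (hm : m ∈ Λ) (s : S) (X : TOb (UG M Λ) ℂ),
      FmC M hΛ.four hm ⟦TF M Λ s X⟧ = P.unf hΛ (artinGen M s) (FmC M hΛ.four hm ⟦X⟧)) :
    ActI M hΛ.four where
  act := P.actU hΛ
  h_act := by
    intro s x y
    induction x using Quotient.inductionOn with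
    | h X =>
      induction y using Quotient.inductionOn with
      | h Y =>
        change hC (P.unf hΛ (artinGen M s) _) (P.unf hΛ (artinGen M s) _) = _
        rw [gen, gen]
        exact TUh_988.hT_TU _ _ X Y
  lam_act := by
    intro s x a
    induction x using Quotient.inductionOn with
    | h X =>
      change lamC (P.unf hΛ (artinGen M s) _) a = _
      rw [gen]
      exact TU_788.lam_TU _ _ X a
  fr_act := by
    intro s t j h
    change P.unf hΛ (artinGen M s) (⟦frm (UG M Λ) ℂ (t, j)⟧ : Cls (UG M Λ) ℂ) = _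
    rw [gen]
    exact Quotient.sound (TUh_988.TU_frm _ _ h)
  F_act := by
    intro m hm s x
    induction x using Quotient.inductionOn with
    | h X =>
      change FmC M hΛ.four hm (P.unf hΛ (artinGen M s) _) = P.unf hΛ (artinGen M s) _
      rw [gen]
      exact hF m hm s X

theorem actI_smul (gen) (hF) (r : ArtinGroup M) (x : Cls (UG M Λ) ℂ) :
    (actI hΛ P gen hF).act.smul r x = P.unf hΛ r x := rfl

end Crest.Agent.R175.ActC_788
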