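import Crest.Agent.R175.FmTU_774

/-!
# The level action over `TUc_61.P` (row 175, items (b), (c), (d) of RULING 10, helper774)

`gen_P`, `hF_P` : the inputs of `ActC_788.actI`; `actP M hΛ : ActI M hΛ.four`;
`actP_smul : (actP M hΛ).act.smul r x = (TUc_61.P ..).unf hΛ r x := rfl`; `actP_gen`.
-/

set_option autoImplicit false
set_option linter.unusedSectionVars false
set_option linter.unusedVariables false

open CategoryTheory
open scoped Classical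

namespace Crest.Agent.R175.ActF_774

open Crest.GroupTheory Crest.Agent.R175.PTA Crest.Agent.R175.Cls_133 Crest.Agent.R175.UG_27
open Crest.Agent.R175.Unf_109 Crest.Agent.R175.LevC_788 Crest.Agent.R175.Act2_732
open Crest.Agent.R175.TU_788 Crest.Agent.R175.ActC_788 Crest.Agent.R175.Fm_27
open Crest.Agent.R175.FmCls_303

variable {S : Type} [Fintype S] (M : CoxeterMatrix S) {Λ : Finset ℕ} (hΛ : Good M Λ)

theorem gen_P (s : S) (X : TOb (UG M Λ) ℂ) :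
    (TUc_61.P (UG M Λ) ℂ).unf hΛ (artinGen M s) (⟦X⟧ : Cls (UG M Λ) ℂ) = ⟦TF M Λ s X⟧ :=
  TwQ_250.unf_mk (TUc_61.P (UG M Λ) ℂ) (fun v X => TUc_61.P_mk v X) hΛ s (fib_hU M Λ s) X

/-- `F_m (T_s X) ≅ T_s (F_m X)` over the unfolded graph -/
theorem fm_TF {m : ℕ} (hm : m ∈ Λ) (h2 : 2 ≤ m) (s : S) (X : TOb (UG M Λ) ℂ) :
    HIso ((Fm M (algebraMap ℝ ℂ) hm h2).toFDat.tob (TF M Λ s X))
      (TF M Λ s ((Fm M (algebraMap ℝ ℂ) hm h2).toFDat.tob X)) :=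
  FmTU_774.tob_TU (Fm M (algebraMap ℝ ℂ) hm h2) (fun a : S × J Λ => a.1 = s) (fib_hU M Λ s)
    (fun a b hab ha => by
      have h1 : a.1 = b.1 := ((Fm_N M (algebraMap ℝ ℂ) hm h2 a b).1 hab).1
      exact h1.symm.trans ha) X

theorem hF_P (m : ℕ) (hm : m ∈ Λ) (s : S) (X : TOb (UG M Λ) ℂ) :
    FmC M hΛ.four hm (⟦TF M Λ s X⟧ : Cls (UG M Λ) ℂ) =
      (TUc_61.P (UG M Λ) ℂ).unf hΛ (artinGen M s) (FmC M hΛ.four hm ⟦X⟧) := by
  have h2 : 2 ≤ m := (by norm_num : 2 ≤ 4).trans (hΛ.four m hm)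
  have e1 : ∀ Y : TOb (UG M Λ) ℂ, FmC M hΛ.four hm (⟦Y⟧ : Cls (UG M Λ) ℂ) =
      ⟦(Fm M (algebraMap ℝ ℂ) hm h2).toFDat.tob Y⟧ := fun Y => rfl
  rw [e1, e1, gen_P]
  exact Quotient.sound (fm_TF M hm h2 s X)

/-- **the level action** -/
noncomputable def actP : ActI M hΛ.four :=
  actI hΛ (TUc_61.P (UG M Λ) ℂ) (gen_P M hΛ) (hF_P M hΛ)

theorem actP_smul (r : ArtinGroup M) (x : Cls (UG M Λ) ℂ) :
    (actP M hΛ).act.smul r x = (TUc_61.P (UG M Λ) ℂ).unf hΛ r x := rfl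

theorem actP_gen (s : S) (X : TOb (UG M Λ) ℂ) :
    (actP M hΛ).act.smul (artinGen M s) (⟦X⟧ : Cls (UG M Λ) ℂ) = ⟦TF M Λ s X⟧ :=
  gen_P M hΛ s X

end Crest.Agent.R175.ActF_774
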