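import Crest.Agent.R175.Fm3_27

/-!
# Row 175, block F_m, part 4: self-adjoint matrix functors

`ADat G k`: `FDat` with the unit/counit identities.  `hT_tob : hT (F X) Y = hT X (F Y)`.
-/

set_option autoImplicit false
set_option linter.unusedSectionVars false
set_option linter.unusedVariables false
set_option linter.unusedSimpArgs false

open CategoryTheory
open scoped Classical

namespace Crest.Agent.R175.Fm_27

open Crest.Agent.R175.PTA

universe v

variable {T : Type} {G : MG T} {k : Type v} [Field k] [Fintype T]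

variable (G k) in
/-- data of a self-adjoint matrix functor -/
structure ADat extends FDat G k where
  cup1 : ∀ {a b b' : T} (e e₂ : G.E a b), N b' b →
    (∑ a', ∑ e' : G.E a' b', if N a' a then chi e' e * chi e₂ e' * r a' ^ 2 else 0)
      = if e₂ = e then r b' ^ 2 else 0
  cup0 : ∀ {a b b' b'' : T} (e : G.E a b) (e₂ : G.E a b''), N b' b → N b'' b' → b'' ≠ b →
    (∑ a', ∑ e' : G.E a' b', if N a' a then chi e' e * chi e₂ e' * r a' ^ 2 else 0) = 0
  cap1 : ∀ {a b a' : T} (e e₂ : G.E a b), N a' a →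
    (∑ b', ∑ e' : G.E a' b', if N b' b then chi e' e * chi e₂ e' * (r b ^ 2)⁻¹ else 0)
      = if e₂ = e then (r a ^ 2)⁻¹ else 0
  cap0 : ∀ {a b a' a'' : T} (e : G.E a b) (e₂ : G.E a'' b), N a' a → N a'' a' → a'' ≠ a →
    (∑ b', ∑ e' : G.E a' b', if N b' b then chi e' e * chi e₂ e' * (r b ^ 2)⁻¹ else 0) = 0

namespace ADat

variable (Φ : ADat G k)

/-- the functor underlying the data -/
noncomputable abbrev F (X : Gob G k) : Gob G k := Φ.toFDat.ob X

/-- the unit -/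
noncomputable def cup (X : Gob G k) : X ⟶ Φ.F (Φ.F X) :=
  mkH (Y := Φ.F (Φ.F X))
    (fun a => LinearMap.pi fun a' : Φ.Nb a => (Φ.r a'.1 ^ 2) •
      LinearMap.single k (fun a'' : Φ.Nb a'.1 => X.V a''.1) ⟨a, Φ.symm a'.2⟩)
    (fun a => LinearMap.pi fun a' : Φ.Nb a => (Φ.r a'.1 ^ 2) •
      LinearMap.single k (fun a'' : Φ.Nb a'.1 => X.W a''.1) ⟨a, Φ.symm a'.2⟩)
    (fun _ _ _ => 0) (fun _ => 0) (fun _ => 0) (fun _ => 0)

/-- the counit -/
noncomputable def cap (X : Gob G k) : Φ.F (Φ.F X) ⟶ X :=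
  mkH (X := Φ.F (Φ.F X))
    (fun a => (Φ.r a ^ 2)⁻¹ • ∑ a' : Φ.Nb a,
      (LinearMap.proj (⟨a, Φ.symm a'.2⟩ : Φ.Nb a'.1) : (∀ a'' : Φ.Nb a'.1, X.V a''.1) →ₗ[k] X.V a)
        ∘ₗ LinearMap.proj a')
    (fun a => (Φ.r a ^ 2)⁻¹ • ∑ a' : Φ.Nb a,
      (LinearMap.proj (⟨a, Φ.symm a'.2⟩ : Φ.Nb a'.1) : (∀ a'' : Φ.Nb a'.1, X.W a''.1) →ₗ[k] X.W a)
        ∘ₗ LinearMap.proj a')
    (fun _ _ _ => 0) (fun _ => 0) (fun _ => 0) (fun _ => 0)

section lem
variable (X : Gob G k)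

theorem c0_cup (a : T) (x : X.V a) (a' : Φ.Nb a) :
    (c0 (Φ.cup X) a x : ∀ a' : Φ.Nb a, ∀ a'' : Φ.Nb a'.1, X.V a''.1) a'
      = (Φ.r a'.1 ^ 2) • Pi.single (⟨a, Φ.symm a'.2⟩ : Φ.Nb a'.1) x := rfl

theorem cW_cup (a : T) (x : X.W a) (a' : Φ.Nb a) :
    (cW (Φ.cup X) a x : ∀ a' : Φ.Nb a, ∀ a'' : Φ.Nb a'.1, X.W a''.1) a'
      = (Φ.r a'.1 ^ 2) • Pi.single (⟨a, Φ.symm a'.2⟩ : Φ.Nb a'.1) x := rfl

@[simp] theorem c1_cup {a b : T} (e : G.E a b) : c1 (Φ.cup X) e = 0 := rfl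
@[simp] theorem ci_cup (a : T) : ci (Φ.cup X) a = 0 := rfl
@[simp] theorem cj_cup (a : T) : cj (Φ.cup X) a = 0 := rfl
@[simp] theorem c2_cup (a : T) : c2 (Φ.cup X) a = 0 := rfl

theorem c0_cap (a : T) (x : ∀ a' : Φ.Nb a, ∀ a'' : Φ.Nb a'.1, X.V a''.1) :
    c0 (Φ.cap X) a x = (Φ.r a ^ 2)⁻¹ • ∑ a' : Φ.Nb a, x a' ⟨a, Φ.symm a'.2⟩ := by
  simp [cap]

theorem cW_cap (a : T) (x : ∀ a' : Φ.Nb a, ∀ a'' : Φ.Nb a'.1, X.W a''.1) :
    cW (Φ.cap X) a x = (Φ.r a ^ 2)⁻¹ • ∑ a' : Φ.Nb a, x a' ⟨a, Φ.symm a'.2⟩ := by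
  simp [cap]

@[simp] theorem c1_cap {a b : T} (e : G.E a b) : c1 (Φ.cap X) e = 0 := rfl
@[simp] theorem ci_cap (a : T) : ci (Φ.cap X) a = 0 := rfl
@[simp] theorem cj_cap (a : T) : cj (Φ.cap X) a = 0 := rfl
@[simp] theorem c2_cap (a : T) : c2 (Φ.cap X) a = 0 := rfl

end lem

theorem rr (a a' : T) : Φ.ρ a' a * Φ.ρ a a' = 1 := by
  have h1 := Φ.r_ne a
  have h2 := Φ.r_ne a'
  unfold FDat.ρ
  field_simp

/-- naturality of the unit -/
theorem cup_nat {X Y : Gob G k} (f : X ⟶ Y) :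
    f ≫ Φ.cup Y = Φ.cup X ≫ Φ.hom (Φ.hom f) := by
  apply hm_ext
  · intro a
    apply LinearMap.ext; intro x
    funext a' a''
    rw [c0_comp, c0_comp, LinearMap.comp_apply, LinearMap.comp_apply, FDat.c0_hom, c0_cup,
      dg_apply, FDat.c0_hom, c0_cup, map_smul]
    simp only [Pi.smul_apply, dg_apply]
    by_cases h : a'' = ⟨a, Φ.symm a'.2⟩
    · subst h; simp
    · rw [Pi.single_eq_of_ne h, Pi.single_eq_of_ne h, map_zero]
  · intro a
    apply LinearMap.ext; intro x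
    funext a' a''
    rw [cW_comp, cW_comp, LinearMap.comp_apply, LinearMap.comp_apply, FDat.cW_hom, cW_cup,
      dg_apply, FDat.cW_hom, cW_cup, map_smul]
    simp only [Pi.smul_apply, dg_apply]
    by_cases h : a'' = ⟨a, Φ.symm a'.2⟩
    · subst h; simp
    · rw [Pi.single_eq_of_ne h, Pi.single_eq_of_ne h, map_zero]
  · intro a b e
    apply LinearMap.ext; intro x
    funext b' b''
    rw [c1_comp, c1_comp, c1_cup, c1_cup, LinearMap.zero_comp, LinearMap.comp_zero, zero_add,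
      add_zero, LinearMap.comp_apply, LinearMap.comp_apply, c0_cup, FDat.c1_hom, mat_apply]
    have L : (∑ a' : Φ.Nb a, (∑ e' : G.E a'.1 b'.1, Φ.chi e' e • c1 (Φ.hom f) e')
          ((c0 (Φ.cup X) a x : ∀ a' : Φ.Nb a, ∀ a'' : Φ.Nb a'.1, X.V a''.1) a')) b''
        = ∑ e₂ : G.E a b''.1, (∑ a', ∑ e' : G.E a' b'.1,
            if Φ.N a' a then Φ.chi e' e * Φ.chi e₂ e' * Φ.r a' ^ 2 else 0) • c1 f e₂ x := by
      rw [Finset.sum_apply]
      simp only [LinearMap.sum_apply, LinearMap.smul_apply, Finset.sum_apply, Pi.smul_apply,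
        c0_cup, map_smul, FDat.c1_hom, mat_apply]
      have inner : ∀ (a' : Φ.Nb a) (e' : G.E a'.1 b'.1),
          (∑ a₂ : Φ.Nb a'.1, ∑ e₂ : G.E a₂.1 b''.1, Φ.chi e₂ e' • c1 f e₂
            ((c0 (Φ.cup X) a x : ∀ a' : Φ.Nb a, ∀ a'' : Φ.Nb a'.1, X.V a''.1) a' a₂))
          = ∑ e₂ : G.E a b''.1, (Φ.chi e₂ e' * Φ.r a'.1 ^ 2) • c1 f e₂ x := by
        intro a' e'
        rw [Finset.sum_eq_single (⟨a, Φ.symm a'.2⟩ : Φ.Nb a'.1)]
        · refine Finset.sum_congr rfl fun e₂ _ => ?_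
          rw [c0_cup, Pi.smul_apply, Pi.single_eq_same, map_smul, smul_smul]
        · intro a₂ _ h
          refine Finset.sum_eq_zero fun e₂ _ => ?_
          rw [c0_cup, Pi.smul_apply, Pi.single_eq_of_ne h, smul_zero, map_zero, smul_zero]
        · simp
      refine (Finset.sum_congr rfl fun a' _ => Finset.sum_congr rfl fun e' _ =>
        congrArg (Φ.chi e' e • ·) (inner a' e')).trans ?_
      simp only [Finset.smul_sum, smul_smul, Finset.sum_smul, ite_smul, zero_smul]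
      refine (Φ.sum_Nb a (fun a' => ∑ e' : G.E a' b'.1, ∑ e₂ : G.E a b''.1,
        (Φ.chi e' e * (Φ.chi e₂ e' * Φ.r a' ^ 2)) • c1 f e₂ x)).trans ?_
      have h1 : ∀ a', (if Φ.N a' a then (∑ e' : G.E a' b'.1, ∑ e₂ : G.E a b''.1,
          (Φ.chi e' e * (Φ.chi e₂ e' * Φ.r a' ^ 2)) • c1 f e₂ x) else 0)
          = ∑ e₂ : G.E a b''.1, ∑ e' : G.E a' b'.1, if Φ.N a' a then
            (Φ.chi e' e * Φ.chi e₂ e' * Φ.r a' ^ 2) • c1 f e₂ x else 0 := by
        intro a'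
        by_cases h : Φ.N a' a
        · simp only [h, if_true, mul_assoc]
          exact Finset.sum_comm
        · simp [h]
      rw [Finset.sum_congr rfl fun a' _ => h1 a']
      exact Finset.sum_comm
    rw [L]
    by_cases h : b''.1 = b
    · obtain ⟨b'', hb''⟩ := b''
      obtain rfl : b'' = b := h
      rw [Pi.smul_apply, Pi.single_eq_same, Finset.sum_eq_single e]
      · rw [Φ.cup1 e e b'.2, if_pos rfl]
      · intro e₂ _ he
        rw [Φ.cup1 e e₂ b'.2, if_neg he, zero_smul]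
      · simp
    · rw [Pi.smul_apply, Pi.single_eq_of_ne (fun h' => h (congrArg Subtype.val h')), smul_zero]
      symm
      refine Finset.sum_eq_zero fun e₂ _ => ?_
      rw [Φ.cup0 e e₂ b'.2 b''.2 h, zero_smul]
  · intro a
    apply LinearMap.ext; intro x
    funext a' a''
    rw [ci_comp, ci_comp, ci_cup, ci_cup, LinearMap.zero_comp, LinearMap.comp_zero, zero_add,
      add_zero, LinearMap.comp_apply, LinearMap.comp_apply, c0_cup, FDat.ci_hom, dg_apply,
      FDat.ci_hom, cW_cup, LinearMap.smul_apply, map_smul]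
    simp only [Pi.smul_apply, dg_apply]
    by_cases h : a'' = ⟨a, Φ.symm a'.2⟩
    · subst h
      rw [Pi.single_eq_same, Pi.single_eq_same]
      simp only [LinearMap.smul_apply, smul_smul]
      rw [mul_comm (Φ.r a'.1 ^ 2), ← mul_assoc, Φ.rr, one_mul]
    · rw [Pi.single_eq_of_ne h, Pi.single_eq_of_ne h, map_zero]
      simp
  · intro a
    apply LinearMap.ext; intro x
    funext a' a''
    rw [cj_comp, cj_comp, cj_cup, cj_cup, LinearMap.zero_comp, LinearMap.comp_zero, zero_add,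
      add_zero, LinearMap.comp_apply, LinearMap.comp_apply, cW_cup, FDat.cj_hom, dg_apply,
      FDat.cj_hom, c0_cup, LinearMap.smul_apply, map_smul]
    simp only [Pi.smul_apply, dg_apply]
    by_cases h : a'' = ⟨a, Φ.symm a'.2⟩
    · subst h
      rw [Pi.single_eq_same, Pi.single_eq_same]
      simp only [LinearMap.smul_apply, smul_smul]
      rw [mul_comm (Φ.r a'.1 ^ 2), ← mul_assoc, Φ.rr, one_mul]
    · rw [Pi.single_eq_of_ne h, Pi.single_eq_of_ne h, map_zero]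
      simp
  · intro a
    apply LinearMap.ext; intro x
    funext a' a''
    simp only [c2_comp, c2_cup, c1_cup, ci_cup, cj_cup, LinearMap.zero_comp, LinearMap.comp_zero,
      Finset.sum_const_zero, zero_add, add_zero]
    rw [LinearMap.comp_apply, LinearMap.comp_apply, c0_cup, FDat.c2_hom, dg_apply,
      FDat.c2_hom, c0_cup, LinearMap.smul_apply, map_smul]
    simp only [Pi.smul_apply, dg_apply]
    by_cases h : a'' = ⟨a, Φ.symm a'.2⟩
    · subst h
      rw [Pi.single_eq_same, Pi.single_eq_same]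
      simp only [LinearMap.smul_apply, smul_smul]
      rw [mul_comm (Φ.r a'.1 ^ 2), ← mul_assoc, ← mul_pow, Φ.rr, one_pow, one_mul]
    · rw [Pi.single_eq_of_ne h, Pi.single_eq_of_ne h, map_zero]
      simp

/-- naturality of the counit -/
theorem cap_nat {X Y : Gob G k} (f : X ⟶ Y) :
    Φ.hom (Φ.hom f) ≫ Φ.cap Y = Φ.cap X ≫ f := by
  apply hm_ext
  · intro a
    apply LinearMap.ext; intro x
    rw [c0_comp, c0_comp, LinearMap.comp_apply, LinearMap.comp_apply, c0_cap, c0_cap, map_smul,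
      map_sum]
    rfl
  · intro a
    apply LinearMap.ext; intro x
    rw [cW_comp, cW_comp, LinearMap.comp_apply, LinearMap.comp_apply, cW_cap, cW_cap, map_smul,
      map_sum]
    rfl
  · intro a b e
    apply LinearMap.ext; intro x
    rw [c1_comp, c1_comp, c1_cap, c1_cap, LinearMap.zero_comp, LinearMap.comp_zero, zero_add,
      add_zero, LinearMap.comp_apply, LinearMap.comp_apply, c0_cap, c0_cap, map_smul, map_sum]
    have L : ((Φ.r b ^ 2)⁻¹ • ∑ b' : Φ.Nb b, (c1 (Φ.hom (Φ.hom f)) e x :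
          ∀ b' : Φ.Nb b, ∀ b'' : Φ.Nb b'.1, Y.V b''.1) b' ⟨b, Φ.symm b'.2⟩)
        = ∑ a' : Φ.Nb a, ∑ a'' : Φ.Nb a'.1, ∑ e₂ : G.E a''.1 b,
          (∑ b', ∑ e' : G.E a'.1 b', if Φ.N b' b then Φ.chi e' e * Φ.chi e₂ e' * (Φ.r b ^ 2)⁻¹
            else 0) • c1 f e₂ (x a' a'') := by
      simp only [FDat.c1_hom, mat_apply, LinearMap.sum_apply, LinearMap.smul_apply,
        Finset.sum_apply, Pi.smul_apply, Finset.smul_sum, smul_smul, Finset.sum_smul, ite_smul,
        zero_smul]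
      refine (Φ.sum_Nb b (fun b' => ∑ a' : Φ.Nb a, ∑ e' : G.E a'.1 b', ∑ a'' : Φ.Nb a'.1,
        ∑ e₂ : G.E a''.1 b, ((Φ.r b ^ 2)⁻¹ * (Φ.chi e' e * Φ.chi e₂ e')) •
          c1 f e₂ (x a' a''))).trans ?_
      have h1 : ∀ b', (if Φ.N b' b then (∑ a' : Φ.Nb a, ∑ e' : G.E a'.1 b', ∑ a'' : Φ.Nb a'.1,
          ∑ e₂ : G.E a''.1 b, ((Φ.r b ^ 2)⁻¹ * (Φ.chi e' e * Φ.chi e₂ e')) •
          c1 f e₂ (x a' a'')) else 0)
          = ∑ a' : Φ.Nb a, ∑ p : (Σ a'' : Φ.Nb a'.1, G.E a''.1 b), ∑ e' : G.E a'.1 b',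
            if Φ.N b' b then
            (Φ.chi e' e * Φ.chi p.2 e' * (Φ.r b ^ 2)⁻¹) • c1 f p.2 (x a' p.1) else 0 := by
        intro b'
        by_cases h : Φ.N b' b
        · simp only [h, if_true]
          refine Finset.sum_congr rfl fun a' _ => ?_
          symm
          rw [Finset.sum_comm]
          refine Finset.sum_congr rfl fun e' _ => ?_
          rw [Fintype.sum_sigma]
          refine Finset.sum_congr rfl fun a'' _ => Finset.sum_congr rfl fun e₂ _ => ?_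
          congr 1; ring
        · simp [h]
      rw [Finset.sum_congr rfl fun b' _ => h1 b', Finset.sum_comm]
      refine Finset.sum_congr rfl fun a' _ => ?_
      rw [Finset.sum_comm, Fintype.sum_sigma]
    rw [L, Finset.smul_sum]
    refine Finset.sum_congr rfl fun a' _ => ?_
    rw [Finset.sum_eq_single (⟨a, Φ.symm a'.2⟩ : Φ.Nb a'.1)]
    · rw [Finset.sum_eq_single e]
      · rw [Φ.cap1 e e a'.2, if_pos rfl]
      · intro e₂ _ he
        rw [Φ.cap1 e e₂ a'.2, if_neg he, zero_smul]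
      · simp
    · intro a'' _ h
      refine Finset.sum_eq_zero fun e₂ _ => ?_
      rw [Φ.cap0 e e₂ a'.2 a''.2 (fun h' => h (Subtype.ext h')), zero_smul]
    · simp
  · intro a
    apply LinearMap.ext; intro x
    rw [ci_comp, ci_comp, ci_cap, ci_cap, LinearMap.zero_comp, LinearMap.comp_zero, zero_add,
      add_zero, LinearMap.comp_apply, LinearMap.comp_apply, c0_cap, cW_cap, map_smul, map_sum]
    congr 1
    refine Finset.sum_congr rfl fun a' _ => ?_
    rw [FDat.ci_hom, dg_apply, FDat.ci_hom, LinearMap.smul_apply, Pi.smul_apply, dg_apply,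
      LinearMap.smul_apply, smul_smul, Φ.rr, one_smul]
  · intro a
    apply LinearMap.ext; intro x
    rw [cj_comp, cj_comp, cj_cap, cj_cap, LinearMap.zero_comp, LinearMap.comp_zero, zero_add,
      add_zero, LinearMap.comp_apply, LinearMap.comp_apply, c0_cap, cW_cap, map_smul, map_sum]
    congr 1
    refine Finset.sum_congr rfl fun a' _ => ?_
    rw [FDat.cj_hom, dg_apply, FDat.cj_hom, LinearMap.smul_apply, Pi.smul_apply, dg_apply,
      LinearMap.smul_apply, smul_smul, Φ.rr, one_smul]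
  · intro a
    apply LinearMap.ext; intro x
    simp only [c2_comp, c2_cap, c1_cap, ci_cap, cj_cap, LinearMap.zero_comp, LinearMap.comp_zero,
      Finset.sum_const_zero, zero_add, add_zero]
    rw [LinearMap.comp_apply, LinearMap.comp_apply, c0_cap, c0_cap, map_smul, map_sum]
    congr 1
    refine Finset.sum_congr rfl fun a' _ => ?_
    rw [FDat.c2_hom, dg_apply, FDat.c2_hom, LinearMap.smul_apply, Pi.smul_apply, dg_apply,
      LinearMap.smul_apply, smul_smul, ← mul_pow, Φ.rr, one_pow, one_smul]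

/-- first triangle identity -/
theorem tri1 (X : Gob G k) : Φ.cup (Φ.F X) ≫ Φ.hom (Φ.cap X) = 𝟙 (Φ.F X) := by
  apply hm_ext
  · intro a
    apply LinearMap.ext; intro x
    funext b
    rw [c0_comp, LinearMap.comp_apply, FDat.c0_hom, dg_apply, c0_cup, c0_cap, c0_id,
      Finset.sum_eq_single (⟨a, Φ.symm b.2⟩ : Φ.Nb b.1)]
    · rw [Pi.smul_apply, Pi.single_eq_same, Pi.smul_apply, smul_smul,
        inv_mul_cancel₀ (pow_ne_zero 2 (Φ.r_ne _)), one_smul]
      rfl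
    · intro c _ hc
      rw [Pi.smul_apply, Pi.single_eq_of_ne hc, smul_zero]; rfl
    · simp
  · intro a
    apply LinearMap.ext; intro x
    funext b
    rw [cW_comp, LinearMap.comp_apply, FDat.cW_hom, dg_apply, cW_cup, cW_cap, cW_id,
      Finset.sum_eq_single (⟨a, Φ.symm b.2⟩ : Φ.Nb b.1)]
    · rw [Pi.smul_apply, Pi.single_eq_same, Pi.smul_apply, smul_smul,
        inv_mul_cancel₀ (pow_ne_zero 2 (Φ.r_ne _)), one_smul]
      rfl
    · intro c _ hc
      rw [Pi.smul_apply, Pi.single_eq_of_ne hc, smul_zero]; rfl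
    · simp
  · intro a b e
    rw [c1_comp, c1_cup, LinearMap.comp_zero, add_zero, FDat.c1_hom]
    simp [mat_zero]
  · intro a
    rw [ci_comp, ci_cup, LinearMap.comp_zero, add_zero, FDat.ci_hom]
    simp [dg_zero]
  · intro a
    rw [cj_comp, cj_cup, LinearMap.comp_zero, add_zero, FDat.cj_hom]
    simp [dg_zero]
  · intro a
    simp only [c2_comp, c2_cup, c1_cup, cj_cup, LinearMap.comp_zero, Finset.sum_const_zero,
      add_zero, FDat.c2_hom, c2_cap, smul_zero, dg_zero, LinearMap.zero_comp, c2_id]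

/-- second triangle identity -/
theorem tri2 (X : Gob G k) : Φ.hom (Φ.cup X) ≫ Φ.cap (Φ.F X) = 𝟙 (Φ.F X) := by
  apply hm_ext
  · intro a
    apply LinearMap.ext; intro x
    funext d
    rw [c0_comp, LinearMap.comp_apply, c0_cap, FDat.c0_hom, c0_id, Pi.smul_apply]
    erw [Finset.sum_apply]
    rw [Finset.sum_eq_single d]
    · rw [dg_apply, c0_cup, Pi.smul_apply, Pi.single_eq_same, smul_smul,
        inv_mul_cancel₀ (pow_ne_zero 2 (Φ.r_ne _)), one_smul]
      rfl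
    · intro b _ hb
      rw [dg_apply, c0_cup, Pi.smul_apply, Pi.single_eq_of_ne, smul_zero]
      intro h
      exact hb (Subtype.ext (congrArg Subtype.val h).symm)
    · simp
  · intro a
    apply LinearMap.ext; intro x
    funext d
    rw [cW_comp, LinearMap.comp_apply, cW_cap, FDat.cW_hom, cW_id, Pi.smul_apply]
    erw [Finset.sum_apply]
    rw [Finset.sum_eq_single d]
    · rw [dg_apply, cW_cup, Pi.smul_apply, Pi.single_eq_same, smul_smul,
        inv_mul_cancel₀ (pow_ne_zero 2 (Φ.r_ne _)), one_smul]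
      rfl
    · intro b _ hb
      rw [dg_apply, cW_cup, Pi.smul_apply, Pi.single_eq_of_ne, smul_zero]
      intro h
      exact hb (Subtype.ext (congrArg Subtype.val h).symm)
    · simp
  · intro a b e
    rw [c1_comp, c1_cap, LinearMap.zero_comp, zero_add, FDat.c1_hom]
    simp [mat_zero]
  · intro a
    rw [ci_comp, ci_cap, LinearMap.zero_comp, zero_add, FDat.ci_hom]
    simp [dg_zero]
  · intro a
    rw [cj_comp, cj_cap, LinearMap.zero_comp, zero_add, FDat.cj_hom]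
    simp [dg_zero]
  · intro a
    simp only [c2_comp, c2_cap, c1_cap, ci_cap, LinearMap.zero_comp, Finset.sum_const_zero,
      add_zero, FDat.c2_hom, c2_cup, smul_zero, dg_zero, LinearMap.comp_zero, c2_id]

theorem hom_hom_gam (X : Gob G k) : Φ.hom (Φ.hom (gam X)) = gam (Φ.F (Φ.F X)) := by
  rw [Φ.hom_gam, Φ.hom_gam]

theorem bar_cup (X : Gob G k) : bar (Φ.cup X) = Φ.cup X := by
  rw [bar, ← hom_hom_gam, ← cup_nat, ← Category.assoc, gam_gam, Category.id_comp]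

theorem bar_cap (X : Gob G k) : bar (Φ.cap X) = Φ.cap X := by
  rw [bar, ← hom_hom_gam, ← cap_nat, ← Category.assoc, ← Φ.hom_comp, ← Φ.hom_comp, gam_gam,
    Φ.hom_id, Φ.hom_id, Category.id_comp]

/-- `F` on T-framed objects -/
noncomputable abbrev FT (X : TOb G k) : TOb G k := Φ.toFDat.tob X

theorem D_cup (X : TOb G k) : D X (Φ.FT (Φ.FT X)) (Φ.cup X.X) = 0 := by
  rw [D_apply, bar_cup, cup_nat]
  exact sub_self _

theorem D_cap (X : TOb G k) : D (Φ.FT (Φ.FT X)) X (Φ.cap X.X) = 0 := by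
  rw [D_apply, bar_cap, ← cap_nat]
  exact sub_self _

/-- the adjunction isomorphism `Hom (F X, Y) = Hom (X, F Y)` -/
noncomputable def adj (X Y : Gob G k) : (Φ.F X ⟶ Y) ≃ₗ[k] (X ⟶ Φ.F Y) where
  toFun f := Φ.cup X ≫ Φ.hom f
  invFun g := Φ.hom g ≫ Φ.cap Y
  map_add' f g := by rw [Φ.hom_add, Preadditive.comp_add]
  map_smul' c f := by rw [Φ.hom_smul, Linear.comp_smul]; rfl
  left_inv f := by
    simp only
    rw [Φ.hom_comp, Category.assoc, cap_nat, ← Category.assoc, tri2, Category.id_comp]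
  right_inv g := by
    simp only
    rw [Φ.hom_comp, ← Category.assoc, ← cup_nat, Category.assoc, tri1, Category.comp_id]

theorem adj_apply {X Y : Gob G k} (f : Φ.F X ⟶ Y) : Φ.adj X Y f = Φ.cup X ≫ Φ.hom f := rfl

theorem adj_symm_apply {X Y : Gob G k} (g : X ⟶ Φ.F Y) :
    (Φ.adj X Y).symm g = Φ.hom g ≫ Φ.cap Y := rfl

theorem adj_D {X Y : TOb G k} (f : Φ.F X.X ⟶ Y.X) :
    Φ.adj X.X Y.X (D (Φ.FT X) Y f) = D X (Φ.FT Y) (Φ.adj X.X Y.X f) := by
  have h := D_comp (X := X) (Y := Φ.FT (Φ.FT X)) (Z := Φ.FT Y) (Φ.cup X.X) (Φ.hom f)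
  rw [adj_apply, adj_apply, h, D_cup, Limits.zero_comp, add_zero]
  rw [Φ.hom_D]

theorem adj_mem_Cs {X Y : Gob G k} {f : Φ.F X ⟶ Y} :
    Φ.adj X Y f ∈ Cs X (Φ.F Y) ↔ f ∈ Cs (Φ.F X) Y := by
  constructor
  · intro h
    have e := (Φ.adj X Y).symm_apply_apply f
    rw [← e, adj_symm_apply]
    exact Cs_comp_right (Φ.cW_hom_eq_zero h) _
  · intro h
    exact Cs_comp_left _ (Φ.cW_hom_eq_zero h)

/-- **`hD (F X) Y = hD X (F Y)`** -/
theorem hD_FT (X Y : TOb G k) : hD (Φ.FT X) Y = hD X (Φ.FT Y) :=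
  hd_congr _ _ (Φ.adj X.X Y.X) Φ.adj_D

/-- the adjunction on maps with separate frames -/
noncomputable def adjCs (X Y : Gob G k) : Cs (Φ.F X) Y ≃ₗ[k] Cs X (Φ.F Y) :=
  (Φ.adj X Y).ofSubmodules (Cs (Φ.F X) Y) (Cs X (Φ.F Y)) (by
    ext g
    rw [Submodule.mem_map]
    constructor
    · rintro ⟨f, hf, rfl⟩
      exact Φ.adj_mem_Cs.2 hf
    · intro hg
      refine ⟨(Φ.adj X Y).symm g, ?_, (Φ.adj X Y).apply_symm_apply g⟩
      rw [← Φ.adj_mem_Cs, (Φ.adj X Y).apply_symm_apply]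
      exact hg)

theorem adjCs_coe {X Y : Gob G k} (f : Cs (Φ.F X) Y) : (Φ.adjCs X Y f : X ⟶ Φ.F Y) = Φ.adj X Y f :=
  rfl

/-- **`hT (F X) Y = hT X (F Y)`** -/
theorem hT_FT (X Y : TOb G k) : hT (Φ.FT X) Y = hT X (Φ.FT Y) :=
  hd_congr _ _ (Φ.adjCs X.X Y.X) fun f => Subtype.ext (Φ.adj_D f.1)

/-- frames of `F X` -/
theorem lam_FT (X : TOb G k) (a' : T) :
    lam (Φ.FT X) a' = ∑ a, if Φ.N a a' then lam X a else 0 := by
  rw [← Φ.sum_Nb]
  exact Module.finrank_pi_fintype k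

end ADat

end Crest.Agent.R175.Fm_27
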