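import Crest.Agent.R175.TwH_253

/-!
# Twists (row 175, helper253): `Q_U` is a spherical functor on `Gob G k`, `sphG U hU`
-/

set_option autoImplicit false
set_option linter.unusedSectionVars false

open CategoryTheory

namespace Crest.Agent.R175.TwG_253

open PTA

universe v

noncomputable section

variable {T : Type v} {G : MG T} {k : Type v} [Field k] [Fintype T] (U : T → Prop)
variable {X Y Z : Gob G k}

theorem u_eps1 (X : Gob G k) : uG U X ≫ mG U (epsG U X) = 𝟙 (QG U X) := by
  apply hm_ext
  · intro t; apply LinearMap.ext; intro x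
    apply q_ext; intro h
    simp only [c0_comp, LinearMap.comp_apply, c0_u, c0_mG, qev_qin h, hmap_i0, c0_eps, c1_eps,
      cj_eps, c2_eps, sum_i1, c0_id, LinearMap.id_apply]
  · intro t; apply LinearMap.ext; intro x; exact Subsingleton.elim _ _
  · intro s t a; simp [c1_mG, c1_u]
  · intro t; simp [ci_mG, ci_u]
  · intro t; simp [cj_mG, cj_u]
  · intro t; simp [c2_mG, c1_mG, cj_mG, c2_u, c1_u, cj_u]

theorem u_eps2 (X : Gob G k) : uG U X ≫ epsG U (QG U X) = 𝟙 (QG U X) := by
  apply hm_ext
  · intro t; apply LinearMap.ext; intro x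
    by_cases h : U t
    · simp only [c0_comp, LinearMap.comp_apply, c0_u, c0_eps, qev_qin h, i0_0, c0_id,
        LinearMap.id_apply]
    · rw [q_zero h x, map_zero, map_zero]
  · intro t; apply LinearMap.ext; intro x; exact Subsingleton.elim _ _
  · intro s t a; apply LinearMap.ext; intro x
    by_cases h : U s
    · simp only [c1_comp, LinearMap.add_apply, LinearMap.comp_apply, c0_u, c1_eps, qev_qin h,
        i0_1, c1_u, c1_id, LinearMap.zero_apply, map_zero, add_zero]
    · rw [q_zero h x, map_zero, map_zero]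
  · intro t; apply LinearMap.ext; intro x
    rw [Subsingleton.elim x 0, map_zero, map_zero]
  · intro t; apply LinearMap.ext; intro x; exact Subsingleton.elim _ _
  · intro t; apply LinearMap.ext; intro x
    by_cases h : U t
    · simp only [c2_comp, LinearMap.add_apply, LinearMap.comp_apply, LinearMap.sum_apply, c0_u,
        c2_eps, qev_qin h, i0_2, c1_u, c2_u, cj_u, c2_id, LinearMap.zero_apply, map_zero,
        add_zero, Finset.sum_const_zero]
    · rw [q_zero h x, map_zero, map_zero]

theorem eta_c1 (X : Gob G k) : etaG U (QG U X) ≫ cG U X = 𝟙 (QG U X) := by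
  apply hm_ext
  · intro t; apply LinearMap.ext; intro x
    by_cases h : U t
    · simp only [c0_comp, LinearMap.comp_apply, c0_eta, c0_c, qev_qin h, i2_2, c0_id,
        LinearMap.id_apply]
    · rw [q_zero h x, map_zero, map_zero]
  · intro t; apply LinearMap.ext; intro x; exact Subsingleton.elim _ _
  · intro s t a; apply LinearMap.ext; intro x
    apply q_ext; intro h
    simp only [c1_comp, LinearMap.add_apply, LinearMap.comp_apply, c1_c, c0_c, c1_eta,
      qev_qin h, i1_2, c1_id, LinearMap.zero_apply, add_zero]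
  · intro t; apply LinearMap.ext; intro x
    rw [Subsingleton.elim x 0, map_zero, map_zero]
  · intro t; apply LinearMap.ext; intro x; exact Subsingleton.elim _ _
  · intro t; apply LinearMap.ext; intro x
    apply q_ext; intro h
    simp only [c2_comp, LinearMap.add_apply, LinearMap.comp_apply, LinearMap.sum_apply, c2_c,
      c1_c, c0_c, ci_c, c2_eta, qev_qin h, i0_2, c2_id, LinearMap.zero_apply, add_zero,
      Finset.sum_const_zero]

theorem eta_qin (X : Gob G k) (t : T) (w : HP X t) :
    c2 (etaG U X) t w.1 + (∑ s, ∑ a : G.E t s, c1 (etaG U X) (G.rev a) (w.2.1 s a))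
      + ci (etaG U X) t w.2.2.1 + c0 (etaG U X) t w.2.2.2 = qin U X t w := by
  conv_rhs => rw [← sum_i1 t w]
  simp only [c2_eta, c1_eta, ci_eta, c0_eta, MG.rev_rev, map_add, map_sum]

theorem eta_c2 (X : Gob G k) : mG U (etaG U X) ≫ cG U X = 𝟙 (QG U X) := by
  apply hm_ext
  · intro t; apply LinearMap.ext; intro x
    apply q_ext; intro h
    simp only [c0_comp, LinearMap.comp_apply, c0_mG, c0_c, qev_qin h, hmap_2, c0_id,
      LinearMap.id_apply]
    rw [eta_qin, qin_qev]
  · intro t; apply LinearMap.ext; intro x; exact Subsingleton.elim _ _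
  · intro s t a; simp [c1_mG, c1_c]
  · intro t; simp [ci_mG, ci_c]
  · intro t; simp [cj_mG, cj_c]
  · intro t; simp [c2_mG, c1_mG, cj_mG, c2_c, c1_c, cj_c]

theorem u_c (X : Gob G k) : uG U X ≫ cG U X = 0 := by
  apply hm_ext
  · intro t; apply LinearMap.ext; intro x
    apply q_ext; intro h
    simp only [c0_comp, LinearMap.comp_apply, c0_u, c0_c, qev_qin h, i0_2, c0_zero,
      LinearMap.zero_apply]
  · intro t; apply LinearMap.ext; intro x; exact Subsingleton.elim _ _
  · intro s t a; simp [c1_u, c1_c]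
  · intro t; simp [ci_u, ci_c]
  · intro t; simp [cj_u, cj_c]
  · intro t; simp [c2_u, c1_u, cj_u, c2_c, c1_c, cj_c]

section ind

variable {U} (hU : ∀ s t, U s → U t → IsEmpty (G.E s t))
include hU

theorem c1_zero_of {A B : Gob G k} (f : QG U A ⟶ QG U B) {s t : T} (a : G.E s t) :
    c1 f a = 0 := by
  apply LinearMap.ext; intro x
  by_cases h : U s
  · apply q_ext; intro h'
    exact (hU s t h h').elim a
  · rw [q_zero h x, map_zero, map_zero]

theorem y_zero {t s : T} (h : U t) (a : G.E t s) (x : (QG U X).V s) : x = 0 := by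
  apply q_ext; intro h'
  exact (hU t s h h').elim a

/-- an element of `Hom(P_t, Q X)` -/
theorem HP_Q {t : T} (h : U t) (y : HP (QG U X) t) :
    i0 (QG U X) t y.1 + i2 (QG U X) t y.2.2.2 = y := by
  apply HP_ext
  · simp only [Prod.fst_add, i0_0, i2_0, add_zero]
  · intro s a; exact y_zero hU h a _ |>.trans (y_zero hU h a _).symm
  · exact Subsingleton.elim _ _
  · simp only [Prod.snd_add, i0_2, i2_2, zero_add]

theorem hmap_eps {t : T} (h : U t) (y : HP (QG U X) t) :
    hmap (epsG U X) t y = qev U X t y.1 + i2 X t (qev U X t y.2.2.2).1 := by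
  apply HP_ext
  · simp only [hmap_0, c0_eps, Prod.fst_add, i2_0, add_zero]
  · intro s a
    simp only [hmap_1, c1_eps, Prod.fst_add, Prod.snd_add, Pi.add_apply, i2_1]
    rw [y_zero hU h a (y.2.1 s a), map_zero]
  · simp only [hmap_w, cj_eps, cW_eps, Prod.fst_add, Prod.snd_add, i2_w, LinearMap.zero_apply]
  · simp only [hmap_2, c2_eps, ci_eps, c0_eps, Prod.snd_add, i2_2, LinearMap.zero_apply, add_zero]
    rw [Finset.sum_eq_zero, add_zero]
    intro s _
    apply Finset.sum_eq_zero
    intro a _
    rw [y_zero hU h a (y.2.1 s a), map_zero]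

theorem hmap_eta {t : T} (h : U t) (w : HP X t) :
    hmap (etaG U X) t w = i0 (QG U X) t (qin U X t (i2 X t w.1)) +
      i2 (QG U X) t (qin U X t w) := by
  apply HP_ext
  · simp only [hmap_0, c0_eta, Prod.fst_add, i0_0, i2_0, add_zero]
  · intro s a; exact y_zero hU h a _ |>.trans (y_zero hU h a _).symm
  · exact Subsingleton.elim _ _
  · simp only [hmap_2, Prod.snd_add, i0_2, i2_2, zero_add]
    rw [eta_qin]

omit hU in
theorem c2_eps_eta (t : T) (x : (QG U X).V t) : c2 (epsG U X ≫ etaG U X) t x = x := by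
  apply q_ext; intro h
  simp only [c2_comp, LinearMap.add_apply, LinearMap.comp_apply, LinearMap.sum_apply, c0_eps,
    c1_eps, cj_eps, c2_eps]
  have e := eta_qin U X t (qev U X t x)
  rw [qin_qev] at e
  conv_rhs => rw [← e]
  congr 1
  abel

theorem id1 (X : Gob G k) : cG U X ≫ etaG U (QG U X) + mG U (epsG U X) ≫ uG U X =
    𝟙 (QG U (QG U X)) + cG U X ≫ epsG U X ≫ etaG U X ≫ uG U X := by
  apply hm_ext
  · intro t; apply LinearMap.ext; intro z
    apply q_ext; intro h
    simp only [c0_add, LinearMap.add_apply, c0_comp, LinearMap.comp_apply, c0_mG, c0_c, c0_u,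
      c0_eta, c0_eps, c0_id, LinearMap.id_apply, map_add, qev_qin h, hmap_eps hU h, qin_qev]
    have e := HP_Q hU h (qev U (QG U X) t z)
    conv_rhs => rw [← e]
    simp only [Prod.snd_add, i0_2, i2_2, zero_add]
    abel
  · intro t; apply LinearMap.ext; intro x; exact Subsingleton.elim _ _
  · intro s t a; rw [c1_zero_of hU, c1_zero_of hU]
  · intro t; apply LinearMap.ext; intro x
    rw [Subsingleton.elim x 0, map_zero, map_zero]
  · intro t; apply LinearMap.ext; intro x; exact Subsingleton.elim _ _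
  · intro t; apply LinearMap.ext; intro z
    have e : cG U X ≫ epsG U X ≫ etaG U X ≫ uG U X =
      cG U X ≫ (epsG U X ≫ etaG U X) ≫ uG U X := by simp only [Category.assoc]
    obtain ⟨w, hw⟩ : ∃ w, w = epsG U X ≫ etaG U X := ⟨_, rfl⟩
    rw [e, ← hw]
    simp only [c2_add, c2_comp, LinearMap.add_apply, LinearMap.comp_apply, LinearMap.sum_apply,
      c2_id, c2_c, c1_c, cj_c, c2_u, c1_u, ci_u, c2_mG, c1_mG, cj_mG, LinearMap.zero_apply,
      map_zero, add_zero, zero_add, Finset.sum_const_zero, c0_c, c2_eta, c0_u]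
    rw [hw, c2_eps_eta]

theorem id2 (X : Gob G k) : cG U X ≫ mG U (etaG U X) + epsG U (QG U X) ≫ uG U X =
    𝟙 (QG U (QG U X)) + cG U X ≫ epsG U X ≫ etaG U X ≫ uG U X := by
  apply hm_ext
  · intro t; apply LinearMap.ext; intro z
    apply q_ext; intro h
    simp only [c0_add, LinearMap.add_apply, c0_comp, LinearMap.comp_apply, c0_mG, c0_c, c0_u,
      c0_eta, c0_eps, c0_id, LinearMap.id_apply, map_add, qev_qin h, hmap_eta hU h, qin_qev]
    have e := HP_Q hU h (qev U (QG U X) t z)
    conv_rhs => rw [← e]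
    simp only [Prod.snd_add, i0_2, i2_2, zero_add]
    abel
  · intro t; apply LinearMap.ext; intro x; exact Subsingleton.elim _ _
  · intro s t a; rw [c1_zero_of hU, c1_zero_of hU]
  · intro t; apply LinearMap.ext; intro x
    rw [Subsingleton.elim x 0, map_zero, map_zero]
  · intro t; apply LinearMap.ext; intro x; exact Subsingleton.elim _ _
  · intro t; apply LinearMap.ext; intro z
    have e : cG U X ≫ epsG U X ≫ etaG U X ≫ uG U X =
      cG U X ≫ (epsG U X ≫ etaG U X) ≫ uG U X := by simp only [Category.assoc]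
    obtain ⟨w, hw⟩ : ∃ w, w = epsG U X ≫ etaG U X := ⟨_, rfl⟩
    rw [e, ← hw]
    simp only [c2_add, c2_comp, LinearMap.add_apply, LinearMap.comp_apply, LinearMap.sum_apply,
      c2_id, c2_c, c1_c, cj_c, c2_u, c1_u, ci_u, c2_mG, c1_mG, ci_mG, LinearMap.zero_apply,
      map_zero, add_zero, zero_add, Finset.sum_const_zero, c0_c, c2_eps, c0_u]
    rw [hw, c2_eps_eta]

end ind

/-- `Q_U` as a spherical functor -/
def sphG (U : T → Prop) (hU : ∀ s t, U s → U t → IsEmpty (G.E s t)) :
    TwA_253.Sph (Gob G k) where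
  Q X := QG U X
  m f := mG U f
  m_id := m_id U
  m_comp := m_comp U
  m_add := m_add U
  eps := epsG U
  eta := etaG U
  u := uG U
  c := cG U
  eps_nat := eps_nat U
  eta_nat := eta_nat U
  u_nat := u_nat U
  c_nat := c_nat U
  u_eps1 := u_eps1 U
  u_eps2 := u_eps2 U
  eta_c1 := eta_c1 U
  eta_c2 := eta_c2 U
  u_c := u_c U
  id1 := id1 hU
  id2 := id2 hU

end

end Crest.Agent.R175.TwG_253
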