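import Crest.Agent.R175.TwI_253
import Crest.Agent.R175.TwS_83
import Crest.Agent.R175.FmU_83
import Crest.Agent.R175.PTD_450

/-!
Row 175 (S0263), helper788: the twist `TU U hU X : TOb G k` and its inverse `TV U hU X`.
-/

set_option autoImplicit false
set_option linter.unusedSectionVars false

open CategoryTheory

namespace Crest.Agent.R175.TU_788

open Crest.Agent.R175.PTA Crest.Agent.R175.TwG_253
open Crest.Agent.R175.TwA_253 (Tw Sum2 Sph)

universe v

noncomputable section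

variable {T : Type v} {G : MG T} {k : Type v} [Field k] [Fintype T]

/-- a TOb as an abstract differential object -/
@[reducible] def toTw (X : TOb G k) : Tw (Gob G k) where
  X := X.X
  e := gam X.X
  d := X.d
  ee := gam_gam X.X
  dd := X.dd
  de := X.dg

/-- the direct sum of 450 as a `Sum2` -/
@[reducible] def sm (A B : Gob G k) : Sum2 A B where
  S := gsum A B
  inl := inl A B
  inr := inr A B
  fst := fst A B
  snd := snd A B
  inl_fst := inl_fst A B
  inl_snd := inl_snd A B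
  inr_fst := inr_fst A B
  inr_snd := inr_snd A B
  total := sum_one A B

/-- change of the parity involution -/
@[reducible] def rg (X : Gob G k) (e : X ⟶ X) (he : e ≫ e = 𝟙 X) : Gob G k where
  V := X.V
  W := X.W
  gV := c0 e
  gW := cW e
  gV_sq t := congrArg (fun f => c0 f t) he
  gW_sq t := congrArg (fun f => cW f t) he

/-- a pure differential object as a TOb -/
@[reducible] def ofTw (A : Tw (Gob G k)) (hp : FmU_83.Pu A.e) (hd : ∀ t, cW A.d t = 0) : TOb G k where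
  X := rg A.X A.e A.ee
  d := A.d
  dd := A.dd
  dg := by
    have h : gam (rg A.X A.e A.ee) = A.e := by
      apply hm_ext
      · intro t; rfl
      · intro t; rfl
      · intro s t a; exact (hp.p1 s t a).symm
      · intro t; exact (hp.pi t).symm
      · intro t; exact (hp.pj t).symm
      · intro t; exact (hp.p2 t).symm
    have h' := A.de
    change A.d ≫ gam (rg A.X A.e A.ee) = -(gam (rg A.X A.e A.ee) ≫ A.d)
    rw [h]
    exact h'
  dW := hd

theorem gam_rg (A : Tw (Gob G k)) (hp : FmU_83.Pu A.e) : gam (rg A.X A.e A.ee) = A.e := by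
  apply hm_ext
  · intro t; rfl
  · intro t; rfl
  · intro s t a; exact (hp.p1 s t a).symm
  · intro t; exact (hp.pi t).symm
  · intro t; exact (hp.pj t).symm
  · intro t; exact (hp.p2 t).symm

/-- homotopy equivalences -/
theorem hiso_of_heq {A B : Tw (Gob G k)} {hp : FmU_83.Pu A.e} {hd : ∀ t, cW A.d t = 0}
    {hp' : FmU_83.Pu B.e} {hd' : ∀ t, cW B.d t = 0} (h : TwA_253.HEq A B) :
    HIso (ofTw A hp hd) (ofTw B hp' hd') := by
  obtain ⟨f, g, s, r, b1, b2, d1, d2, e1, e2⟩ := h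
  have hA := gam_rg A hp
  have hB := gam_rg B hp'
  have D1 : ∀ {A B : Tw (Gob G k)} (hp : FmU_83.Pu A.e) (hd : ∀ t, cW A.d t = 0)
      (hp' : FmU_83.Pu B.e) (hd' : ∀ t, cW B.d t = 0) (f : A.X ⟶ B.X),
      bar (X := (ofTw A hp hd).X) (Y := (ofTw B hp' hd').X) f = TwA_253.bar A B f := by
    intro A B hp hd hp' hd' f
    unfold bar
    rw [gam_rg A hp, gam_rg B hp']
    rfl
  have D2 : ∀ {A B : Tw (Gob G k)} (hp : FmU_83.Pu A.e) (hd : ∀ t, cW A.d t = 0)
      (hp' : FmU_83.Pu B.e) (hd' : ∀ t, cW B.d t = 0) (f : A.X ⟶ B.X),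
      D (ofTw A hp hd) (ofTw B hp' hd') f = TwA_253.D A B f := by
    intro A B hp hd hp' hd' f
    rw [D_apply, D1 hp hd hp' hd']
    rfl
  exact ⟨{
    p := f
    q := g
    s := s
    r := r
    bp := (D1 hp hd hp' hd' f).trans b1
    bq := (D1 hp' hd' hp hd g).trans b2
    Dp := (D2 hp hd hp' hd' f).trans d1
    Dq := (D2 hp' hd' hp hd g).trans d2
    pq := by
      rw [D2 hp hd hp hd s]
      exact e1
    qp := by
      rw [D2 hp' hd' hp' hd' r]
      exact e2 }⟩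

/-! ### pure morphisms -/

section pure

variable {X Y : Gob G k}

theorem pu_add {f g : X ⟶ Y} (hf : FmU_83.Pu f) (hg : FmU_83.Pu g) : FmU_83.Pu (f + g) where
  p1 s t a := by rw [c1_add, hf.p1, hg.p1, add_zero]
  pi t := by rw [ci_add, hf.pi, hg.pi, add_zero]
  pj t := by rw [cj_add, hf.pj, hg.pj, add_zero]
  p2 t := by rw [c2_add, hf.p2, hg.p2, add_zero]

theorem pu_neg {f : X ⟶ Y} (hf : FmU_83.Pu f) : FmU_83.Pu (-f) where
  p1 s t a := by rw [c1_neg, hf.p1, neg_zero]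
  pi t := by rw [ci_neg, hf.pi, neg_zero]
  pj t := by rw [cj_neg, hf.pj, neg_zero]
  p2 t := by rw [c2_neg, hf.p2, neg_zero]

theorem pu_inl : FmU_83.Pu (inl X Y) := ⟨fun _ _ _ => rfl, fun _ => rfl, fun _ => rfl, fun _ => rfl⟩
theorem pu_inr : FmU_83.Pu (inr X Y) := ⟨fun _ _ _ => rfl, fun _ => rfl, fun _ => rfl, fun _ => rfl⟩
theorem pu_fst : FmU_83.Pu (fst X Y) := ⟨fun _ _ _ => rfl, fun _ => rfl, fun _ => rfl, fun _ => rfl⟩
theorem pu_snd : FmU_83.Pu (snd X Y) := ⟨fun _ _ _ => rfl, fun _ => rfl, fun _ => rfl, fun _ => rfl⟩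
theorem pu_gam : FmU_83.Pu (gam X) := ⟨fun _ _ _ => rfl, fun _ => rfl, fun _ => rfl, fun _ => rfl⟩

end pure

variable (U : T → Prop) (hU : ∀ s t, U s → U t → IsEmpty (G.E s t))

/-- the abstract twist -/
abbrev tw (X : TOb G k) : Tw (Gob G k) := TwA_253.T (sphG U hU) (toTw X) (sm _ _)

/-- the abstract inverse twist -/
abbrev tw' (X : TOb G k) : Tw (Gob G k) := TwA_253.T' (sphG U hU) (toTw X) (sm _ _)

theorem pu_tw (X : TOb G k) : FmU_83.Pu (tw U hU X).e :=
  pu_add (pu_neg (pu_fst.comp ((FmU_83.pu_mG U _).comp pu_inl))) (pu_snd.comp (pu_gam.comp pu_inr))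

theorem pu_tw' (X : TOb G k) : FmU_83.Pu (tw' U hU X).e := by
  have h : FmU_83.Pu (fst X.X (QG U X.X) ≫ gam X.X ≫ inl X.X (QG U X.X)
      + -(snd X.X (QG U X.X) ≫ mG U (gam X.X) ≫ inr X.X (QG U X.X))) :=
    pu_add (pu_fst.comp (pu_gam.comp pu_inl)) (pu_neg (pu_snd.comp ((FmU_83.pu_mG U _).comp pu_inr)))
  rw [← sub_eq_add_neg] at h
  exact h

theorem cW_tw (X : TOb G k) (t : T) : cW (tw U hU X).d t = 0 := by
  change cW (-(fst (QG U X.X) X.X ≫ mG U X.d ≫ inl (QG U X.X) X.X)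
    + fst (QG U X.X) X.X ≫ epsG U X.X ≫ inr (QG U X.X) X.X
    + snd (QG U X.X) X.X ≫ X.d ≫ inr (QG U X.X) X.X) t = 0
  simp only [cW_add, cW_neg, cW_comp, cW_mG, cW_eps, TOb.dW]
  simp

theorem cW_tw' (X : TOb G k) (t : T) : cW (tw' U hU X).d t = 0 := by
  change cW (fst X.X (QG U X.X) ≫ X.d ≫ inl X.X (QG U X.X)
    + fst X.X (QG U X.X) ≫ etaG U X.X ≫ inr X.X (QG U X.X)
    - snd X.X (QG U X.X) ≫ mG U X.d ≫ inr X.X (QG U X.X)) t = 0
  simp only [cW_add, cW_sub, cW_comp, cW_mG, cW_eta, TOb.dW]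
  simp

/-- **the twist** `T_U X` -/
@[reducible] def TU (X : TOb G k) : TOb G k := ofTw (tw U hU X) (pu_tw U hU X) (cW_tw U hU X)

/-- **the inverse twist** `T'_U X` -/
@[reducible] def TV (X : TOb G k) : TOb G k := ofTw (tw' U hU X) (pu_tw' U hU X) (cW_tw' U hU X)

end

end Crest.Agent.R175.TU_788
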