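import Crest.Agent.R175.PTX_4
import Crest.Agent.R175.TU_788

/-!
Row 175 (S0263), block (D): the twist `TU U hU X` of TU_788 is a `ConeOf`; `td_TU`.
-/

set_option autoImplicit false
set_option linter.unusedSectionVars false

open CategoryTheory Crest.Agent.R175.PTA Crest.Agent.R175.PTH Crest.Agent.R175.TwG_253
open Crest.Agent.R175.PTQ_4 Crest.Agent.R175.TU_788

namespace Crest.Agent.R175.PTT_4

universe u v w

section abs

variable {C : Type u} [Category.{w} C] [Preadditive C] (F : TwA_253.Sph C) (X : TwA_253.Tw C)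
  (S : TwA_253.Sum2 (F.Q X.X) X.X)

theorem inl_Td : S.inl ≫ (TwA_253.T F X S).d = -(F.m X.d ≫ S.inl) + F.eps X.X ≫ S.inr := by
  simp [TwA_253.T, Preadditive.comp_add, Preadditive.comp_neg]

theorem inr_Td : S.inr ≫ (TwA_253.T F X S).d = X.d ≫ S.inr := by
  simp [TwA_253.T, Preadditive.comp_add, Preadditive.comp_neg]

theorem inl_Te : S.inl ≫ (TwA_253.T F X S).e = -(F.m X.e ≫ S.inl) := by
  simp [TwA_253.T, Preadditive.comp_add, Preadditive.comp_neg]

theorem inr_Te : S.inr ≫ (TwA_253.T F X S).e = X.e ≫ S.inr := by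
  simp [TwA_253.T, Preadditive.comp_add, Preadditive.comp_neg]

end abs

noncomputable section

variable {T : Type v} {G : MG T} {k : Type v} [Field k] [Fintype T] (U : T → Prop)
  (hU : ∀ s t, U s → U t → IsEmpty (G.E s t))

theorem L_pu {X Y : Gob G k} {f : X ⟶ Y} (h : FmU_83.Pu f) : L f = 0 := by
  apply hm_ext
  · intro t; rfl
  · intro t; rfl
  · intro s t a; exact h.p1 s t a
  · intro t; exact h.pi t
  · intro t; exact h.pj t
  · intro t
    rw [c2_L, h.p2, smul_zero]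
    rfl

theorem gam_TU (X : TOb G k) : gam (TU U hU X).X = (tw U hU X).e := gam_rg _ (pu_tw U hU X)

/-- the twist of TU_788 is the cone -/
def coneOf_TU (X : TOb G k) : ConeOf U X (TU U hU X) where
  inl := inl (QG U X.X) X.X
  inr := inr (QG U X.X) X.X
  fst := fst (QG U X.X) X.X
  snd := snd (QG U X.X) X.X
  inl_fst := (sm (QG U X.X) X.X).inl_fst
  inl_snd := (sm (QG U X.X) X.X).inl_snd
  inr_fst := (sm (QG U X.X) X.X).inr_fst
  inr_snd := (sm (QG U X.X) X.X).inr_snd
  total := (sm (QG U X.X) X.X).total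
  L_inl := (L_pu pu_inl : L (inl (QG U X.X) X.X) = 0)
  L_inr := (L_pu pu_inr : L (inr (QG U X.X) X.X) = 0)
  L_fst := (L_pu pu_fst : L (fst (QG U X.X) X.X) = 0)
  L_snd := (L_pu pu_snd : L (snd (QG U X.X) X.X) = 0)
  d_inl := inl_Td (sphG U hU) (toTw X) (sm _ _)
  d_inr := inr_Td (sphG U hU) (toTw X) (sm _ _)
  g_inl := by
    rw [gam_TU]
    exact inl_Te (sphG U hU) (toTw X) (sm _ _)
  g_inr := by
    rw [gam_TU]
    exact inr_Te (sphG U hU) (toTw X) (sm _ _)

/-- position operator of the twist -/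
theorem eul_TU {X : TOb G k} {p : X.X ⟶ X.X} (hp : Eul X p) :
    ∃ q, Eul (TU U hU X) q := ⟨_, (coneOf_TU U hU X).eul hp⟩

/-- **the exact triangle of the twist** for the twist itself -/
theorem exists_td_TU {X : TOb G k} {p : X.X ⟶ X.X} (hp : Eul X p) :
    ∃ q, ∃ hq : Eul (TU U hU X) q, Nonempty (TD {t | U t} (QMof X hp) (QMof (TU U hU X) hq)) :=
  ⟨_, (coneOf_TU U hU X).eul hp, ⟨(coneOf_TU U hU X).td hp hU⟩⟩

/-- ... for any object isomorphic to the twist of a rigid object, and any position operators -/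
theorem td_TU {X Y : TOb G k} (eY : HIso Y (TU U hU X)) {p : X.X ⟶ X.X}
    {q : Y.X ⟶ Y.X} (hp : Eul X p) (hq : Eul Y q) (hY : hT Y Y = 0) :
    Nonempty (TD {t | U t} (QMof X hp) (QMof Y hq)) :=
  td_of' (coneOf_TU U hU X) hU eY.symm hp hq hY

/-- ... and any representative of the source -/
theorem td_TU' (h2 : (2 : k) ≠ 0) {X0 X Y : TOb G k} (eX : HIso X0 X) (eY : HIso Y (TU U hU X))
    {p : X0.X ⟶ X0.X} {q : Y.X ⟶ Y.X} (hp : Eul X0 p) (hq : Eul Y q) (hX : hT X0 X0 = 0)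
    (hY : hT Y Y = 0) : Nonempty (TD {t | U t} (QMof X0 hp) (QMof Y hq)) :=
  td_of (coneOf_TU U hU X) hU h2 eX eY.symm hp hq hX hY

end

end Crest.Agent.R175.PTT_4
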