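import Crest.Agent.R175.PTD_450

/-!
# Additive functors between T-framed objects (row 175, helper61)

* `hiso_dsum`: recognition of a direct sum by even closed maps `i1 i2 p1 p2`;
* `hiso_zero`: an object with `𝟙 = 0` is homotopy equivalent to `free G k 0 0` (and to any other);
* `AddF Φ`: `Φ : TOb G k → TOb G' k` acts on all morphisms, additively, compatibly with `≫`, `bar`,
  `D`;  then `Φ` respects `HIso`, `dsum` and the zero object.
-/

set_option autoImplicit false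
set_option linter.unusedSectionVars false

open CategoryTheory

namespace Crest.Agent.R175.AddF_61

open Crest.Agent.R175.PTA

universe u u' v v'

section rec
variable {T : Type u} {G : MG T} {k : Type v} [Field k] [Fintype T]

theorem D_add' {X Y : TOb G k} (f g : X.X ⟶ Y.X) : D X Y (f + g) = D X Y f + D X Y g :=
  map_add _ _ _

/-- the inclusion of a summand is closed -/
theorem D_inl (X Y : TOb G k) : D X (dsum X Y) (inl X.X Y.X) = 0 := by
  rw [D_apply, bar_inl, dsum_d]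
  simp [Preadditive.comp_add]

theorem D_inr (X Y : TOb G k) : D Y (dsum X Y) (inr X.X Y.X) = 0 := by
  rw [D_apply, bar_inr, dsum_d]
  simp [Preadditive.comp_add]

theorem D_fst (X Y : TOb G k) : D (dsum X Y) X (fst X.X Y.X) = 0 := by
  rw [D_apply, bar_fst, dsum_d]
  simp [Preadditive.add_comp]

theorem D_snd (X Y : TOb G k) : D (dsum X Y) Y (snd X.X Y.X) = 0 := by
  rw [D_apply, bar_snd, dsum_d]
  simp [Preadditive.add_comp]

/-- **recognition of a direct sum** -/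
theorem hiso_dsum {A B Z : TOb G k} (i1 : A.X ⟶ Z.X) (i2 : B.X ⟶ Z.X) (p1 : Z.X ⟶ A.X)
    (p2 : Z.X ⟶ B.X) (b1 : bar i1 = i1) (b2 : bar i2 = i2) (c1 : bar p1 = p1) (c2 : bar p2 = p2)
    (D1 : D A Z i1 = 0) (D2 : D B Z i2 = 0) (E1 : D Z A p1 = 0) (E2 : D Z B p2 = 0)
    (h11 : i1 ≫ p1 = 𝟙 _) (h12 : i1 ≫ p2 = 0) (h21 : i2 ≫ p1 = 0) (h22 : i2 ≫ p2 = 𝟙 _)
    (tot : p1 ≫ i1 + p2 ≫ i2 = 𝟙 _) : HIso Z (dsum A B) := by
  refine ⟨HEquiv.ofIso (X := Z) (Y := dsum A B) (p1 ≫ inl A.X B.X + p2 ≫ inr A.X B.X)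
    (fst A.X B.X ≫ i1 + snd A.X B.X ≫ i2) ?_ ?_ ?_ ?_ ?_ ?_⟩
  · rw [bar_add, bar_comp, bar_comp, c1, c2, bar_inl, bar_inr]
  · rw [bar_add, bar_comp, bar_comp, b1, b2, bar_fst, bar_snd]
  · rw [D_add', D_comp_left E1, D_comp_left E2, D_inl, D_inr]
    simp
  · rw [D_add', D_comp_left (D_fst A B), D_comp_left (D_snd A B), D1, D2]
    simp
  · simp only [Preadditive.add_comp, Preadditive.comp_add, Category.assoc, inl_fst_assoc,
      inl_snd_assoc, inr_fst_assoc, inr_snd_assoc, Limits.comp_zero, add_zero, zero_add]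
    exact tot
  · have e1 : ∀ {W : Gob G k} (f : A.X ⟶ W), i1 ≫ p1 ≫ f = f := fun f => by
      rw [← Category.assoc, h11, Category.id_comp]
    have e2 : ∀ {W : Gob G k} (f : B.X ⟶ W), i1 ≫ p2 ≫ f = 0 := fun f => by
      rw [← Category.assoc, h12, Limits.zero_comp]
    have e3 : ∀ {W : Gob G k} (f : A.X ⟶ W), i2 ≫ p1 ≫ f = 0 := fun f => by
      rw [← Category.assoc, h21, Limits.zero_comp]
    have e4 : ∀ {W : Gob G k} (f : B.X ⟶ W), i2 ≫ p2 ≫ f = f := fun f => by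
      rw [← Category.assoc, h22, Category.id_comp]
    simp only [Preadditive.add_comp, Preadditive.comp_add, Category.assoc, e1, e2, e3, e4,
      Limits.comp_zero, add_zero, zero_add]
    exact sum_one A.X B.X

/-- two objects with `𝟙 = 0` are homotopy equivalent -/
theorem hiso_zero {A B : TOb G k} (hA : 𝟙 A.X = 0) (hB : 𝟙 B.X = 0) : HIso A B := by
  refine ⟨HEquiv.ofIso (X := A) (Y := B) 0 0 (by simp) (by simp) (map_zero _) (map_zero _) ?_ ?_⟩
  · rw [hA]; simp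
  · rw [hB]; simp

theorem id_free_zero : 𝟙 (free G k 0 0).X = 0 := by
  apply hm_ext
  · intro t
    refine LinearMap.ext fun x => ?_
    exact funext fun i : Fin 0 => i.elim0
  · intro t
    refine LinearMap.ext fun x => ?_
    exact funext fun i : Fin 0 => i.elim0
  all_goals intros; simp

end rec

variable {T : Type u} {G : MG T} {k : Type v} [Field k] [Fintype T]
variable {T' : Type u'} {G' : MG T'} {k' : Type v'} [Field k'] [Fintype T']

/-- `Φ` acts on all morphisms, compatibly with everything -/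
structure AddF (Φ : TOb G k → TOb G' k') where
  m : ∀ {X Y : TOb G k}, (X.X ⟶ Y.X) → ((Φ X).X ⟶ (Φ Y).X)
  m_id : ∀ X : TOb G k, m (𝟙 X.X) = 𝟙 (Φ X).X
  m_comp : ∀ {X Y Z : TOb G k} (f : X.X ⟶ Y.X) (g : Y.X ⟶ Z.X), m (X := X) (Y := Z) (f ≫ g)
    = m (X := X) (Y := Y) f ≫ m (X := Y) (Y := Z) g
  m_add : ∀ {X Y : TOb G k} (f g : X.X ⟶ Y.X), m (X := X) (Y := Y) (f + g)
    = m (X := X) (Y := Y) f + m (X := X) (Y := Y) g
  m_bar : ∀ {X Y : TOb G k} (f : X.X ⟶ Y.X), bar (m (X := X) (Y := Y) f)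
    = m (X := X) (Y := Y) (bar f)
  m_D : ∀ {X Y : TOb G k} (f : X.X ⟶ Y.X), D (Φ X) (Φ Y) (m (X := X) (Y := Y) f)
    = m (X := X) (Y := Y) (D X Y f)

namespace AddF
variable {Φ : TOb G k → TOb G' k'} (F : AddF Φ)
include F

theorem m_zero (X Y : TOb G k) : F.m (X := X) (Y := Y) 0 = 0 := by
  have h := F.m_add (X := X) (Y := Y) 0 0
  rw [add_zero] at h
  exact left_eq_add.1 h

/-- `Φ` respects homotopy equivalences -/
theorem hiso {X Y : TOb G k} (h : HIso X Y) : HIso (Φ X) (Φ Y) := by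
  obtain ⟨h⟩ := h
  refine ⟨⟨F.m (X := X) (Y := Y) h.p, F.m (X := Y) (Y := X) h.q, F.m (X := X) (Y := X) h.s,
    F.m (X := Y) (Y := Y) h.r, ?_, ?_, ?_, ?_, ?_, ?_⟩⟩
  · rw [F.m_bar, h.bp]
  · rw [F.m_bar, h.bq]
  · rw [F.m_D, h.Dp, F.m_zero]
  · rw [F.m_D, h.Dq, F.m_zero]
  · rw [← F.m_comp, h.pq, F.m_add, F.m_id, F.m_D]
  · rw [← F.m_comp, h.qp, F.m_add, F.m_id, F.m_D]

/-- **`Φ` is additive on objects** -/
theorem hiso_dsum (X Y : TOb G k) : HIso (Φ (dsum X Y)) (dsum (Φ X) (Φ Y)) := by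
  refine AddF_61.hiso_dsum (F.m (X := X) (Y := dsum X Y) (inl X.X Y.X))
    (F.m (X := Y) (Y := dsum X Y) (inr X.X Y.X)) (F.m (X := dsum X Y) (Y := X) (fst X.X Y.X))
    (F.m (X := dsum X Y) (Y := Y) (snd X.X Y.X)) ?_ ?_ ?_ ?_ ?_ ?_ ?_ ?_ ?_ ?_ ?_ ?_ ?_
  · rw [F.m_bar, bar_inl]
  · rw [F.m_bar, bar_inr]
  · rw [F.m_bar, bar_fst]
  · rw [F.m_bar, bar_snd]
  · rw [F.m_D, D_inl, F.m_zero]
  · rw [F.m_D, D_inr, F.m_zero]
  · rw [F.m_D, D_fst, F.m_zero]
  · rw [F.m_D, D_snd, F.m_zero]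
  · rw [← F.m_comp, inl_fst, F.m_id]
  · rw [← F.m_comp, inl_snd, F.m_zero]
  · rw [← F.m_comp, inr_fst, F.m_zero]
  · rw [← F.m_comp, inr_snd, F.m_id]
  · rw [← F.m_comp, ← F.m_comp, ← F.m_add, sum_one]
    exact F.m_id (dsum X Y)

/-- `Φ` of a zero object is a zero object -/
theorem id_zero {X : TOb G k} (h : 𝟙 X.X = 0) : 𝟙 (Φ X).X = 0 := by
  rw [← F.m_id, h, F.m_zero]

theorem hiso_zero : HIso (Φ (free G k 0 0)) (free G' k' 0 0) :=
  AddF_61.hiso_zero (F.id_zero id_free_zero) id_free_zero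

end AddF

end Crest.Agent.R175.AddF_61
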