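import Crest.Agent.R175.GlueD_180
import Crest.Agent.R175.PTY_4
import Crest.Agent.R175.TU_788
import Crest.Agent.R175.TUadd_61
import Crest.Agent.R175.TUhT_988
import Crest.Agent.R175.ActC_788

/-!
Row 175 (S0263), helper180: additive functors commute with the parity shift, and the input `ActP` of
`GlueD_180` for an action whose generators act by the twists of the fibres.
-/

set_option autoImplicit false
set_option linter.unusedSectionVars false
set_option linter.unusedVariables false

open CategoryTheory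

namespace Crest.Agent.R175.ActP_180

open Crest.Agent.R175.PTA Crest.Agent.R175.TwG_253 Crest.Agent.R175.AddF_61
open Crest.Agent.R175.TwA_253 (Tw Sum2 Sph)
open Crest.Agent.R175.TU_788 (TU)

universe u v

noncomputable section

/-! ### additive functors and the shift -/

section shift

variable {T : Type u} {G : MG T} {k : Type v} [Field k] [Fintype T]

theorem m_neg' {Φ : TOb G k → TOb G k} (F : AddF Φ) {X Y : TOb G k} (f : X.X ⟶ Y.X) :
    F.m (X := X) (Y := Y) (-f) = -F.m (X := X) (Y := Y) f := by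
  have h := F.m_add (X := X) (Y := Y) f (-f)
  rw [add_neg_cancel, F.m_zero] at h
  exact (neg_eq_of_add_eq_zero_right h.symm).symm

/-- an additive functor commutes with the parity shift -/
theorem hiso_sh {Φ : TOb G k → TOb G k} (F : AddF Φ) (X : TOb G k) :
    HIso (Φ (sh X)) (sh (Φ X)) := by
  have e1 : F.m (X := X) (Y := sh X) (toSh X.X) ≫ F.m (X := sh X) (Y := X) (ofSh X.X)
      = 𝟙 (Φ X).X := by
    rw [← F.m_comp, toSh_ofSh, F.m_id]
  have e2 : F.m (X := sh X) (Y := X) (ofSh X.X) ≫ F.m (X := X) (Y := sh X) (toSh X.X)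
      = 𝟙 (Φ (sh X)).X := by
    rw [← F.m_comp, ofSh_toSh]
    exact F.m_id (sh X)
  have d1 : D (Φ X) (Φ (sh X)) (F.m (X := X) (Y := sh X) (toSh X.X)) = 0 := by
    rw [F.m_D, D_toSh, F.m_zero]
  have d2 : D (Φ (sh X)) (Φ X) (F.m (X := sh X) (Y := X) (ofSh X.X)) = 0 := by
    rw [F.m_D, D_ofSh, F.m_zero]
  refine ⟨{
    p := F.m (X := sh X) (Y := X) (ofSh X.X) ≫ toSh (Φ X).X
    q := ofSh (Φ X).X ≫ F.m (X := X) (Y := sh X) (toSh X.X)
    s := 0
    r := 0
    bp := ?_
    bq := ?_
    Dp := ?_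
    Dq := ?_
    pq := ?_
    qp := ?_ }⟩
  · rw [bar_comp, F.m_bar, bar_toSh, bar_ofSh, m_neg' F, Preadditive.neg_comp,
      Preadditive.comp_neg, neg_neg]
  · rw [bar_comp, F.m_bar, bar_toSh, bar_ofSh, m_neg' F, Preadditive.neg_comp,
      Preadditive.comp_neg, neg_neg]
  · rw [D_comp (Y := Φ X), d2, D_toSh, Limits.comp_zero, Limits.zero_comp, add_zero]
  · rw [D_comp (Y := Φ X), d1, D_ofSh, Limits.comp_zero, Limits.zero_comp, add_zero]
  · rw [map_zero, add_zero, Category.assoc, toSh_ofSh_assoc, e2]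
  · rw [map_zero, add_zero, Category.assoc, ← Category.assoc (F.m _), e1, Category.id_comp,
      ofSh_toSh]

end shift

end

/-! ### the input of `GlueD_180` -/

section act

open Crest.GroupTheory Crest.Agent.R175.Cls_133 Crest.Agent.R175.UG_27 Crest.Agent.R175.Unf_109
open Crest.Agent.R175.FmCls_303 Crest.Agent.R175.LevC_788 Crest.Agent.R175.GlueD_180
open Crest.Agent.R175.PTQ_4 Crest.Agent.R175.FmE_180 Crest.Agent.R175.ActC_788

variable {S : Type} [Fintype S] {M : CoxeterMatrix S} {Λ : Finset ℕ} {h4 : ∀ m ∈ Λ, 4 ≤ m}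

/-- **`ActP` for an action whose generators act by the twists of the fibres** -/
theorem actP_of (A : ActI M h4)
    (hg : letI := A.act; ∀ (s : S) (X : TOb (UG M Λ) ℂ),
      artinGen M s • (⟦X⟧ : Cls (UG M Λ) ℂ) = ⟦TF M Λ s X⟧) :
    letI := A.act
    ActP M h4 := by
  letI := A.act
  refine
    { h_act := A.h_act
      lam_act := A.lam_act
      F_act := A.F_act
      sh_act := ?_
      td := ?_ }
  · intro s x
    obtain ⟨X, rfl⟩ := Quotient.exists_rep x
    rw [hg, shC_mk, shC_mk, hg]
    exact Quotient.sound (hiso_sh (TUadd_61.fU (fun a : S × J Λ => a.1 = s) (fib_hU M Λ s)) X).symm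
  · intro s X Y p q hp hq hX hY
    rw [hg] at hY
    have e : HIso Y (TF M Λ s X) := Quotient.exact hY
    have hYY : hT Y Y = 0 := by
      rw [e.hT_left, e.hT_right, TUh_988.hT_TU]
      exact hX
    exact PTT_4.td_TU' (fun a : S × J Λ => a.1 = s) (fib_hU M Λ s) (by norm_num) (HIso.refl X) e
      hp hq hX hYY

end act

end Crest.Agent.R175.ActP_180
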