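import Crest.Agent.R175.PTB_534

/-!
Row 175: `hT X Y ≤ hT X₁ Y₁` from a pair of chain maps on the Hom complexes (neutral form of the
invariance of `hT` under the twists).
-/

set_option autoImplicit false
set_option linter.unusedSectionVars false
set_option linter.unusedVariables false

open CategoryTheory

namespace Crest.Agent.R175.TUhA_988

open Crest.Agent.R175.PTA

universe u v

variable {T : Type u} {G : MG T} {k : Type v} [Field k] [Fintype T]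

/-- If `Φ : Hom(X, Y) → Hom(X₁, Y₁)` and `Ψ : Hom(X₁, Y₁) → Hom(X₂, Y₂)` are chain maps which respect
`Cs` and `f = io ≫ Ψ (Φ f) ≫ pr` with closed even `io : X → X₂`, `pr : Y₂ → Y`, then
`hT X Y ≤ hT X₁ Y₁`. -/
theorem hT_le_of_maps (X Y X₁ Y₁ X₂ Y₂ : TOb G k)
    (Φ : (X.X ⟶ Y.X) →ₗ[k] (X₁.X ⟶ Y₁.X)) (Ψ : (X₁.X ⟶ Y₁.X) →ₗ[k] (X₂.X ⟶ Y₂.X))
    (hΦ : ∀ f ∈ Cs X.X Y.X, Φ f ∈ Cs X₁.X Y₁.X) (hΨ : ∀ f ∈ Cs X₁.X Y₁.X, Ψ f ∈ Cs X₂.X Y₂.X)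
    (DΦ : ∀ f, D X₁ Y₁ (Φ f) = Φ (D X Y f)) (DΨ : ∀ f, D X₂ Y₂ (Ψ f) = Ψ (D X₁ Y₁ f))
    (io : X.X ⟶ X₂.X) (pr : Y₂.X ⟶ Y.X) (Dio : D X X₂ io = 0)
    (bpr : bar pr = pr) (Dpr : D Y₂ Y pr = 0)
    (h : ∀ f, io ≫ Ψ (Φ f) ≫ pr = f) : hT X Y ≤ hT X₁ Y₁ := by
  refine hd_le_of_inj (D := DC X Y) (D' := DC X₁ Y₁) (fun f => DC_DC f)
    (fun f => DC_DC f)
    ({ toFun := fun f => ⟨Φ f.1, hΦ f.1 f.2⟩
       map_add' := fun f g => Subtype.ext (map_add Φ f.1 g.1)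
       map_smul' := fun c f => Subtype.ext (map_smul Φ c f.1) } : Cs X.X Y.X →ₗ[k] Cs X₁.X Y₁.X)
    (fun f hf => ?_) (fun f hf => ?_)
  · apply Subtype.ext
    have hf' : D X Y f.1 = 0 := congrArg Subtype.val hf
    change D X₁ Y₁ (Φ f.1) = 0
    rw [DΦ, hf', map_zero]
  · rintro ⟨g, hg⟩
    have hg' : Φ f.1 = D X₁ Y₁ g.1 := congrArg Subtype.val hg
    refine ⟨⟨io ≫ Ψ g.1 ≫ pr, Cs_comp_left _ (Cs_comp_right (hΨ g.1 g.2) _)⟩, ?_⟩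
    apply Subtype.ext
    change f.1 = D X Y (io ≫ Ψ g.1 ≫ pr)
    rw [D_comp_left Dio, D_comp_right _ Dpr bpr, DΨ, ← hg', h]

end Crest.Agent.R175.TUhA_988
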