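import Crest.Agent.R175.TwP_250
import Crest.Agent.R175.TU_788

/-!
helper250: **braid and commutation relations for `TU` on `TOb`**.
-/

set_option autoImplicit false
set_option linter.unusedSectionVars false

open CategoryTheory

namespace Crest.Agent.R175.TwQ_250

section abs
open TwA_253 TwS_83 TwD_250 TwB_250
universe v u

variable {C : Type u} [Category.{v} C] [Preadditive C]

/-- `Z` is the twist of `Y` along `F` -/
def IsT (F : Sph C) (Y Z : Tw C) : Prop :=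
  ∃ S : Sum2 (F.Q Y.X) Y.X, Nonempty (SI Z (T F Y S))

variable [BP C]

theorem IsT.tq {F : Sph C} {Y Z A : Tw C} (h : IsT F Y Z) (i : Nonempty (SI Y A)) :
    Nonempty (SI Z (Tq F A)) := by
  obtain ⟨S, ⟨j⟩⟩ := h
  obtain ⟨i⟩ := i
  exact ⟨j.trans (Tm_SI i S (s2 _ _))⟩

theorem braid_isT {F G : Sph C} (E : Edge F G) (E' : Edge G F) {X Y₁ Y₂ Y₃ Z₁ Z₂ Z₃ : Tw C}
    (h₁ : IsT F X Y₁) (h₂ : IsT G Y₁ Y₂) (h₃ : IsT F Y₂ Y₃)
    (g₁ : IsT G X Z₁) (g₂ : IsT F Z₁ Z₂) (g₃ : IsT G Z₂ Z₃) : TwA_253.HEq Y₃ Z₃ := by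
  obtain ⟨i⟩ := h₃.tq (h₂.tq (h₁.tq ⟨SI.refl X⟩))
  obtain ⟨j⟩ := g₃.tq (g₂.tq (g₁.tq ⟨SI.refl X⟩))
  exact i.heq.trans ((braid E E' X).trans j.heq.symm)

theorem comm_isT {F G : Sph C} (h : ∀ X, 𝟙 (F.Q (G.Q X)) = 0) (h' : ∀ X, 𝟙 (G.Q (F.Q X)) = 0)
    {X Y₁ Y₂ Z₁ Z₂ : Tw C} (h₁ : IsT G X Y₁) (h₂ : IsT F Y₁ Y₂)
    (g₁ : IsT F X Z₁) (g₂ : IsT G Z₁ Z₂) : TwA_253.HEq Y₂ Z₂ := by
  obtain ⟨i⟩ := h₂.tq (h₁.tq ⟨SI.refl X⟩)
  obtain ⟨j⟩ := g₂.tq (g₁.tq ⟨SI.refl X⟩)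
  exact i.heq.trans ((comm h h' X).trans j.heq.symm)

end abs

open PTA TwG_253 TU_788
open TwA_253 (Tw Sum2 Sph)
open TwS_83 (SI)

universe v

noncomputable section

variable {T : Type v} {G : MG T} {k : Type v} [Field k] [Fintype T]

/-- forgetting the change of the parity involution is an isomorphism -/
def siOf (A : Tw (Gob G k)) (hp : FmU_83.Pu A.e) (hd : ∀ t, cW A.d t = 0) :
    SI (toTw (ofTw A hp hd)) A where
  f := mkH (fun _ => LinearMap.id) (fun _ => LinearMap.id) (fun _ _ _ => 0) (fun _ => 0)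
    (fun _ => 0) (fun _ => 0)
  g := mkH (fun _ => LinearMap.id) (fun _ => LinearMap.id) (fun _ _ _ => 0) (fun _ => 0)
    (fun _ => 0) (fun _ => 0)
  fg := by
    apply hm_ext <;> intros <;> simp
  gf := by
    apply hm_ext <;> intros <;> simp
  fe := by
    have h := gam_rg A hp
    change _ = gam (rg A.X A.e A.ee) ≫ _
    rw [h]
    apply hm_ext
    · intro t; rfl
    · intro t; rfl
    · intro s t a; simp; rfl
    · intro t; simp; rfl
    · intro t; simp; rfl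
    · intro t; simp; rfl
  fd := by
    apply hm_ext <;> intros <;> simp <;> rfl

theorem isT_TU (U : T → Prop) (hU : ∀ s t, U s → U t → IsEmpty (G.E s t)) (X : TOb G k) :
    IsT (sphG U hU) (toTw X) (toTw (TU U hU X)) :=
  ⟨sm _ _, ⟨siOf (tw U hU X) (pu_tw U hU X) (cW_tw U hU X)⟩⟩

theorem hiso_of_heq {X Y : TOb G k} (h : TwA_253.HEq (toTw X) (toTw Y)) : HIso X Y := by
  obtain ⟨f, g, h, h', a, b, c, d, e, e'⟩ := h
  exact ⟨⟨f, g, h, h', a, b, c, d, e, e'⟩⟩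

/-- **the braid relation** -/
theorem TU_braid {s t : T} (hst : s ≠ t) (a₀ : G.E s t) (ha : ∀ b : G.E s t, b = a₀)
    (X : TOb G k) :
    HIso (TU (fun r => r = s) TwM_250.sing (TU (fun r => r = t) TwM_250.sing
        (TU (fun r => r = s) TwM_250.sing X)))
      (TU (fun r => r = t) TwM_250.sing (TU (fun r => r = s) TwM_250.sing
        (TU (fun r => r = t) TwM_250.sing X))) :=
  hiso_of_heq <| braid_isT (TwM_250.edge1 a₀ ha hst)
    (TwM_250.edge1 (G.rev a₀) (fun b => by rw [← ha (G.rev b), G.rev_rev]) hst.symm)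
    (isT_TU _ _ _) (isT_TU _ _ _) (isT_TU _ _ _) (isT_TU _ _ _) (isT_TU _ _ _) (isT_TU _ _ _)

/-- **the commutation relation** -/
theorem TU_comm {s t : T} (hst : s ≠ t) (h : IsEmpty (G.E s t)) (X : TOb G k) :
    HIso (TU (fun r => r = s) TwM_250.sing (TU (fun r => r = t) TwM_250.sing X))
      (TU (fun r => r = t) TwM_250.sing (TU (fun r => r = s) TwM_250.sing X)) :=
  hiso_of_heq <| comm_isT (TwM_250.QQ1_zero hst h)
    (TwM_250.QQ1_zero hst.symm ⟨fun b => h.elim (G.rev b)⟩)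
    (isT_TU _ _ _) (isT_TU _ _ _) (isT_TU _ _ _) (isT_TU _ _ _)

end

end Crest.Agent.R175.TwQ_250
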