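import Crest.Agent.R175.TUadd_61
import Crest.Agent.R175.TUh_988
import Crest.Agent.R175.TUhT_988
import Crest.Agent.R175.TwQ_250
import Crest.Agent.R175.TUlam_788
import Crest.Agent.R175.Cls_133
import Crest.Agent.R175.Act2_732

/-!
# The twists on classes (row 175, helper61)

* `TUc U hU : AddAut (Cls G k)`, `TUc_mk`, `TUc_symm_mk`; `hC_TUc`, `lamC_TUc`;
* `one s := TUc (fun r => r = s) sing`;
* **`P : Twc G (Cls G k)`** (732's additive twists: commuting for no edge, braided for one edge), `P_mk`.
-/

set_option autoImplicit false
set_option linter.unusedSectionVars false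

open CategoryTheory

namespace Crest.Agent.R175.TUc_61

open Crest.Agent.R175.PTA Crest.Agent.R175.TU_788 Crest.Agent.R175.Cls_133
open Crest.Agent.R175.Act2_732 Crest.Agent.R175.TwM_250

universe v

noncomputable section

variable {T : Type v} {G : MG T} {k : Type v} [Field k] [Fintype T]

section cls

variable (U : T → Prop) (hU : ∀ s t, U s → U t → IsEmpty (G.E s t))

/-- **the twist on classes** -/
def TUc : AddAut (Cls G k) where
  toFun := Quotient.map (TU U hU) (fun _ _ h => TUadd_61.TU_hiso hU h)
  invFun := Quotient.map (TV U hU) (fun _ _ h => TUadd_61.TV_hiso hU h)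
  left_inv x := by
    induction x using Quotient.inductionOn with
    | h X => exact Quotient.sound (TUh_988.TV_TU U hU X)
  right_inv x := by
    induction x using Quotient.inductionOn with
    | h X => exact Quotient.sound (TUh_988.TU_TV U hU X)
  map_add' x y := by
    induction x using Quotient.inductionOn with
    | h X =>
      induction y using Quotient.inductionOn with
      | h Y => exact Quotient.sound (TUadd_61.TU_dsum hU X Y)

theorem TUc_mk (X : TOb G k) : TUc U hU (⟦X⟧ : Cls G k) = ⟦TU U hU X⟧ := rfl

theorem TUc_symm_mk (X : TOb G k) : (TUc U hU).symm (⟦X⟧ : Cls G k) = ⟦TV U hU X⟧ := rfl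

theorem hC_TUc (x y : Cls G k) : hC (TUc U hU x) (TUc U hU y) = hC x y := by
  induction x using Quotient.inductionOn with
  | h X =>
    induction y using Quotient.inductionOn with
    | h Y => exact TUh_988.hT_TU U hU X Y

theorem lamC_TUc (x : Cls G k) (t : T) : lamC (TUc U hU x) t = lamC x t := by
  induction x using Quotient.inductionOn with
  | h X => exact TU_788.lam_TU U hU X t

end cls

variable (G k) in
/-- the twist at one vertex, on classes -/
def one (s : T) : AddAut (Cls G k) := TUc (fun r => r = s) sing

theorem one_mk (s : T) (X : TOb G k) : one G k s ⟦X⟧ = ⟦TU (fun r => r = s) sing X⟧ := rfl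

variable (G k) in
/-- **the twists on classes satisfy the relations of the graph** -/
def P : Twc G (Cls G k) where
  p t := (one G k t).toEquiv
  add t x y := map_add (one G k t) x y
  comm s t hst h x := by
    induction x using Quotient.inductionOn with
    | h X => exact Quotient.sound (TwQ_250.TU_comm hst h X)
  braid s t h x := by
    obtain ⟨a₀, ha⟩ := Fintype.card_eq_one_iff.1 h
    have hst : s ≠ t := by
      rintro rfl
      exact (G.irr s).false a₀
    induction x using Quotient.inductionOn with
    | h X => exact Quotient.sound (TwQ_250.TU_braid hst a₀ ha X)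

theorem P_mk (t : T) (X : TOb G k) : (P G k).p t ⟦X⟧ = ⟦TU (fun r => r = t) sing X⟧ := rfl

theorem P_symm_mk (t : T) (X : TOb G k) :
    ((P G k).p t).symm ⟦X⟧ = ⟦TV (fun r => r = t) sing X⟧ := rfl

theorem hC_P (t : T) (x y : Cls G k) : hC ((P G k).p t x) ((P G k).p t y) = hC x y :=
  hC_TUc _ _ x y

theorem lamC_P (t : T) (x : Cls G k) (a : T) : lamC ((P G k).p t x) a = lamC x a :=
  lamC_TUc _ _ x a

end

end Crest.Agent.R175.TUc_61
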