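import Crest.Agent.R175.FTU2_131
import Crest.Agent.R175.TUc_61

/-!
Row 175: the action of the Artin group on the classes of every level, unconditional.
-/

set_option autoImplicit false
set_option linter.unusedSectionVars false
set_option linter.unusedVariables false

open CategoryTheory
open scoped Classical

namespace Crest.Agent.R175.ActU_131

open Crest.GroupTheory Crest.Agent.R175.PTA Crest.Agent.R175.Cls_133 Crest.Agent.R175.UG_27
open Crest.Agent.R175.Unf_109 Crest.Agent.R175.LevC_788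
open Crest.Agent.R175.TU_788 Crest.Agent.R175.ActC_788
open Crest.Agent.R175.Lev_788 Crest.Agent.R175.Act2_732

variable {S : Type} [Fintype S] (M : CoxeterMatrix S) {Λ : Finset ℕ}

theorem gen (hΛ : Good M Λ) (s : S) (X : TOb (UG M Λ) ℂ) :
    (TUc_61.P (UG M Λ) ℂ).unf hΛ (artinGen M s) (⟦X⟧ : Cls (UG M Λ) ℂ) = ⟦TF M Λ s X⟧ :=
  TwQ_250.unf_mk (TUc_61.P (UG M Λ) ℂ) (fun _ _ => rfl) hΛ s _ X

/-- **the action** -/
noncomputable def act (hΛ : Good M Λ) : ActI M hΛ.four :=
  actI hΛ (TUc_61.P (UG M Λ) ℂ) (gen M hΛ) (FTU_131.hF hΛ _ (gen M hΛ))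

theorem act_smul (hΛ : Good M Λ) (r : ArtinGroup M) (x : Cls (UG M Λ) ℂ) :
    (act M hΛ).act.smul r x = (TUc_61.P (UG M Λ) ℂ).unf hΛ r x := rfl

end Crest.Agent.R175.ActU_131
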