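import Mathlib
import Crest.Prelude.Def_ArtinGroup

/-!
Row 175 (S0263), block TW3, helper732.  Abstract half of "the Artin group acts on isomorphism classes".

`TwSys E Ob`: a type of objects `Ob` with an equivalence relation (homotopy equivalence), twists
`T s`, inverse twists `U s` for the vertices `s` of a multigraph with edge numbers `E`, satisfying the
commutation relation for `E a b = 0` and the braid relation for `E a b = 1`.
-/

set_option autoImplicit false

namespace Crest.Agent.R175.Act_732

open Crest.GroupTheory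

universe u v w

theorem ap_inv {C : Type*} (g : Equiv.Perm C) (x : C) : g (g⁻¹ x) = x := by
  rw [← Equiv.Perm.mul_apply, mul_inv_cancel]; rfl

theorem inv_ap {C : Type*} (g : Equiv.Perm C) (x : C) : g⁻¹ (g x) = x := by
  rw [← Equiv.Perm.mul_apply, inv_mul_cancel]; rfl

structure TwSys {V : Type u} (E : V → V → ℕ) (Ob : Type v) where
  rel : Setoid Ob
  T : V → Ob → Ob
  U : V → Ob → Ob
  T_congr : ∀ (s : V) {X Y : Ob}, rel.r X Y → rel.r (T s X) (T s Y)
  U_congr : ∀ (s : V) {X Y : Ob}, rel.r X Y → rel.r (U s X) (U s Y)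
  TU : ∀ (s : V) (X : Ob), rel.r (T s (U s X)) X
  UT : ∀ (s : V) (X : Ob), rel.r (U s (T s X)) X
  comm : ∀ (a b : V), a ≠ b → E a b = 0 → ∀ X : Ob, rel.r (T a (T b X)) (T b (T a X))
  braid : ∀ (a b : V), E a b = 1 → ∀ X : Ob, rel.r (T a (T b (T a X))) (T b (T a (T b X)))

namespace TwSys

variable {V : Type u} {E : V → V → ℕ} {Ob : Type v} (D : TwSys E Ob)

/-- isomorphism classes. -/
def Cls : Type v := Quotient D.rel

/-- the class of an object. -/
def cl (X : Ob) : D.Cls := Quotient.mk D.rel X

theorem cl_eq {X Y : Ob} : D.cl X = D.cl Y ↔ D.rel.r X Y :=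
  ⟨fun h => Quotient.exact h, fun h => Quotient.sound h⟩

theorem cl_surj (x : D.Cls) : ∃ X, D.cl X = x := Quotient.exists_rep x

/-- the twist as a permutation of the classes. -/
def perm (s : V) : Equiv.Perm D.Cls where
  toFun := Quotient.map (D.T s) (fun _ _ h => D.T_congr s h)
  invFun := Quotient.map (D.U s) (fun _ _ h => D.U_congr s h)
  left_inv := by
    intro x
    induction x using Quotient.inductionOn with
    | h X => exact Quotient.sound (D.UT s X)
  right_inv := by
    intro x
    induction x using Quotient.inductionOn with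
    | h X => exact Quotient.sound (D.TU s X)

@[simp] theorem perm_cl (s : V) (X : Ob) : D.perm s (D.cl X) = D.cl (D.T s X) := rfl

@[simp] theorem perm_inv_cl (s : V) (X : Ob) : (D.perm s)⁻¹ (D.cl X) = D.cl (D.U s X) := rfl

@[simp] theorem perm_symm_cl (s : V) (X : Ob) : (D.perm s).symm (D.cl X) = D.cl (D.U s X) := rfl

theorem perm_comm {a b : V} (hab : a ≠ b) (h : E a b = 0) :
    D.perm a * D.perm b = D.perm b * D.perm a := by
  ext x
  obtain ⟨X, rfl⟩ := D.cl_surj x
  simpa only [Equiv.Perm.mul_apply, perm_cl] using D.cl_eq.2 (D.comm a b hab h X)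

theorem perm_braid {a b : V} (h : E a b = 1) :
    D.perm a * D.perm b * D.perm a = D.perm b * D.perm a * D.perm b := by
  ext x
  obtain ⟨X, rfl⟩ := D.cl_surj x
  simpa only [Equiv.Perm.mul_apply, perm_cl] using D.cl_eq.2 (D.braid a b h X)

/-! ### Invariant functions -/

/-- a function of two objects which is invariant under equivalence. -/
structure Inv2 (R : Type w) where
  h : Ob → Ob → R
  congr : ∀ {X X' Y Y' : Ob}, D.rel.r X X' → D.rel.r Y Y' → h X Y = h X' Y'
  T_inv : ∀ (s : V) (X Y : Ob), h (D.T s X) (D.T s Y) = h X Y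

namespace Inv2

variable {D} {R : Type w} (H : D.Inv2 R)

/-- the function on classes. -/
def hc (x y : D.Cls) : R :=
  Quotient.lift₂ (s₁ := D.rel) (s₂ := D.rel) H.h (fun _ _ _ _ h1 h2 => H.congr h1 h2) x y

@[simp] theorem hc_cl (X Y : Ob) : H.hc (D.cl X) (D.cl Y) = H.h X Y := rfl

theorem hc_perm (s : V) (x y : D.Cls) : H.hc (D.perm s x) (D.perm s y) = H.hc x y := by
  obtain ⟨X, rfl⟩ := D.cl_surj x
  obtain ⟨Y, rfl⟩ := D.cl_surj y
  simp only [perm_cl, hc_cl, H.T_inv]

/-- the permutations which preserve `hc` form a subgroup. -/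
def pres : Subgroup (Equiv.Perm D.Cls) where
  carrier := {g | ∀ x y, H.hc (g x) (g y) = H.hc x y}
  one_mem' := fun _ _ => rfl
  mul_mem' := by
    intro g g' h h' x y
    simp only [Equiv.Perm.mul_apply]
    rw [h, h']
  inv_mem' := by
    intro g h x y
    have := h (g⁻¹ x) (g⁻¹ y)
    rw [ap_inv, ap_inv] at this
    exact this.symm

theorem mem_pres {g : Equiv.Perm D.Cls} :
    g ∈ H.pres ↔ ∀ x y, H.hc (g x) (g y) = H.hc x y := Iff.rfl

theorem perm_mem (s : V) : D.perm s ∈ H.pres := fun x y => H.hc_perm s x y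

end Inv2

/-! ### Functors commuting with the twists -/

/-- a map of objects compatible with the relation, e.g. the functor `F_m`. -/
structure Endo where
  F : Ob → Ob
  congr : ∀ {X Y : Ob}, D.rel.r X Y → D.rel.r (F X) (F Y)

namespace Endo

variable {D} (K : D.Endo)

/-- the map on classes. -/
def Fc (x : D.Cls) : D.Cls := Quotient.map K.F (fun _ _ h => K.congr h) x

@[simp] theorem Fc_cl (X : Ob) : K.Fc (D.cl X) = D.cl (K.F X) := rfl

/-- the permutations commuting with `Fc`. -/
def cent : Subgroup (Equiv.Perm D.Cls) where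
  carrier := {g | ∀ x, K.Fc (g x) = g (K.Fc x)}
  one_mem' := fun _ => rfl
  mul_mem' := by
    intro g g' h h' x
    simp only [Equiv.Perm.mul_apply]
    rw [h, h']
  inv_mem' := by
    intro g h x
    have := h (g⁻¹ x)
    rw [ap_inv] at this
    rw [this, inv_ap]

theorem mem_cent {g : Equiv.Perm D.Cls} :
    g ∈ K.cent ↔ ∀ x, K.Fc (g x) = g (K.Fc x) := Iff.rfl

end Endo

end TwSys

/-! ### A homomorphism out of an Artin group -/

/-- `alt a b m = a * b * a * ⋯` (`m` factors) in a group. -/
def alt {G : Type*} [Monoid G] : G → G → ℕ → G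
  | _, _, 0 => 1
  | a, b, m + 1 => a * alt b a m

theorem lift_altWord {S : Type*} {G : Type*} [Group G] (f : S → G) :
    ∀ (m : ℕ) (s t : S), FreeGroup.lift f (artinAltWord s t m) = alt (f s) (f t) m := by
  intro m
  induction m with
  | zero => intro s t; simp [artinAltWord, alt]
  | succ m ih => intro s t; simp [artinAltWord, alt, ih]

section Hom

variable {S : Type*} (M : CoxeterMatrix S) {G : Type*} [Group G] (f : S → G)
  (h : ∀ s t, alt (f s) (f t) (M.M s t) = alt (f t) (f s) (M.M s t))

include h in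
theorem rels (r : FreeGroup S) (hr : r ∈ artinRelators M) : FreeGroup.lift f r = 1 := by
  obtain ⟨⟨s, t⟩, rfl⟩ := hr
  simp only [map_mul, map_inv, lift_altWord]
  rw [h s t, mul_inv_cancel]

/-- the homomorphism given by elements satisfying the braid relations. -/
def toHom : ArtinGroup M →* G := PresentedGroup.toGroup (f := f) (rels M f h)

@[simp] theorem toHom_gen (s : S) : toHom M f h (artinGen M s) = f s :=
  PresentedGroup.toGroup.of _

end Hom

/-! ### Closure lemmas -/

section Closure

variable {S : Type*} (M : CoxeterMatrix S) {G : Type*} [Group G] (ρ : ArtinGroup M →* G)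

/-- every element of `A_X` is mapped into `H` when the generators in `X` are. -/
theorem map_mem_of_mem (H : Subgroup G) (X : Set S) (hX : ∀ s ∈ X, ρ (artinGen M s) ∈ H)
    {g : ArtinGroup M} (hg : g ∈ stdParabolic M X) : ρ g ∈ H := by
  have : stdParabolic M X ≤ H.comap ρ := by
    rw [stdParabolic, Subgroup.closure_le]
    rintro _ ⟨s, hs, rfl⟩
    exact hX s hs
  exact this hg

theorem stdParabolic_univ : stdParabolic M Set.univ = ⊤ := by
  rw [stdParabolic, Set.image_univ, eq_top_iff]
  intro g _
  have h : Subgroup.closure (Set.range (PresentedGroup.of (rels := artinRelators M))) = ⊤ :=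
    PresentedGroup.closure_range_of _
  have h2 : g ∈ Subgroup.closure (Set.range (PresentedGroup.of (rels := artinRelators M))) := by
    rw [h]; trivial
  exact h2

/-- every element of `A` is mapped into `H` when the generators are. -/
theorem map_mem (H : Subgroup G) (hX : ∀ s, ρ (artinGen M s) ∈ H) (g : ArtinGroup M) : ρ g ∈ H := by
  refine map_mem_of_mem M ρ H Set.univ (fun s _ => hX s) ?_
  rw [stdParabolic_univ]
  trivial

end Closure

/-- stabilisers: if the permutations of the generators in `X` fix `x` then `A_X` fixes `x`. -/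
theorem fix_of_mem {S : Type*} (M : CoxeterMatrix S) {C : Type*} (ρ : ArtinGroup M →* Equiv.Perm C)
    (x : C) (X : Set S) (hX : ∀ s ∈ X, ρ (artinGen M s) x = x)
    {g : ArtinGroup M} (hg : g ∈ stdParabolic M X) : ρ g x = x := by
  have := map_mem_of_mem M ρ (MulAction.stabilizer (Equiv.Perm C) x) X
    (fun s hs => by
      rw [MulAction.mem_stabilizer_iff]
      exact hX s hs) hg
  rw [MulAction.mem_stabilizer_iff] at this
  exact this

/-! ### Discreteness -/

/-- finitely many values `∑ c i * n i` below a bound when all `c i > 0`. -/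
theorem disc {I : Type*} [Fintype I] (c : I → ℝ) (hc : ∀ i, 0 < c i) (B : ℝ) :
    {x : ℝ | x ≤ B ∧ ∃ n : I → ℕ, x = ∑ i, c i * (n i : ℝ)}.Finite := by
  classical
  have h1 : ∃ K : ℕ, ∀ i, B / c i ≤ (K : ℝ) := by
    obtain ⟨K, hK⟩ := exists_nat_ge (∑ i, |B / c i|)
    refine ⟨K, fun i => le_trans (le_trans (le_abs_self _) ?_) hK⟩
    exact Finset.single_le_sum (f := fun i => |B / c i|) (fun j _ => abs_nonneg _) (Finset.mem_univ i)
  obtain ⟨K, hK⟩ := h1
  refine Set.Finite.subset (Set.finite_range
    (fun n : I → Fin (K + 1) => ∑ i, c i * ((n i : ℕ) : ℝ))) ?_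
  rintro x ⟨hx, n, rfl⟩
  have h2 : ∀ i, n i < K + 1 := by
    intro i
    have h3 : c i * (n i : ℝ) ≤ ∑ j, c j * (n j : ℝ) :=
      Finset.single_le_sum (f := fun j => c j * (n j : ℝ))
        (fun j _ => mul_nonneg (hc j).le (Nat.cast_nonneg _)) (Finset.mem_univ i)
    have h4 : (n i : ℝ) ≤ B / c i := by
      rw [le_div_iff₀ (hc i), mul_comm]
      exact h3.trans hx
    have h5 : (n i : ℝ) ≤ (K : ℝ) := h4.trans (hK i)
    exact Nat.lt_succ_of_le (Nat.cast_le.1 h5)
  exact ⟨fun i => ⟨n i, h2 i⟩, rfl⟩

end Crest.Agent.R175.Act_732
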