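import Crest.Agent.R175.PTA_534

/-!
# Row 175: toolbox for `hd`, homotopy equivalences, invariance of `hT`, `hD`, `lam`
-/

set_option autoImplicit false
set_option linter.unusedSectionVars false
set_option linter.unusedVariables false

open CategoryTheory

namespace Crest.Agent.R175.PTA

universe u v w w'

/-! ### the toolbox for `hd` -/

section hdtools

variable {k : Type v} [Field k]
variable {K : Type*} [AddCommGroup K] [Module k K] [FiniteDimensional k K]
variable {K' : Type*} [AddCommGroup K'] [Module k K'] [FiniteDimensional k K']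
variable {K'' : Type*} [AddCommGroup K''] [Module k K''] [FiniteDimensional k K'']

/-- the product of two submodules as a product -/
def subProdEquiv (A : Submodule k K) (B : Submodule k K') :
    (A.prod B) ≃ₗ[k] (A × B) where
  toFun x := (⟨x.1.1, x.2.1⟩, ⟨x.1.2, x.2.2⟩)
  invFun x := ⟨(x.1.1, x.2.1), ⟨x.1.2, x.2.2⟩⟩
  map_add' _ _ := rfl
  map_smul' _ _ := rfl
  left_inv _ := rfl
  right_inv _ := rfl

theorem hd_zero : hd (0 : K →ₗ[k] K) = Module.finrank k K := by
  rw [hd, LinearMap.ker_zero, LinearMap.range_zero, finrank_top, finrank_bot, Nat.sub_zero]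

theorem hd_le_finrank (D : K →ₗ[k] K) : hd D ≤ Module.finrank k K :=
  (Nat.sub_le _ _).trans (Submodule.finrank_le _)

theorem finrank_map_mkQ {A B : Submodule k K} (h : A ≤ B) :
    Module.finrank k (B.map A.mkQ) + Module.finrank k A = Module.finrank k B := by
  have h1 := LinearMap.finrank_range_add_finrank_ker (A.mkQ ∘ₗ B.subtype)
  have h2 : LinearMap.range (A.mkQ ∘ₗ B.subtype) = B.map A.mkQ := by
    rw [LinearMap.range_comp, Submodule.range_subtype]
  have h3 : Module.finrank k (LinearMap.ker (A.mkQ ∘ₗ B.subtype)) = Module.finrank k A := by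
    have : LinearMap.ker (A.mkQ ∘ₗ B.subtype) = A.submoduleOf B := by
      rw [LinearMap.ker_comp, Submodule.ker_mkQ]; rfl
    rw [this]
    exact LinearEquiv.finrank_eq (Submodule.submoduleOfEquivOfLe h)
  rw [h2, h3] at h1
  exact h1

/-- `hd D ≤ hd D'` if `H(D)` injects into `H(D')`. -/
theorem hd_le_of_inj {D : K →ₗ[k] K} {D' : K' →ₗ[k] K'}
    (h : ∀ x, D (D x) = 0) (h' : ∀ x, D' (D' x) = 0) (p : K →ₗ[k] K')
    (hp : ∀ x, D x = 0 → D' (p x) = 0)
    (hi : ∀ x, D x = 0 → (∃ y, p x = D' y) → ∃ z, x = D z) : hd D ≤ hd D' := by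
  let f := (LinearMap.range D').mkQ ∘ₗ p ∘ₗ (LinearMap.ker D).subtype
  have h1 := LinearMap.finrank_range_add_finrank_ker f
  have h2 : Module.finrank k (LinearMap.range f) ≤
      Module.finrank k ((LinearMap.ker D').map (LinearMap.range D').mkQ) := by
    apply Submodule.finrank_mono
    rintro _ ⟨x, rfl⟩
    exact ⟨p x.1, hp x.1 x.2, rfl⟩
  have h3 : Module.finrank k (LinearMap.ker f) ≤ Module.finrank k (LinearMap.range D) := by
    let g : LinearMap.ker f →ₗ[k] LinearMap.range D :=
      LinearMap.codRestrict (LinearMap.range D)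
        ((LinearMap.ker D).subtype ∘ₗ (LinearMap.ker f).subtype) (by
          intro x
          have hx : f x.1 = 0 := x.2
          have hx' : p x.1.1 ∈ LinearMap.range D' := by
            have : (LinearMap.range D').mkQ (p x.1.1) = 0 := hx
            rwa [Submodule.mkQ_apply, Submodule.Quotient.mk_eq_zero] at this
          obtain ⟨y, hy⟩ := hx'
          obtain ⟨z, hz⟩ := hi x.1.1 x.1.2 ⟨y, hy.symm⟩
          exact ⟨z, hz.symm⟩)
    apply LinearMap.finrank_le_finrank_of_injective (f := g)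
    intro x y hxy
    have : (g x : K) = g y := by rw [hxy]
    exact Subtype.ext (Subtype.ext this)
  have h4 := finrank_map_mkQ (range_le_ker h')
  have h5 := hd_add_range h
  have h6 := hd_add_range h'
  omega

/-- `hd D ≤ hd D'` if there are chain maps `p`, `q` with `q p ~ 1`. -/
theorem hd_le_of_retract {D : K →ₗ[k] K} {D' : K' →ₗ[k] K'}
    (h : ∀ x, D (D x) = 0) (h' : ∀ x, D' (D' x) = 0) (p : K →ₗ[k] K') (q : K' →ₗ[k] K)
    (hp : ∀ x, D x = 0 → D' (p x) = 0) (hq : ∀ y, ∃ z, q (D' y) = D z)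
    (hqp : ∀ x, D x = 0 → ∃ y, q (p x) = x + D y) : hd D ≤ hd D' := by
  refine hd_le_of_inj h h' p hp ?_
  rintro x hx ⟨y, hy⟩
  obtain ⟨z, hz⟩ := hq y
  obtain ⟨y', hy'⟩ := hqp x hx
  refine ⟨z - y', ?_⟩
  rw [map_sub, ← hz, ← hy, hy']; abel

/-- homotopy equivalent spaces with differential -/
theorem hd_eq_of_homotopy {D : K →ₗ[k] K} {D' : K' →ₗ[k] K'}
    (h : ∀ x, D (D x) = 0) (h' : ∀ x, D' (D' x) = 0) (p : K →ₗ[k] K') (q : K' →ₗ[k] K)
    (hp : ∀ x, D' (p x) = p (D x)) (hq : ∀ y, D (q y) = q (D' y))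
    (hqp : ∀ x, D x = 0 → ∃ y, q (p x) = x + D y)
    (hpq : ∀ x, D' x = 0 → ∃ y, p (q x) = x + D' y) : hd D = hd D' :=
  le_antisymm
    (hd_le_of_retract h h' p q (fun x hx => by rw [hp, hx, map_zero])
      (fun y => ⟨q y, (hq y).symm⟩) hqp)
    (hd_le_of_retract h' h q p (fun x hx => by rw [hq, hx, map_zero])
      (fun y => ⟨p y, (hp y).symm⟩) hpq)

theorem hd_prodMap (D : K →ₗ[k] K) (D' : K' →ₗ[k] K')
    (h : ∀ x, D (D x) = 0) (h' : ∀ x, D' (D' x) = 0) :
    hd (D.prodMap D') = hd D + hd D' := by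
  have h1 := hd_add_two_range (D := D.prodMap D') (fun x => by
    simp [LinearMap.prodMap_apply, h, h'])
  have h2 := hd_add_two_range h
  have h3 := hd_add_two_range h'
  have h4 : Module.finrank k (LinearMap.range (D.prodMap D')) =
      Module.finrank k (LinearMap.range D) + Module.finrank k (LinearMap.range D') := by
    rw [LinearMap.range_prodMap, ← Module.finrank_prod]
    exact LinearEquiv.finrank_eq (subProdEquiv _ _)
  rw [Module.finrank_prod] at h1
  omega

/-- short exact sequences: subadditivity -/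
theorem hd_le_of_exact {D : K →ₗ[k] K} {D' : K' →ₗ[k] K'} {D'' : K'' →ₗ[k] K''}
    (h : ∀ x, D (D x) = 0) (h' : ∀ x, D' (D' x) = 0) (h'' : ∀ x, D'' (D'' x) = 0)
    (i : K' →ₗ[k] K) (p : K →ₗ[k] K'')
    (hi : ∀ x, D (i x) = i (D' x)) (hp : ∀ x, D'' (p x) = p (D x))
    (inj : Function.Injective i) (surj : Function.Surjective p)
    (ex : LinearMap.ker p = LinearMap.range i) : hd D ≤ hd D' + hd D'' := by
  have hdim : Module.finrank k K = Module.finrank k K' + Module.finrank k K'' := by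
    have h1 := LinearMap.finrank_range_add_finrank_ker p
    rw [LinearMap.range_eq_top.mpr surj, finrank_top, ex,
      LinearMap.finrank_range_of_inj inj] at h1
    omega
  have hr : Module.finrank k (LinearMap.range D') + Module.finrank k (LinearMap.range D'') ≤
      Module.finrank k (LinearMap.range D) := by
    have h1 := LinearMap.finrank_range_add_finrank_ker (p ∘ₗ (LinearMap.range D).subtype)
    have h2 : Module.finrank k (LinearMap.range D'') ≤
        Module.finrank k (LinearMap.range (p ∘ₗ (LinearMap.range D).subtype)) := by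
      apply Submodule.finrank_mono
      rintro _ ⟨x, rfl⟩
      obtain ⟨y, rfl⟩ := surj x
      exact ⟨⟨D y, y, rfl⟩, (hp y).symm⟩
    have h3 : Module.finrank k (LinearMap.range D') ≤
        Module.finrank k (LinearMap.ker (p ∘ₗ (LinearMap.range D).subtype)) := by
      let g : LinearMap.range D' →ₗ[k] LinearMap.ker (p ∘ₗ (LinearMap.range D).subtype) :=
        LinearMap.codRestrict _ (LinearMap.codRestrict (LinearMap.range D)
          (i ∘ₗ (LinearMap.range D').subtype) (by
            rintro ⟨_, x, rfl⟩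
            exact ⟨i x, hi x⟩)) (by
            intro x
            have : i x.1 ∈ LinearMap.ker p := by rw [ex]; exact ⟨_, rfl⟩
            exact this)
      apply LinearMap.finrank_le_finrank_of_injective (f := g)
      intro x y hxy
      have : i x.1 = i y.1 := congrArg (fun z => (z.1.1 : K)) hxy
      exact Subtype.ext (inj this)
    omega
  have h1 := hd_add_two_range h
  have h2 := hd_add_two_range h'
  have h3 := hd_add_two_range h''
  omega

/-- short exact sequences: strict subadditivity if the connecting map is non-zero -/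
theorem hd_lt_of_exact {D : K →ₗ[k] K} {D' : K' →ₗ[k] K'} {D'' : K'' →ₗ[k] K''}
    (h : ∀ x, D (D x) = 0) (h' : ∀ x, D' (D' x) = 0) (h'' : ∀ x, D'' (D'' x) = 0)
    (i : K' →ₗ[k] K) (p : K →ₗ[k] K'')
    (hi : ∀ x, D (i x) = i (D' x)) (hp : ∀ x, D'' (p x) = p (D x))
    (inj : Function.Injective i) (surj : Function.Surjective p)
    (ex : LinearMap.ker p = LinearMap.range i)
    (x₀ : K) (y₀ : K') (hx₀ : D x₀ = i y₀) (hy₀ : ¬ ∃ z, y₀ = D' z) :
    hd D < hd D' + hd D'' := by
  have hdim : Module.finrank k K = Module.finrank k K' + Module.finrank k K'' := by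
    have h1 := LinearMap.finrank_range_add_finrank_ker p
    rw [LinearMap.range_eq_top.mpr surj, finrank_top, ex,
      LinearMap.finrank_range_of_inj inj] at h1
    omega
  have hr : Module.finrank k (LinearMap.range D') + Module.finrank k (LinearMap.range D'') <
      Module.finrank k (LinearMap.range D) := by
    have h1 := LinearMap.finrank_range_add_finrank_ker (p ∘ₗ (LinearMap.range D).subtype)
    have h2 : Module.finrank k (LinearMap.range D'') ≤
        Module.finrank k (LinearMap.range (p ∘ₗ (LinearMap.range D).subtype)) := by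
      apply Submodule.finrank_mono
      rintro _ ⟨x, rfl⟩
      obtain ⟨y, rfl⟩ := surj x
      exact ⟨⟨D y, y, rfl⟩, (hp y).symm⟩
    have h3 : Module.finrank k (LinearMap.range D') <
        Module.finrank k (LinearMap.ker (p ∘ₗ (LinearMap.range D).subtype)) := by
      let g : LinearMap.range D' →ₗ[k] LinearMap.ker (p ∘ₗ (LinearMap.range D).subtype) :=
        LinearMap.codRestrict _ (LinearMap.codRestrict (LinearMap.range D)
          (i ∘ₗ (LinearMap.range D').subtype) (by
            rintro ⟨_, x, rfl⟩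
            exact ⟨i x, hi x⟩)) (by
            intro x
            have : i x.1 ∈ LinearMap.ker p := by rw [ex]; exact ⟨_, rfl⟩
            exact this)
      have ginj : Function.Injective g := by
        intro x y hxy
        have : i x.1 = i y.1 := congrArg (fun z => (z.1.1 : K)) hxy
        exact Subtype.ext (inj this)
      rw [← LinearMap.finrank_range_of_inj ginj]
      apply Submodule.finrank_lt
      intro htop
      have hmem : (⟨⟨D x₀, x₀, rfl⟩, by
          have : p (D x₀) = 0 := by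
            have h4 : i y₀ ∈ LinearMap.ker p := by rw [ex]; exact ⟨_, rfl⟩
            rw [hx₀]; exact h4
          exact this⟩ : LinearMap.ker (p ∘ₗ (LinearMap.range D).subtype)) ∈
            LinearMap.range g := by rw [htop]; trivial
      obtain ⟨⟨_, z, rfl⟩, hz⟩ := hmem
      have h5 : i (D' z) = D x₀ := congrArg (fun z => (z.1.1 : K)) hz
      exact hy₀ ⟨z, inj (by rw [h5, hx₀])⟩
    omega
  have h1 := hd_add_two_range h
  have h2 := hd_add_two_range h'
  have h3 := hd_add_two_range h''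
  omega

end hdtools

/-! ### homotopy equivalences -/

section heq

variable {T : Type u} {G : MG T} {k : Type v} [Field k] [Fintype T]
variable {X Y Z : TOb G k}

@[simp] theorem cW_D (f : X.X ⟶ Y.X) (t : T) : cW (D X Y f) t = 0 := by
  simp [D_apply]

theorem D_mem_Cs' (f : X.X ⟶ Y.X) : D X Y f ∈ Cs X.X Y.X := fun t => cW_D f t

theorem D_comp_left {f : X.X ⟶ Y.X} (hf : D X Y f = 0) (g : Y.X ⟶ Z.X) :
    D X Z (f ≫ g) = f ≫ D Y Z g := by
  rw [D_comp, hf]; simp

theorem D_comp_right (f : X.X ⟶ Y.X) {g : Y.X ⟶ Z.X} (hg : D Y Z g = 0) (hb : bar g = g) :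
    D X Z (f ≫ g) = D X Y f ≫ g := by
  rw [D_comp, hg, hb]; simp

def HEquiv.refl (X : TOb G k) : HEquiv X X where
  p := 𝟙 _
  q := 𝟙 _
  s := 0
  r := 0
  bp := by simp
  bq := by simp
  Dp := by simp
  Dq := by simp
  pq := by simp
  qp := by simp

def HEquiv.symm (e : HEquiv X Y) : HEquiv Y X where
  p := e.q
  q := e.p
  s := e.r
  r := e.s
  bp := e.bq
  bq := e.bp
  Dp := e.Dq
  Dq := e.Dp
  pq := e.qp
  qp := e.pq

def HEquiv.trans (e : HEquiv X Y) (e' : HEquiv Y Z) : HEquiv X Z where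
  p := e.p ≫ e'.p
  q := e'.q ≫ e.q
  s := e.s + e.p ≫ e'.s ≫ e.q
  r := e'.r + e'.q ≫ e.r ≫ e'.p
  bp := by rw [bar_comp, e.bp, e'.bp]
  bq := by rw [bar_comp, e.bq, e'.bq]
  Dp := by rw [D_comp, e.Dp, e'.Dp]; simp
  Dq := by rw [D_comp, e.Dq, e'.Dq]; simp
  pq := by
    have h1 : D X X (e.p ≫ e'.s ≫ e.q) = e.p ≫ D Y Y e'.s ≫ e.q := by
      rw [D_comp_left e.Dp, D_comp_right _ e.Dq e.bq]
    rw [map_add, h1, ← add_assoc, ← e.pq]
    have h2 : (e.p ≫ e'.p) ≫ e'.q ≫ e.q = e.p ≫ (e'.p ≫ e'.q) ≫ e.q := by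
      simp only [Category.assoc]
    rw [h2, e'.pq]
    simp
  qp := by
    have h1 : D Z Z (e'.q ≫ e.r ≫ e'.p) = e'.q ≫ D Y Y e.r ≫ e'.p := by
      rw [D_comp_left e'.Dq, D_comp_right _ e'.Dp e'.bp]
    rw [map_add, h1, ← add_assoc, ← e'.qp]
    have h2 : (e'.q ≫ e.q) ≫ e.p ≫ e'.p = e'.q ≫ (e.q ≫ e.p) ≫ e'.p := by
      simp only [Category.assoc]
    rw [h2, e.qp]
    simp

theorem HIso.refl (X : TOb G k) : HIso X X := ⟨HEquiv.refl X⟩
theorem HIso.symm (h : HIso X Y) : HIso Y X := h.elim fun e => ⟨e.symm⟩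
theorem HIso.trans (h : HIso X Y) (h' : HIso Y Z) : HIso X Z :=
  h.elim fun e => h'.elim fun e' => ⟨e.trans e'⟩

/-- a strict isomorphism -/
def HEquiv.ofIso (p : X.X ⟶ Y.X) (q : Y.X ⟶ X.X) (bp : bar p = p) (bq : bar q = q)
    (Dp : D X Y p = 0) (Dq : D Y X q = 0) (pq : p ≫ q = 𝟙 _) (qp : q ≫ p = 𝟙 _) :
    HEquiv X Y where
  p := p
  q := q
  s := 0
  r := 0
  bp := bp
  bq := bq
  Dp := Dp
  Dq := Dq
  pq := by rw [pq]; simp
  qp := by rw [qp]; simp

theorem HEquiv.cW_pq (e : HEquiv X Y) (t : T) : cW e.q t ∘ₗ cW e.p t = LinearMap.id := by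
  have h := congrArg (fun f => cW f t) e.pq
  simpa using h

theorem HIso.lam_eq (h : HIso X Y) (t : T) : lam X t = lam Y t := by
  obtain ⟨e⟩ := h
  have h1 := e.cW_pq t
  have h2 := e.symm.cW_pq t
  exact LinearEquiv.finrank_eq (LinearEquiv.ofLinearMap (cW e.p t) (cW e.q t) h2 h1)

/-- precomposition with `p` on the maps with separate frames -/
def preC (p : X.X ⟶ Y.X) (Z : TOb G k) : Cs Y.X Z.X →ₗ[k] Cs X.X Z.X where
  toFun f := ⟨p ≫ f.1, Cs_comp_left _ f.2⟩
  map_add' f g := Subtype.ext (by simp)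
  map_smul' c f := Subtype.ext (by simp)

/-- postcomposition with `p` on the maps with separate frames -/
def postC (p : Y.X ⟶ Z.X) (X : TOb G k) : Cs X.X Y.X →ₗ[k] Cs X.X Z.X where
  toFun f := ⟨f.1 ≫ p, Cs_comp_right f.2 _⟩
  map_add' f g := Subtype.ext (by simp)
  map_smul' c f := Subtype.ext (by simp)

@[simp] theorem preC_coe (p : X.X ⟶ Y.X) (f : Cs Y.X Z.X) :
    (preC p Z f : X.X ⟶ Z.X) = p ≫ f.1 := rfl
@[simp] theorem postC_coe (p : Y.X ⟶ Z.X) (f : Cs X.X Y.X) :
    (postC p X f : X.X ⟶ Z.X) = f.1 ≫ p := rfl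

theorem HIso.hT_left (h : HIso X Y) (Z : TOb G k) : hT X Z = hT Y Z := by
  obtain ⟨e⟩ := h
  have key : ∀ {X Y : TOb G k} (e : HEquiv X Y) (f : Cs X.X Z.X), DC X Z f = 0 →
      ∃ y, preC e.p Z (preC e.q Z f) = f + DC X Z y := by
    intro X Y e f hf
    have hf' : D X Z f.1 = 0 := by simpa using congrArg Subtype.val hf
    refine ⟨⟨e.s ≫ bar f.1, Cs_comp_left _ (bar_mem_Cs f.2)⟩, Subtype.ext ?_⟩
    simp only [preC_coe, Submodule.coe_add, DC_coe]
    rw [← Category.assoc, e.pq, Preadditive.add_comp, Category.id_comp, D_comp]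
    rw [show D X Z (bar f.1) = 0 by
      have := bar_D (X := X) (Y := Z) f.1
      rw [hf', bar_zero] at this
      exact neg_eq_zero.mp this.symm]
    simp
  refine hd_eq_of_homotopy (DC_DC) (DC_DC) (preC e.q Z) (preC e.p Z) ?_ ?_
    (key e) (key e.symm)
  · intro f; exact Subtype.ext (by simp [D_comp_left e.Dq])
  · intro f; exact Subtype.ext (by simp [D_comp_left e.Dp])

theorem HIso.hT_right (h : HIso X Y) (Z : TOb G k) : hT Z X = hT Z Y := by
  obtain ⟨e⟩ := h
  have key : ∀ {X Y : TOb G k} (e : HEquiv X Y) (f : Cs Z.X X.X), DC Z X f = 0 →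
      ∃ y, postC e.q Z (postC e.p Z f) = f + DC Z X y := by
    intro X Y e f hf
    have hf' : D Z X f.1 = 0 := by simpa using congrArg Subtype.val hf
    refine ⟨⟨f.1 ≫ e.s, Cs_comp_right f.2 _⟩, Subtype.ext ?_⟩
    simp only [postC_coe, Submodule.coe_add, DC_coe]
    rw [Category.assoc, e.pq, Preadditive.comp_add, Category.comp_id, D_comp_left hf']
  refine hd_eq_of_homotopy (DC_DC) (DC_DC) (postC e.p Z) (postC e.q Z) ?_ ?_
    (key e) (key e.symm)
  · intro f; exact Subtype.ext (by simp [D_comp_right _ e.Dp e.bp])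
  · intro f; exact Subtype.ext (by simp [D_comp_right _ e.Dq e.bq])

theorem HIso.hD_left (h : HIso X Y) (Z : TOb G k) : hD X Z = hD Y Z := by
  obtain ⟨e⟩ := h
  have key : ∀ {X Y : TOb G k} (e : HEquiv X Y) (f : X.X ⟶ Z.X), D X Z f = 0 →
      ∃ y, Linear.leftComp k Z.X e.p (Linear.leftComp k Z.X e.q f) = f + D X Z y := by
    intro X Y e f hf
    refine ⟨e.s ≫ bar f, ?_⟩
    simp only [Linear.leftComp_apply]
    rw [← Category.assoc, e.pq, Preadditive.add_comp, Category.id_comp, D_comp]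
    rw [show D X Z (bar f) = 0 by
      have := bar_D (X := X) (Y := Z) f
      rw [hf, bar_zero] at this
      exact neg_eq_zero.mp this.symm]
    simp
  refine hd_eq_of_homotopy (D_D) (D_D) (Linear.leftComp k Z.X e.q) (Linear.leftComp k Z.X e.p)
    ?_ ?_ (key e) (key e.symm)
  · intro f; simp [D_comp_left e.Dq]
  · intro f; simp [D_comp_left e.Dp]

theorem HIso.hD_right (h : HIso X Y) (Z : TOb G k) : hD Z X = hD Z Y := by
  obtain ⟨e⟩ := h
  have key : ∀ {X Y : TOb G k} (e : HEquiv X Y) (f : Z.X ⟶ X.X), D Z X f = 0 →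
      ∃ y, Linear.rightComp k Z.X e.q (Linear.rightComp k Z.X e.p f) = f + D Z X y := by
    intro X Y e f hf
    refine ⟨f ≫ e.s, ?_⟩
    simp only [Linear.rightComp_apply]
    rw [Category.assoc, e.pq, Preadditive.comp_add, Category.comp_id, D_comp_left hf]
  refine hd_eq_of_homotopy (D_D) (D_D) (Linear.rightComp k Z.X e.p) (Linear.rightComp k Z.X e.q)
    ?_ ?_ (key e) (key e.symm)
  · intro f; simp [D_comp_right _ e.Dp e.bp]
  · intro f; simp [D_comp_right _ e.Dq e.bq]

theorem HIso.dT_eq [DecidableEq T] (h : HIso X Y) (t : T) : dT X t = dT Y t := h.hT_left _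

end heq

end Crest.Agent.R175.PTA
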