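import Crest.Agent.R175.AddF_61
import Crest.Agent.R175.PTB_534

/-!
Row 175 (S0263), helper732: invariance of `hT` under an additive functor `Φ` of T-framed objects with a
left inverse `Ψ` up to natural homotopy equivalence (`AddF_61.AddF`), e.g. the twists.

* `hT_le (cs : m preserves Cs) (inj)`, `hT_eq`.
-/

set_option autoImplicit false
set_option linter.unusedSectionVars false

open CategoryTheory

namespace Crest.Agent.R175.AddH_732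

open Crest.Agent.R175.PTA Crest.Agent.R175.AddF_61

universe u u' v

variable {T : Type u} {G : MG T} {k : Type v} [Field k] [Fintype T]
variable {T' : Type u'} {G' : MG T'} [Fintype T']

/-- `Φ` on the maps with separate frames -/
def mC {Φ : TOb G k → TOb G' k} (F : AddF Φ)
    (sm : ∀ {X Y : TOb G k} (c : k) (f : X.X ⟶ Y.X), F.m (X := X) (Y := Y) (c • f)
      = c • F.m (X := X) (Y := Y) f)
    (cs : ∀ {X Y : TOb G k} (f : X.X ⟶ Y.X), f ∈ Cs X.X Y.X →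
      F.m (X := X) (Y := Y) f ∈ Cs (Φ X).X (Φ Y).X)
    (X Y : TOb G k) : Cs X.X Y.X →ₗ[k] Cs (Φ X).X (Φ Y).X where
  toFun f := ⟨F.m (X := X) (Y := Y) f.1, cs _ f.2⟩
  map_add' f g := Subtype.ext (F.m_add _ _)
  map_smul' c f := Subtype.ext (sm _ _)

/-- `hT` does not decrease under `Φ` if `Φ` has a left inverse `Ψ` up to natural equivalence -/
theorem hT_le {Φ : TOb G k → TOb G' k} {Ψ : TOb G' k → TOb G k} (F : AddF Φ) (F' : AddF Ψ)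
    (sm : ∀ {X Y : TOb G k} (c : k) (f : X.X ⟶ Y.X), F.m (X := X) (Y := Y) (c • f)
      = c • F.m (X := X) (Y := Y) f)
    (cs : ∀ {X Y : TOb G k} (f : X.X ⟶ Y.X), f ∈ Cs X.X Y.X →
      F.m (X := X) (Y := Y) f ∈ Cs (Φ X).X (Φ Y).X)
    (cs' : ∀ {X Y : TOb G' k} (f : X.X ⟶ Y.X), f ∈ Cs X.X Y.X →
      F'.m (X := X) (Y := Y) f ∈ Cs (Ψ X).X (Ψ Y).X)
    (io : ∀ X : TOb G k, X.X ⟶ (Ψ (Φ X)).X) (pr : ∀ X : TOb G k, (Ψ (Φ X)).X ⟶ X.X)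
    (io_pr : ∀ X, io X ≫ pr X = 𝟙 X.X)
    (Dio : ∀ X, D X (Ψ (Φ X)) (io X) = 0) (Dpr : ∀ X, D (Ψ (Φ X)) X (pr X) = 0)
    (bpr : ∀ X, bar (pr X) = pr X)
    (nat : ∀ {X Y : TOb G k} (f : X.X ⟶ Y.X),
      io X ≫ F'.m (X := Φ X) (Y := Φ Y) (F.m (X := X) (Y := Y) f) = f ≫ io Y)
    (X Y : TOb G k) : hT X Y ≤ hT (Φ X) (Φ Y) := by
  refine hd_le_of_inj (fun x => DC_DC x) (fun x => DC_DC x) (mC F sm cs X Y) ?_ ?_
  · intro f hf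
    have h1 : D X Y f.1 = 0 := congrArg Subtype.val hf
    refine Subtype.ext ?_
    change D (Φ X) (Φ Y) (F.m (X := X) (Y := Y) f.1) = 0
    rw [F.m_D, h1, F.m_zero]
  · rintro f - ⟨y, hy⟩
    have h2 : F.m (X := X) (Y := Y) f.1 = D (Φ X) (Φ Y) y.1 := congrArg Subtype.val hy
    refine ⟨⟨io X ≫ F'.m (X := Φ X) (Y := Φ Y) y.1 ≫ pr Y,
      Cs_comp_left _ (Cs_comp_right (cs' _ y.2) _)⟩, Subtype.ext ?_⟩
    change f.1 = D X Y (io X ≫ F'.m (X := Φ X) (Y := Φ Y) y.1 ≫ pr Y)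
    have h3 : D (Ψ (Φ X)) Y (F'.m (X := Φ X) (Y := Φ Y) y.1 ≫ pr Y)
        = F'.m (X := Φ X) (Y := Φ Y) (F.m (X := X) (Y := Y) f.1) ≫ pr Y := by
      rw [D_comp (Y := Ψ (Φ Y)), Dpr, F'.m_D, ← h2, bpr, Limits.comp_zero, zero_add]
    rw [D_comp (Y := Ψ (Φ X)), Dio, Limits.zero_comp, add_zero, h3, ← Category.assoc, nat,
      Category.assoc, io_pr, Category.comp_id]

/-- **`hT` is invariant** if `Φ`, `Ψ` are inverse to each other up to natural equivalences -/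
theorem hT_eq {Φ : TOb G k → TOb G' k} {Ψ : TOb G' k → TOb G k} (F : AddF Φ) (F' : AddF Ψ)
    (sm : ∀ {X Y : TOb G k} (c : k) (f : X.X ⟶ Y.X), F.m (X := X) (Y := Y) (c • f)
      = c • F.m (X := X) (Y := Y) f)
    (sm' : ∀ {X Y : TOb G' k} (c : k) (f : X.X ⟶ Y.X), F'.m (X := X) (Y := Y) (c • f)
      = c • F'.m (X := X) (Y := Y) f)
    (cs : ∀ {X Y : TOb G k} (f : X.X ⟶ Y.X), f ∈ Cs X.X Y.X →
      F.m (X := X) (Y := Y) f ∈ Cs (Φ X).X (Φ Y).X)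
    (cs' : ∀ {X Y : TOb G' k} (f : X.X ⟶ Y.X), f ∈ Cs X.X Y.X →
      F'.m (X := X) (Y := Y) f ∈ Cs (Ψ X).X (Ψ Y).X)
    (io : ∀ X : TOb G k, X.X ⟶ (Ψ (Φ X)).X) (pr : ∀ X : TOb G k, (Ψ (Φ X)).X ⟶ X.X)
    (io_pr : ∀ X, io X ≫ pr X = 𝟙 X.X)
    (Dio : ∀ X, D X (Ψ (Φ X)) (io X) = 0) (Dpr : ∀ X, D (Ψ (Φ X)) X (pr X) = 0)
    (bpr : ∀ X, bar (pr X) = pr X)
    (nat : ∀ {X Y : TOb G k} (f : X.X ⟶ Y.X),
      io X ≫ F'.m (X := Φ X) (Y := Φ Y) (F.m (X := X) (Y := Y) f) = f ≫ io Y)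
    (io' : ∀ X : TOb G' k, X.X ⟶ (Φ (Ψ X)).X) (pr' : ∀ X : TOb G' k, (Φ (Ψ X)).X ⟶ X.X)
    (io_pr' : ∀ X, io' X ≫ pr' X = 𝟙 X.X)
    (Dio' : ∀ X, D X (Φ (Ψ X)) (io' X) = 0) (Dpr' : ∀ X, D (Φ (Ψ X)) X (pr' X) = 0)
    (bpr' : ∀ X, bar (pr' X) = pr' X)
    (nat' : ∀ {X Y : TOb G' k} (f : X.X ⟶ Y.X),
      io' X ≫ F.m (X := Ψ X) (Y := Ψ Y) (F'.m (X := X) (Y := Y) f) = f ≫ io' Y)
    (hi : ∀ X, HIso (Ψ (Φ X)) X)
    (X Y : TOb G k) : hT (Φ X) (Φ Y) = hT X Y := by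
  apply le_antisymm _ (hT_le F F' sm cs cs' io pr io_pr Dio Dpr bpr nat X Y)
  have h1 := hT_le F' F sm' cs' cs io' pr' io_pr' Dio' Dpr' bpr' nat' (Φ X) (Φ Y)
  rwa [HIso.hT_left (hi X), HIso.hT_right (hi Y)] at h1

end Crest.Agent.R175.AddH_732
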