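import Crest.Prelude

/-!
# R175 (S0264): the concrete Coxeter matrix on 116 generators and homomorphisms out of its
Artin group
-/

set_option autoImplicit false

namespace Crest.Agent.R175.Grp_184

open Crest.GroupTheory

/-! ### homomorphisms out of Artin groups with labels `0, 2, 3` -/

section general

variable {S : Type*} {M : CoxeterMatrix S}

lemma lift_altWord {G : Type*} [Group G] (f : S → G) (s t : S) :
    FreeGroup.lift f (artinAltWord s t 0) = 1 ∧
    FreeGroup.lift f (artinAltWord s t 1) = f s ∧
    FreeGroup.lift f (artinAltWord s t 2) = f s * f t ∧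
    FreeGroup.lift f (artinAltWord s t 3) = f s * f t * f s := by
  simp [artinAltWord, mul_assoc]

/-- homomorphism out of an Artin group with labels in `{0, 2, 3}`. -/
noncomputable def lift (hM : ∀ s t : S, s ≠ t → M.M s t = 0 ∨ M.M s t = 2 ∨ M.M s t = 3)
    {G : Type*} [Group G] (f : S → G)
    (h2 : ∀ s t, M.M s t = 2 → f s * f t = f t * f s)
    (h3 : ∀ s t, M.M s t = 3 → f s * f t * f s = f t * f s * f t) : ArtinGroup M →* G :=
  PresentedGroup.toGroup (f := f) (by
    rintro _ ⟨⟨s, t⟩, rfl⟩
    obtain ⟨a0, a1, a2, a3⟩ := lift_altWord f s t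
    obtain ⟨b0, b1, b2, b3⟩ := lift_altWord f t s
    simp only [map_mul, map_inv]
    by_cases hst : s = t
    · subst hst; exact mul_inv_cancel _
    · rcases hM s t hst with h | h | h
      · rw [h, a0, b0, inv_one, mul_one]
      · rw [h, a2, b2, h2 s t h, mul_inv_cancel]
      · rw [h, a3, b3, h3 s t h, mul_inv_cancel])

@[simp] lemma lift_gen (hM : ∀ s t : S, s ≠ t → M.M s t = 0 ∨ M.M s t = 2 ∨ M.M s t = 3)
    {G : Type*} [Group G] (f : S → G)
    (h2 : ∀ s t, M.M s t = 2 → f s * f t = f t * f s)
    (h3 : ∀ s t, M.M s t = 3 → f s * f t * f s = f t * f s * f t) (s : S) :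
    lift hM f h2 h3 (artinGen M s) = f s := by
  unfold lift artinGen
  exact PresentedGroup.toGroup.of _

lemma gen_rel (s t : S) : (PresentedGroup.mk (artinRelators M))
    (artinAltWord s t (M.M s t) * (artinAltWord t s (M.M s t))⁻¹) = 1 :=
  PresentedGroup.one_of_mem ⟨(s, t), rfl⟩

lemma gen_comm {s t : S} (h : M.M s t = 2) :
    artinGen M s * artinGen M t = artinGen M t * artinGen M s := by
  have := gen_rel (M := M) s t
  rw [h] at this
  simp only [artinAltWord, map_mul, map_inv, mul_one] at this
  rw [mul_inv_eq_one] at this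
  simpa [artinGen, PresentedGroup.of] using this

lemma gen_braid {s t : S} (h : M.M s t = 3) :
    artinGen M s * artinGen M t * artinGen M s = artinGen M t * artinGen M s * artinGen M t := by
  have := gen_rel (M := M) s t
  rw [h] at this
  simp only [artinAltWord, map_mul, map_inv, mul_one] at this
  rw [mul_inv_eq_one] at this
  simpa [artinGen, PresentedGroup.of, mul_assoc] using this

end general

/-! ### the generators -/

/-- generators. -/
inductive Gn
  | a (i : Fin 3)
  | l (i : Fin 3) (b : Bool)
  | u (i j : Fin 3)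
  | r (i j : Fin 3) (b : Bool)
  | s (i : Fin 3) (b : Bool)
  | t (b : Bool)
  | z (k : Fin 72)
  deriving DecidableEq, Fintype

open Gn

/-- first element of the `j`-th leaf pair of the `i`-th `D₄` piece. -/
def UU (i j : Fin 3) : Gn := if j = 2 then l i false else a i

/-- second element of the `j`-th leaf pair of the `i`-th `D₄` piece. -/
def VV (i j : Fin 3) : Gn := if j = 0 then l i false else l i true

/-- half of the labels. -/
def lab : Gn → Gn → ℕ
  | a _, a _ => 3
  | l i _, a j => if j = i + 1 then 3 else if j = i then 2 else 0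
  | l i _, l j _ => if i = j then 2 else 0
  | u i j, x => if x = VV i j then 2 else 0
  | r i j _, x => if x = UU i j ∨ x = u i j then 2 else 0
  | s i _, x => if x = a i ∨ x = a (i + 1) then 2 else 0
  | t _, a _ => 2
  | _, _ => 0

lemma lab_mem (x y : Gn) : lab x y = 0 ∨ lab x y = 2 ∨ lab x y = 3 := by
  unfold lab
  split
  any_goals tauto
  all_goals split_ifs <;> tauto

/-- the Coxeter matrix. -/
def MM : CoxeterMatrix Gn where
  M := fun x y => if x = y then 1 else max (lab x y) (lab y x)
  isSymm := Matrix.IsSymm.ext fun x y => by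
    by_cases h : x = y
    · subst h; rfl
    · rw [if_neg h, if_neg (Ne.symm h), max_comm]
  diagonal := fun x => by simp
  off_diagonal := fun x y h => by
    simp only [if_neg h]
    rcases lab_mem x y with h1 | h1 | h1 <;> rcases lab_mem y x with h2 | h2 | h2 <;>
      rw [h1, h2] <;> decide

lemma MM_apply {x y : Gn} (h : x ≠ y) : MM.M x y = max (lab x y) (lab y x) := by
  show (if x = y then 1 else max (lab x y) (lab y x)) = _
  rw [if_neg h]

lemma MM_label (x y : Gn) (h : x ≠ y) : MM.M x y = 0 ∨ MM.M x y = 2 ∨ MM.M x y = 3 := by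
  rw [MM_apply h]
  rcases lab_mem x y with h1 | h1 | h1 <;> rcases lab_mem y x with h2 | h2 | h2 <;>
    rw [h1, h2] <;> decide

/-- the group. -/
abbrev GG := ArtinGroup MM

/-- its generators. -/
noncomputable abbrev gn (x : Gn) : GG := artinGen MM x

/-- conditions on images of the generators. -/
structure Cond {G : Type*} [Group G] (f : Gn → G) : Prop where
  aa : ∀ i j, i ≠ j → f (a i) * f (a j) * f (a i) = f (a j) * f (a i) * f (a j)
  la3 : ∀ i b, f (l i b) * f (a (i + 1)) * f (l i b) = f (a (i + 1)) * f (l i b) * f (a (i + 1))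
  la2 : ∀ i b, f (l i b) * f (a i) = f (a i) * f (l i b)
  ll : ∀ i b b', f (l i b) * f (l i b') = f (l i b') * f (l i b)
  uV : ∀ i j, f (u i j) * f (VV i j) = f (VV i j) * f (u i j)
  rU : ∀ i j b, f (r i j b) * f (UU i j) = f (UU i j) * f (r i j b)
  ru : ∀ i j b, f (r i j b) * f (u i j) = f (u i j) * f (r i j b)
  s0 : ∀ i b, f (s i b) * f (a i) = f (a i) * f (s i b)
  s1 : ∀ i b, f (s i b) * f (a (i + 1)) = f (a (i + 1)) * f (s i b)
  ta : ∀ i b, f (t b) * f (a i) = f (a i) * f (t b)

lemma Cond.two {G : Type*} [Group G] {f : Gn → G} (h : Cond f) (x y : Gn) (hxy : lab x y = 2) :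
    f x * f y = f y * f x := by
  unfold lab at hxy
  split at hxy
  · norm_num at hxy
  · rename_i i b j
    split_ifs at hxy with h1 h2
    · omega
    · subst h2; exact h.la2 _ _
  · rename_i i b j b'
    split_ifs at hxy with h1
    subst h1; exact h.ll _ _ _
  · rename_i i j
    split_ifs at hxy with h1
    subst h1; exact h.uV _ _
  · rename_i i j b
    split_ifs at hxy with h1
    rcases h1 with rfl | rfl
    · exact h.rU _ _ _
    · exact h.ru _ _ _
  · rename_i i b
    split_ifs at hxy with h1
    rcases h1 with rfl | rfl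
    · exact h.s0 _ _
    · exact h.s1 _ _
  · exact h.ta _ _
  · norm_num at hxy

lemma Cond.three {G : Type*} [Group G] {f : Gn → G} (h : Cond f) (x y : Gn) (hne : x ≠ y)
    (hxy : lab x y = 3) : f x * f y * f x = f y * f x * f y := by
  unfold lab at hxy
  split at hxy
  · exact h.aa _ _ (by rintro rfl; exact hne rfl)
  · rename_i i b j
    split_ifs at hxy with h1 h2
    · subst h1; exact h.la3 _ _
    · omega
  · split_ifs at hxy; omega
  · split_ifs at hxy; omega
  · split_ifs at hxy; omega
  · split_ifs at hxy; omega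
  · norm_num at hxy
  · norm_num at hxy

/-- homomorphisms out of `GG`. -/
noncomputable def mk {G : Type*} [Group G] (f : Gn → G) (h : Cond f) : GG →* G :=
  lift (M := MM) MM_label f
    (fun x y hxy => by
      by_cases hne : x = y
      · subst hne; rfl
      · rw [MM_apply hne] at hxy
        rcases max_choice (lab x y) (lab y x) with h1 | h1
        · exact h.two x y (by rw [← hxy, h1])
        · exact (h.two y x (by rw [← hxy, h1])).symm)
    (fun x y hxy => by
      by_cases hne : x = y
      · subst hne; rfl
      · rw [MM_apply hne] at hxy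
        rcases max_choice (lab x y) (lab y x) with h1 | h1
        · exact h.three x y hne (by rw [← hxy, h1])
        · exact (h.three y x (Ne.symm hne) (by rw [← hxy, h1])).symm)

@[simp] lemma mk_gn {G : Type*} [Group G] (f : Gn → G) (h : Cond f) (x : Gn) :
    mk f h (gn x) = f x := lift_gen _ _ _ _ _

/-- the generators satisfy the conditions. -/
lemma cond_gn : Cond gn := by
  have c2 : ∀ x y : Gn, x ≠ y → max (lab x y) (lab y x) = 2 → gn x * gn y = gn y * gn x :=
    fun x y h h2 => gen_comm (by rw [MM_apply h, h2])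
  have c3 : ∀ x y : Gn, x ≠ y → max (lab x y) (lab y x) = 3 →
      gn x * gn y * gn x = gn y * gn x * gn y :=
    fun x y h h2 => gen_braid (by rw [MM_apply h, h2])
  refine ⟨?_, ?_, ?_, ?_, ?_, ?_, ?_, ?_, ?_, ?_⟩
  · intro i j hij
    exact c3 _ _ (by simpa using hij) rfl
  · intro i b
    exact c3 _ _ (by simp) (by simp [lab])
  · intro i b
    exact c2 _ _ (by simp) (by simp [lab])
  · intro i b b'
    by_cases hb : b = b'
    · rw [hb]
    · exact c2 _ _ (by simpa using hb) (by simp [lab])
  · intro i j
    refine c2 _ _ ?_ ?_ <;> fin_cases j <;> simp [lab, VV]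
  · intro i j b
    refine c2 _ _ ?_ ?_ <;> fin_cases j <;> simp [lab, UU]
  · intro i j b
    refine c2 _ _ (by simp) ?_
    fin_cases j <;> simp [lab, VV]
  · intro i b
    exact c2 _ _ (by simp) (by simp [lab])
  · intro i b
    exact c2 _ _ (by simp) (by simp [lab])
  · intro i b
    exact c2 _ _ (by simp) (by simp [lab])

theorem card_Gn : Fintype.card Gn = 116 := by decide

end Crest.Agent.R175.Grp_184
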