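import Crest.Agent.R175.Semi_663
import Crest.Agent.R175.Grp_184

/-!
The centralizers of the commutators of the extra generators in the group of `Grp_184`.
-/

set_option autoImplicit false

namespace Crest.Agent.R175.AttB_663

open Crest.GroupTheory Crest.Agent.R175.FreeC_663 Crest.Agent.R175.Semi_663
open Crest.Agent.R175.Grp_184 Crest.Agent.R175.Grp_184.Gn

theorem att_r (i j : Fin 3) : Att MM ({r i j false, r i j true} : Set Gn) {UU i j, u i j} where
  disj := by
    rintro x (rfl | rfl) <;> simp [UU]
    split_ifs <;> simp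
  two := by
    have hU : ∀ b, MM.M (r i j b) (UU i j) = 2 := by
      intro b
      rw [MM_apply (by simp [UU]; split_ifs <;> simp)]
      have h1 : lab (r i j b) (UU i j) = 2 := by simp [lab]
      have h2 : lab (UU i j) (r i j b) = 0 := by unfold UU; split_ifs <;> rfl
      rw [h1, h2]; rfl
    have hu : ∀ b, MM.M (r i j b) (u i j) = 2 := by
      intro b
      rw [MM_apply (by simp)]
      have h1 : lab (r i j b) (u i j) = 2 := by simp [lab]
      have h2 : lab (u i j) (r i j b) = 0 := by
        simp only [lab]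
        rw [if_neg]
        unfold VV; split_ifs <;> simp
      rw [h1, h2]; rfl
    rintro x (rfl | rfl) y (rfl | rfl)
    · exact hU _
    · exact hu _
    · exact hU _
    · exact hu _
  zero := by
    rintro x hx y hy hne
    obtain ⟨b, rfl⟩ : ∃ b, x = r i j b := by
      rcases hx with rfl | rfl
      · exact ⟨_, rfl⟩
      · exact ⟨_, rfl⟩
    simp only [Set.mem_insert_iff, Set.mem_singleton_iff, not_or] at hy
    rw [MM_apply (Ne.symm hne)]
    have h1 : lab (r i j b) y = 0 := by
      simp only [lab]
      rw [if_neg (not_or.2 hy)]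
    have h2 : lab y (r i j b) = 0 := by
      cases y with
      | a i => rfl
      | l i b => rfl
      | u i' j' =>
        simp only [lab]
        rw [if_neg]
        unfold VV; split_ifs <;> simp
      | r i' j' b' =>
        simp only [lab]
        rw [if_neg]
        unfold UU; split_ifs <;> simp
      | s i b => simp [lab]
      | t b => rfl
      | z k => rfl
    rw [h1, h2]; rfl

theorem att_s (i : Fin 3) : Att MM ({s i false, s i true} : Set Gn) {a i, a (i + 1)} where
  disj := by
    rintro x (rfl | rfl) <;> simp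
  two := by
    rintro x (rfl | rfl) y (rfl | rfl) <;> rw [MM_apply (by simp)] <;> simp [lab]
  zero := by
    rintro x hx y hy hne
    obtain ⟨b, rfl⟩ : ∃ b, x = s i b := by
      rcases hx with rfl | rfl
      · exact ⟨_, rfl⟩
      · exact ⟨_, rfl⟩
    simp only [Set.mem_insert_iff, Set.mem_singleton_iff, not_or] at hy
    rw [MM_apply (Ne.symm hne)]
    have h1 : lab (s i b) y = 0 := by
      simp only [lab]
      rw [if_neg (not_or.2 hy)]
    have h2 : lab y (s i b) = 0 := by
      cases y with
      | a i => rfl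
      | l i b => rfl
      | u i' j' =>
        simp only [lab]
        rw [if_neg]
        unfold VV; split_ifs <;> simp
      | r i' j' b' =>
        simp only [lab]
        rw [if_neg]
        unfold UU; split_ifs <;> simp
      | s i b => simp [lab]
      | t b => rfl
      | z k => rfl
    rw [h1, h2]; rfl

theorem att_t : Att MM ({t false, t true} : Set Gn) {a 0, a 1, a 2} where
  disj := by
    rintro x (rfl | rfl | rfl) <;> simp
  two := by
    rintro x (rfl | rfl) y (rfl | rfl | rfl) <;> rw [MM_apply (by simp)] <;> simp [lab]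
  zero := by
    rintro x hx y hy hne
    obtain ⟨b, rfl⟩ : ∃ b, x = t b := by
      rcases hx with rfl | rfl
      · exact ⟨_, rfl⟩
      · exact ⟨_, rfl⟩
    simp only [Set.mem_insert_iff, Set.mem_singleton_iff, not_or] at hy
    rw [MM_apply (Ne.symm hne)]
    have hya : ∀ k, y ≠ a k := by
      rintro k rfl
      fin_cases k
      · exact hy.1 rfl
      · exact hy.2.1 rfl
      · exact hy.2.2 rfl
    have h1 : lab (t b) y = 0 := by
      cases y with
      | a i => exact absurd rfl (hya i)
      | l i b => rfl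
      | u i j => rfl
      | r i j b => rfl
      | s i b => rfl
      | t b => rfl
      | z k => rfl
    have h2 : lab y (t b) = 0 := by
      cases y with
      | a i => rfl
      | l i b => rfl
      | u i' j' =>
        simp only [lab]
        rw [if_neg]
        unfold VV; split_ifs <;> simp
      | r i' j' b' =>
        simp only [lab]
        rw [if_neg]
        unfold UU; split_ifs <;> simp
      | s i b => simp [lab]
      | t b => rfl
      | z k => rfl
    rw [h1, h2]; rfl

/-- the standard parabolic subgroup as a closure -/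
theorem std_two (x y : Gn) : stdParabolic MM {x, y} = Subgroup.closure {gn x, gn y} := by
  rw [stdParabolic, Set.image_pair]

theorem std_three (x y w : Gn) :
    stdParabolic MM {x, y, w} = Subgroup.closure {gn x, gn y, gn w} := by
  rw [stdParabolic, Set.image_insert_eq, Set.image_pair]

/-- the commutator `r s r⁻¹ s⁻¹` of the pair `(i, j)` -/
noncomputable def hr (i j : Fin 3) : GG :=
  gn (r i j false) * gn (r i j true) * (gn (r i j false))⁻¹ * (gn (r i j true))⁻¹

/-- the commutator of the pair of the edge `i` -/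
noncomputable def hs (i : Fin 3) : GG :=
  gn (s i false) * gn (s i true) * (gn (s i false))⁻¹ * (gn (s i true))⁻¹

/-- the commutator of the pair of the triangle -/
noncomputable def ht : GG :=
  gn (t false) * gn (t true) * (gn (t false))⁻¹ * (gn (t true))⁻¹

theorem cent_r (i j : Fin 3) (g : GG) (hg : g * hr i j = hr i j * g) :
    ∃ (n : ℤ) (k : GG), k ∈ Subgroup.closure {gn (UU i j), gn (u i j)} ∧ g = hr i j ^ n * k := by
  have h := centralizer_cm (att_r i j) (r₁ := r i j false) (r₂ := r i j true) (by simp) (by simp)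
    (by simp) hg
  rw [std_two] at h
  exact h

theorem cent_s (i : Fin 3) (g : GG) (hg : g * hs i = hs i * g) :
    ∃ (n : ℤ) (k : GG), k ∈ Subgroup.closure {gn (a i), gn (a (i + 1))} ∧ g = hs i ^ n * k := by
  have h := centralizer_cm (att_s i) (r₁ := s i false) (r₂ := s i true) (by simp) (by simp)
    (by simp) hg
  rw [std_two] at h
  exact h

theorem cent_t (g : GG) (hg : g * ht = ht * g) :
    ∃ (n : ℤ) (k : GG), k ∈ Subgroup.closure {gn (a 0), gn (a 1), gn (a 2)} ∧
      g = ht ^ n * k := by
  have h := centralizer_cm att_t (r₁ := t false) (r₂ := t true) (by simp) (by simp)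
    (by simp) hg
  rw [std_three] at h
  exact h

/-- uniqueness of the decomposition, pair `(i, j)` -/
theorem uniq_r (i j : Fin 3) {n m : ℤ} {k l : GG}
    (hk : k ∈ Subgroup.closure {gn (UU i j), gn (u i j)})
    (hl : l ∈ Subgroup.closure {gn (UU i j), gn (u i j)})
    (h : hr i j ^ n * k = hr i j ^ m * l) : n = m ∧ k = l := by
  rw [← std_two] at hk hl
  exact cm_zpow_mul_inj (att_r i j) (r₁ := r i j false) (r₂ := r i j true) (by simp) (by simp)
    (by simp) ((att_r i j).le hk) ((att_r i j).le hl) h

/-! ### homomorphisms which fold the leaves to the triangle -/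

/-- images of the generators: `a i, l i b ↦ A i`, everything else `↦ 1` -/
def fold {L : Type*} [One L] (A : Fin 3 → L) : Gn → L
  | a i => A i
  | l i _ => A i
  | _ => 1

theorem fold_cond {L : Type*} [Group L] (A : Fin 3 → L)
    (hA : ∀ i j, i ≠ j → A i * A j * A i = A j * A i * A j) : Cond (fold A) where
  aa := hA
  la3 i b := hA i (i + 1) (by revert i; decide)
  la2 i b := rfl
  ll i b b' := rfl
  uV i j := by unfold VV; split_ifs <;> simp [fold]
  rU i j b := by unfold UU; split_ifs <;> simp [fold]
  ru i j b := by simp [fold]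
  s0 i b := by simp [fold]
  s1 i b := by simp [fold]
  ta i b := by simp [fold]

/-- the homomorphism -/
noncomputable def tri {L : Type*} [Group L] (A : Fin 3 → L)
    (hA : ∀ i j, i ≠ j → A i * A j * A i = A j * A i * A j) : GG →* L :=
  mk (fold A) (fold_cond A hA)

section
variable {L : Type*} [Group L] (A : Fin 3 → L)
    (hA : ∀ i j, i ≠ j → A i * A j * A i = A j * A i * A j)

@[simp] theorem tri_a (i : Fin 3) : tri A hA (gn (a i)) = A i := mk_gn _ _ _
@[simp] theorem tri_l (i : Fin 3) (b : Bool) : tri A hA (gn (l i b)) = A i := mk_gn _ _ _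
@[simp] theorem tri_u (i j : Fin 3) : tri A hA (gn (u i j)) = 1 := mk_gn _ _ _
@[simp] theorem tri_r (i j : Fin 3) (b : Bool) : tri A hA (gn (r i j b)) = 1 := mk_gn _ _ _
@[simp] theorem tri_s (i : Fin 3) (b : Bool) : tri A hA (gn (s i b)) = 1 := mk_gn _ _ _
@[simp] theorem tri_t (b : Bool) : tri A hA (gn (t b)) = 1 := mk_gn _ _ _
@[simp] theorem tri_z (k : Fin 72) : tri A hA (gn (z k)) = 1 := mk_gn _ _ _
theorem tri_hr (i j : Fin 3) : tri A hA (hr i j) = 1 := by simp [hr]
theorem tri_hs (i : Fin 3) : tri A hA (hs i) = 1 := by simp [hs]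
theorem tri_ht : tri A hA ht = 1 := by simp [ht]
end

theorem fin3_1 : ∀ i : Fin 3, i + 1 ≠ i := by decide
theorem fin3_2 : ∀ i : Fin 3, i + 2 ≠ i := by decide
theorem fin3_21 : ∀ i : Fin 3, i + 2 ≠ i + 1 := by decide
theorem fin3_cases : ∀ i j : Fin 3, j = i ∨ j = i + 1 ∨ j = i + 2 := by decide

/-- the triple `x, y, x y x⁻¹` at the places `i, i + 1, i + 2` -/
def rot3 {L : Type*} [Group L] (x y : L) (i : Fin 3) (j : Fin 3) : L :=
  if j = i then x else if j = i + 1 then y else x * y * x⁻¹

theorem rot3_braid {L : Type*} [Group L] {x y : L} (h : x * y * x = y * x * y) (i : Fin 3) :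
    ∀ j k, j ≠ k → rot3 x y i j * rot3 x y i k * rot3 x y i j =
      rot3 x y i k * rot3 x y i j * rot3 x y i k := by
  have h1 : x * (x * y * x⁻¹) * x = (x * y * x⁻¹) * x * (x * y * x⁻¹) := by
    have e : (x * y * x⁻¹) * x * (x * y * x⁻¹) = x * (y * x * y) * x⁻¹ := by group
    rw [e, ← h]
    group
  have h2 : y * (x * y * x⁻¹) * y = (x * y * x⁻¹) * y * (x * y * x⁻¹) := by
    have e1 : x * y * x⁻¹ = y⁻¹ * x * y := by
      rw [mul_inv_eq_iff_eq_mul]
      have : y⁻¹ * x * y * x = y⁻¹ * (x * y * x) := by group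
      rw [this, h]; group
    rw [e1]
    have e2 : (y⁻¹ * x * y) * y * (y⁻¹ * x * y) = y⁻¹ * (x * y * x) * y := by group
    rw [e2, h]
    group
  have c0 : rot3 x y i i = x := by simp [rot3]
  have c1 : rot3 x y i (i + 1) = y := by
    have : i + 1 ≠ i := fin3_1 i
    simp [rot3]
  have c2 : rot3 x y i (i + 2) = x * y * x⁻¹ := by
    have h3 : i + 2 ≠ i := fin3_2 i
    have h4 : i + 2 ≠ i + 1 := fin3_21 i
    unfold rot3
    rw [if_neg h3, if_neg h4]
  have cases3 : ∀ j : Fin 3, j = i ∨ j = i + 1 ∨ j = i + 2 := fin3_cases i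
  intro j k hjk
  rcases cases3 j with rfl | rfl | rfl <;> rcases cases3 k with rfl | rfl | rfl
  · exact absurd rfl hjk
  · rw [c0, c1]; exact h
  · rw [c0, c2]; exact h1
  · rw [c0, c1]; exact h.symm
  · exact absurd rfl hjk
  · rw [c1, c2]; exact h2
  · rw [c0, c2]; exact h1.symm
  · rw [c1, c2]; exact h2.symm
  · exact absurd rfl hjk

/-- the homomorphism with `a i ↦ x`, `a (i + 1) ↦ y`, `a (i + 2) ↦ x y x⁻¹` -/
noncomputable def edgeHom {L : Type*} [Group L] {x y : L} (h : x * y * x = y * x * y) (i : Fin 3) :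
    GG →* L := tri (rot3 x y i) (rot3_braid h i)

theorem edgeHom_a {L : Type*} [Group L] {x y : L} (h : x * y * x = y * x * y) (i : Fin 3) :
    edgeHom h i (gn (a i)) = x := by
  rw [edgeHom, tri_a]; simp [rot3]

theorem edgeHom_b {L : Type*} [Group L] {x y : L} (h : x * y * x = y * x * y) (i : Fin 3) :
    edgeHom h i (gn (a (i + 1))) = y := by
  have : i + 1 ≠ i := fin3_1 i
  rw [edgeHom, tri_a]; simp [rot3]

theorem edgeHom_s {L : Type*} [Group L] {x y : L} (h : x * y * x = y * x * y) (i j : Fin 3)
    (b : Bool) : edgeHom h i (gn (s j b)) = 1 := tri_s _ _ _ _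

theorem edgeHom_hs {L : Type*} [Group L] {x y : L} (h : x * y * x = y * x * y) (i j : Fin 3) :
    edgeHom h i (hs j) = 1 := tri_hs _ _ _

end Crest.Agent.R175.AttB_663
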