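import Mathlib
import Crest.Prelude.Def_GeometricAction
import Crest.Agent.R244.Alg

/-!
# R175 (S0264), geometry 1 : basics of CAT(0) spaces and the length function of an orbit

* `exists_seg` : geodesics with the Bruhat–Tits (Stewart) inequality;
* `quadrilateral`, `seg_dist_sq_le`, `midline`;
* `quadLength` : `ℓ g = dist x (g • x)` is an `R244.QuadLength`.
-/

set_option autoImplicit false

open Set Crest.Geometry

namespace Crest.Agent.R175.Geo

universe u

variable {X : Type u} [MetricSpace X]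

/-- Geodesic between two points, parametrised by `[0,1]`, with the Stewart inequality. -/
theorem exists_seg (hX : IsCAT0Space X) (x y : X) : ∃ g : ℝ → X, g 0 = x ∧ g 1 = y ∧
    (∀ s ∈ Icc (0 : ℝ) 1, ∀ t ∈ Icc (0 : ℝ) 1, dist (g s) (g t) = |s - t| * dist x y) ∧
    ∀ p : X, ∀ s ∈ Icc (0 : ℝ) 1,
      dist p (g s) ^ 2 ≤ (1 - s) * dist p x ^ 2 + s * dist p y ^ 2 - s * (1 - s) * dist x y ^ 2 := by
  obtain ⟨γ, hγ⟩ := hX.1 x y
  obtain ⟨h0, h1, hd⟩ := hγ
  refine ⟨fun s => γ (s * dist x y), by simpa using h0, by simpa using h1, ?_, ?_⟩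
  · intro s hs t ht
    have hs' : s * dist x y ∈ Icc (0 : ℝ) (dist x y) :=
      ⟨mul_nonneg hs.1 dist_nonneg, mul_le_of_le_one_left dist_nonneg hs.2⟩
    have ht' : t * dist x y ∈ Icc (0 : ℝ) (dist x y) :=
      ⟨mul_nonneg ht.1 dist_nonneg, mul_le_of_le_one_left dist_nonneg ht.2⟩
    show dist (γ (s * dist x y)) (γ (t * dist x y)) = _
    rw [hd _ hs' _ ht', ← sub_mul, abs_mul, abs_of_nonneg (dist_nonneg (x := x) (y := y))]
  · intro p s hs
    have hs' : s * dist x y ∈ Icc (0 : ℝ) (dist x y) :=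
      ⟨mul_nonneg hs.1 dist_nonneg, mul_le_of_le_one_left dist_nonneg hs.2⟩
    obtain ⟨γ', hγ'⟩ := hX.1 x p
    have key := hX.2 x y p γ γ' ⟨h0, h1, hd⟩ hγ' (s * dist x y) hs' (dist x p)
      ⟨dist_nonneg, le_refl _⟩
    rw [hγ'.2.1] at key
    show dist p (γ (s * dist x y)) ^ 2 ≤ _
    rw [dist_comm p (γ _), dist_comm p x, dist_comm p y]
    rcases eq_or_ne (dist x y) 0 with ha | ha
    · have hxy : x = y := dist_eq_zero.1 ha
      have e1 : γ (s * dist x y) = x := by rw [ha, mul_zero, h0]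
      rw [e1, ← hxy, dist_self]
      nlinarith
    rcases eq_or_ne (dist x p) 0 with hb | hb
    · have hxp : x = p := dist_eq_zero.1 hb
      rw [hb] at key
      rw [← hxp, dist_self, dist_comm y x]
      rw [← hxp] at key
      simp only [mul_zero, zero_mul, div_zero, sub_zero] at key
      nlinarith [key]
    · have ha' : 0 < dist x y := lt_of_le_of_ne dist_nonneg (Ne.symm ha)
      have hb' : 0 < dist x p := lt_of_le_of_ne dist_nonneg (Ne.symm hb)
      have e : s * dist x y * dist x p * (dist x y ^ 2 + dist x p ^ 2 - dist y p ^ 2) /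
          (dist x y * dist x p) = s * (dist x y ^ 2 + dist x p ^ 2 - dist y p ^ 2) := by
        field_simp
      rw [e] at key
      nlinarith [key]

/-- The weak quadrilateral inequality. -/
theorem quadrilateral (hX : IsCAT0Space X) (a b c d : X) :
    dist a c ^ 2 + dist b d ^ 2 ≤ dist a b ^ 2 + dist b c ^ 2 + dist c d ^ 2 + dist d a ^ 2 := by
  obtain ⟨g, -, -, -, hg⟩ := exists_seg hX a c
  have hh : (1 / 2 : ℝ) ∈ Icc (0 : ℝ) 1 := by constructor <;> norm_num
  have h1 := hg b _ hh
  have h2 := hg d _ hh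
  have h3 : dist b d ≤ dist b (g (1 / 2)) + dist d (g (1 / 2)) := by
    rw [dist_comm d]; exact dist_triangle _ _ _
  have h4 : dist b d ^ 2 ≤ (dist b (g (1 / 2)) + dist d (g (1 / 2))) ^ 2 :=
    pow_le_pow_left₀ dist_nonneg h3 2
  rw [dist_comm b a] at h1
  rw [dist_comm d c] at h2
  nlinarith [sq_nonneg (dist b (g (1 / 2)) - dist d (g (1 / 2)))]

/-- Convexity (weak form) of the distance between two geodesics. -/
theorem seg_dist_sq_le (hX : IsCAT0Space X) {x y x' y' p p' : X} {s : ℝ} (hs : s ∈ Icc (0 : ℝ) 1)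
    (hp : ∀ q : X, dist q p ^ 2 ≤
      (1 - s) * dist q x ^ 2 + s * dist q y ^ 2 - s * (1 - s) * dist x y ^ 2)
    (hp' : ∀ q : X, dist q p' ^ 2 ≤
      (1 - s) * dist q x' ^ 2 + s * dist q y' ^ 2 - s * (1 - s) * dist x' y' ^ 2) :
    dist p p' ^ 2 ≤ (1 - s) * dist x x' ^ 2 + s * dist y y' ^ 2 := by
  have h1 := hp' p
  have h2 := hp x'
  have h3 := hp y'
  rw [dist_comm p x', dist_comm p y'] at h1
  have h4 := quadrilateral hX x y' x' y |>.trans (le_refl _)
  have q := quadrilateral hX x y y' x'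
  -- dist x y'^2 + dist y x'^2 ≤ dist x y ^2 + dist y y'^2 + dist y' x' ^2 + dist x' x ^2
  rw [dist_comm x' x] at h2 q
  rw [dist_comm y' x, dist_comm y' y] at h3
  rw [dist_comm x' y] at h2
  rw [dist_comm y' x'] at q
  have hs0 := hs.1
  have hs1 : 0 ≤ 1 - s := by linarith [hs.2]
  have hss : 0 ≤ s * (1 - s) := mul_nonneg hs0 hs1
  have e2 := mul_le_mul_of_nonneg_left h2 hs1
  have e3 := mul_le_mul_of_nonneg_left h3 hs0
  have e4 := mul_le_mul_of_nonneg_left q hss
  nlinarith [h1, e2, e3, e4]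

/-- The midline inequality. -/
theorem midline (A B C m₁ m₂ : X)
    (h1 : ∀ q : X, dist q m₁ ^ 2 ≤ (dist q A ^ 2 + dist q B ^ 2) / 2 - dist A B ^ 2 / 4)
    (h2 : ∀ q : X, dist q m₂ ^ 2 ≤ (dist q A ^ 2 + dist q C ^ 2) / 2 - dist A C ^ 2 / 4) :
    dist m₁ m₂ ≤ dist B C / 2 := by
  have e1 := h2 m₁
  have e2 := h1 C
  have e3 := h1 A
  rw [dist_comm m₁ A, dist_comm m₁ C] at e1
  rw [dist_comm C A, dist_comm C B] at e2
  rw [dist_self] at e3
  have h : dist m₁ m₂ ^ 2 ≤ (dist B C / 2) ^ 2 := by nlinarith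
  exact (le_abs_self _).trans (abs_le_of_sq_le_sq h (by positivity))

/-- Existence of midpoints. -/
theorem exists_mid (hX : IsCAT0Space X) (A B : X) : ∃ m : X,
    ∀ q : X, dist q m ^ 2 ≤ (dist q A ^ 2 + dist q B ^ 2) / 2 - dist A B ^ 2 / 4 := by
  obtain ⟨g, -, -, -, hg⟩ := exists_seg hX A B
  have hh : (1 / 2 : ℝ) ∈ Icc (0 : ℝ) 1 := by constructor <;> norm_num
  refine ⟨g (1 / 2), fun q => ?_⟩
  have := hg q _ hh
  linarith

section Action

variable {G : Type*} [Group G] [MulAction G X]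

/-- The displacement length of the orbit of `x`. -/
noncomputable def len (x : X) (g : G) : ℝ := dist x (g • x)

theorem dist_smul_smul' (hi : IsIsometricSMul G X) (x : X) (g h : G) :
    dist (g • x) (h • x) = len x (g⁻¹ * h) := by
  have := hi
  unfold len
  rw [← dist_smul g x, smul_smul, mul_inv_cancel_left]

/-- The length function of an orbit satisfies the quadrilateral inequality. -/
theorem quadLength (hX : IsCAT0Space X) (hi : IsIsometricSMul G X) (x : X) :
    R244.QuadLength (len (G := G) x) where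
  nonneg g := dist_nonneg
  one := by simp [len]
  inv g := by
    have h := dist_smul_smul' hi x g 1
    rw [mul_one, one_smul] at h
    rw [← h, dist_comm]; rfl
  mul_le g h := by
    have e : dist (g • x) ((g * h) • x) = len x h := by
      rw [dist_smul_smul' hi]; congr 1; group
    calc len x (g * h) ≤ dist x (g • x) + dist (g • x) ((g * h) • x) := dist_triangle _ _ _
      _ = len x g + len x h := by rw [e]; rfl
  quad a b c := by
    have q := quadrilateral hX x (a • x) ((a * b) • x) ((a * b * c) • x)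
    have e1 : dist (a • x) ((a * b * c) • x) = len x (b * c) := by
      rw [dist_smul_smul' hi]; congr 1; group
    have e2 : dist (a • x) ((a * b) • x) = len x b := by
      rw [dist_smul_smul' hi]; congr 1; group
    have e3 : dist ((a * b) • x) ((a * b * c) • x) = len x c := by
      rw [dist_smul_smul' hi]; congr 1; group
    rw [e1, e2, e3, dist_comm ((a * b * c) • x) x] at q
    exact q

end Action

end Crest.Agent.R175.Geo
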