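import Mathlib
import Crest.Agent.R175.Geo1_974

/-!
# R175 (S0264), geometry 2 : coarse centralisers and divergence

* `finite_moves` : in a geometric action only finitely many elements move some point of a compact
  set by at most `L`;
* `coarse_centralizer` (G5);
* `DivData` and `divergence` (G6).
-/

set_option autoImplicit false

open Set Crest.Geometry

namespace Crest.Agent.R175.Geo

universe u

variable {X : Type u} [MetricSpace X] [ProperSpace X] {G : Type*} [Group G] [MulAction G X]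

/-- Only finitely many elements move some point of a compact set `K` by at most `L`. -/
theorem finite_moves (hG : IsGeometricAction G X) {K : Set X} (hK : IsCompact K) (L : ℝ) :
    {g : G | ∃ k ∈ K, dist k (g • k) ≤ L}.Finite := by
  obtain ⟨-, hfin, -⟩ := hG
  have hK' : IsCompact (Metric.cthickening (max L 0) K) := hK.cthickening
  refine (hfin _ hK').subset ?_
  rintro g ⟨k, hk, hkL⟩
  refine ⟨g • k, ⟨k, Metric.self_subset_cthickening _ hk, rfl⟩, ?_⟩
  refine Metric.mem_cthickening_of_dist_le (g • k) k _ _ hk ?_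
  rw [dist_comm]
  exact hkL.trans (le_max_left _ _)

/-- (G5) Points moved a bounded amount by a finite set `F` are close to the orbit of the
centraliser of `F`. -/
theorem coarse_centralizer (hG : IsGeometricAction G X) (x : X) (F : Finset G) (L : ℝ) :
    ∃ R : ℝ, ∀ y : X, (∀ f ∈ F, dist y (f • y) ≤ L) →
      ∃ g : G, (∀ f ∈ F, Commute f g) ∧ dist y (g • x) ≤ R := by
  classical
  have hi := hG.1
  obtain ⟨K, hK, hcov⟩ := hG.2.2
  have hSfin : {g : G | ∃ k ∈ K, dist k (g • k) ≤ L}.Finite := finite_moves hG hK L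
  set S := {g : G | ∃ k ∈ K, dist k (g • k) ≤ L} with hS
  -- finite set of conjugation patterns
  set Φ : Set (F → G) := {φ | ∀ f, φ f ∈ S} with hΦ
  have hΦfin : Φ.Finite := Set.Finite.pi' fun _ => hSfin
  -- representatives
  have hrep : ∀ φ : F → G, ∃ r : G, (∃ h : G, ∀ f : F, φ f = h⁻¹ * f * h) →
      ∀ f : F, φ f = r⁻¹ * f * r := by
    intro φ
    by_cases h : ∃ h : G, ∀ f : F, φ f = h⁻¹ * f * h
    · obtain ⟨h, hh⟩ := h
      exact ⟨h, fun _ => hh⟩
    · exact ⟨1, fun h' => absurd h' h⟩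
  choose rep hrep using hrep
  -- the radius
  have hbd : ∀ φ : F → G, ∃ R : ℝ, ∀ k ∈ K, dist (rep φ • k) x ≤ R := by
    intro φ
    have hc : IsCompact ((fun k => rep φ • k) '' K) :=
      hK.image (isometry_smul X (rep φ)).continuous
    obtain ⟨R, hR⟩ := hc.isBounded.subset_closedBall x
    exact ⟨R, fun k hk => hR ⟨k, hk, rfl⟩⟩
  choose Rf hRf using hbd
  obtain ⟨R, hR⟩ := (hΦfin.image Rf).bddAbove
  refine ⟨R, fun y hy => ?_⟩
  obtain ⟨h, k, hk, hky⟩ := hcov y
  have hky' : h • k = y := hky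
  set φ : F → G := fun f => h⁻¹ * f * h with hφ
  have hφΦ : φ ∈ Φ := by
    intro f
    refine ⟨k, hk, ?_⟩
    have e : dist k ((h⁻¹ * f * h) • k) = dist (h • k) ((f : G) • h • k) := by
      rw [← dist_smul h k, smul_smul, smul_smul]
      congr 2
      group
    show dist k ((h⁻¹ * f * h) • k) ≤ L
    rw [e, hky']
    exact hy f f.2
  have hr := hrep φ ⟨h, fun f => rfl⟩
  refine ⟨h * (rep φ)⁻¹, fun f hf => ?_, ?_⟩
  · have e : h⁻¹ * f * h = (rep φ)⁻¹ * f * rep φ := hr ⟨f, hf⟩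
    have e' : f * h = h * (rep φ)⁻¹ * f * rep φ := by
      calc f * h = h * (h⁻¹ * f * h) := by group
        _ = h * ((rep φ)⁻¹ * f * rep φ) := by rw [e]
        _ = h * (rep φ)⁻¹ * f * rep φ := by group
    show f * (h * (rep φ)⁻¹) = h * (rep φ)⁻¹ * f
    rw [← mul_assoc, e']
    group
  · have e : dist y ((h * (rep φ)⁻¹) • x) = dist (rep φ • k) x := by
      rw [← hky', ← dist_smul (h * (rep φ)⁻¹) (rep φ • k) x, smul_smul]
      congr 2
      group
    rw [e]
    exact (hRf φ k hk).trans (hR ⟨φ, hφΦ, rfl⟩)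

/-- Group-theoretic input for the divergence lemma: the centraliser `C` of the finite set `F`
contains `α` and `γ`; `E` is a set of elements central in `C`; `U` is a subset of `C`, almost
invariant under right multiplication by elements of `C` modulo `E`, containing the positive powers
of `α` and no positive power of `γ`. -/
structure DivFin (F : Finset G) (E U : Set G) (α γ : G) : Prop where
  commα : ∀ f ∈ F, Commute f α
  commγ : ∀ f ∈ F, Commute f γ
  central : ∀ e ∈ E, ∀ g : G, (∀ f ∈ F, Commute f g) → Commute e g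
  memU : ∀ n : ℕ, 0 < n → α ^ n ∈ U
  notMemU : ∀ n : ℕ, 0 < n → γ ^ n ∉ U
  fin : ∀ f : G, (∀ c ∈ F, Commute c f) → ∃ S : Finset G, ∀ g : G, (∀ c ∈ F, Commute c g) →
    g ∈ U → g * f ∉ U → ∃ s ∈ S, ∃ e ∈ E, g = s * e

/-- (G6) Divergence: up to a bounded error the geodesic from `α ^ i • x` to `γ ^ j • x` passes
through a point `e • x` with `e ∈ E`. -/
theorem divergence_fin (hX : IsCAT0Space X) (hG : IsGeometricAction G X) (x : X) {F : Finset G}
    {E U : Set G} {α γ : G} (D : DivFin F E U α γ) :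
    ∃ K : ℝ, ∀ i j : ℕ, 0 < i → 0 < j → ∃ e ∈ E,
      dist (α ^ i • x) (e • x) + dist (e • x) (γ ^ j • x) ≤ dist (α ^ i • x) (γ ^ j • x) + K := by
  classical
  have hi := hG.1
  -- displacement bound
  obtain ⟨L, hL⟩ : ∃ L : ℝ, ∀ f ∈ F, dist x (f • x) ≤ L := by
    obtain ⟨L, hL⟩ := (F.finite_toSet.image fun f => dist x (f • x)).bddAbove
    exact ⟨L, fun f hf => hL ⟨f, hf, rfl⟩⟩
  obtain ⟨R, hR⟩ := coarse_centralizer hG x F L
  -- finite set of steps
  have hBfin : {g : G | ∃ k ∈ ({x} : Set X), dist k (g • k) ≤ 2 * |R| + 1}.Finite :=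
    finite_moves hG isCompact_singleton _
  set B : Finset G := hBfin.toFinset with hB
  have hBmem : ∀ g : G, dist x (g • x) ≤ 2 * |R| + 1 → g ∈ B := by
    intro g hg
    rw [hB, Set.Finite.mem_toFinset]
    exact ⟨x, rfl, hg⟩
  -- finite boundary
  have hS : ∀ f : G, ∃ S : Finset G, (∀ c ∈ F, Commute c f) → ∀ g : G, (∀ c ∈ F, Commute c g) →
      g ∈ U → g * f ∉ U → ∃ s ∈ S, ∃ e ∈ E, g = s * e := by
    intro f
    by_cases h : ∀ c ∈ F, Commute c f
    · obtain ⟨S, hS⟩ := D.fin f h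
      exact ⟨S, fun _ => hS⟩
    · exact ⟨∅, fun h' => absurd h' h⟩
  choose S hS using hS
  obtain ⟨K₀, hK₀⟩ : ∃ K₀ : ℝ, ∀ f ∈ B, ∀ s ∈ S f, dist x (s • x) ≤ K₀ := by
    obtain ⟨K₀, hK₀⟩ := (((B.biUnion S).finite_toSet).image fun s => dist x (s • x)).bddAbove
    exact ⟨K₀, fun f hf s hs => hK₀ ⟨s, by simpa using ⟨f, hf, hs⟩, rfl⟩⟩
  refine ⟨2 * (|R| + |K₀|), fun i j hi0 hj0 => ?_⟩
  -- the geodesic
  set y₀ := α ^ i • x with hy₀
  set y₁ := γ ^ j • x with hy₁
  obtain ⟨g, hg0, hg1, hgd, hgc⟩ := exists_seg hX y₀ y₁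
  have hcα : ∀ f ∈ F, Commute f (α ^ i) := fun f hf => (D.commα f hf).pow_right i
  have hcγ : ∀ f ∈ F, Commute f (γ ^ j) := fun f hf => (D.commγ f hf).pow_right j
  -- displacement at the ends
  have hend : ∀ w : G, (∀ f ∈ F, Commute f w) → ∀ f ∈ F, dist (w • x) (f • (w • x)) ≤ L := by
    intro w hw f hf
    rw [smul_smul, (hw f hf).eq, ← smul_smul, dist_smul]
    exact hL f hf
  have hL0 : ∀ f ∈ F, 0 ≤ L := fun f hf => dist_nonneg.trans (hL f hf)
  -- displacement along the geodesic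
  have hdisp : ∀ s ∈ Icc (0 : ℝ) 1, ∀ f ∈ F, dist (g s) (f • g s) ≤ L := by
    intro s hs f hf
    have hp' : ∀ q : X, dist q (f • g s) ^ 2 ≤ (1 - s) * dist q (f • y₀) ^ 2
        + s * dist q (f • y₁) ^ 2 - s * (1 - s) * dist (f • y₀) (f • y₁) ^ 2 := by
      intro q
      have := hgc (f⁻¹ • q) s hs
      rw [← dist_smul f (f⁻¹ • q) (g s), ← dist_smul f (f⁻¹ • q) y₀,
        ← dist_smul f (f⁻¹ • q) y₁, smul_inv_smul, ← dist_smul f y₀ y₁] at this
      exact this
    have h1 := seg_dist_sq_le hX hs (fun q => hgc q s hs) hp'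
    have h2 := hend _ hcα f hf
    have h3 := hend _ hcγ f hf
    have h4 : dist y₀ (f • y₀) ^ 2 ≤ L ^ 2 := pow_le_pow_left₀ dist_nonneg h2 2
    have h5 : dist y₁ (f • y₁) ^ 2 ≤ L ^ 2 := pow_le_pow_left₀ dist_nonneg h3 2
    have h6 : dist (g s) (f • g s) ^ 2 ≤ L ^ 2 := by
      have e4 := mul_le_mul_of_nonneg_left h4 (by linarith [hs.2] : (0 : ℝ) ≤ 1 - s)
      have e5 := mul_le_mul_of_nonneg_left h5 hs.1
      nlinarith [h1, e4, e5]
    exact (le_abs_self _).trans (abs_le_of_sq_le_sq h6 (hL0 f hf))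
  -- subdivision
  obtain ⟨N, hN⟩ := exists_nat_gt (dist y₀ y₁)
  have hNpos : 0 < N := by
    have : (0 : ℝ) < N := lt_of_le_of_lt dist_nonneg hN
    exact_mod_cast this
  have hNr : (0 : ℝ) < N := by exact_mod_cast hNpos
  have hmem : ∀ k : ℕ, k ≤ N → (k : ℝ) / N ∈ Icc (0 : ℝ) 1 := by
    intro k hk
    refine ⟨by positivity, ?_⟩
    rw [div_le_one hNr]
    exact_mod_cast hk
  -- approximating elements
  have happ : ∀ k : ℕ, ∃ c : G, k ≤ N → (∀ f ∈ F, Commute f c) ∧
      dist (g ((k : ℝ) / N)) (c • x) ≤ |R| ∧ (k = 0 → c = α ^ i) ∧ (k = N → c = γ ^ j) := by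
    intro k
    by_cases hk : k ≤ N
    · rcases Nat.eq_zero_or_pos k with h0 | h0
      · refine ⟨α ^ i, fun _ => ⟨hcα, ?_, fun _ => rfl, fun h => ?_⟩⟩
        · rw [h0, Nat.cast_zero, zero_div, hg0, dist_self]
          positivity
        · omega
      · rcases eq_or_ne k N with h1 | h1
        · refine ⟨γ ^ j, fun _ => ⟨hcγ, ?_, fun h => ?_, fun _ => rfl⟩⟩
          · rw [h1, div_self hNr.ne', hg1, dist_self]
            positivity
          · omega
        · obtain ⟨c, hc, hc'⟩ := hR (g ((k : ℝ) / N)) (hdisp _ (hmem k hk))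
          exact ⟨c, fun _ => ⟨hc, hc'.trans (le_abs_self R), fun h => by omega,
            fun h => absurd h h1⟩⟩
    · exact ⟨1, fun h => absurd h hk⟩
  choose c hc using happ
  have hc0 : c 0 ∈ U := by
    rw [(hc 0 (Nat.zero_le _)).2.2.1 rfl]
    exact D.memU i hi0
  have hcN : c N ∉ U := by
    rw [(hc N le_rfl).2.2.2 rfl]
    exact D.notMemU j hj0
  -- crossing
  obtain ⟨k, hkN, hkU, hkU'⟩ : ∃ k, k < N ∧ c k ∈ U ∧ c (k + 1) ∉ U := by
    by_contra hcon
    push Not at hcon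
    have : ∀ k, k ≤ N → c k ∈ U := by
      intro k
      induction k with
      | zero => intro _; exact hc0
      | succ k ih => intro hk; exact hcon k (by omega) (ih (by omega))
    exact hcN (this N le_rfl)
  have hk1 := hc k hkN.le
  have hk2 := hc (k + 1) hkN
  set f := (c k)⁻¹ * c (k + 1) with hf
  have hfc : ∀ a ∈ F, Commute a f := fun a ha =>
    ((hk1.1 a ha).inv_right).mul_right (hk2.1 a ha)
  have hcf : c k * f = c (k + 1) := by rw [hf]; group
  have hfB : f ∈ B := by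
    apply hBmem
    have e : dist x (f • x) = dist (c k • x) (c (k + 1) • x) := by
      rw [dist_smul_smul' hi]; rfl
    rw [e]
    have e2 : dist (g ((k : ℝ) / N)) (g (((k + 1 : ℕ) : ℝ) / N)) ≤ 1 := by
      rw [hgd _ (hmem k hkN.le) _ (hmem (k + 1) hkN), abs_sub_comm]
      have : ((k + 1 : ℕ) : ℝ) / N - (k : ℝ) / N = 1 / N := by push_cast; ring
      rw [this, abs_of_pos (by positivity), div_mul_eq_mul_div, one_mul, div_le_one hNr]
      exact hN.le
    calc dist (c k • x) (c (k + 1) • x)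
        ≤ dist (c k • x) (g ((k : ℝ) / N)) + dist (g ((k : ℝ) / N)) (g (((k + 1 : ℕ) : ℝ) / N))
          + dist (g (((k + 1 : ℕ) : ℝ) / N)) (c (k + 1) • x) := dist_triangle4 _ _ _ _
      _ ≤ |R| + 1 + |R| := by
          rw [dist_comm (c k • x)]
          exact add_le_add (add_le_add hk1.2.1 e2) hk2.2.1
      _ = 2 * |R| + 1 := by ring
  obtain ⟨s, hs, e, he, hse⟩ := hS f hfc (c k) hk1.1 hkU (by rw [hcf]; exact hkU')
  refine ⟨e, he, ?_⟩
  -- `e • x` is close to the geodesic
  have hes : Commute e s := by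
    have h1 : Commute e (c k) := D.central e he (c k) hk1.1
    have h2 : s = c k * e⁻¹ := by rw [hse]; group
    rw [h2]
    exact h1.mul_right (Commute.refl e).inv_right
  have hd1 : dist (c k • x) (e • x) ≤ |K₀| := by
    have : c k • x = e • s • x := by rw [hse, smul_smul, hes.eq]
    rw [this, dist_smul, dist_comm]
    exact (hK₀ f hfB s hs).trans (le_abs_self _)
  have hd2 : dist (g ((k : ℝ) / N)) (e • x) ≤ |R| + |K₀| :=
    (dist_triangle _ (c k • x) _).trans (add_le_add hk1.2.1 hd1)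
  have hsplit : dist y₀ (g ((k : ℝ) / N)) + dist (g ((k : ℝ) / N)) y₁ = dist y₀ y₁ := by
    have h0 : (0 : ℝ) ∈ Icc (0 : ℝ) 1 := by constructor <;> norm_num
    have h1 : (1 : ℝ) ∈ Icc (0 : ℝ) 1 := by constructor <;> norm_num
    have hk := hmem k hkN.le
    have e1 := hgd 0 h0 _ hk
    have e2 := hgd _ hk 1 h1
    rw [hg0, zero_sub, abs_neg, abs_of_nonneg hk.1] at e1
    rw [hg1, abs_sub_comm, abs_of_nonneg (by linarith [hk.2])] at e2
    rw [e1, e2]; ring
  have t1 : dist y₀ (e • x) ≤ dist y₀ (g ((k : ℝ) / N)) + (|R| + |K₀|) :=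
    (dist_triangle _ (g ((k : ℝ) / N)) _).trans (by linarith)
  have t2 : dist (e • x) y₁ ≤ (|R| + |K₀|) + dist (g ((k : ℝ) / N)) y₁ := by
    refine (dist_triangle _ (g ((k : ℝ) / N)) _).trans ?_
    rw [dist_comm (e • x)]
    linarith
  linarith

/-- Group-theoretic input for the divergence lemma: the centraliser `C` of the finite set `F`
contains `α` and `γ`; `E` is a set of elements central in `C`; `U` is a subset of `C`, almost
invariant under right multiplication by elements of `C` modulo `E`, containing the positive powers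
of `α` and no positive power of `γ`. -/
structure DivData (F E U : Set G) (α γ : G) : Prop where
  finF : F.Finite
  commα : ∀ f ∈ F, Commute f α
  commγ : ∀ f ∈ F, Commute f γ
  central : ∀ e ∈ E, ∀ g : G, (∀ f ∈ F, Commute f g) → Commute e g
  memU : ∀ n : ℕ, 0 < n → α ^ n ∈ U
  notMemU : ∀ n : ℕ, 0 < n → γ ^ n ∉ U
  fin : ∀ f : G, (∀ c ∈ F, Commute c f) → ∃ S : Set G, S.Finite ∧ ∀ g : G,
    (∀ c ∈ F, Commute c g) → g ∈ U → g * f ∉ U → ∃ s ∈ S, ∃ e ∈ E, g = s * e

/-- (G6) Divergence: up to a bounded error the geodesic from `α ^ i • x` to `γ ^ j • x` passes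
through a point `e • x` with `e ∈ E`. -/
theorem divergence (hX : IsCAT0Space X) (hG : IsGeometricAction G X) (x : X)
    {F E U : Set G} {α γ : G} (D : DivData F E U α γ) :
    ∃ K : ℝ, ∀ i j : ℕ, 0 < i → 0 < j → ∃ e ∈ E,
      dist (α ^ i • x) (e • x) + dist (e • x) (γ ^ j • x) ≤ dist (α ^ i • x) (γ ^ j • x) + K := by
  have hmem : ∀ c : G, c ∈ D.finF.toFinset ↔ c ∈ F := fun c => D.finF.mem_toFinset
  refine divergence_fin (F := D.finF.toFinset) (U := U) hX hG x ?_
  constructor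
  · intro f hf; exact D.commα f ((hmem f).1 hf)
  · intro f hf; exact D.commγ f ((hmem f).1 hf)
  · intro e he g hg; exact D.central e he g fun f hf => hg f ((hmem f).2 hf)
  · exact D.memU
  · exact D.notMemU
  · intro f hf
    obtain ⟨S, hS, h⟩ := D.fin f fun c hc => hf c ((hmem c).2 hc)
    refine ⟨hS.toFinset, fun g hg hgU hgU' => ?_⟩
    obtain ⟨s, hs, e, he, h'⟩ := h g (fun c hc => hg c ((hmem c).2 hc)) hgU hgU'
    exact ⟨s, hS.mem_toFinset.2 hs, e, he, h'⟩

end Crest.Agent.R175.Geo
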