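import Mathlib
import Crest.Agent.R175.Geo2_974

/-!
# R175 (S0264), group side : first letters in a free product and `DivData`

`P = Monoid.CoprodI A`.  `st i` is the set of the elements whose reduced word starts with a syllable of
the factor `A i` (defined by the last letter of the inverse).

* `finite_bad` : for every `f` the set `{g ∈ st i | g * f ∉ st i}` is finite;
* `st_pow` : `(x y) ^ n ∈ st i` for `x ∈ A i`, `y ∈ A j` non trivial, `i ≠ j`, `n ≥ 1`;
* `div_of_hom` : a homomorphism from a centraliser to a free product gives `DivData`.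
-/

set_option autoImplicit false

open Monoid Monoid.CoprodI

namespace Crest.Agent.R175.FirstLet_83

variable {ι : Type*} [DecidableEq ι] {A : ι → Type*} [∀ i, Group (A i)] [∀ i, DecidableEq (A i)]

/-- index of the last letter -/
def lst (w : Word A) : Option ι := w.toList.getLast?.map Sigma.fst

omit [DecidableEq ι] [∀ i, DecidableEq (A i)] in
theorem lst_empty : lst (Word.empty : Word A) = none := rfl

omit [DecidableEq ι] [∀ i, DecidableEq (A i)] in
theorem lst_cons {i : ι} (m : A i) (w : Word A) (h1 h2) (hw : w ≠ Word.empty) :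
    lst (Word.cons m w h1 h2) = lst w := by
  unfold lst
  rw [Word.cons_toList]
  have : w.toList ≠ [] := fun h => hw (Word.ext h)
  rw [List.getLast?_cons_of_ne_nil this]

omit [DecidableEq ι] [∀ i, DecidableEq (A i)] in
theorem lst_cons_empty {i : ι} (m : A i) (h1 h2) :
    lst (Word.cons m (Word.empty : Word A) h1 h2) = some i := rfl

theorem smul_cons {i : ι} (m m' : A i) (w : Word A) (h1 h2) :
    (of m : CoprodI A) • Word.cons m' w h1 h2 = (of (m * m') : CoprodI A) • w := by
  rw [Word.cons_eq_smul, ← mul_smul, ← map_mul]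

/-- left multiplication by one syllable changes the last index only if it kills the word. -/
theorem lst_smul {i j : ι} (m : A j) (w : Word A) (h : lst w = some i)
    (h' : lst ((of m : CoprodI A) • w) ≠ some i) :
    w = (of m⁻¹ : CoprodI A) • (Word.empty : Word A) := by
  by_cases hm1 : m = 1
  · subst hm1; rw [map_one, one_smul] at h'; exact absurd h h'
  induction w using Word.consRecOn with
  | empty => simp [lst_empty] at h
  | cons k g t h1 h2 _ =>
    by_cases hk : k = j
    · subst hk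
      rw [smul_cons] at h'
      by_cases hm : m * g = 1
      · rw [hm, map_one, one_smul] at h'
        have ht : t = Word.empty := by
          by_contra ht
          rw [lst_cons _ _ _ _ ht] at h
          exact h' h
        subst ht
        rw [Word.cons_eq_smul, ← eq_inv_of_mul_eq_one_right hm]
      · exfalso
        rw [← Word.cons_eq_smul (h1 := h1) (h2 := hm)] at h'
        by_cases ht : t = Word.empty
        · subst ht
          rw [lst_cons_empty] at h h'
          exact h' h
        · rw [lst_cons _ _ _ _ ht] at h h'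
          exact h' h
    · exfalso
      have h3 : (Word.cons g t h1 h2).fstIdx ≠ some j := by
        rw [Word.fstIdx_cons]
        exact fun h => hk (Option.some.inj h)
      rw [← Word.cons_eq_smul (h1 := h3) (h2 := hm1)] at h'
      rw [lst_cons _ _ _ _ (by
        intro h
        have := congrArg Word.toList h
        simp at this)] at h'
      exact h' h

/-- The reduced word of `g` starts with a syllable of `A i`. -/
def st (i : ι) : Set (CoprodI A) := {g | lst (g⁻¹ • (Word.empty : Word A)) = some i}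

theorem mem_st {i : ι} {g : CoprodI A} : g ∈ st i ↔ lst (g⁻¹ • (Word.empty : Word A)) = some i :=
  Iff.rfl

theorem st_disjoint {i j : ι} (hij : i ≠ j) {g : CoprodI A} (h : g ∈ st j) : g ∉ st i := by
  intro h'
  rw [mem_st] at h h'
  rw [h] at h'
  exact hij (Option.some.inj h').symm

theorem finite_bad (i : ι) (f : CoprodI A) : {g : CoprodI A | g ∈ st i ∧ g * f ∉ st i}.Finite := by
  induction f using CoprodI.induction_on with
  | one => 
    convert Set.finite_empty
    ext g
    simp
  | of j m =>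
    refine (Set.finite_singleton (of m : CoprodI A)⁻¹).subset ?_
    rintro g ⟨h1, h2⟩
    rw [mem_st] at h1 h2
    rw [mul_inv_rev, mul_smul, ← map_inv] at h2
    have h3 := lst_smul _ _ h1 h2
    rw [inv_inv] at h3
    have h4 : g⁻¹ = of m := by
      have := congrArg Word.prod h3
      rwa [Word.prod_smul, Word.prod_smul, Word.prod_empty, mul_one, mul_one] at this
    rw [Set.mem_singleton_iff, ← h4, inv_inv]
  | mul x y hx hy =>
    refine (hx.union (hy.image fun g => g * x⁻¹)).subset ?_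
    rintro g ⟨h1, h2⟩
    by_cases h : g * x ∈ st i
    · right
      refine ⟨g * x, ⟨h, ?_⟩, by group⟩
      rwa [mul_assoc]
    · left; exact ⟨h1, h⟩

/-- words which do not start in `A i`; multiply by `of y * of x`. -/
theorem pow_aux {i j : ι} (hij : i ≠ j) {x : A i} {y : A j} (hx : x ≠ 1) (hy : y ≠ 1) (n : ℕ) :
    ((of y * of x : CoprodI A) ^ n • (Word.empty : Word A)).fstIdx ≠ some i ∧
      (0 < n → lst ((of y * of x : CoprodI A) ^ n • (Word.empty : Word A)) = some i) := by
  induction n with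
  | zero =>
    refine ⟨?_, fun h => absurd h (lt_irrefl _)⟩
    rw [pow_zero, one_smul]
    simp [Word.fstIdx, Word.empty]
  | succ n ih =>
    rw [pow_succ', mul_smul, mul_smul]
    obtain ⟨ih1, ih2⟩ := ih
    rw [← Word.cons_eq_smul (h1 := ih1) (h2 := hx)]
    have h3 : (Word.cons x ((of y * of x : CoprodI A) ^ n • (Word.empty : Word A)) ih1 hx).fstIdx ≠
        some j := by
      rw [Word.fstIdx_cons]
      exact fun h => hij (Option.some.inj h)
    rw [← Word.cons_eq_smul (h1 := h3) (h2 := hy)]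
    refine ⟨?_, fun _ => ?_⟩
    · rw [Word.fstIdx_cons]
      exact fun h => hij (Option.some.inj h).symm
    · rw [lst_cons _ _ _ _ (by
        intro h
        have := congrArg Word.toList h
        simp at this)]
      rcases Nat.eq_zero_or_pos n with rfl | hn
      · simp only [pow_zero, one_smul]
        rfl
      · rw [lst_cons _ _ _ _, ih2 hn]
        intro h
        have h4 := ih2 hn
        rw [h, lst_empty] at h4
        exact absurd h4 (by simp)

theorem st_pow {i j : ι} (hij : i ≠ j) {x : A i} {y : A j} (hx : x ≠ 1) (hy : y ≠ 1) {n : ℕ}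
    (hn : 0 < n) : (of x * of y : CoprodI A) ^ n ∈ st i := by
  rw [mem_st, ← inv_pow, mul_inv_rev, ← map_inv, ← map_inv]
  exact (pow_aux hij (inv_ne_one.2 hx) (inv_ne_one.2 hy) n).2 hn

omit [DecidableEq ι] [∀ i, DecidableEq (A i)] in
theorem fstIdx_empty (i : ι) : (Word.empty : Word A).fstIdx ≠ some i := by
  simp [Word.fstIdx, Word.empty]

theorem st_of {i : ι} {x : A i} (hx : x ≠ 1) : (of x : CoprodI A) ∈ st i := by
  rw [mem_st, ← map_inv]
  rw [← Word.cons_eq_smul (h1 := fstIdx_empty i) (h2 := inv_ne_one.2 hx)]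
  rfl

/-- `y x y⁻¹` starts with `y`. -/
theorem st_conj {i j : ι} (hij : i ≠ j) {x : A i} {y : A j} (hx : x ≠ 1) (hy : y ≠ 1) :
    (of y * of x * (of y)⁻¹ : CoprodI A) ∈ st j := by
  rw [mem_st]
  have e : (of y * of x * (of y)⁻¹ : CoprodI A)⁻¹ = of y * (of x⁻¹ * of y⁻¹) := by
    rw [map_inv, map_inv]; group
  rw [e, mul_smul, mul_smul]
  rw [← Word.cons_eq_smul (m := y⁻¹) (h1 := fstIdx_empty j) (h2 := inv_ne_one.2 hy)]
  have h3 : (Word.cons y⁻¹ (Word.empty : Word A) (fstIdx_empty j)
      (inv_ne_one.2 hy)).fstIdx ≠ some i := by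
    rw [Word.fstIdx_cons]
    exact fun h => hij (Option.some.inj h).symm
  rw [← Word.cons_eq_smul (m := x⁻¹) (h1 := h3) (h2 := inv_ne_one.2 hx)]
  have h4 : (Word.cons x⁻¹ (Word.cons y⁻¹ (Word.empty : Word A)
      (fstIdx_empty j) (inv_ne_one.2 hy)) h3 (inv_ne_one.2 hx)).fstIdx ≠
      some j := by
    rw [Word.fstIdx_cons]
    exact fun h => hij (Option.some.inj h)
  rw [← Word.cons_eq_smul (m := y) (h1 := h4) (h2 := hy)]
  rfl

theorem st_conj_pow {i j : ι} (hij : i ≠ j) {x : A i} {y : A j} {n : ℕ} (hx : x ^ n ≠ 1)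
    (hy : y ≠ 1) : (of y * of x * (of y)⁻¹ : CoprodI A) ^ n ∈ st j := by
  rw [conj_pow, ← map_pow]
  exact st_conj hij hx hy

open Crest.Agent.R175.Geo in
/-- A homomorphism `θ` from the centraliser of `F` to a free product, with kernel in `E`. -/
theorem div_of_hom {G : Type*} [Group G] {F E : Set G} (hF : F.Finite)
    (θ : Subgroup.centralizer F →* CoprodI A)
    (hker : ∀ g : Subgroup.centralizer F, θ g = 1 → (g : G) ∈ E)
    (hE : ∀ e ∈ E, ∀ g : G, (∀ f ∈ F, Commute f g) → Commute e g) {α γ : G}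
    (hα : α ∈ Subgroup.centralizer F) (hγ : γ ∈ Subgroup.centralizer F) (i : ι)
    (h1 : ∀ n : ℕ, 0 < n → θ ⟨α, hα⟩ ^ n ∈ st i) (h2 : ∀ n : ℕ, 0 < n → θ ⟨γ, hγ⟩ ^ n ∉ st i) :
    DivData F E {g | ∃ h : g ∈ Subgroup.centralizer F, θ ⟨g, h⟩ ∈ st i} α γ := by
  have hc : ∀ g : G, (∀ f ∈ F, Commute f g) ↔ g ∈ Subgroup.centralizer F := fun g => by
    rw [Subgroup.mem_centralizer_iff]
    rfl
  refine ⟨hF, (hc α).2 hα, (hc γ).2 hγ, hE, fun n hn => ?_, fun n hn => ?_, fun f hf => ?_⟩
  · refine ⟨pow_mem hα n, ?_⟩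
    have : (⟨α ^ n, pow_mem hα n⟩ : Subgroup.centralizer F) = ⟨α, hα⟩ ^ n := rfl
    rw [this, map_pow]
    exact h1 n hn
  · rintro ⟨h, h'⟩
    have : (⟨γ ^ n, h⟩ : Subgroup.centralizer F) = ⟨γ, hγ⟩ ^ n := rfl
    rw [this, map_pow] at h'
    exact h2 n hn h'
  · rw [hc] at hf
    classical
    have hB := finite_bad i (θ ⟨f, hf⟩)
    -- representatives
    have hr : ∀ p : CoprodI A, ∃ s : G, (∃ g : Subgroup.centralizer F, θ g = p) →
        ∃ h : s ∈ Subgroup.centralizer F, θ ⟨s, h⟩ = p := by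
      intro p
      by_cases h : ∃ g : Subgroup.centralizer F, θ g = p
      · obtain ⟨g, hg⟩ := h
        exact ⟨g, fun _ => ⟨g.2, hg⟩⟩
      · exact ⟨1, fun h' => absurd h' h⟩
    choose r hr using hr
    refine ⟨r '' {g : CoprodI A | g ∈ st i ∧ g * θ ⟨f, hf⟩ ∉ st i}, hB.image _, ?_⟩
    intro g hg hgU hgf
    rw [hc] at hg
    obtain ⟨_, hgU⟩ := hgU
    have hgf' : θ ⟨g, hg⟩ * θ ⟨f, hf⟩ ∉ st i := by
      intro h
      refine hgf ⟨mul_mem hg hf, ?_⟩
      rw [← map_mul] at h
      exact h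
    obtain ⟨hs, hs'⟩ := hr (θ ⟨g, hg⟩) ⟨_, rfl⟩
    refine ⟨r (θ ⟨g, hg⟩), ⟨_, ⟨hgU, hgf'⟩, rfl⟩, (r (θ ⟨g, hg⟩))⁻¹ * g, ?_, by group⟩
    have := hker (⟨_, hs⟩⁻¹ * ⟨g, hg⟩) (by rw [map_mul, map_inv, hs']; simp)
    exact this

open Crest.Agent.R175.Geo in
/-- The same for a homomorphism defined on the whole group. -/
theorem div_of_hom' {G : Type*} [Group G] {F E : Set G} (hF : F.Finite) (π : G →* CoprodI A)
    (hker : ∀ g : G, (∀ f ∈ F, Commute f g) → π g = 1 → g ∈ E)
    (hE : ∀ e ∈ E, ∀ g : G, (∀ f ∈ F, Commute f g) → Commute e g) {α γ : G}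
    (hα : ∀ f ∈ F, Commute f α) (hγ : ∀ f ∈ F, Commute f γ) (i : ι)
    (h1 : ∀ n : ℕ, 0 < n → π α ^ n ∈ st i) (h2 : ∀ n : ℕ, 0 < n → π γ ^ n ∉ st i) :
    DivData F E {g | (∀ f ∈ F, Commute f g) ∧ π g ∈ st i} α γ := by
  have hc : ∀ g : G, (∀ f ∈ F, Commute f g) ↔ g ∈ Subgroup.centralizer F := fun g => by
    rw [Subgroup.mem_centralizer_iff]
    rfl
  have key := div_of_hom hF (π.comp (Subgroup.centralizer F).subtype) (E := E)
    (fun g hg => hker g ((hc _).2 g.2) hg) hE ((hc α).1 hα) ((hc γ).1 hγ) i h1 h2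
  convert key using 1
  ext g
  constructor
  · rintro ⟨h, h'⟩
    exact ⟨(hc g).1 h, h'⟩
  · rintro ⟨h, h'⟩
    exact ⟨(hc g).2 h, h'⟩

end Crest.Agent.R175.FirstLet_83
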