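import Mathlib
import Crest.Agent.R175.FirstLet_83

/-!
# R175 (S0264), group side : `B₃ / ⟨z⟩ = ℤ/2 * ℤ/3`

`P23 = ℤ/2 * ℤ/3` (`CoprodI` over `Bool`, `X` of order `2` (index `false`), `Y` of order `3`
(index `true`)), `sa = Y⁻¹ X`, `sb = X Y⁻¹`.

* `ker_zpowers` : if `a b a = b a b` and `π a = sa`, `π b = sb`, then an element of `⟨a, b⟩` killed by
  `π` is a power of `(a b) ^ 3`.
-/

set_option autoImplicit false

open Monoid Monoid.CoprodI

namespace Crest.Agent.R175.B3_83

/-- the factors `ℤ/2` (index `false`), `ℤ/3` (index `true`) -/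
abbrev AA (b : Bool) : Type := Multiplicative (ZMod (cond b 3 2))

instance (b : Bool) : DecidableEq (AA b) := inferInstanceAs (DecidableEq (ZMod (cond b 3 2)))

/-- `ℤ/2 * ℤ/3` -/
abbrev P23 : Type := CoprodI AA

/-- generator of order two -/
def X0 : AA false := Multiplicative.ofAdd 1
/-- generator of order three -/
def Y0 : AA true := Multiplicative.ofAdd 1

/-- generator of order two -/
def X : P23 := of X0
/-- generator of order three -/
def Y : P23 := of Y0

theorem X0_ne : X0 ≠ 1 := by decide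
theorem Y0_ne : Y0 ≠ 1 := by decide
theorem Y0i_ne : Y0⁻¹ ≠ 1 := by decide
theorem X0_sq : X0 * X0 = 1 := by decide
theorem Y0_cube : Y0 * Y0 * Y0 = 1 := by decide

theorem X_sq : X * X = 1 := by rw [X, ← map_mul, X0_sq, map_one]
theorem Y_cube : Y * Y * Y = 1 := by rw [Y, ← map_mul, ← map_mul, Y0_cube, map_one]

/-- image of the first generator -/
def sa : P23 := Y⁻¹ * X
/-- image of the second generator -/
def sb : P23 := X * Y⁻¹

theorem sa_mul_sb_mul_sa : sa * sb * sa = X := by
  have h1 := X_sq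
  have h2 := Y_cube
  have h3 : Y⁻¹ * Y⁻¹ * Y⁻¹ = 1 := by
    rw [← inv_inj, mul_inv_rev, mul_inv_rev, inv_inv, inv_one, ← mul_assoc]; exact h2
  calc sa * sb * sa = Y⁻¹ * (X * X) * Y⁻¹ * Y⁻¹ * X := by rw [sa, sb]; group
    _ = (Y⁻¹ * Y⁻¹ * Y⁻¹) * X := by rw [h1]; group
    _ = X := by rw [h3, one_mul]

theorem sb_mul_sa_mul_sb : sb * sa * sb = X := by
  have h1 := X_sq
  have h2 := Y_cube
  have h3 : Y⁻¹ * Y⁻¹ * Y⁻¹ = 1 := by
    rw [← inv_inj, mul_inv_rev, mul_inv_rev, inv_inv, inv_one, ← mul_assoc]; exact h2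
  calc sb * sa * sb = X * Y⁻¹ * Y⁻¹ * (X * X) * Y⁻¹ := by rw [sa, sb]; group
    _ = X * (Y⁻¹ * Y⁻¹ * Y⁻¹) := by rw [h1]; group
    _ = X := by rw [h3, mul_one]

theorem braid : sa * sb * sa = sb * sa * sb := by rw [sa_mul_sb_mul_sa, sb_mul_sa_mul_sb]

theorem sa_mul_sb : sa * sb = Y := by
  have h1 := X_sq
  have h2 := Y_cube
  have h3 : Y⁻¹ * Y⁻¹ * Y⁻¹ = 1 := by
    rw [← inv_inj, mul_inv_rev, mul_inv_rev, inv_inv, inv_one, ← mul_assoc]; exact h2
  calc sa * sb = Y⁻¹ * (X * X) * Y⁻¹ := by rw [sa, sb]; group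
    _ = (Y⁻¹ * Y⁻¹ * Y⁻¹) * Y := by rw [h1]; group
    _ = Y := by rw [h3, one_mul]

section quot

variable {G : Type*} [Group G] {a b : G}

theorem p3 (x : G) : x ^ 3 = x * x * x := by rw [pow_succ, pow_two]

theorem comm_a (h : a * b * a = b * a * b) : Commute ((a * b) ^ 3) a := by
  show (a * b) ^ 3 * a = a * (a * b) ^ 3
  rw [p3]
  calc (a * b) * (a * b) * (a * b) * a = a * b * a * (b * a * b) * a := by group
    _ = a * b * a * (a * b * a) * a := by rw [h]
    _ = a * ((b * a * a * b) * (a * a)) := by group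
    _ = a * ((a * b) * (a * b) * (a * b)) := by
      congr 1
      calc b * a * a * b * (a * a) = b * a * (a * b * a) * a := by group
        _ = b * a * (b * a * b) * a := by rw [h]
        _ = (b * a * b) * (a * b * a) := by group
        _ = (a * b * a) * (b * a * b) := by rw [h]
        _ = (a * b) * (a * b) * (a * b) := by group

theorem comm_b (h : a * b * a = b * a * b) : Commute ((a * b) ^ 3) b := by
  show (a * b) ^ 3 * b = b * (a * b) ^ 3
  have e1 : (a * b) ^ 3 = (b * a) ^ 3 := by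
    rw [p3, p3]
    calc (a * b) * (a * b) * (a * b) = (a * b * a) * (b * a * b) := by group
      _ = (b * a * b) * (a * b * a) := by rw [h]
      _ = (b * a) * (b * a) * (b * a) := by group
  rw [e1]
  exact comm_a h.symm

/-- a homomorphism from `ℤ/n` given by an element with `q ^ n = 1` -/
noncomputable def zhom {Q : Type*} [Group Q] (n : ℕ) (q : Q) (h : q ^ n = 1) :
    Multiplicative (ZMod n) →* Q :=
  AddMonoidHom.toMultiplicativeLeft (ZMod.lift n ⟨zmultiplesHom (Additive Q) (Additive.ofMul q), by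
    rw [zmultiplesHom_apply, natCast_zsmul, ← ofMul_pow, h, ofMul_one]⟩)

theorem zhom_one {Q : Type*} [Group Q] (n : ℕ) (q : Q) (h : q ^ n = 1) :
    zhom n q h (Multiplicative.ofAdd 1) = q := by
  have := ZMod.lift_coe n ⟨zmultiplesHom (Additive Q) (Additive.ofMul q), by
    rw [zmultiplesHom_apply, natCast_zsmul, ← ofMul_pow, h, ofMul_one]⟩ 1
  simp only [Int.cast_one, zmultiplesHom_apply, one_smul] at this
  show Additive.toMul ((ZMod.lift n _) 1) = q
  rw [this]
  rfl

end quot

/-- A homomorphism from `P23`. -/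
noncomputable def lift23 {Q : Type*} [Group Q] (x y : Q) (hx : x ^ 2 = 1) (hy : y ^ 3 = 1) :
    P23 →* Q :=
  CoprodI.lift fun b => match b with
    | false => zhom 2 x hx
    | true => zhom 3 y hy

theorem lift23_X {Q : Type*} [Group Q] (x y : Q) (hx : x ^ 2 = 1) (hy : y ^ 3 = 1) :
    lift23 x y hx hy X = x := by
  rw [lift23, X, CoprodI.lift_of]
  exact zhom_one 2 x hx

theorem lift23_Y {Q : Type*} [Group Q] (x y : Q) (hx : x ^ 2 = 1) (hy : y ^ 3 = 1) :
    lift23 x y hx hy Y = y := by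
  rw [lift23, Y, CoprodI.lift_of]
  exact zhom_one 3 y hy

/-- The kernel of `⟨a, b⟩ → ℤ/2 * ℤ/3` consists of powers of `(a b) ^ 3`. -/
theorem ker_zpowers {G : Type*} [Group G] {a b : G} (h : a * b * a = b * a * b) (π : G →* P23)
    (ha : π a = sa) (hb : π b = sb) {k : G} (hk : k ∈ Subgroup.closure {a, b}) (h1 : π k = 1) :
    k ∈ Subgroup.zpowers ((a * b) ^ 3) := by
  set H := Subgroup.closure {a, b} with hH
  have ha' : a ∈ H := Subgroup.subset_closure (by simp)
  have hb' : b ∈ H := Subgroup.subset_closure (by simp)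
  set z : H := ⟨(a * b) ^ 3, pow_mem (mul_mem ha' hb') 3⟩ with hz
  have hzc : ∀ g : H, z * g = g * z := by
    rintro ⟨g, hg⟩
    apply Subtype.ext
    show (a * b) ^ 3 * g = g * (a * b) ^ 3
    induction hg using Subgroup.closure_induction with
    | mem x hx =>
      rcases hx with rfl | hx
      · exact comm_a h
      · rw [Set.mem_singleton_iff] at hx
        subst hx
        exact comm_b h
    | one => simp
    | mul x y _ _ hx hy => rw [← mul_assoc, hx, mul_assoc, hy, mul_assoc]
    | inv x _ hx => exact (Commute.inv_right (show Commute ((a * b) ^ 3) x from hx))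
  have hN : (Subgroup.zpowers z).Normal := by
    constructor
    rintro _ ⟨n, rfl⟩ g
    refine ⟨n, ?_⟩
    show z ^ n = g * z ^ n * g⁻¹
    rw [← ((show Commute z g from hzc g).zpow_left n).eq]
    group
  set q : H →* H ⧸ Subgroup.zpowers z := QuotientGroup.mk' _ with hq
  have hqz : q z = 1 := (QuotientGroup.eq_one_iff z).2 (Subgroup.mem_zpowers z)
  set a' : H := ⟨a, ha'⟩
  set b' : H := ⟨b, hb'⟩
  have hx : q (a' * b' * a') ^ 2 = 1 := by
    rw [← map_pow]
    convert hqz
    apply Subtype.ext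
    show (a * b * a) ^ 2 = (a * b) ^ 3
    rw [p3, pow_two]
    calc (a * b * a) * (a * b * a) = (a * b * a) * (b * a * b) := by rw [h]
      _ = (a * b) * (a * b) * (a * b) := by group
  have hy : q (a' * b') ^ 3 = 1 := by
    rw [← map_pow]
    have : (a' * b') ^ 3 = z := rfl
    rw [this, hqz]
  set ρ := lift23 (q (a' * b' * a')) (q (a' * b')) hx hy
  have key : ∀ g : H, ρ (π g) = q g := by
    rintro ⟨g, hg⟩
    induction hg using Subgroup.closure_induction with
    | mem x hx =>
      rcases hx with rfl | hx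
      · show ρ (π x) = q a'
        rw [ha, sa, map_mul, map_inv, lift23_X, lift23_Y, ← map_inv, ← map_mul]
        congr 1
        group
      · rw [Set.mem_singleton_iff] at hx
        subst hx
        show ρ (π x) = q b'
        rw [hb, sb, map_mul, map_inv, lift23_X, lift23_Y, ← map_inv, ← map_mul]
        congr 1
        apply Subtype.ext
        show a * x * a * (a * x)⁻¹ = x
        rw [h]
        group
    | one =>
      show ρ (π 1) = q 1
      simp
    | mul x y hx' hy' hx hy =>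
      show ρ (π (x * y)) = q (⟨x, hx'⟩ * ⟨y, hy'⟩)
      rw [map_mul, map_mul, map_mul, hx, hy]
    | inv x hx' hx =>
      show ρ (π x⁻¹) = q (⟨x, hx'⟩⁻¹)
      rw [map_inv, map_inv, map_inv, hx]
  have h2 := key ⟨k, hk⟩
  rw [show π ((⟨k, hk⟩ : H) : G) = 1 from h1, map_one] at h2
  have h3 := (QuotientGroup.eq_one_iff (N := Subgroup.zpowers z) (⟨k, hk⟩ : H)).1 h2.symm
  obtain ⟨n, hn⟩ := h3
  refine ⟨n, ?_⟩
  have := congrArg Subtype.val hn
  exact this

/-- `saⁿ` starts in `ℤ/3`. -/
theorem sa_pow_mem {n : ℕ} (hn : 0 < n) : sa ^ n ∈ FirstLet_83.st true := by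
  have := FirstLet_83.st_pow (A := AA) (i := true) (j := false) (by decide) Y0i_ne X0_ne hn
  rwa [map_inv] at this

/-- `sbⁿ` does not start in `ℤ/3`. -/
theorem sb_pow_notMem {n : ℕ} (hn : 0 < n) : sb ^ n ∉ FirstLet_83.st true := by
  have := FirstLet_83.st_pow (A := AA) (i := false) (j := true) (by decide) X0_ne Y0i_ne hn
  rw [map_inv] at this
  exact FirstLet_83.st_disjoint (by decide) this

end Crest.Agent.R175.B3_83
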