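import Mathlib
import Crest.Agent.R175.Geo3_974

/-!
# R175 (S0264), geometry 5 : Lemma D (`D₄`)

`a m p q` satisfy the `D₄` relations (centre `m`), `g = m a p m`, `δ = a p g q g q`.
-/

set_option autoImplicit false

open Set Crest.Geometry Filter Topology

namespace Crest.Agent.R175.Geo

open R244

/-- The `D₄` relations, `m` is the centre. -/
structure D4Rel {G : Type*} [Group G] (a m p q : G) : Prop where
  am : a * m * a = m * a * m
  pm : p * m * p = m * p * m
  qm : q * m * q = m * q * m
  ap : a * p = p * a
  aq : a * q = q * a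
  pq : p * q = q * p

namespace D4Rel

variable {G : Type*} [Group G] {a m p q : G}

section words

variable (R : D4Rel a m p q)

include R

/-- `mapma = pmapm`. -/
theorem w1 :
    m * a * p * m * a = p * m * a * p * m := by
  calc m * a * p * m * a = m * p * a * m * a := by simpa only [mul_assoc] using congrArg (fun t => (m * t) * (m * a)) R.ap
    _ = m * p * m * a * m := by simpa only [mul_assoc] using congrArg (fun t => (m * p) * t) R.am
    _ = p * m * p * a * m := by simpa only [mul_assoc] using congrArg (fun t => (t) * (a * m)) R.pm.symm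
    _ = p * m * a * p * m := by simpa only [mul_assoc] using congrArg (fun t => ((p * m) * t) * (m)) R.ap.symm

/-- `mapmp = amapm`. -/
theorem w2 :
    m * a * p * m * p = a * m * a * p * m := by
  calc m * a * p * m * p = m * a * m * p * m := by simpa only [mul_assoc] using congrArg (fun t => (m * a) * t) R.pm
    _ = a * m * a * p * m := by simpa only [mul_assoc] using congrArg (fun t => (t) * (p * m)) R.am.symm

/-- `mapmmapmp = maampmaam`. -/
theorem w3 :
    m * a * p * m * m * a * p * m * p = m * a * a * m * p * m * a * a * m := by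
  calc m * a * p * m * m * a * p * m * p = m * a * p * m * m * a * m * p * m := by simpa only [mul_assoc] using congrArg (fun t => (m * a * p * m * m * a) * t) R.pm
    _ = m * a * p * m * a * m * a * p * m := by simpa only [mul_assoc] using congrArg (fun t => ((m * a * p * m) * t) * (p * m)) R.am.symm
    _ = m * a * p * a * m * a * a * p * m := by simpa only [mul_assoc] using congrArg (fun t => ((m * a * p) * t) * (a * p * m)) R.am.symm
    _ = m * a * p * a * m * a * p * a * m := by simpa only [mul_assoc] using congrArg (fun t => ((m * a * p * a * m * a) * t) * (m)) R.ap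
    _ = m * a * p * a * m * p * a * a * m := by simpa only [mul_assoc] using congrArg (fun t => ((m * a * p * a * m) * t) * (a * m)) R.ap
    _ = m * a * a * p * m * p * a * a * m := by simpa only [mul_assoc] using congrArg (fun t => ((m * a) * t) * (m * p * a * a * m)) R.ap.symm
    _ = m * a * a * m * p * m * a * a * m := by simpa only [mul_assoc] using congrArg (fun t => ((m * a * a) * t) * (a * a * m)) R.pm

/-- `mapmqmapmq = qmapmqmapm`. -/
theorem w4 :
    m * a * p * m * q * m * a * p * m * q = q * m * a * p * m * q * m * a * p * m := by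
  calc m * a * p * m * q * m * a * p * m * q = m * a * p * q * m * q * a * p * m * q := by simpa only [mul_assoc] using congrArg (fun t => ((m * a * p) * t) * (a * p * m * q)) R.qm.symm
    _ = m * p * a * q * m * q * a * p * m * q := by simpa only [mul_assoc] using congrArg (fun t => (m * t) * (q * m * q * a * p * m * q)) R.ap
    _ = m * p * q * a * m * q * a * p * m * q := by simpa only [mul_assoc] using congrArg (fun t => ((m * p) * t) * (m * q * a * p * m * q)) R.aq
    _ = m * p * q * a * m * a * q * p * m * q := by simpa only [mul_assoc] using congrArg (fun t => ((m * p * q * a * m) * t) * (p * m * q)) R.aq.symm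
    _ = m * p * q * m * a * m * q * p * m * q := by simpa only [mul_assoc] using congrArg (fun t => ((m * p * q) * t) * (q * p * m * q)) R.am
    _ = m * q * p * m * a * m * q * p * m * q := by simpa only [mul_assoc] using congrArg (fun t => (m * t) * (m * a * m * q * p * m * q)) R.pq
    _ = m * q * p * m * a * m * p * q * m * q := by simpa only [mul_assoc] using congrArg (fun t => ((m * q * p * m * a * m) * t) * (m * q)) R.pq.symm
    _ = m * q * p * m * a * m * p * m * q * m := by simpa only [mul_assoc] using congrArg (fun t => (m * q * p * m * a * m * p) * t) R.qm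
    _ = m * q * p * m * a * p * m * p * q * m := by simpa only [mul_assoc] using congrArg (fun t => ((m * q * p * m * a) * t) * (q * m)) R.pm.symm
    _ = m * q * p * m * p * a * m * p * q * m := by simpa only [mul_assoc] using congrArg (fun t => ((m * q * p * m) * t) * (m * p * q * m)) R.ap
    _ = m * q * m * p * m * a * m * p * q * m := by simpa only [mul_assoc] using congrArg (fun t => ((m * q) * t) * (a * m * p * q * m)) R.pm
    _ = m * q * m * p * a * m * a * p * q * m := by simpa only [mul_assoc] using congrArg (fun t => ((m * q * m * p) * t) * (p * q * m)) R.am.symm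
    _ = q * m * q * p * a * m * a * p * q * m := by simpa only [mul_assoc] using congrArg (fun t => (t) * (p * a * m * a * p * q * m)) R.qm.symm
    _ = q * m * q * a * p * m * a * p * q * m := by simpa only [mul_assoc] using congrArg (fun t => ((q * m * q) * t) * (m * a * p * q * m)) R.ap.symm
    _ = q * m * a * q * p * m * a * p * q * m := by simpa only [mul_assoc] using congrArg (fun t => ((q * m) * t) * (p * m * a * p * q * m)) R.aq.symm
    _ = q * m * a * q * p * m * a * q * p * m := by simpa only [mul_assoc] using congrArg (fun t => ((q * m * a * q * p * m * a) * t) * (m)) R.pq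
    _ = q * m * a * q * p * m * q * a * p * m := by simpa only [mul_assoc] using congrArg (fun t => ((q * m * a * q * p * m) * t) * (p * m)) R.aq
    _ = q * m * a * p * q * m * q * a * p * m := by simpa only [mul_assoc] using congrArg (fun t => ((q * m * a) * t) * (m * q * a * p * m)) R.pq.symm
    _ = q * m * a * p * m * q * m * a * p * m := by simpa only [mul_assoc] using congrArg (fun t => ((q * m * a * p) * t) * (a * p * m)) R.qm

/-- `apmapmqmapmq = apqmapqmapqm`. -/
theorem w5 :
    a * p * m * a * p * m * q * m * a * p * m * q = a * p * q * m * a * p * q * m * a * p * q * m := by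
  calc a * p * m * a * p * m * q * m * a * p * m * q = a * p * m * a * p * q * m * q * a * p * m * q := by simpa only [mul_assoc] using congrArg (fun t => ((a * p * m * a * p) * t) * (a * p * m * q)) R.qm.symm
    _ = a * p * m * p * a * q * m * q * a * p * m * q := by simpa only [mul_assoc] using congrArg (fun t => ((a * p * m) * t) * (q * m * q * a * p * m * q)) R.ap
    _ = a * p * m * p * q * a * m * q * a * p * m * q := by simpa only [mul_assoc] using congrArg (fun t => ((a * p * m * p) * t) * (m * q * a * p * m * q)) R.aq
    _ = a * p * m * p * q * a * m * a * q * p * m * q := by simpa only [mul_assoc] using congrArg (fun t => ((a * p * m * p * q * a * m) * t) * (p * m * q)) R.aq.symm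
    _ = a * p * m * p * q * m * a * m * q * p * m * q := by simpa only [mul_assoc] using congrArg (fun t => ((a * p * m * p * q) * t) * (q * p * m * q)) R.am
    _ = a * p * m * q * p * m * a * m * q * p * m * q := by simpa only [mul_assoc] using congrArg (fun t => ((a * p * m) * t) * (m * a * m * q * p * m * q)) R.pq
    _ = a * p * m * q * p * m * a * m * p * q * m * q := by simpa only [mul_assoc] using congrArg (fun t => ((a * p * m * q * p * m * a * m) * t) * (m * q)) R.pq.symm
    _ = a * p * m * q * p * m * a * m * p * m * q * m := by simpa only [mul_assoc] using congrArg (fun t => (a * p * m * q * p * m * a * m * p) * t) R.qm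
    _ = a * p * m * q * p * m * a * p * m * p * q * m := by simpa only [mul_assoc] using congrArg (fun t => ((a * p * m * q * p * m * a) * t) * (q * m)) R.pm.symm
    _ = a * p * m * q * p * m * p * a * m * p * q * m := by simpa only [mul_assoc] using congrArg (fun t => ((a * p * m * q * p * m) * t) * (m * p * q * m)) R.ap
    _ = a * p * m * q * m * p * m * a * m * p * q * m := by simpa only [mul_assoc] using congrArg (fun t => ((a * p * m * q) * t) * (a * m * p * q * m)) R.pm
    _ = a * p * m * q * m * p * a * m * a * p * q * m := by simpa only [mul_assoc] using congrArg (fun t => ((a * p * m * q * m * p) * t) * (p * q * m)) R.am.symm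
    _ = a * p * q * m * q * p * a * m * a * p * q * m := by simpa only [mul_assoc] using congrArg (fun t => ((a * p) * t) * (p * a * m * a * p * q * m)) R.qm.symm
    _ = a * p * q * m * q * a * p * m * a * p * q * m := by simpa only [mul_assoc] using congrArg (fun t => ((a * p * q * m * q) * t) * (m * a * p * q * m)) R.ap.symm
    _ = a * p * q * m * a * q * p * m * a * p * q * m := by simpa only [mul_assoc] using congrArg (fun t => ((a * p * q * m) * t) * (p * m * a * p * q * m)) R.aq.symm
    _ = a * p * q * m * a * p * q * m * a * p * q * m := by simpa only [mul_assoc] using congrArg (fun t => ((a * p * q * m * a) * t) * (m * a * p * q * m)) R.pq.symm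

/-- `amamam = aamaam`. -/
theorem w6 :
    a * m * a * m * a * m = a * a * m * a * a * m := by
  calc a * m * a * m * a * m = a * a * m * a * a * m := by simpa only [mul_assoc] using congrArg (fun t => (a * t) * (a * m)) R.am.symm

/-- `amaam = maama`. -/
theorem w7 :
    a * m * a * a * m = m * a * a * m * a := by
  calc a * m * a * a * m = m * a * m * a * m := by simpa only [mul_assoc] using congrArg (fun t => (t) * (a * m)) R.am
    _ = m * a * a * m * a := by simpa only [mul_assoc] using congrArg (fun t => (m * a) * t) R.am.symm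

/-- The element `g`. -/
def gg (a m p : G) : G := m * a * p * m

/-- The Garside element of `D₄`. -/
def dd (a m p q : G) : G := a * p * gg a m p * q * gg a m p * q

theorem g_a : gg a m p * a = p * gg a m p := by
  have := R.w1
  simp only [gg, mul_assoc] at this ⊢
  exact this

theorem g_p : gg a m p * p = a * gg a m p := by
  have := R.w2
  simp only [gg, mul_assoc] at this ⊢
  exact this

theorem gg_commute_sq : Commute a (gg a m p ^ 2) := by
  show a * gg a m p ^ 2 = gg a m p ^ 2 * a
  rw [pow_two, ← mul_assoc, ← R.g_p, mul_assoc, ← R.g_a, mul_assoc]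

theorem gg_sq : gg a m p ^ 2 = (m * a ^ 2 * m) * (p * (m * a ^ 2 * m) * p⁻¹) := by
  have := R.w3
  rw [← mul_assoc, ← mul_assoc, eq_mul_inv_iff_mul_eq]
  simp only [gg, pow_two, mul_assoc] at this ⊢
  exact this

theorem q_ggg : q * (gg a m p * q * gg a m p) = gg a m p * q * gg a m p * q := by
  have := R.w4
  simp only [gg, mul_assoc] at this ⊢
  exact this.symm

theorem dd_eq : dd a m p q = (a * p * q * m) ^ 3 := by
  have := R.w5
  simp only [gg, dd, pow_succ, pow_zero, one_mul, mul_assoc] at this ⊢
  exact this

theorem dd_a : Commute a (dd a m p q) := by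
  show a * dd a m p q = dd a m p q * a
  unfold dd
  generalize hg : gg a m p = g
  have h1 : g * a = p * g := by rw [← hg]; exact R.g_a
  have h2 : g * p = a * g := by rw [← hg]; exact R.g_p
  calc a * (a * p * g * q * g * q) = a * p * (a * g) * q * g * q := by
        simp only [mul_assoc]
        rw [← mul_assoc a p, R.ap, mul_assoc p a]
    _ = a * p * g * (p * q) * g * q := by rw [← h2]; simp only [mul_assoc]
    _ = a * p * g * q * (p * g) * q := by rw [R.pq]; simp only [mul_assoc]
    _ = a * p * g * q * g * (a * q) := by rw [← h1]; simp only [mul_assoc]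
    _ = a * p * g * q * g * q * a := by rw [R.aq]; simp only [mul_assoc]

theorem dd_p : Commute p (dd a m p q) := by
  show p * dd a m p q = dd a m p q * p
  unfold dd
  generalize hg : gg a m p = g
  have h1 : g * a = p * g := by rw [← hg]; exact R.g_a
  have h2 : g * p = a * g := by rw [← hg]; exact R.g_p
  calc p * (a * p * g * q * g * q) = a * p * (p * g) * q * g * q := by
        simp only [mul_assoc]
        rw [← mul_assoc p a, ← R.ap, mul_assoc a p]
    _ = a * p * g * (a * q) * g * q := by rw [← h1]; simp only [mul_assoc]
    _ = a * p * g * q * (a * g) * q := by rw [R.aq]; simp only [mul_assoc]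
    _ = a * p * g * q * g * (p * q) := by rw [← h2]; simp only [mul_assoc]
    _ = a * p * g * q * g * q * p := by rw [R.pq]; simp only [mul_assoc]

theorem dd_q : Commute q (dd a m p q) := by
  show q * dd a m p q = dd a m p q * q
  unfold dd
  have h := R.q_ggg
  generalize gg a m p = g at h ⊢
  calc q * (a * p * g * q * g * q) = a * p * (q * (g * q * g)) * q := by
        simp only [mul_assoc]
        rw [← mul_assoc q a, ← R.aq, mul_assoc a q, ← mul_assoc q p, ← R.pq, mul_assoc p q]
    _ = a * p * g * q * g * q * q := by rw [h]; simp only [mul_assoc]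

theorem dd_m : Commute m (dd a m p q) := by
  have h1 : Commute (a * p * q * m) (dd a m p q) := by
    rw [R.dd_eq]
    exact (Commute.refl _).pow_right 3
  have h2 : Commute (a * p * q) (dd a m p q) :=
    ((R.dd_a.mul_left R.dd_p).mul_left R.dd_q)
  have h3 := h2.inv_left.mul_left h1
  rwa [show (a * p * q)⁻¹ * (a * p * q * m) = m by group] at h3

theorem dd_sq : dd a m p q ^ 2 = a ^ 2 * p ^ 2 * gg a m p ^ 2 *
    ((q * (gg a m p * q * (gg a m p)⁻¹) ^ 2 * q⁻¹) * (q * gg a m p ^ 2 * q⁻¹) * q ^ 2) := by
  have hA : Commute (a * p * gg a m p) (dd a m p q) := by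
    refine (R.dd_a.mul_left R.dd_p).mul_left ?_
    unfold gg
    exact ((R.dd_m.mul_left R.dd_a).mul_left R.dd_p).mul_left R.dd_m
  have h1 := R.g_a
  have h2 := R.g_p
  have hap := R.ap
  unfold dd at hA ⊢
  generalize hg : gg a m p = g at h1 h2 hA ⊢
  have hA' : (a * p * g) * (q * g * q) = (q * g * q) * (a * p * g) := by
    have e : a * p * g * (a * p * g * q * g * q) = a * p * g * q * g * q * (a * p * g) := hA
    have e2 : a * p * g * ((a * p * g) * (q * g * q)) = a * p * g * ((q * g * q) * (a * p * g)) := by
      simpa only [mul_assoc] using e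
    exact mul_left_cancel e2
  have h2' : g * p = a * g := h2
  have e3 : p * (p * a) = a * (p * p) := by
    rw [← hap, ← mul_assoc, ← hap, mul_assoc]
  have e1 : (a * p * g) * (a * p * g) = a ^ 2 * p ^ 2 * g ^ 2 := by
    calc (a * p * g) * (a * p * g) = a * p * (g * a) * p * g := by simp only [mul_assoc]
      _ = a * p * p * (g * p) * g := by rw [h1]; simp only [mul_assoc]
      _ = a * p * (p * a) * g * g := by rw [h2']; simp only [mul_assoc]
      _ = a * (p * (p * a)) * g * g := by simp only [mul_assoc]
      _ = a * (a * (p * p)) * g * g := by rw [e3]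
      _ = a ^ 2 * p ^ 2 * g ^ 2 := by simp only [pow_two, mul_assoc]
  have e2 : (q * g * q) * (q * g * q) =
      (q * (g * q * g⁻¹) ^ 2 * q⁻¹) * (q * g ^ 2 * q⁻¹) * q ^ 2 := by
    simp only [pow_two]; group
  calc (a * p * g * q * g * q) ^ 2 = (a * p * g) * ((q * g * q) * (a * p * g)) * (q * g * q) := by
        rw [pow_two]; simp only [mul_assoc]
    _ = (a * p * g) * ((a * p * g) * (q * g * q)) * (q * g * q) := by rw [hA']
    _ = ((a * p * g) * (a * p * g)) * ((q * g * q) * (q * g * q)) := by simp only [mul_assoc]
    _ = _ := by rw [e1, e2]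

end words

/-- **Lemma D**, in terms of a length function. -/
theorem lemmaD {ℓ : G → ℝ} (h : QuadLength ℓ) (R : D4Rel a m p q)
    (oap : stabIp ℓ a p = 0) (oaq : stabIp ℓ a q = 0) (opq : stabIp ℓ p q = 0)
    (hpos : 0 < stabSq ℓ (dd a m p q)) :
    3 / 2 * stabSq ℓ a < stabIp ℓ a ((a * m) ^ 3) := by
  have hcap : Commute a p := R.ap
  have hcaq : Commute a q := R.aq
  have hcpq : Commute p q := R.pq
  -- `⟨δ, ·⟩` is constant on the generators
  set δ := dd a m p q with hδ
  have ca : Commute δ a := R.dd_a.symm
  have cm : Commute δ m := R.dd_m.symm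
  have cp : Commute δ p := R.dd_p.symm
  have cq : Commute δ q := R.dd_q.symm
  have conj : ∀ u v : G, u * v * u = v * u * v → Commute δ u → Commute δ v →
      stabIp ℓ δ u = stabIp ℓ δ v := by
    intro u v huv cu cv
    have e : (u * v) * u * (u * v)⁻¹ = v := by
      rw [mul_inv_eq_iff_eq_mul, huv]
      simp only [mul_assoc]
    have := stabIp_conj_right h (cu.mul_right cv) u
    rw [e] at this
    exact this.symm
  have i1 : stabIp ℓ δ m = stabIp ℓ δ a := (conj a m R.am ca cm).symm
  have i2 : stabIp ℓ δ p = stabIp ℓ δ a := (conj p m R.pm cp cm).trans i1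
  have i3 : stabIp ℓ δ q = stabIp ℓ δ a := (conj q m R.qm cq cm).trans i1
  have ig : stabIp ℓ δ (gg a m p) = 4 * stabIp ℓ δ a := by
    unfold gg
    rw [h.stabIp_mul ((cm.mul_right ca).mul_right cp) cm, h.stabIp_mul (cm.mul_right ca) cp,
      h.stabIp_mul cm ca, i1, i2]
    ring
  have cg : Commute δ (gg a m p) := by
    unfold gg
    exact ((cm.mul_right ca).mul_right cp).mul_right cm
  have iδ : stabIp ℓ δ δ = 12 * stabIp ℓ δ a := by
    have e : stabIp ℓ δ (a * p * gg a m p * q * gg a m p * q) = 12 * stabIp ℓ δ a := by
      rw [h.stabIp_mul ((((ca.mul_right cp).mul_right cg).mul_right cq).mul_right cg) cq,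
        h.stabIp_mul (((ca.mul_right cp).mul_right cg).mul_right cq) cg,
        h.stabIp_mul ((ca.mul_right cp).mul_right cg) cq,
        h.stabIp_mul (ca.mul_right cp) cg, h.stabIp_mul ca cp, i2, i3, ig]
      ring
    exact e
  have ipos : 0 < stabIp ℓ a δ := by
    rw [h.stabIp_self] at iδ
    rw [← QuadLength.stabIp_comm ca]
    linarith
  -- compute `⟨a, δ²⟩`
  have e1 : stabIp ℓ a (δ ^ 2) = 2 * stabIp ℓ a δ := by
    rw [stabIp_pow_right h ca.symm]; push_cast; ring
  set B := m * a ^ 2 * m with hB
  have cB : Commute a B := by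
    have := R.w7
    show a * (m * a ^ 2 * m) = m * a ^ 2 * m * a
    simp only [pow_two, mul_assoc] at this ⊢
    exact this
  have hz : (a * m) ^ 3 = a ^ 2 * B := by
    have := R.w6
    simp only [hB, pow_succ, pow_zero, one_mul, mul_assoc] at this ⊢
    exact this
  have ca2 : Commute a (a ^ 2) := (Commute.refl a).pow_right 2
  have iz : stabIp ℓ a ((a * m) ^ 3) = 2 * stabSq ℓ a + stabIp ℓ a B := by
    rw [hz, h.stabIp_mul ca2 cB, stabIp_pow_right h (Commute.refl a), h.stabIp_self]
    push_cast; ring
  have cpB : Commute a (p * B * p⁻¹) := (hcap.mul_right cB).mul_right hcap.inv_right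
  have cG2 : Commute a (gg a m p ^ 2) := R.gg_commute_sq
  have iG2 : stabIp ℓ a (gg a m p ^ 2) = 2 * stabIp ℓ a B := by
    rw [R.gg_sq, h.stabIp_mul cB cpB, stabIp_conj_right h hcap]
    ring
  -- `r = g q g⁻¹`
  have er : gg a m p * p * (gg a m p)⁻¹ = a := by
    rw [R.g_p]; group
  have cr : Commute a (gg a m p * q * (gg a m p)⁻¹) := by
    have h1 : gg a m p * q * (gg a m p)⁻¹ * (gg a m p * p * (gg a m p)⁻¹)
        = gg a m p * (q * p) * (gg a m p)⁻¹ := by group
    have h2 : gg a m p * p * (gg a m p)⁻¹ * (gg a m p * q * (gg a m p)⁻¹)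
        = gg a m p * (p * q) * (gg a m p)⁻¹ := by group
    rw [er] at h1 h2
    show a * (gg a m p * q * (gg a m p)⁻¹) = gg a m p * q * (gg a m p)⁻¹ * a
    rw [h1, h2, R.pq]
  have ir : stabIp ℓ a (gg a m p * q * (gg a m p)⁻¹) = 0 := by
    have := stabIp_conj h p q (gg a m p)
    rw [er, opq] at this
    exact this
  have cr2 : Commute a ((gg a m p * q * (gg a m p)⁻¹) ^ 2) := cr.pow_right 2
  have c1 : Commute a (q * (gg a m p * q * (gg a m p)⁻¹) ^ 2 * q⁻¹) :=
    (hcaq.mul_right cr2).mul_right hcaq.inv_right
  have c2 : Commute a (q * gg a m p ^ 2 * q⁻¹) := (hcaq.mul_right cG2).mul_right hcaq.inv_right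
  have e2 : stabIp ℓ a (δ ^ 2) = 2 * stabSq ℓ a + 4 * stabIp ℓ a B := by
    rw [hδ, R.dd_sq, h.stabIp_mul ((ca2.mul_right (hcap.pow_right 2)).mul_right cG2)
      ((c1.mul_right c2).mul_right (hcaq.pow_right 2)),
      h.stabIp_mul (ca2.mul_right (hcap.pow_right 2)) cG2,
      h.stabIp_mul ca2 (hcap.pow_right 2),
      h.stabIp_mul (c1.mul_right c2) (hcaq.pow_right 2), h.stabIp_mul c1 c2,
      stabIp_conj_right h hcaq, stabIp_conj_right h hcaq, iG2,
      stabIp_pow_right h (Commute.refl a), stabIp_pow_right h hcap, stabIp_pow_right h hcaq,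
      stabIp_pow_right h cr, ir, oap, oaq, h.stabIp_self]
    push_cast; ring
  rw [iz]
  rw [e1] at e2
  linarith

end D4Rel

end Crest.Agent.R175.Geo
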