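import Mathlib
import Crest.Agent.R175.Geo3_974

/-!
# R175 (S0264), geometry 4 : Lemma O (orthogonality) and Lemma D (`D₄`)
-/

set_option autoImplicit false

open Set Crest.Geometry Filter Topology

namespace Crest.Agent.R175.Geo

open R244

universe u

section

variable {X : Type u} [MetricSpace X] {G : Type*} [Group G] [MulAction G X]

theorem dist_pow_pow (hi : IsIsometricSMul G X) (x : X) {f g : G} (hfg : Commute f g) (n : ℕ) :
    dist (f ^ n • x) (g ^ n • x) = len x ((f⁻¹ * g) ^ n) := by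
  rw [dist_smul_smul' hi, hfg.inv_left.mul_pow, inv_pow]

theorem tendsto_dist_pow (hX : IsCAT0Space X) (hi : IsIsometricSMul G X) (x : X) {f g : G}
    (hfg : Commute f g) :
    Tendsto (fun k : ℕ => dist (f ^ 2 ^ k • x) (g ^ 2 ^ k • x) / 2 ^ k) atTop
      (𝓝 (Real.sqrt (stabSq (len (G := G) x) (f⁻¹ * g)))) := by
  refine (tendsto_len_div (quadLength (G := G) hX hi x) (f⁻¹ * g)).congr fun k => ?_
  rw [dist_pow_pow hi x hfg]

theorem sqrt_le_dist (hX : IsCAT0Space X) (hi : IsIsometricSMul G X) (x : X) (f g : G) :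
    Real.sqrt (stabSq (len (G := G) x) (f⁻¹ * g)) ≤ dist (f • x) (g • x) := by
  rw [dist_smul_smul' hi]
  exact sqrt_stabSq_le (quadLength (G := G) hX hi x) _

theorem tendsto_const_div_two_pow (K : ℝ) : Tendsto (fun k : ℕ => K / 2 ^ k) atTop (𝓝 0) :=
  Tendsto.div_atTop tendsto_const_nhds (tendsto_pow_atTop_atTop_of_one_lt (by norm_num))

/-- `stabSq (u⁻ⁱ hᵏ) ≥ i² stabSq u` when `h` is orthogonal to `u`. -/
theorem le_stabSq_inv_pow_mul {ℓ : G → ℝ} (h : QuadLength ℓ) {u c : G} (hc : Commute u c)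
    (h0 : stabIp ℓ c u = 0) (n : ℕ) (m : ℤ) :
    (n : ℝ) ^ 2 * stabSq ℓ u ≤ stabSq ℓ ((u ^ n)⁻¹ * c ^ m) := by
  have hcn : Commute (u ^ n)⁻¹ c := (hc.pow_left n).inv_left
  have h1 : stabIp ℓ c (u ^ n)⁻¹ = 0 := by
    rw [h.stabIp_inv (hc.symm.pow_right n), stabIp_pow_right h hc.symm, h0]; simp
  have h2 := stabSq_le_mul h hcn h1 m
  rw [h.stabSq_inv, h.stabSq_pow] at h2
  exact h2

end

variable {X : Type u} [MetricSpace X] [ProperSpace X] {G : Type*} [Group G] [MulAction G X]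

/-- **Lemma O** (orthogonality): `v` commutes with `u` and `u'`, and `u`, `u' u u'⁻¹` diverge. -/
theorem orth (hX : IsCAT0Space X) (hG : IsGeometricAction G X) (x : X) {u v u' r₁ r₂ : G}
    {U : Set G} (h1 : Commute r₁ u) (h2 : Commute r₁ u') (h3 : Commute r₂ u)
    (h4 : Commute r₂ u') (h5 : Commute v u) (h6 : Commute v u')
    (D : DivData {r₁ * r₂ * r₁⁻¹ * r₂⁻¹} {e | ∃ k : ℤ, e = (r₁ * r₂ * r₁⁻¹ * r₂⁻¹) ^ k} U
      u (u' * u * u'⁻¹)) :
    stabIp (len (G := G) x) u v = 0 := by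
  have hi := hG.1
  have hq := quadLength (G := G) hX hi x
  set ℓ := len (G := G) x with hℓ
  set c := r₁ * r₂ * r₁⁻¹ * r₂⁻¹ with hc
  set w := u' * u * u'⁻¹ with hw
  -- commutation facts
  have c1 : Commute u c := ((h1.symm.mul_right h3.symm).mul_right h1.symm.inv_right).mul_right
    h3.symm.inv_right
  have r1w : Commute r₁ w := (h2.mul_right h1).mul_right h2.inv_right
  have r2w : Commute r₂ w := (h4.mul_right h3).mul_right h4.inv_right
  have c2 : Commute w c := ((r1w.symm.mul_right r2w.symm).mul_right r1w.symm.inv_right).mul_right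
    r2w.symm.inv_right
  have vw : Commute v w := (h6.mul_right h5).mul_right h6.inv_right
  have ip1 : stabIp ℓ c u = 0 := by
    rw [← QuadLength.stabIp_comm c1]
    exact hq.stabIp_commutator h1.symm h3.symm
  have ip2 : stabIp ℓ c w = 0 := by
    rw [← QuadLength.stabIp_comm c2]
    exact hq.stabIp_commutator r1w.symm r2w.symm
  have sw : stabSq ℓ w = stabSq ℓ u := stabSq_conj hq u u'
  have ipw : stabIp ℓ w v = stabIp ℓ u v := by
    rw [← QuadLength.stabIp_comm vw, ← QuadLength.stabIp_comm h5]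
    exact stabIp_conj_right hq h6 u
  obtain ⟨K, hK⟩ := divergence hX hG x D
  -- main estimate
  have main : ∀ (q : ℕ) (p : ℤ), 0 < q → 2 * (p : ℝ) * q * stabIp ℓ u v ≤ p ^ 2 * stabSq ℓ v := by
    intro q p hq0
    have l1 := tendsto_dist_pow hX hi x (f := u ^ q) (g := v ^ p)
      ((h5.symm.pow_left q).zpow_right p)
    have l2 := tendsto_dist_pow hX hi x (f := w ^ q) (g := v ^ p)
      ((vw.symm.pow_left q).zpow_right p)
    have e1 : stabSq ℓ ((u ^ q)⁻¹ * v ^ p) = q ^ 2 * stabSq ℓ u - 2 * q * p * stabIp ℓ u v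
        + p ^ 2 * stabSq ℓ v := by
      have := stabSq_zpow_mul_zpow hq h5.symm (-(q : ℤ)) p
      rw [zpow_neg, zpow_natCast] at this
      rw [this]; push_cast; ring
    have e2 : stabSq ℓ ((w ^ q)⁻¹ * v ^ p) = q ^ 2 * stabSq ℓ u - 2 * q * p * stabIp ℓ u v
        + p ^ 2 * stabSq ℓ v := by
      have := stabSq_zpow_mul_zpow hq vw.symm (-(q : ℤ)) p
      rw [zpow_neg, zpow_natCast, sw, ipw] at this
      rw [this]; push_cast; ring
    rw [e1] at l1
    rw [e2] at l2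
    set S := (q : ℝ) ^ 2 * stabSq ℓ u - 2 * q * p * stabIp ℓ u v + p ^ 2 * stabSq ℓ v with hS
    have lK := tendsto_const_div_two_pow K
    have l3 := (l1.add l2).add lK
    rw [add_zero] at l3
    have hle : 2 * (q * Real.sqrt (stabSq ℓ u)) ≤ Real.sqrt S + Real.sqrt S := by
      refine ge_of_tendsto' l3 fun k => ?_
      have hn : 0 < q * 2 ^ k := Nat.mul_pos hq0 (pow_pos (by norm_num) k)
      obtain ⟨e, ⟨m, rfl⟩, he⟩ := hK (q * 2 ^ k) (q * 2 ^ k) hn hn
      have b1 := sqrt_le_dist hX hi x (u ^ (q * 2 ^ k)) (c ^ m)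
      have b2 := sqrt_le_dist hX hi x (w ^ (q * 2 ^ k)) (c ^ m)
      rw [dist_comm] at b2
      have s1 := le_stabSq_inv_pow_mul hq c1 ip1 (q * 2 ^ k) m
      have s2 := le_stabSq_inv_pow_mul hq c2 ip2 (q * 2 ^ k) m
      rw [sw] at s2
      have hsq : Real.sqrt (((q * 2 ^ k : ℕ) : ℝ) ^ 2 * stabSq ℓ u)
          = ((q * 2 ^ k : ℕ) : ℝ) * Real.sqrt (stabSq ℓ u) := by
        rw [Real.sqrt_mul (by positivity), Real.sqrt_sq (by positivity)]
      have t1 := Real.sqrt_le_sqrt s1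
      have t2 := Real.sqrt_le_sqrt s2
      rw [hsq] at t1 t2
      have tri : dist (u ^ (q * 2 ^ k) • x) (w ^ (q * 2 ^ k) • x) ≤
          dist ((u ^ q) ^ 2 ^ k • x) ((v ^ p) ^ 2 ^ k • x)
            + dist ((w ^ q) ^ 2 ^ k • x) ((v ^ p) ^ 2 ^ k • x) := by
        rw [pow_mul, pow_mul, dist_comm ((w ^ q) ^ 2 ^ k • x)]
        exact dist_triangle _ _ _
      have h2k : (0 : ℝ) < 2 ^ k := by positivity
      rw [← add_div, ← add_div, le_div_iff₀ h2k]
      have : ((q * 2 ^ k : ℕ) : ℝ) = q * 2 ^ k := by push_cast; ring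
      rw [this] at t1 t2
      nlinarith [he, b1, b2, t1, t2, tri]
    have hle2 : (q : ℝ) * Real.sqrt (stabSq ℓ u) ≤ Real.sqrt S := by linarith
    have hq' : (0 : ℝ) ≤ (q : ℝ) * Real.sqrt (stabSq ℓ u) := by positivity
    have hu0 := QuadLength.stabSq_nonneg (ℓ := ℓ) u
    have hSnn : 0 ≤ S := by rw [← e1]; exact QuadLength.stabSq_nonneg _
    have h7 : ((q : ℝ) * Real.sqrt (stabSq ℓ u)) ^ 2 ≤ (Real.sqrt S) ^ 2 :=
      pow_le_pow_left₀ hq' hle2 2
    rw [mul_pow, Real.sq_sqrt hu0, Real.sq_sqrt hSnn] at h7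
    rw [hS] at h7
    linarith
  -- conclusion
  have hv := QuadLength.stabSq_nonneg (ℓ := ℓ) v
  by_contra hne
  rcases lt_or_gt_of_ne hne with hlt | hgt
  · obtain ⟨q, hq1⟩ := exists_nat_gt (stabSq ℓ v / (2 * -(stabIp ℓ u v)))
    have hpos : 0 < 2 * -(stabIp ℓ u v) := by linarith
    rw [div_lt_iff₀ hpos] at hq1
    have hq0 : 0 < q := by
      rcases Nat.eq_zero_or_pos q with h | h
      · rw [h] at hq1; simp only [Nat.cast_zero, zero_mul] at hq1; linarith
      · exact h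
    have := main q (-1) hq0
    push_cast at this
    nlinarith
  · obtain ⟨q, hq1⟩ := exists_nat_gt (stabSq ℓ v / (2 * (stabIp ℓ u v)))
    have hpos : 0 < 2 * (stabIp ℓ u v) := by linarith
    rw [div_lt_iff₀ hpos] at hq1
    have hq0 : 0 < q := by
      rcases Nat.eq_zero_or_pos q with h | h
      · rw [h] at hq1; simp only [Nat.cast_zero, zero_mul] at hq1; linarith
      · exact h
    have := main q 1 hq0
    push_cast at this
    nlinarith

end Crest.Agent.R175.Geo
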