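import Mathlib
import Crest.Agent.R175.Geo4_974

/-!
# R175 (S0264), geometry 6 : Lemma T (the `(3,3,3)` triangle)
-/

set_option autoImplicit false

open Set Crest.Geometry Filter Topology

namespace Crest.Agent.R175.Geo

open R244

universe u

/-- Group-theoretic input for the edge `{a, b}` of the triangle. -/
def EdgeData {G : Type*} [Group G] (a b : G) : Prop :=
  ∃ (r₁ r₂ : G) (U : Set G), Commute r₁ a ∧ Commute r₁ b ∧ Commute r₂ a ∧ Commute r₂ b ∧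
    DivData {r₁ * r₂ * r₁⁻¹ * r₂⁻¹, (a * b) ^ 3}
      {e | ∃ j m : ℤ, e = ((a * b) ^ 3) ^ j * (r₁ * r₂ * r₁⁻¹ * r₂⁻¹) ^ m} U a b

/-- Group-theoretic input for the vertex `a` of the triangle `{a, b, c}`. -/
def VertexData {G : Type*} [Group G] (a b c : G) : Prop :=
  ∃ (r₁ r₂ : G) (U : Set G), Commute r₁ a ∧ Commute r₁ b ∧ Commute r₁ c ∧
    Commute r₂ a ∧ Commute r₂ b ∧ Commute r₂ c ∧
    DivData {r₁ * r₂ * r₁⁻¹ * r₂⁻¹, a}
      {e | ∃ j m : ℤ, e = a ^ j * (r₁ * r₂ * r₁⁻¹ * r₂⁻¹) ^ m} U ((a * b) ^ 3) ((c * a) ^ 3)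

section algebra

variable {G : Type*} [Group G] {a b : G}

theorem conj_of_braid (h : a * b * a = b * a * b) : (a * b) * a * (a * b)⁻¹ = b := by
  rw [mul_inv_eq_iff_eq_mul, h]
  simp only [mul_assoc]

theorem conj_of_braid' (h : a * b * a = b * a * b) : (a * b)⁻¹ * b * (a * b) = a := by
  have e : b * (a * b) = (a * b) * a := by rw [h, mul_assoc]
  rw [mul_assoc, e]
  group

theorem cube_eq (h : a * b * a = b * a * b) : (a * b) ^ 3 = (a * b * a) ^ 2 := by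
  calc (a * b) ^ 3 = (a * b * a) * (b * a * b) := by
        simp only [pow_succ, pow_zero, one_mul, mul_assoc]
    _ = (a * b * a) ^ 2 := by rw [← h, pow_two]

theorem commute_left_cube (h : a * b * a = b * a * b) : Commute a ((a * b) ^ 3) := by
  have e1 : a * (a * b * a) = (a * b * a) * b := by
    calc a * (a * b * a) = a * (b * a * b) := by rw [h]
      _ = (a * b * a) * b := by simp only [mul_assoc]
  have e2 : b * (a * b * a) = (a * b * a) * a := by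
    calc b * (a * b * a) = (b * a * b) * a := by simp only [mul_assoc]
      _ = (a * b * a) * a := by rw [← h]
  show a * (a * b) ^ 3 = (a * b) ^ 3 * a
  rw [cube_eq h, pow_two]
  calc a * (a * b * a * (a * b * a)) = a * (a * b * a) * (a * b * a) :=
        (mul_assoc a (a * b * a) (a * b * a)).symm
    _ = (a * b * a) * b * (a * b * a) := by rw [e1]
    _ = (a * b * a) * (b * (a * b * a)) := mul_assoc (a * b * a) b (a * b * a)
    _ = (a * b * a) * ((a * b * a) * a) := by rw [e2]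
    _ = a * b * a * (a * b * a) * a := (mul_assoc (a * b * a) (a * b * a) a).symm

theorem commute_right_cube (h : a * b * a = b * a * b) : Commute b ((a * b) ^ 3) := by
  have h1 := commute_left_cube h
  have h2 : Commute (a * b) ((a * b) ^ 3) := (Commute.refl _).pow_right 3
  have h3 := h1.inv_left.mul_left h2
  rwa [inv_mul_cancel_left] at h3

variable {ℓ : G → ℝ}

theorem stabSq_eq_of_braid (hq : QuadLength ℓ) (h : a * b * a = b * a * b) :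
    stabSq ℓ b = stabSq ℓ a := by
  have := stabSq_conj hq a (a * b)
  rwa [conj_of_braid h] at this

theorem ip_eq_of_braid (hq : QuadLength ℓ) (h : a * b * a = b * a * b) :
    stabIp ℓ b ((a * b) ^ 3) = stabIp ℓ a ((a * b) ^ 3) := by
  have hc : Commute ((a * b) ^ 3) (a * b) := (Commute.refl (a * b)).pow_left 3
  have h1 := stabIp_conj_right hq hc a
  rw [conj_of_braid h] at h1
  rw [QuadLength.stabIp_comm (commute_right_cube h), QuadLength.stabIp_comm (commute_left_cube h)]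
  exact h1

theorem stabSq_cube (hq : QuadLength ℓ) (h : a * b * a = b * a * b) :
    stabSq ℓ ((a * b) ^ 3) = 6 * stabIp ℓ a ((a * b) ^ 3) := by
  have h1 := (commute_left_cube h).symm
  have h2 := (commute_right_cube h).symm
  have e1 : stabIp ℓ ((a * b) ^ 3) ((a * b) ^ 3)
      = 3 * (stabIp ℓ ((a * b) ^ 3) a + stabIp ℓ ((a * b) ^ 3) b) := by
    have := stabIp_pow_right hq (h1.mul_right h2) 3
    rw [hq.stabIp_mul h1 h2] at this
    rw [this]; push_cast; ring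
  rw [hq.stabIp_self] at e1
  rw [e1, QuadLength.stabIp_comm h1, QuadLength.stabIp_comm h2, ip_eq_of_braid hq h]
  ring

theorem stabSq_inv_six_mul (hq : QuadLength ℓ) {u z : G} (huz : Commute u z)
    (hz : stabSq ℓ z = 6 * stabIp ℓ u z) :
    stabSq ℓ ((u ^ 6)⁻¹ * z) = 36 * stabSq ℓ u - 6 * stabIp ℓ u z := by
  have := stabSq_zpow_mul_zpow hq huz (-(6 : ℤ)) 1
  rw [zpow_neg, zpow_one, hz] at this
  have e : (u ^ (6 : ℤ)) = u ^ 6 := zpow_natCast u 6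
  rw [e] at this
  rw [this]; push_cast; ring

/-- Lower bound for the distance of a point of the `a`-axis to the plane of `z`, `c`. -/
theorem edge_lower (hq : QuadLength ℓ) {u z c : G} (huz : Commute u z) (huc : Commute u c)
    (hzc : Commute z c) (hz : stabSq ℓ z = 6 * stabIp ℓ u z) (h1 : stabIp ℓ c u = 0)
    (h2 : stabIp ℓ c z = 0) (n : ℕ) (j m : ℤ) :
    (n : ℝ) ^ 2 * (36 * stabSq ℓ u - 6 * stabIp ℓ u z) ≤
      stabSq ℓ ((u ^ (6 * n))⁻¹ * (z ^ j * c ^ m)) := by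
  have c1 : Commute (u ^ (6 * n))⁻¹ c := (huc.pow_left _).inv_left
  have c2 : Commute (z ^ j) c := hzc.zpow_left j
  have i1 : stabIp ℓ c ((u ^ (6 * n))⁻¹ * z ^ j) = 0 := by
    rw [hq.stabIp_mul c1.symm c2.symm, hq.stabIp_inv (huc.symm.pow_right _),
      stabIp_pow_right hq huc.symm, stabIp_zpow_right hq hzc.symm, h1, h2]
    ring
  have h3 := stabSq_le_mul hq (c1.mul_left c2) i1 m
  rw [mul_assoc] at h3
  refine le_trans ?_ h3
  have h4 := stabSq_zpow_mul_zpow hq huz (-((6 * n : ℕ) : ℤ)) j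
  rw [zpow_neg, zpow_natCast, hz] at h4
  rw [h4]
  have hz0 : 0 ≤ stabIp ℓ u z := by
    have := QuadLength.stabSq_nonneg (ℓ := ℓ) z
    linarith
  push_cast
  nlinarith [mul_nonneg hz0 (sq_nonneg ((n : ℝ) - j))]

/-- Lower bound for the distance of a point of the `z`-axis to the plane of `u`, `c`. -/
theorem vertex_lower (hq : QuadLength ℓ) {u z c : G} (huz : Commute u z) (huc : Commute u c)
    (hzc : Commute z c) (hz : stabSq ℓ z = 6 * stabIp ℓ u z) (h1 : stabIp ℓ c u = 0)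
    (h2 : stabIp ℓ c z = 0) (n : ℕ) (j m : ℤ) :
    6 * (n : ℝ) ^ 2 * stabIp ℓ u z - 2 * n * j * stabIp ℓ u z + j ^ 2 * stabSq ℓ u ≤
      stabSq ℓ ((z ^ n)⁻¹ * (u ^ j * c ^ m)) := by
  have c1 : Commute (z ^ n)⁻¹ c := (hzc.pow_left _).inv_left
  have c2 : Commute (u ^ j) c := huc.zpow_left j
  have i1 : stabIp ℓ c ((z ^ n)⁻¹ * u ^ j) = 0 := by
    rw [hq.stabIp_mul c1.symm c2.symm, hq.stabIp_inv (hzc.symm.pow_right _),
      stabIp_pow_right hq hzc.symm, stabIp_zpow_right hq huc.symm, h1, h2]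
    ring
  have h3 := stabSq_le_mul hq (c1.mul_left c2) i1 m
  rw [mul_assoc] at h3
  refine le_trans ?_ h3
  have h4 := stabSq_zpow_mul_zpow hq huz.symm (-(n : ℤ)) j
  rw [zpow_neg, zpow_natCast, hz, QuadLength.stabIp_comm huz.symm] at h4
  rw [h4]
  push_cast
  nlinarith

end algebra

/-- Minkowski's inequality in the plane, unfolded form. -/
theorem mink (p₁ q₁ p₂ q₂ : ℝ) :
    Real.sqrt ((p₁ - p₂) ^ 2 + (q₁ + q₂) ^ 2) ≤
      Real.sqrt (p₁ ^ 2 + q₁ ^ 2) + Real.sqrt (p₂ ^ 2 + q₂ ^ 2) := by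
  have hA : 0 ≤ p₁ ^ 2 + q₁ ^ 2 := by positivity
  have hB : 0 ≤ p₂ ^ 2 + q₂ ^ 2 := by positivity
  apply Real.sqrt_le_iff.2
  refine ⟨by positivity, ?_⟩
  have h1 : (Real.sqrt (p₁ ^ 2 + q₁ ^ 2) + Real.sqrt (p₂ ^ 2 + q₂ ^ 2)) ^ 2
      = (p₁ ^ 2 + q₁ ^ 2) + (p₂ ^ 2 + q₂ ^ 2)
        + 2 * Real.sqrt ((p₁ ^ 2 + q₁ ^ 2) * (p₂ ^ 2 + q₂ ^ 2)) := by
    rw [add_sq, Real.sq_sqrt hA, Real.sq_sqrt hB, Real.sqrt_mul hA]; ring
  have h2 : q₁ * q₂ - p₁ * p₂ ≤ Real.sqrt ((p₁ ^ 2 + q₁ ^ 2) * (p₂ ^ 2 + q₂ ^ 2)) := by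
    apply Real.le_sqrt_of_sq_le
    nlinarith [sq_nonneg (p₁ * q₂ + p₂ * q₁)]
  rw [h1]
  nlinarith

variable {X : Type u} [MetricSpace X] [ProperSpace X] {G : Type*} [Group G] [MulAction G X]

/-- Lower bound of the distance between the axes of `a` and `b`. -/
theorem edge_dist (hX : IsCAT0Space X) (hG : IsGeometricAction G X) (x : X) {a b : G}
    (h : a * b * a = b * a * b) (E : EdgeData a b) :
    ∃ K : ℝ, ∀ n : ℕ, 0 < n → 2 * n * Real.sqrt (36 * stabSq (len (G := G) x) a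
      - 6 * stabIp (len (G := G) x) a ((a * b) ^ 3)) - K ≤
        dist ((a ^ 6) ^ n • x) ((b ^ 6) ^ n • x) := by
  have hi := hG.1
  have hq := quadLength (G := G) hX hi x
  obtain ⟨r₁, r₂, U, c1, c2, c3, c4, D⟩ := E
  set ℓ := len (G := G) x with hℓ
  set c := r₁ * r₂ * r₁⁻¹ * r₂⁻¹ with hc
  set z := (a * b) ^ 3 with hz
  have haz : Commute a z := commute_left_cube h
  have hbz : Commute b z := commute_right_cube h
  have hac : Commute a c := ((c1.symm.mul_right c3.symm).mul_right c1.symm.inv_right).mul_right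
    c3.symm.inv_right
  have hbc : Commute b c := ((c2.symm.mul_right c4.symm).mul_right c2.symm.inv_right).mul_right
    c4.symm.inv_right
  have z1 : Commute z r₁ := ((c1.symm.mul_left c2.symm).pow_left 3)
  have z2 : Commute z r₂ := ((c3.symm.mul_left c4.symm).pow_left 3)
  have hzc : Commute z c := ((z1.mul_right z2).mul_right z1.inv_right).mul_right z2.inv_right
  have ia : stabIp ℓ c a = 0 := by
    rw [← QuadLength.stabIp_comm hac]; exact hq.stabIp_commutator c1.symm c3.symm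
  have ib : stabIp ℓ c b = 0 := by
    rw [← QuadLength.stabIp_comm hbc]; exact hq.stabIp_commutator c2.symm c4.symm
  have iz : stabIp ℓ c z = 0 := by
    rw [← QuadLength.stabIp_comm hzc]; exact hq.stabIp_commutator z1 z2
  have sz : stabSq ℓ z = 6 * stabIp ℓ a z := stabSq_cube hq h
  have sb : stabSq ℓ b = stabSq ℓ a := stabSq_eq_of_braid hq h
  have ibz : stabIp ℓ b z = stabIp ℓ a z := ip_eq_of_braid hq h
  obtain ⟨K, hK⟩ := divergence hX hG x D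
  refine ⟨K, fun n hn => ?_⟩
  obtain ⟨e, ⟨j, m, rfl⟩, he⟩ := hK (6 * n) (6 * n) (by omega) (by omega)
  have b1 := sqrt_le_dist hX hi x (a ^ (6 * n)) (z ^ j * c ^ m)
  have b2 := sqrt_le_dist hX hi x (b ^ (6 * n)) (z ^ j * c ^ m)
  rw [dist_comm] at b2
  have l1 := edge_lower hq haz hac hzc sz ia iz n j m
  have l2 := edge_lower hq hbz hbc hzc (by rw [sz, ibz]) ib iz n j m
  rw [sb, ibz] at l2
  have t1 := Real.sqrt_le_sqrt l1
  have t2 := Real.sqrt_le_sqrt l2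
  rw [Real.sqrt_mul (by positivity), Real.sqrt_sq (by positivity)] at t1 t2
  rw [← pow_mul, ← pow_mul]
  linarith

set_option maxHeartbeats 1600000 in
/-- The inequality at a vertex of the triangle. -/
theorem vertex_ineq (hX : IsCAT0Space X) (hG : IsGeometricAction G X) (x : X) {a b c : G}
    (hab : a * b * a = b * a * b) (hbc : b * c * b = c * b * c) (hca : c * a * c = a * c * a)
    (Eab : EdgeData a b) (Eca : EdgeData c a) (V : VertexData a b c) {N τ₁ τ₂ τ₃ : ℝ}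
    (hN : 0 < N) (hNa : stabSq (len (G := G) x) a = N)
    (h1 : stabIp (len (G := G) x) a ((a * b) ^ 3) = N * τ₁)
    (h2 : stabIp (len (G := G) x) c ((c * a) ^ 3) = N * τ₂)
    (h3 : stabIp (len (G := G) x) b ((b * c) ^ 3) = N * τ₃) (hτ₁ : τ₁ ≤ 6) (hτ₂ : τ₂ ≤ 6) :
    3 * (τ₁ + τ₂ + τ₃) - 18 - τ₁ * τ₂ + Real.sqrt (τ₁ * (6 - τ₁)) * Real.sqrt (τ₂ * (6 - τ₂)) ≤ 0 := by
  have hi := hG.1
  have hq := quadLength (G := G) hX hi x
  set ℓ := len (G := G) x with hℓ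
  set z₁ := (a * b) ^ 3 with hz₁
  set z₂ := (c * a) ^ 3 with hz₂
  set z₃ := (b * c) ^ 3 with hz₃
  have haz₁ : Commute a z₁ := commute_left_cube hab
  have hbz₁ : Commute b z₁ := commute_right_cube hab
  have hcz₂ : Commute c z₂ := commute_left_cube hca
  have haz₂ : Commute a z₂ := commute_right_cube hca
  have hbz₃ : Commute b z₃ := commute_left_cube hbc
  have hcz₃ : Commute c z₃ := commute_right_cube hbc
  have sb : stabSq ℓ b = N := (stabSq_eq_of_braid hq hab).trans hNa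
  have sc : stabSq ℓ c = N := (stabSq_eq_of_braid hq hbc).trans sb
  have s1 : stabSq ℓ z₁ = 6 * stabIp ℓ a z₁ := stabSq_cube hq hab
  have s2 : stabSq ℓ z₂ = 6 * stabIp ℓ c z₂ := stabSq_cube hq hca
  have s3 : stabSq ℓ z₃ = 6 * stabIp ℓ b z₃ := stabSq_cube hq hbc
  have ib₁ : stabIp ℓ b z₁ = stabIp ℓ a z₁ := ip_eq_of_braid hq hab
  have ia₂ : stabIp ℓ a z₂ = stabIp ℓ c z₂ := ip_eq_of_braid hq hca
  have ic₃ : stabIp ℓ c z₃ = stabIp ℓ b z₃ := ip_eq_of_braid hq hbc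
  have τ₁0 : 0 ≤ τ₁ := by
    have := QuadLength.stabSq_nonneg (ℓ := ℓ) z₁
    rw [s1, h1] at this
    by_contra hneg
    push Not at hneg
    nlinarith
  have τ₂0 : 0 ≤ τ₂ := by
    have := QuadLength.stabSq_nonneg (ℓ := ℓ) z₂
    rw [s2, h2] at this
    by_contra hneg
    push Not at hneg
    nlinarith
  -- limits
  have LA1 := tendsto_dist_pow hX hi x (f := a ^ 6) (g := z₁) (haz₁.pow_left 6)
  have LB1 := tendsto_dist_pow hX hi x (f := b ^ 6) (g := z₁) (hbz₁.pow_left 6)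
  have LA2 := tendsto_dist_pow hX hi x (f := a ^ 6) (g := z₂) (haz₂.pow_left 6)
  have LC2 := tendsto_dist_pow hX hi x (f := c ^ 6) (g := z₂) (hcz₂.pow_left 6)
  have LB3 := tendsto_dist_pow hX hi x (f := b ^ 6) (g := z₃) (hbz₃.pow_left 6)
  have LC3 := tendsto_dist_pow hX hi x (f := c ^ 6) (g := z₃) (hcz₃.pow_left 6)
  rw [stabSq_inv_six_mul hq haz₁ s1, hNa, h1] at LA1
  rw [stabSq_inv_six_mul hq hbz₁ (by rw [s1, ib₁]), sb, ib₁, h1] at LB1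
  rw [stabSq_inv_six_mul hq haz₂ (by rw [s2, ia₂]), hNa, ia₂, h2] at LA2
  rw [stabSq_inv_six_mul hq hcz₂ s2, sc, h2] at LC2
  rw [stabSq_inv_six_mul hq hbz₃ s3, sb, h3] at LB3
  rw [stabSq_inv_six_mul hq hcz₃ (by rw [s3, ic₃]), sc, ic₃, h3] at LC3
  set ρ₁ := Real.sqrt (36 * N - 6 * (N * τ₁)) with hρ₁
  set ρ₂ := Real.sqrt (36 * N - 6 * (N * τ₂)) with hρ₂
  set ρ₃ := Real.sqrt (36 * N - 6 * (N * τ₃)) with hρ₃
  obtain ⟨K₁, hK₁⟩ := edge_dist hX hG x hab Eab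
  obtain ⟨K₂, hK₂⟩ := edge_dist hX hG x hca Eca
  rw [hNa, h1] at hK₁
  rw [sc, h2] at hK₂
  -- the vertex bound
  set σ₁ := Real.sqrt (τ₁ * (6 - τ₁)) with hσ₁
  set σ₂ := Real.sqrt (τ₂ * (6 - τ₂)) with hσ₂
  have hσ₁2 : σ₁ ^ 2 = τ₁ * (6 - τ₁) := Real.sq_sqrt (mul_nonneg τ₁0 (by linarith))
  have hσ₂2 : σ₂ ^ 2 = τ₂ * (6 - τ₂) := Real.sq_sqrt (mul_nonneg τ₂0 (by linarith))
  set v := Real.sqrt N * Real.sqrt ((τ₁ - τ₂) ^ 2 + (σ₁ + σ₂) ^ 2) with hv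
  obtain ⟨K₃, hK₃⟩ : ∃ K₃ : ℝ, ∀ n : ℕ, 0 < n →
      n * v - K₃ ≤ dist (z₁ ^ n • x) (z₂ ^ n • x) := by
    obtain ⟨r₁, r₂, U, c1, c2, c3, c4, c5, c6, D⟩ := V
    set d := r₁ * r₂ * r₁⁻¹ * r₂⁻¹ with hd
    have hac : Commute a d := ((c1.symm.mul_right c4.symm).mul_right
      c1.symm.inv_right).mul_right c4.symm.inv_right
    have z11 : Commute z₁ r₁ := ((c1.symm.mul_left c2.symm).pow_left 3)
    have z12 : Commute z₁ r₂ := ((c4.symm.mul_left c5.symm).pow_left 3)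
    have z21 : Commute z₂ r₁ := ((c3.symm.mul_left c1.symm).pow_left 3)
    have z22 : Commute z₂ r₂ := ((c6.symm.mul_left c4.symm).pow_left 3)
    have hz1d : Commute z₁ d := ((z11.mul_right z12).mul_right z11.inv_right).mul_right
      z12.inv_right
    have hz2d : Commute z₂ d := ((z21.mul_right z22).mul_right z21.inv_right).mul_right
      z22.inv_right
    have ia : stabIp ℓ d a = 0 := by
      rw [← QuadLength.stabIp_comm hac]; exact hq.stabIp_commutator c1.symm c4.symm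
    have iz1 : stabIp ℓ d z₁ = 0 := by
      rw [← QuadLength.stabIp_comm hz1d]; exact hq.stabIp_commutator z11 z12
    have iz2 : stabIp ℓ d z₂ = 0 := by
      rw [← QuadLength.stabIp_comm hz2d]; exact hq.stabIp_commutator z21 z22
    obtain ⟨K, hK⟩ := divergence hX hG x D
    refine ⟨K, fun n hn => ?_⟩
    obtain ⟨e, ⟨j, m, rfl⟩, he⟩ := hK n n hn hn
    have b1 := sqrt_le_dist hX hi x (z₁ ^ n) (a ^ j * d ^ m)
    have b2 := sqrt_le_dist hX hi x (z₂ ^ n) (a ^ j * d ^ m)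
    rw [dist_comm] at b2
    have l1 := vertex_lower hq haz₁ hac hz1d s1 ia iz1 n j m
    have l2 := vertex_lower hq haz₂ hac hz2d (by rw [s2, ia₂]) ia iz2 n j m
    rw [h1, hNa] at l1
    rw [ia₂, h2, hNa] at l2
    have e1 : 6 * (n : ℝ) ^ 2 * (N * τ₁) - 2 * n * j * (N * τ₁) + j ^ 2 * N
        = N * ((j - n * τ₁) ^ 2 + (n * σ₁) ^ 2) := by
      rw [mul_pow, hσ₁2]; ring
    have e2 : 6 * (n : ℝ) ^ 2 * (N * τ₂) - 2 * n * j * (N * τ₂) + j ^ 2 * N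
        = N * ((j - n * τ₂) ^ 2 + (n * σ₂) ^ 2) := by
      rw [mul_pow, hσ₂2]; ring
    rw [e1] at l1
    rw [e2] at l2
    have t1 := Real.sqrt_le_sqrt l1
    have t2 := Real.sqrt_le_sqrt l2
    rw [Real.sqrt_mul hN.le] at t1 t2
    have hm := mink (j - n * τ₁) (n * σ₁) (j - n * τ₂) (n * σ₂)
    have e3 : Real.sqrt ((j - n * τ₁ - (j - n * τ₂)) ^ 2 + (n * σ₁ + n * σ₂) ^ 2)
        = n * Real.sqrt ((τ₁ - τ₂) ^ 2 + (σ₁ + σ₂) ^ 2) := by
      have : ((j : ℝ) - n * τ₁ - (j - n * τ₂)) ^ 2 + (n * σ₁ + n * σ₂) ^ 2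
          = (n : ℝ) ^ 2 * ((τ₁ - τ₂) ^ 2 + (σ₁ + σ₂) ^ 2) := by ring
      rw [this, Real.sqrt_mul (by positivity), Real.sqrt_sq (by positivity)]
    rw [e3] at hm
    have hm2 := mul_le_mul_of_nonneg_left hm (Real.sqrt_nonneg N)
    have e4 : (n : ℝ) * v = Real.sqrt N * (n * Real.sqrt ((τ₁ - τ₂) ^ 2 + (σ₁ + σ₂) ^ 2)) := by
      rw [hv]; ring
    rw [e4]
    nlinarith [hm2, t1, t2, b1, b2, he]
  -- error sequences
  have LK₁ := tendsto_const_div_two_pow K₁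
  have LK₂ := tendsto_const_div_two_pow K₂
  have LK₃ := tendsto_const_div_two_pow K₃
  -- `E₁` and `E₂`
  have LE₁ : Tendsto (fun k : ℕ => Real.sqrt
      (((dist ((a ^ 6) ^ 2 ^ k • x) (z₁ ^ 2 ^ k • x) / 2 ^ k) ^ 2
        + (dist ((b ^ 6) ^ 2 ^ k • x) (z₁ ^ 2 ^ k • x) / 2 ^ k) ^ 2) / 2
        - (2 * ρ₁ - K₁ / 2 ^ k) * |2 * ρ₁ - K₁ / 2 ^ k| / 4)) atTop (𝓝 0) := by
    have hw : Tendsto (fun k : ℕ => 2 * ρ₁ - K₁ / 2 ^ k) atTop (𝓝 (2 * ρ₁ - 0)) :=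
      tendsto_const_nhds.sub LK₁
    have := ((((LA1.pow 2).add (LB1.pow 2)).div_const 2).sub ((hw.mul hw.abs).div_const 4)).sqrt
    have e0 : (ρ₁ ^ 2 + ρ₁ ^ 2) / 2 - (2 * ρ₁ - 0) * |2 * ρ₁ - 0| / 4 = 0 := by
      rw [sub_zero, abs_of_nonneg (by positivity)]; ring
    rw [e0, Real.sqrt_zero] at this
    exact this
  have LE₂ : Tendsto (fun k : ℕ => Real.sqrt
      (((dist ((a ^ 6) ^ 2 ^ k • x) (z₂ ^ 2 ^ k • x) / 2 ^ k) ^ 2
        + (dist ((c ^ 6) ^ 2 ^ k • x) (z₂ ^ 2 ^ k • x) / 2 ^ k) ^ 2) / 2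
        - (2 * ρ₂ - K₂ / 2 ^ k) * |2 * ρ₂ - K₂ / 2 ^ k| / 4)) atTop (𝓝 0) := by
    have hw : Tendsto (fun k : ℕ => 2 * ρ₂ - K₂ / 2 ^ k) atTop (𝓝 (2 * ρ₂ - 0)) :=
      tendsto_const_nhds.sub LK₂
    have := ((((LA2.pow 2).add (LC2.pow 2)).div_const 2).sub ((hw.mul hw.abs).div_const 4)).sqrt
    have e0 : (ρ₂ ^ 2 + ρ₂ ^ 2) / 2 - (2 * ρ₂ - 0) * |2 * ρ₂ - 0| / 4 = 0 := by
      rw [sub_zero, abs_of_nonneg (by positivity)]; ring
    rw [e0, Real.sqrt_zero] at this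
    exact this
  -- a general estimate for approximate midpoints
  have approx : ∀ (P Q M m : X) (w n : ℝ), 0 < n →
      (∀ q : X, dist q m ^ 2 ≤ (dist q P ^ 2 + dist q Q ^ 2) / 2 - dist P Q ^ 2 / 4) →
      n * w ≤ dist P Q →
      dist M m / n ≤ Real.sqrt (((dist P M / n) ^ 2 + (dist Q M / n) ^ 2) / 2 - w * |w| / 4) := by
    intro P Q M m w n hn hm hw
    apply Real.le_sqrt_of_sq_le
    have h1 := hm M
    rw [dist_comm M P, dist_comm M Q] at h1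
    have h2 : w * |w| ≤ (dist P Q / n) ^ 2 := by
      have hy : 0 ≤ dist P Q / n := by positivity
      have hwy : w ≤ dist P Q / n := by
        rw [le_div_iff₀ hn]; linarith
      rcases le_total 0 w with h | h
      · rw [abs_of_nonneg h]; nlinarith
      · rw [abs_of_nonpos h]; nlinarith
    have h3 : (dist M m / n) ^ 2 = dist M m ^ 2 / n ^ 2 := by rw [div_pow]
    have h4 : ((dist P M / n) ^ 2 + (dist Q M / n) ^ 2) / 2 - (dist P Q / n) ^ 2 / 4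
        = ((dist P M ^ 2 + dist Q M ^ 2) / 2 - dist P Q ^ 2 / 4) / n ^ 2 := by
      rw [div_pow, div_pow, div_pow]; field_simp
    have h5 : (dist M m / n) ^ 2 ≤
        ((dist P M / n) ^ 2 + (dist Q M / n) ^ 2) / 2 - (dist P Q / n) ^ 2 / 4 := by
      rw [h3, h4]
      exact div_le_div_of_nonneg_right h1 (by positivity)
    linarith
  have Lfin := ((LK₃.add LE₁).add ((LB3.add LC3).div_const 2)).add LE₂
  have hfin : v ≤ 0 + 0 + (ρ₃ + ρ₃) / 2 + 0 := by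
    refine ge_of_tendsto' Lfin fun k => ?_
    have h2k : (0 : ℝ) < 2 ^ k := by positivity
    have hnk : 0 < 2 ^ k := pow_pos (by norm_num : 0 < 2) k
    have cast : ((2 ^ k : ℕ) : ℝ) = 2 ^ k := by push_cast; ring
    obtain ⟨m₁, hm₁⟩ := exists_mid hX ((a ^ 6) ^ 2 ^ k • x) ((b ^ 6) ^ 2 ^ k • x)
    obtain ⟨m₂, hm₂⟩ := exists_mid hX ((a ^ 6) ^ 2 ^ k • x) ((c ^ 6) ^ 2 ^ k • x)
    have g1 := hK₁ (2 ^ k) hnk
    have g2 := hK₂ (2 ^ k) hnk
    have g3 := hK₃ (2 ^ k) hnk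
    rw [cast] at g1 g2 g3
    rw [dist_comm ((c ^ 6) ^ 2 ^ k • x)] at g2
    have a1 := approx _ _ (z₁ ^ 2 ^ k • x) m₁ (2 * ρ₁ - K₁ / 2 ^ k) (2 ^ k) h2k hm₁ (by
      have : (2 : ℝ) ^ k * (2 * ρ₁ - K₁ / 2 ^ k) = 2 * 2 ^ k * ρ₁ - K₁ := by
        field_simp
      rw [this]; exact g1)
    have a2 := approx _ _ (z₂ ^ 2 ^ k • x) m₂ (2 * ρ₂ - K₂ / 2 ^ k) (2 ^ k) h2k hm₂ (by
      have : (2 : ℝ) ^ k * (2 * ρ₂ - K₂ / 2 ^ k) = 2 * 2 ^ k * ρ₂ - K₂ := by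
        field_simp
      rw [this]; exact g2)
    have mid := midline ((a ^ 6) ^ 2 ^ k • x) ((b ^ 6) ^ 2 ^ k • x) ((c ^ 6) ^ 2 ^ k • x)
      m₁ m₂ hm₁ hm₂
    have tri1 := dist_triangle ((b ^ 6) ^ 2 ^ k • x) (z₃ ^ 2 ^ k • x) ((c ^ 6) ^ 2 ^ k • x)
    rw [dist_comm (z₃ ^ 2 ^ k • x) ((c ^ 6) ^ 2 ^ k • x)] at tri1
    have tri2 := dist_triangle4 (z₁ ^ 2 ^ k • x) m₁ m₂ (z₂ ^ 2 ^ k • x)
    rw [dist_comm m₂] at tri2
    have f1 : v ≤ K₃ / 2 ^ k + dist (z₁ ^ 2 ^ k • x) (z₂ ^ 2 ^ k • x) / 2 ^ k := by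
      rw [← add_div, le_div_iff₀ h2k]; linarith
    have f2 : dist (z₁ ^ 2 ^ k • x) (z₂ ^ 2 ^ k • x) / 2 ^ k ≤
        dist (z₁ ^ 2 ^ k • x) m₁ / 2 ^ k
        + (dist ((b ^ 6) ^ 2 ^ k • x) (z₃ ^ 2 ^ k • x) / 2 ^ k
          + dist ((c ^ 6) ^ 2 ^ k • x) (z₃ ^ 2 ^ k • x) / 2 ^ k) / 2
        + dist (z₂ ^ 2 ^ k • x) m₂ / 2 ^ k := by
      have : dist (z₁ ^ 2 ^ k • x) (z₂ ^ 2 ^ k • x) ≤ dist (z₁ ^ 2 ^ k • x) m₁
        + (dist ((b ^ 6) ^ 2 ^ k • x) (z₃ ^ 2 ^ k • x)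
          + dist ((c ^ 6) ^ 2 ^ k • x) (z₃ ^ 2 ^ k • x)) / 2
        + dist (z₂ ^ 2 ^ k • x) m₂ := by linarith
      have h := div_le_div_of_nonneg_right this h2k.le
      calc _ ≤ _ := h
        _ = _ := by ring
    linarith
  -- conclusion
  have hfin2 : v ≤ ρ₃ := by linarith
  have hv0 : 0 ≤ v := by positivity
  have hsq : v ^ 2 ≤ ρ₃ ^ 2 := pow_le_pow_left₀ hv0 hfin2 2
  have hv2 : v ^ 2 = N * ((τ₁ - τ₂) ^ 2 + (σ₁ + σ₂) ^ 2) := by
    rw [hv, mul_pow, Real.sq_sqrt hN.le, Real.sq_sqrt (by positivity)]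
  have h3nn : 0 ≤ 36 * N - 6 * (N * τ₃) := by
    have := QuadLength.stabSq_nonneg (ℓ := ℓ) ((b ^ 6)⁻¹ * z₃)
    rw [stabSq_inv_six_mul hq hbz₃ s3, sb, h3] at this
    exact this
  rw [hv2, hρ₃, Real.sq_sqrt h3nn] at hsq
  have hsq2 : (τ₁ - τ₂) ^ 2 + (σ₁ + σ₂) ^ 2 ≤ 36 - 6 * τ₃ := by
    have : N * ((τ₁ - τ₂) ^ 2 + (σ₁ + σ₂) ^ 2) ≤ N * (36 - 6 * τ₃) := by linarith
    exact le_of_mul_le_mul_left this hN
  nlinarith [hsq2, hσ₁2, hσ₂2]

end Crest.Agent.R175.Geo
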