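import Mathlib
import Crest.Agent.R175.Geo5_974
import Crest.Agent.R175.Geo6_974

/-!
# R175 (S0264), geometry 7 : the final statement of the geometric side

`no_geometric_action` : a group with `BadData` has no geometric action on a CAT(0) space.
-/

set_option autoImplicit false

open Set Crest.Geometry Filter Topology

namespace Crest.Agent.R175.Geo

open R244

universe u

/-- Group-theoretic input for the orthogonality of the commuting elements `u` and `v`. -/
def OData {G : Type*} [Group G] (u v : G) : Prop :=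
  ∃ (u' r₁ r₂ : G) (U : Set G), Commute r₁ u ∧ Commute r₁ u' ∧ Commute r₂ u ∧ Commute r₂ u' ∧
    Commute v u ∧ Commute v u' ∧
    DivData {r₁ * r₂ * r₁⁻¹ * r₂⁻¹} {e | ∃ k : ℤ, e = (r₁ * r₂ * r₁⁻¹ * r₂⁻¹) ^ k} U
      u (u' * u * u'⁻¹)

/-- A `D₄` piece with centre `m` and leaves `a`, `p`, `q`. -/
def D4Data {G : Type*} [Group G] (a m : G) : Prop :=
  ∃ p q : G, D4Rel a m p q ∧ OData a p ∧ OData a q ∧ OData p q ∧
    ∀ n : ℕ, 0 < n → D4Rel.dd a m p q ^ n ≠ 1

/-- The group-theoretic input for S0264. -/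
structure BadData (G : Type*) [Group G] (a b c : G) : Prop where
  hab : a * b * a = b * a * b
  hbc : b * c * b = c * b * c
  hca : c * a * c = a * c * a
  Eab : EdgeData a b
  Ebc : EdgeData b c
  Eca : EdgeData c a
  Va : VertexData a b c
  Vb : VertexData b c a
  Vc : VertexData c a b
  Dab : D4Data a b
  Dbc : D4Data b c
  Dca : D4Data c a
  ia : ∀ n : ℕ, 0 < n → a ^ n ≠ 1
  iab : ∀ n : ℕ, 0 < n → ((a ^ 6)⁻¹ * (a * b) ^ 3) ^ n ≠ 1
  ibc : ∀ n : ℕ, 0 < n → ((b ^ 6)⁻¹ * (b * c) ^ 3) ^ n ≠ 1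
  ica : ∀ n : ℕ, 0 < n → ((c ^ 6)⁻¹ * (c * a) ^ 3) ^ n ≠ 1

/-- The numerical contradiction: the largest of the three is opposite to the chosen vertex. -/
theorem numeric {x y t : ℝ} (hx : 3 / 2 < x) (hy : 3 / 2 < y) (hx6 : x < 6) (hy6 : y < 6)
    (htx : x ≤ t) (hty : y ≤ t)
    (h : 3 * (x + y + t) - 18 - x * y + Real.sqrt (x * (6 - x)) * Real.sqrt (y * (6 - y)) ≤ 0) :
    False := by
  -- reduce to `y ≤ x`
  have key : ∀ x y : ℝ, 3 / 2 < x → 3 / 2 < y → x < 6 → y < 6 → y ≤ x →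
      3 * (x + y + x) - 18 - x * y + Real.sqrt (x * (6 - x)) * Real.sqrt (y * (6 - y)) ≤ 0 →
      False := by
    intro x y hx hy hx6 hy6 hyx h
    rw [← Real.sqrt_mul (by nlinarith)] at h
    set s := Real.sqrt (x * (6 - x) * (y * (6 - y))) with hs
    have hpos : 0 < x * (6 - x) * (y * (6 - y)) := by
      have h1 : 0 < x * (6 - x) := by nlinarith
      have h2 : 0 < y * (6 - y) := by nlinarith
      positivity
    have hs0 : 0 < s := Real.sqrt_pos.2 hpos
    have hs2 : s ^ 2 = x * (6 - x) * (y * (6 - y)) := Real.sq_sqrt hpos.le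
    -- `3(2x+y) - 18 - xy = (x - 3)(6 - y)`
    have e : 3 * (x + y + x) - 18 - x * y = (x - 3) * (6 - y) := by ring
    rw [e] at h
    have h1 : s ≤ (3 - x) * (6 - y) := by linarith
    rcases le_total 3 x with h3 | h3
    · nlinarith [mul_nonneg (sub_nonneg.2 h3) (by linarith : (0 : ℝ) ≤ 6 - y)]
    · have h4 : s ^ 2 ≤ ((3 - x) * (6 - y)) ^ 2 := pow_le_pow_left₀ hs0.le h1 2
      rw [hs2] at h4
      -- divide by `6 - y`
      have h5 : x * (6 - x) * y ≤ (3 - x) ^ 2 * (6 - y) := by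
        have h6 : (6 - y) * (x * (6 - x) * y) ≤ (6 - y) * ((3 - x) ^ 2 * (6 - y)) := by
          calc (6 - y) * (x * (6 - x) * y) = x * (6 - x) * (y * (6 - y)) := by ring
            _ ≤ ((3 - x) * (6 - y)) ^ 2 := h4
            _ = _ := by ring
        exact le_of_mul_le_mul_left h6 (by linarith)
      -- `9 y ≤ 6 (3 - x)²`
      have h7 : 9 * y ≤ 6 * (3 - x) ^ 2 := by nlinarith
      nlinarith [mul_pos (by linarith : (0:ℝ) < x - 3/2) (by linarith : (0:ℝ) < 9/2 - x + 0)]
  rcases le_total y x with hyx | hxy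
  · refine key x y hx hy hx6 hy6 hyx ?_
    linarith
  · refine key y x hy hx hy6 hx6 hxy ?_
    have : y * x = x * y := mul_comm _ _
    rw [mul_comm (Real.sqrt (y * (6 - y)))]
    linarith

variable {X : Type u} [MetricSpace X] [ProperSpace X] {G : Type*} [Group G] [MulAction G X]

theorem OData.orth (hX : IsCAT0Space X) (hG : IsGeometricAction G X) (x : X) {u v : G}
    (h : OData u v) : stabIp (len (G := G) x) u v = 0 := by
  obtain ⟨u', r₁, r₂, U, h1, h2, h3, h4, h5, h6, D⟩ := h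
  exact Geo.orth hX hG x h1 h2 h3 h4 h5 h6 D

theorem D4Data.lt (hX : IsCAT0Space X) (hG : IsGeometricAction G X) (x : X) {a m : G}
    (h : D4Data a m) :
    3 / 2 * stabSq (len (G := G) x) a < stabIp (len (G := G) x) a ((a * m) ^ 3) := by
  obtain ⟨p, q, R, o1, o2, o3, hinf⟩ := h
  exact R.lemmaD (quadLength (G := G) hX hG.1 x) (o1.orth hX hG x) (o2.orth hX hG x)
    (o3.orth hX hG x) (stabSq_pos hX hG x _ hinf)

/-- **The geometric side of S0264.** -/
theorem no_geometric_action {a b c : G} (B : BadData G a b c) (hX : IsCAT0Space X)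
    (hne : Nonempty X) : ¬ IsGeometricAction G X := by
  intro hG
  obtain ⟨x⟩ := hne
  have hq := quadLength (G := G) hX hG.1 x
  set N := stabSq (len (G := G) x) a with hN
  have hNpos : 0 < N := stabSq_pos hX hG x a B.ia
  have sb : stabSq (len (G := G) x) b = N := stabSq_eq_of_braid hq B.hab
  have sc : stabSq (len (G := G) x) c = N := (stabSq_eq_of_braid hq B.hbc).trans sb
  set τ₁ := stabIp (len (G := G) x) a ((a * b) ^ 3) / N with hτ₁
  set τ₂ := stabIp (len (G := G) x) c ((c * a) ^ 3) / N with hτ₂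
  set τ₃ := stabIp (len (G := G) x) b ((b * c) ^ 3) / N with hτ₃
  have e1 : stabIp (len (G := G) x) a ((a * b) ^ 3) = N * τ₁ := by rw [hτ₁]; field_simp
  have e2 : stabIp (len (G := G) x) c ((c * a) ^ 3) = N * τ₂ := by rw [hτ₂]; field_simp
  have e3 : stabIp (len (G := G) x) b ((b * c) ^ 3) = N * τ₃ := by rw [hτ₃]; field_simp
  have l1 : 3 / 2 < τ₁ := by
    have := B.Dab.lt hX hG x
    rw [e1, ← hN] at this
    nlinarith
  have l2 : 3 / 2 < τ₂ := by
    have := B.Dca.lt hX hG x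
    rw [e2, sc] at this
    nlinarith
  have l3 : 3 / 2 < τ₃ := by
    have := B.Dbc.lt hX hG x
    rw [e3, sb] at this
    nlinarith
  have u1 : τ₁ < 6 := by
    have h := stabSq_pos hX hG x _ B.iab
    rw [stabSq_inv_six_mul hq (commute_left_cube B.hab) (stabSq_cube hq B.hab), e1, ← hN] at h
    nlinarith
  have u2 : τ₂ < 6 := by
    have h := stabSq_pos hX hG x _ B.ica
    rw [stabSq_inv_six_mul hq (commute_left_cube B.hca) (stabSq_cube hq B.hca), e2, sc] at h
    nlinarith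
  have u3 : τ₃ < 6 := by
    have h := stabSq_pos hX hG x _ B.ibc
    rw [stabSq_inv_six_mul hq (commute_left_cube B.hbc) (stabSq_cube hq B.hbc), e3, sb] at h
    nlinarith
  have Ia := vertex_ineq hX hG x B.hab B.hbc B.hca B.Eab B.Eca B.Va hNpos hN.symm e1 e2 e3
    u1.le u2.le
  have Ib := vertex_ineq hX hG x B.hbc B.hca B.hab B.Ebc B.Eab B.Vb hNpos sb e3 e1 e2
    u3.le u1.le
  have Ic := vertex_ineq hX hG x B.hca B.hab B.hbc B.Eca B.Ebc B.Vc hNpos sc e2 e3 e1
    u2.le u3.le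
  rcases le_total τ₁ τ₂ with h12 | h12
  · rcases le_total τ₂ τ₃ with h23 | h23
    · exact numeric l1 l2 u1 u2 (h12.trans h23) h23 Ia
    · exact numeric l3 l1 u3 u1 h23 h12 Ib
  · rcases le_total τ₁ τ₃ with h13 | h13
    · exact numeric l1 l2 u1 u2 h13 (h12.trans h13) Ia
    · exact numeric l2 l3 u2 u3 h12 h13 Ic

end Crest.Agent.R175.Geo
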