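import Mathlib
import Crest.Agent.R175.AttB_663
import Crest.Agent.R175.B3_83
import Crest.Agent.R175.Geo7_974

/-!
# R175 (S0264) : the edge input for the concrete group
-/

set_option autoImplicit false

namespace Crest.Agent.R175

open Geo Grp_184 Grp_184.Gn AttB_663

theorem gn_braid (i : Fin 3) : gn (a i) * gn (a (i + 1)) * gn (a i)
    = gn (a (i + 1)) * gn (a i) * gn (a (i + 1)) :=
  cond_gn.aa i (i + 1) (fun h => fin3_1 i h.symm)

theorem edge (i : Fin 3) : EdgeData (gn (a i)) (gn (a (i + 1))) := by
  have c1 : Commute (gn (s i false)) (gn (a i)) := cond_gn.s0 i false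
  have c2 : Commute (gn (s i false)) (gn (a (i + 1))) := cond_gn.s1 i false
  have c3 : Commute (gn (s i true)) (gn (a i)) := cond_gn.s0 i true
  have c4 : Commute (gn (s i true)) (gn (a (i + 1))) := cond_gn.s1 i true
  have hb := gn_braid i
  set x := gn (a i) with hx
  set y := gn (a (i + 1)) with hy
  set z := (x * y) ^ 3 with hz
  set h := gn (s i false) * gn (s i true) * (gn (s i false))⁻¹ * (gn (s i true))⁻¹ with hh
  have hhs : hs i = h := rfl
  have hhx : Commute h x := (((c1.mul_left c3).mul_left c1.inv_left).mul_left c3.inv_left)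
  have hhy : Commute h y := (((c2.mul_left c4).mul_left c2.inv_left).mul_left c4.inv_left)
  have hzx : Commute z x := (commute_left_cube hb).symm
  have hzy : Commute z y := (commute_right_cube hb).symm
  set π := edgeHom B3_83.braid i with hπ
  have hπx : π x = B3_83.sa := edgeHom_a _ i
  have hπy : π y = B3_83.sb := edgeHom_b _ i
  have hπh : π h = 1 := edgeHom_hs _ i i
  refine ⟨gn (s i false), gn (s i true), _, c1, c2, c3, c4,
    FirstLet_83.div_of_hom' (Set.toFinite _) π ?_ ?_ ?_ ?_ true ?_ ?_⟩
  · -- the kernel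
    intro g hg hπg
    have hgh : g * hs i = hs i * g := (hg h (Or.inl rfl)).symm.eq
    obtain ⟨n, k, hk, hgk⟩ := cent_s i g hgh
    rw [hgk, hhs, map_mul, map_zpow, hπh, one_zpow, one_mul] at hπg
    obtain ⟨j, hj⟩ := B3_83.ker_zpowers hb π hπx hπy hk hπg
    have hj' : z ^ j = k := hj
    refine ⟨j, n, ?_⟩
    rw [hgk, hhs, ← hj']
    have : Commute z h := by
      have : Commute h z := ((hhx.mul_right hhy).pow_right 3)
      exact this.symm
    exact ((this.zpow_left j).zpow_right n).eq.symm
  · rintro e ⟨j, m, rfl⟩ g hg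
    exact ((hg z (Or.inr rfl)).zpow_left j).mul_left ((hg h (Or.inl rfl)).zpow_left m)
  · rintro f (rfl | hf)
    · exact hhx
    · rw [Set.mem_singleton_iff] at hf
      rw [hf]; exact hzx
  · rintro f (rfl | hf)
    · exact hhy
    · rw [Set.mem_singleton_iff] at hf
      rw [hf]; exact hzy
  · intro n hn
    rw [hπx]
    exact B3_83.sa_pow_mem hn
  · intro n hn
    rw [hπy]
    exact B3_83.sb_pow_notMem hn

end Crest.Agent.R175
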