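import Mathlib
import Crest.Agent.R175.Edge_974

/-!
# R175 (S0264) : assembly
-/

set_option autoImplicit false

namespace Crest.Agent.R175

open Geo Grp_184 Grp_184.Gn AttB_663

/-- the length homomorphism -/
noncomputable def lenHom : GG →* Multiplicative ℤ :=
  mk (fun _ => Multiplicative.ofAdd (1 : ℤ)) (by constructor <;> intros <;> rfl)

theorem lenHom_gn (x : Gn) : lenHom (gn x) = Multiplicative.ofAdd 1 := mk_gn _ _ _

theorem pow_ne_one_of_len {g : GG} {k : ℤ} (hk : lenHom g = Multiplicative.ofAdd k) (hk0 : k ≠ 0)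
    (n : ℕ) (hn : 0 < n) : g ^ n ≠ 1 := by
  intro h
  have h1 := congrArg lenHom h
  rw [map_pow, hk, map_one, ← ofAdd_nsmul] at h1
  have h2 : n • k = 0 := h1
  rw [nsmul_eq_mul] at h2
  rcases mul_eq_zero.1 h2 with h3 | h3
  · have : n = 0 := by exact_mod_cast h3
    omega
  · exact hk0 h3

theorem d4rel (i : Fin 3) : D4Rel (gn (a i)) (gn (a (i + 1))) (gn (l i false)) (gn (l i true)) where
  am := gn_braid i
  pm := cond_gn.la3 i false
  qm := cond_gn.la3 i true
  ap := (cond_gn.la2 i false).symm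
  aq := (cond_gn.la2 i true).symm
  pq := cond_gn.ll i false true

/-- `D₄` data from the nine orthogonality inputs. -/
theorem d4data (O : ∀ i j : Fin 3, OData (gn (UU i j)) (gn (VV i j))) (i : Fin 3) :
    D4Data (gn (a i)) (gn (a (i + 1))) := by
  refine ⟨gn (l i false), gn (l i true), d4rel i, O i 0, O i 1, O i 2, ?_⟩
  apply pow_ne_one_of_len (k := 12)
  · unfold D4Rel.dd D4Rel.gg
    simp only [map_mul, lenHom_gn]
    rfl
  · norm_num

/-- The group-theoretic data of S0264 from the remaining inputs. -/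
theorem badData (O : ∀ i j : Fin 3, OData (gn (UU i j)) (gn (VV i j)))
    (W : ∀ i : Fin 3, VertexData (gn (a i)) (gn (a (i + 1))) (gn (a (i + 2))))
    (I : ∀ i : Fin 3, ∀ n : ℕ, 0 < n →
      ((gn (a i) ^ 6)⁻¹ * (gn (a i) * gn (a (i + 1))) ^ 3) ^ n ≠ 1) :
    BadData GG (gn (a 0)) (gn (a 1)) (gn (a 2)) where
  hab := gn_braid 0
  hbc := gn_braid 1
  hca := gn_braid 2
  Eab := edge 0
  Ebc := edge 1
  Eca := edge 2
  Va := W 0
  Vb := W 1
  Vc := W 2
  Dab := d4data O 0
  Dbc := d4data O 1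
  Dca := d4data O 2
  ia := pow_ne_one_of_len (lenHom_gn _) (by norm_num)
  iab := I 0
  ibc := I 1
  ica := I 2

universe u in
theorem final (O : ∀ i j : Fin 3, OData (gn (UU i j)) (gn (VV i j)))
    (W : ∀ i : Fin 3, VertexData (gn (a i)) (gn (a (i + 1))) (gn (a (i + 2))))
    (I : ∀ i : Fin 3, ∀ n : ℕ, 0 < n →
      ((gn (a i) ^ 6)⁻¹ * (gn (a i) * gn (a (i + 1))) ^ 3) ^ n ≠ 1) :
    ∃ (S : Type) (_ : Fintype S) (M : CoxeterMatrix S),
      Fintype.card S = 116 ∧ (∀ s t : S, s ≠ t → M.M s t = 0 ∨ M.M s t = 2 ∨ M.M s t = 3) ∧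
      ∀ (X : Type u) [MetricSpace X] [ProperSpace X] [Nonempty X]
        [MulAction (Crest.GroupTheory.ArtinGroup M) X],
        Crest.Geometry.IsCAT0Space X →
          ¬ Crest.Geometry.IsGeometricAction (Crest.GroupTheory.ArtinGroup M) X := by
  refine ⟨Gn, inferInstance, MM, card_Gn, MM_label, ?_⟩
  intro X _ _ hne _ hX
  exact no_geometric_action (badData O W I) hX hne

end Crest.Agent.R175
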