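import Crest.Agent.R175.Grp_663

/-!
The attachments of the extra generators, and the symplectic representation of the core.
-/

set_option autoImplicit false

namespace Crest.Agent.R175.Grp_663

open Crest.GroupTheory Crest.Agent.R175.FreeC_663 Crest.Agent.R175.Semi_663

open Gen

theorem att_o (i m : Fin 3) : Att MM ({og i m 1, og i m 2} : Set Gen)
    {core (uu i m), og i m 0} where
  disj := by
    rintro s (rfl | rfl) <;> simp
  two := by
    rintro r (rfl | rfl) s (rfl | rfl)
    · exact label_two (by simp) (by simp [h2])
    · rw [MM.symmetric]; exact label_two (by simp) (by simp [h2])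
    · exact label_two (by simp) (by simp [h2])
    · rw [MM.symmetric]; exact label_two (by simp) (by simp [h2])
  zero := by
    rintro r hr s hs hne
    have hj : ∃ j : Fin 3, j ≠ 0 ∧ r = og i m j := by
      rcases hr with rfl | rfl
      · exact ⟨1, by decide, rfl⟩
      · exact ⟨2, by decide, rfl⟩
    obtain ⟨j, hj, rfl⟩ := hj
    simp only [Set.mem_insert_iff, Set.mem_singleton_iff, not_or] at hs
    obtain ⟨hs1, hs2⟩ := hs
    apply label_zero (Ne.symm hne)
    · rfl
    · cases s <;> rfl
    · cases s with
      | core t => 
        simp only [h2, if_neg hj, decide_eq_false_iff_not]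
        rintro rfl
        exact hs1 rfl
      | og i' m' j' => simp [h2, hj]
      | _ => rfl
    · cases s with
      | og i' m' j' =>
        simp only [h2, decide_eq_false_iff_not]
        rintro ⟨rfl, rfl, rfl, _⟩
        exact hs2 rfl
      | _ => rfl

theorem att_e (i : Fin 3) : Att MM ({eg i 0, eg i 1} : Set Gen)
    {core (i, 0), core (i + 1, 0)} where
  disj := by
    rintro s (rfl | rfl) <;> simp
  two := by
    rintro r (rfl | rfl) s (rfl | rfl) <;> exact label_two (by simp) (by simp [h2])
  zero := by
    rintro r hr s hs hne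
    obtain ⟨j, rfl⟩ : ∃ j : Fin 2, r = eg i j := by
      rcases hr with rfl | rfl
      · exact ⟨0, rfl⟩
      · exact ⟨1, rfl⟩
    simp only [Set.mem_insert_iff, Set.mem_singleton_iff, not_or] at hs
    obtain ⟨hs1, hs2⟩ := hs
    apply label_zero (Ne.symm hne)
    · rfl
    · cases s <;> rfl
    · cases s with
      | core t => 
        simp only [h2, decide_eq_false_iff_not]
        rintro (rfl | rfl)
        · exact hs1 rfl
        · exact hs2 rfl
      | _ => rfl
    · cases s <;> rfl

theorem att_v : Att MM ({vg 0, vg 1} : Set Gen)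
    {core (0, 0), core (1, 0), core (2, 0)} where
  disj := by
    rintro s (rfl | rfl | rfl) <;> simp
  two := by
    rintro r (rfl | rfl) s (rfl | rfl | rfl) <;> exact label_two (by simp) (by simp [h2])
  zero := by
    rintro r hr s hs hne
    obtain ⟨j, rfl⟩ : ∃ j : Fin 2, r = vg j := by
      rcases hr with rfl | rfl
      · exact ⟨0, rfl⟩
      · exact ⟨1, rfl⟩
    simp only [Set.mem_insert_iff, Set.mem_singleton_iff, not_or] at hs
    obtain ⟨hs1, hs2, hs3⟩ := hs
    apply label_zero (Ne.symm hne)
    · rfl
    · cases s <;> rfl
    · cases s with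
      | core t => 
        simp only [h2, decide_eq_false_iff_not]
        obtain ⟨a, b⟩ := t
        intro hb
        simp only at hb
        subst hb
        fin_cases a
        · exact hs1 rfl
        · exact hs2 rfl
        · exact hs3 rfl
      | _ => rfl
    · cases s <;> rfl

/-! ### symplectic transvections -/

/-- the alternating form on the basis -/
def eps (s t : Core) : ℤ := (if t = (s.1 + 1, 0) then 1 else 0) - (if s = (t.1 + 1, 0) then 1 else 0)

theorem eps_symm (s t : Core) : eps s t = - eps t s := by simp [eps]

theorem eps_self (s : Core) : eps s s = 0 := by simp [eps]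

theorem eps_next (s : Core) : eps s (s.1 + 1, 0) = 1 := by
  have : ¬ s = (s.1 + 1 + 1, 0) := by
    intro h
    have := congrArg Prod.fst h
    simp only at this
    revert this
    generalize s.1 = a
    revert a
    decide
  simp [eps, this]

theorem eps_same {s t : Core} (h : s.1 = t.1) : eps s t = 0 := by
  have h1 : ¬ t = (s.1 + 1, 0) := by
    intro e
    have := congrArg Prod.fst e
    simp only [← h] at this
    simp at this
  have h2 : ¬ s = (t.1 + 1, 0) := by
    intro e
    have := congrArg Prod.fst e
    simp only [h] at this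
    simp at this
  simp [eps, h1, h2]

/-- `x ↦ B(x, e_s)` -/
def bf (s : Core) : (Core → ℤ) →+ ℤ where
  toFun x := ∑ t, x t * eps t s
  map_zero' := by simp
  map_add' x y := by simp [add_mul, Finset.sum_add_distrib]

theorem bf_single (s t : Core) (n : ℤ) : bf s (Pi.single t n) = n * eps t s := by
  classical
  simp only [bf, AddMonoidHom.coe_mk, ZeroHom.coe_mk]
  rw [Finset.sum_eq_single t]
  · simp
  · intro u _ hu
    simp [Pi.single_eq_of_ne hu]
  · simp

/-- the transvection -/
def tv (s : Core) : Equiv.Perm (Core → ℤ) where
  toFun x := x + Pi.single s (bf s x)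
  invFun x := x - Pi.single s (bf s x)
  left_inv x := by
    simp [bf_single, eps_self]
  right_inv x := by
    simp [bf_single, eps_self]

theorem tv_apply (s : Core) (x : Core → ℤ) : tv s x = x + Pi.single s (bf s x) := rfl

theorem tv_braid {s t : Core} (h : eps s t = 1) : tv s * tv t * tv s = tv t * tv s * tv t := by
  have h' : eps t s = -1 := by rw [eps_symm, h]
  ext x : 1
  simp only [Equiv.Perm.mul_apply, tv_apply, map_add, bf_single, eps_self, h, h', mul_zero, add_zero]
  simp only [Pi.single_add]
  have : ∀ a b : ℤ, Pi.single s (a * -1) = - (Pi.single s a : Core → ℤ) := by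
    intro a b; rw [mul_neg, mul_one, Pi.single_neg]
  funext u
  simp only [Pi.add_apply, Pi.single_apply]
  split_ifs <;> ring

theorem tv_comm {s t : Core} (h : eps s t = 0) : tv s * tv t = tv t * tv s := by
  have h' : eps t s = 0 := by rw [eps_symm, h, neg_zero]
  ext x : 1
  simp only [Equiv.Perm.mul_apply, tv_apply, map_add, bf_single, h, h', mul_zero, add_zero]
  abel

/-- the symplectic representation -/
def sp : GG →* Equiv.Perm (Core → ℤ) :=
  coreHom tv (fun s => tv_braid (eps_next s)) (fun _ _ h => tv_comm (eps_same h))

theorem tv_npow (s : Core) (x : Core → ℤ) (n : ℕ) :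
    (tv s ^ n) x = x + Pi.single s (n * bf s x) := by
  induction n with
  | zero => simp
  | succ n ih =>
    rw [pow_succ', Equiv.Perm.mul_apply, ih, tv_apply, map_add, bf_single, eps_self, mul_zero,
      add_zero]
    push_cast
    rw [add_mul, one_mul, Pi.single_add, add_assoc]

theorem tv_zpow (s : Core) (x : Core → ℤ) (n : ℤ) :
    (tv s ^ n) x = x + Pi.single s (n * bf s x) := by
  cases n with
  | ofNat n => simpa using tv_npow s x n
  | negSucc n =>
    rw [zpow_negSucc]
    symm
    rw [Equiv.Perm.eq_inv_iff_eq, tv_npow, map_add, bf_single, eps_self, mul_zero, add_zero,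
      add_assoc, ← Pi.single_add]
    push_cast [Int.negSucc_eq]
    have : -(((n : ℤ) + 1)) * bf s x + ((n : ℤ) + 1) * bf s x = 0 := by ring
    rw [this]
    simp

/-- powers of different transvections with a common neighbour are different -/
theorem tv_sep {s t c : Core} (hst : s ≠ t) (hc : eps c s ≠ 0) {n : ℤ}
    (h : tv s ^ n ∈ Subgroup.zpowers (tv t)) : n = 0 := by
  obtain ⟨m, hm⟩ := h
  have h1 := congrArg (fun f : Equiv.Perm (Core → ℤ) => f (Pi.single c 1) s) hm
  simp only [tv_zpow, bf_single, Pi.add_apply, Pi.single_eq_same, one_mul,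
    Pi.single_eq_of_ne hst, add_zero] at h1
  have h2 : n * eps c s = 0 := by linarith
  rcases mul_eq_zero.1 h2 with h3 | h3
  · exact h3
  · exact absurd h3 hc

theorem sp_core (s : Core) : sp (gen (core s)) = tv s := coreHom_core _ _ _ s

end Crest.Agent.R175.Grp_663
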