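import Crest.Agent.R175.FmRes_663
import Crest.Agent.R175.Fm7_27

/-!
# `F_m` and restriction to a subset `X ⊆ S`, over the graph `UG M Λ`

`res_Fm : HIso (Res (F_m Y)) (F_m (Res Y))`.
-/

set_option autoImplicit false
set_option linter.unusedSectionVars false
set_option linter.unusedVariables false

open CategoryTheory
open scoped Classical

namespace Crest.Agent.R175.FmResU_663

open Crest.Agent.R175.PTA Crest.Agent.R175.ResI_663 Crest.Agent.R175.Res_428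
  Crest.Agent.R175.Fm_27 Crest.Agent.R175.FmRes_663 Crest.Agent.R175.UG_27
  Crest.Agent.R175.Unf_109 Crest.Agent.R175.VdL_527

universe v

theorem FDat_ext {T : Type} {G : MG T} {k : Type v} [Field k] [Fintype T] {Φ Ψ : FDat G k}
    (hN : Φ.N = Ψ.N) (hr : Φ.r = Ψ.r)
    (hc : @FDat.chi T G k _ _ Φ = @FDat.chi T G k _ _ Ψ) : Φ = Ψ := by
  cases Φ
  cases Ψ
  simp only at hN hr hc
  subst hN hr hc
  rfl

/-- inclusion of the vertices over `X ⊆ S` -/
def inc {S : Type} (X : Set S) (Λ : Finset ℕ) : X × J Λ → S × J Λ := fun a => ((a.1 : S), a.2)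

theorem inc_inj {S : Type} (X : Set S) (Λ : Finset ℕ) : Function.Injective (inc X Λ) := by
  rintro ⟨a, i⟩ ⟨b, j⟩ h
  simp only [inc, Prod.mk.injEq] at h
  exact Prod.ext (Subtype.ext h.1) h.2

theorem mem_range_inc {S : Type} (X : Set S) (Λ : Finset ℕ) (a : S × J Λ) :
    a ∈ Set.range (inc X Λ) ↔ a.1 ∈ X := by
  constructor
  · rintro ⟨b, rfl⟩
    exact b.1.2
  · intro h
    exact ⟨(⟨a.1, h⟩, a.2), rfl⟩

variable {S : Type} [Fintype S] (M : CoxeterMatrix S) {Λ : Finset ℕ} {m : ℕ}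
  {k : Type v} [Field k] (φ : ℝ →+* k) (hm : m ∈ Λ) (h2 : 2 ≤ m) (X : Set S) [Fintype X]

theorem stab_Fm : Stab (Fm M φ hm h2).toFDat (inc X Λ) := by
  intro a b h ha
  rw [mem_range_inc] at ha ⊢
  have h1 : a.1 = b.1 := ((Fm_N M φ hm h2 a b).1 h).1
  rwa [← h1]

theorem resD_Fm : resD (Fm M φ hm h2).toFDat (inc_inj X Λ) (stab_Fm M φ hm h2 X) =
    (Fm (res M X) φ hm h2).toFDat := by
  refine FDat_ext ?_ rfl rfl
  funext a b
  exact propext (Fm_res_N M φ hm h2 X a b).symm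

/-- **`Res (F_m Y) ~ F_m (Res Y)`** -/
theorem res_Fm {Y : TOb (UG M Λ) k} (hY : Ok (inc X Λ) Y)
    (hY' : Ok (inc X Λ) ((Fm M φ hm h2).FT Y)) :
    HIso (G := UG (res M X) Λ) (resT (inc_inj X Λ) ((Fm M φ hm h2).FT Y) hY')
      ((Fm (res M X) φ hm h2).FT (resT (inc_inj X Λ) Y hY)) := by
  have h := res_tob' (Fm M φ hm h2).toFDat (inc_inj X Λ) (stab_Fm M φ hm h2 X) hY hY'
  rw [resD_Fm] at h
  exact h

include φ hm h2 in
theorem ok_Fm {Y : TOb (UG M Λ) k} (hY : Ok (inc X Λ) Y) :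
    Ok (inc X Λ) ((Fm M φ hm h2).FT Y) :=
  ok_tob (Fm M φ hm h2).toFDat (stab_Fm M φ hm h2 X) hY

end Crest.Agent.R175.FmResU_663
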