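import Crest.Agent.R175.Lev_788
import Crest.Agent.R175.FmResU_663

/-!
Row 175 (S0263), helper788: translation between `lamT (muS M Λ)` (numbers, `CatNum_427`) and sums
over `Out (inc T Λ)` (`ResI_663`).
-/

set_option autoImplicit false
set_option linter.unusedSectionVars false
set_option linter.unusedVariables false

open scoped Classical

namespace Crest.Agent.R175.LamT_788

open Crest.Agent.R175.PTA Crest.Agent.R175.UG_27 Crest.Agent.R175.CatNum_427
open Crest.Agent.R175.Unf_109 Crest.Agent.R175.ResI_663 Crest.Agent.R175.FmResU_663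
open Crest.Agent.R175.Lev_788

variable {S : Type} [Fintype S] {M : CoxeterMatrix S} {Λ : Finset ℕ}

theorem muS_eq_card (s t : S) (i j : J Λ) :
    muS M Λ s i t j = (Fintype.card ((UG M Λ).E (s, i) (t, j)) : ℝ) := by
  rw [card_UG_real]
  unfold muS
  by_cases h : s = t
  · subst h
    rw [if_pos rfl]
    unfold mu
    rw [if_neg]
    simp only [M.diagonal]
    exact not_nb_one _ _
  · rw [if_neg h]

theorem muS_eq_card' (s t : S) (i j : J Λ) :
    muS M Λ s i t j = (Fintype.card ((UG M Λ).E (t, j) (s, i)) : ℝ) := by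
  rw [muS_symm, muS_eq_card]

/-- sums over the vertices outside the face -/
theorem sum_out (T : Set S) (f : S × J Λ → ℝ) :
    ∑ u : Out (inc T Λ), f u.1 = ∑ u : S, ind Tᶜ u * ∑ k, f (u, k) := by
  have h1 : ∑ u : Out (inc T Λ), f u.1
      = ∑ b : S × J Λ, if b ∉ Set.range (inc T Λ) then f b else 0 := by
    rw [← Finset.sum_filter]
    exact (Finset.sum_subtype _ (fun x => by simp) _).symm
  rw [h1, Fintype.sum_prod_type]
  refine Finset.sum_congr rfl fun u _ => ?_
  by_cases h : u ∈ T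
  · rw [ind_not (T := Tᶜ) (fun h' : u ∈ Tᶜ => h' h), zero_mul]
    refine Finset.sum_eq_zero fun k _ => ?_
    rw [if_neg]
    rw [mem_range_inc]
    simpa using h
  · rw [ind_mem (T := Tᶜ) h, one_mul]
    refine Finset.sum_congr rfl fun k _ => ?_
    rw [if_pos]
    rw [mem_range_inc]
    simpa using h

/-- **`lamT` as a sum over `Out`** -/
theorem lamT_eq {Ob : Type*} (d lam : Ob → S → J Λ → ℝ) (T : Set S) (x : Ob) (t : S) (j : J Λ) :
    lamT (muS M Λ) d lam T x t j = lam x t j
      + ∑ u : Out (inc T Λ), (Fintype.card ((UG M Λ).E u.1 (t, j)) : ℝ) * d x u.1.1 u.1.2 := by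
  unfold lamT
  rw [sum_out T (fun u => (Fintype.card ((UG M Λ).E u (t, j)) : ℝ) * d x u.1 u.2)]
  congr 1
  refine Finset.sum_congr rfl fun u _ => ?_
  congr 1
  refine Finset.sum_congr rfl fun k _ => ?_
  rw [muS_eq_card']

/-- inclusion of a face of a face -/
def inc2 {T U : Set S} (h : U ⊆ T) (Λ : Finset ℕ) : U × J Λ → T × J Λ :=
  fun a => (⟨a.1.1, h a.1.2⟩, a.2)

theorem inc2_inj {T U : Set S} (h : U ⊆ T) (Λ : Finset ℕ) : Function.Injective (inc2 h Λ) := by
  rintro ⟨a, i⟩ ⟨b, j⟩ h'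
  simp only [inc2, Prod.mk.injEq, Subtype.mk.injEq] at h'
  exact Prod.ext (Subtype.ext h'.1) h'.2

theorem inc_inc2 {T U : Set S} (h : U ⊆ T) : inc T Λ ∘ inc2 h Λ = inc U Λ := rfl

/-- sums over the removed fibre -/
theorem sum_fib (T : Set S) {t : S} (ht : t ∈ T) [Fintype T]
    (f : T × J Λ → ℝ) :
    ∑ u : Out (inc2 (T := T) (U := T \ {t}) Set.diff_subset Λ), f u.1 = ∑ j, f (⟨t, ht⟩, j) := by
  have h1 : ∑ u : Out (inc2 (T := T) (U := T \ {t}) Set.diff_subset Λ), f u.1
      = ∑ b : T × J Λ,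
        if b ∉ Set.range (inc2 (T := T) (U := T \ {t}) Set.diff_subset Λ) then f b else 0 := by
    rw [← Finset.sum_filter]
    exact (Finset.sum_subtype _ (fun x => by simp) _).symm
  have h2 : ∀ b : T × J Λ,
      b ∈ Set.range (inc2 (T := T) (U := T \ {t}) Set.diff_subset Λ) ↔ b.1.1 ≠ t := by
    intro b
    constructor
    · rintro ⟨a, rfl⟩
      exact a.1.2.2
    · intro h
      exact ⟨(⟨b.1.1, b.1.2, h⟩, b.2), rfl⟩
  rw [h1, Fintype.sum_prod_type, Finset.sum_eq_single (⟨t, ht⟩ : T)]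
  · refine Finset.sum_congr rfl fun k _ => ?_
    rw [if_pos]
    rw [h2]
    simp
  · intro u _ hu
    refine Finset.sum_eq_zero fun k _ => ?_
    rw [if_neg]
    rw [not_not, h2]
    exact fun h => hu (Subtype.ext h)
  · intro h
    exact absurd (Finset.mem_univ _) h

end Crest.Agent.R175.LamT_788
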