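import Crest.Agent.R175.ResC_774
import Crest.Agent.R175.LevC_788
import Crest.Agent.R175.LamT_788

/-!
Row 175 (S0263), helper774: restriction between the concrete levels.

`rU T : Cls (UG M Λ) ℂ →+ Cls (UG (res M T) Λ) ℂ` = `ResC_774.rC (inc_inj T Λ)`;
`rU_F` : `rU (F_m x) = F_m (rU x)`;
`lres A A' hact : LRes (lev A) T (lev A')`.
-/

set_option autoImplicit false
set_option linter.unusedSectionVars false
set_option linter.unusedVariables false

open CategoryTheory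
open scoped Classical

namespace Crest.Agent.R175.LResC_774

open Crest.GroupTheory Crest.Agent.R175.PTA Crest.Agent.R175.Cls_133 Crest.Agent.R175.UG_27
open Crest.Agent.R175.Unf_109 Crest.Agent.R175.Fm_27 Crest.Agent.R175.FmCls_303
open Crest.Agent.R175.Lev_788 Crest.Agent.R175.LevC_788 Crest.Agent.R175.LamT_788
open Crest.Agent.R175.ResI_663 Crest.Agent.R175.Res_428 Crest.Agent.R175.ResC_774
open Crest.Agent.R175.FmResU_663 Crest.Agent.R175.CatNum_427 Crest.Agent.R175.VdL_527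

variable {S : Type} [Fintype S]

/-- restriction of classes to the face `T` -/
noncomputable def rU (M : CoxeterMatrix S) (Λ : Finset ℕ) (T : Set S) [Fintype T] :
    Cls (UG M Λ) ℂ →+ Cls (UG (res M T) Λ) ℂ :=
  rC (G := UG M Λ) (inc_inj T Λ)

variable {M : CoxeterMatrix S} {Λ : Finset ℕ} {h4 : ∀ m ∈ Λ, 4 ≤ m} (T : Set S) [Fintype T]

theorem rU_mk (X : TOb (UG M Λ) ℂ) (h : Ok (inc T Λ) X) :
    rU M Λ T ⟦X⟧ = (⟦resT (inc_inj T Λ) X h⟧ : Cls (UG (res M T) Λ) ℂ) :=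
  rC_mk (inc_inj T Λ) X h

theorem rU_fr (t : T) (j : J Λ) :
    rU M Λ T (frC (UG M Λ) ℂ ((t : S), j)) = frC (UG (res M T) Λ) ℂ (t, j) :=
  rC_fr (G := UG M Λ) (inc_inj T Λ) (t, j)

theorem rU_d (t : T) (j : J Λ) (x : Cls (UG M Λ) ℂ) :
    hC (frC (UG (res M T) Λ) ℂ (t, j)) (rU M Λ T x) = hC (frC (UG M Λ) ℂ ((t : S), j)) x :=
  hC_fr_rC (G := UG M Λ) (inc_inj T Λ) x (t, j)

theorem rU_lam (t : T) (j : J Λ) (x : Cls (UG M Λ) ℂ) :
    lamC (rU M Λ T x) (t, j) = lamC x ((t : S), j) +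
      ∑ u : Out (inc T Λ), Fintype.card ((UG M Λ).E u.1 ((t : S), j)) *
        hC (frC (UG M Λ) ℂ u.1) x :=
  lamC_rC (G := UG M Λ) (inc_inj T Λ) x (t, j)

/-- `Res (F_m x) = F_m (Res x)` -/
theorem rU_F {m : ℕ} (hm : m ∈ Λ) (x : Cls (UG M Λ) ℂ) :
    rU M Λ T (FmC M h4 hm x) = FmC (res M T) h4 hm (rU M Λ T x) := by
  obtain ⟨X, hX, rfl⟩ := exists_ok (ι := inc T Λ) x
  have h2 : 2 ≤ m := (by norm_num : 2 ≤ 4).trans (h4 m hm)
  have hok := ok_Fm M (algebraMap ℝ ℂ) hm h2 T hX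
  have e1 : FmC M h4 hm (⟦X⟧ : Cls (UG M Λ) ℂ) = ⟦(Fm M (algebraMap ℝ ℂ) hm h2).FT X⟧ := rfl
  have e2 : FmC (res M T) h4 hm (⟦resT (inc_inj T Λ) X hX⟧ : Cls (UG (res M T) Λ) ℂ) =
      ⟦(Fm (res M T) (algebraMap ℝ ℂ) hm h2).FT (resT (inc_inj T Λ) X hX)⟧ := rfl
  rw [e1, rU_mk T X hX, rU_mk T _ hok, e2]
  exact Quotient.sound (res_Fm M (algebraMap ℝ ℂ) hm h2 T hX hok)

/-- **restriction between the concrete levels** -/
noncomputable def lres (A : ActI M h4) (A' : ActI (res M T) h4)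
    (hact : ∀ (t : T) (x : Cls (UG M Λ) ℂ),
      rU M Λ T (A.act.smul (artinGen M (t : S)) x) =
        A'.act.smul (artinGen (res M T) t) (rU M Λ T x)) :
    LRes (lev A) T (lev A') where
  r := rU M Λ T
  r_act := hact
  r_fr := fun t j =>
    @rC_fr _ _ (UG M Λ) ℂ _ _ _ _ (_) (_) _ (inc_inj T Λ) (t, j)
  r_d := fun t j x =>
    @hC_fr_rC _ _ (UG M Λ) ℂ _ _ _ _ (_) (_) _ (inc_inj T Λ) x (t, j)
  r_lam := fun t j x => by
    rw [lamT_eq]
    have h := rU_lam (M := M) (Λ := Λ) T t j x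
    have h' : ((lamC (rU M Λ T x) (t, j) : ℕ) : ℝ) = ((lamC x ((t : S), j) +
      ∑ u : Out (inc T Λ), Fintype.card ((UG M Λ).E u.1 ((t : S), j)) *
        hC (frC (UG M Λ) ℂ u.1) x : ℕ) : ℝ) := by rw [h]
    push_cast at h'
    exact h'
  r_F := fun m hm x => by
    change rU M Λ T (if hm : m ∈ Λ then FmC M h4 hm x else x) =
      (if hm : m ∈ Λ then FmC (res M T) h4 hm (rU M Λ T x) else rU M Λ T x)
    rw [dif_pos hm, dif_pos hm]
    exact rU_F T hm x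

end Crest.Agent.R175.LResC_774
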