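import Mathlib

/-!
Rank estimates for a differential with a filtration (used for (MF)).
-/

set_option autoImplicit false

namespace Crest.Agent.R175.MFa_663

open Module LinearMap

variable {k : Type*} [Field k]

section rank

variable {C D' M M' : Type*} [AddCommGroup C] [Module k C] [AddCommGroup D'] [Module k D']
  [AddCommGroup M] [Module k M] [AddCommGroup M'] [Module k M']
  [FiniteDimensional k C] [FiniteDimensional k D'] [FiniteDimensional k M]
  [FiniteDimensional k M']

/-- restricting the source to a complement of a subspace lowers the rank by at most its dimension -/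
theorem rank_le_source (D : C →ₗ[k] D') (ι : M →ₗ[k] C) (A : Submodule k C)
    (hA : ∀ x : C, ∃ m : M, x - ι m ∈ A) :
    finrank k (range D) ≤ finrank k (range (D ∘ₗ ι)) + finrank k A := by
  have h1 : range D ≤ range (D ∘ₗ ι) ⊔ A.map D := by
    rintro _ ⟨x, rfl⟩
    obtain ⟨m, hm⟩ := hA x
    have : D x = (D ∘ₗ ι) m + D (x - ι m) := by simp
    rw [this]
    exact Submodule.add_mem_sup ⟨m, rfl⟩ (Submodule.mem_map_of_mem hm)
  calc finrank k (range D) ≤ finrank k (range (D ∘ₗ ι) ⊔ A.map D : Submodule k D') :=
        Submodule.finrank_mono h1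
    _ ≤ finrank k (range (D ∘ₗ ι)) + finrank k (A.map D) := Submodule.finrank_add_le_finrank_add_finrank _ _
    _ ≤ _ := by gcongr; exact Submodule.finrank_map_le D A

/-- projecting the target: the rank is lowered by at most the dimension of the kernel part -/
theorem rank_le_target (D : M →ₗ[k] C) (π : C →ₗ[k] M') (B : Submodule k C)
    (hB : ∀ m : M, π (D m) = 0 → D m ∈ B) :
    finrank k (range D) ≤ finrank k (range (π ∘ₗ D)) + finrank k B := by
  have h1 : range (π ∘ₗ D) = (range D).map π := by
    rw [LinearMap.range_comp]
  set p := range D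
  have h2 := LinearMap.finrank_range_add_finrank_ker (π.domRestrict p)
  have h3 : finrank k (range (π.domRestrict p)) = finrank k (p.map π) := by
    rw [LinearMap.range_domRestrict]
  have h4 : finrank k (ker (π.domRestrict p)) ≤ finrank k B := by
    have hinj : Function.Injective (p.subtype ∘ₗ (ker (π.domRestrict p)).subtype) :=
      (Submodule.injective_subtype _).comp (Submodule.injective_subtype _)
    refine LinearMap.finrank_le_finrank_of_injective
      (f := LinearMap.codRestrict B (p.subtype ∘ₗ (ker (π.domRestrict p)).subtype) ?_) ?_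
    · rintro ⟨⟨x, ⟨m, rfl⟩⟩, hx⟩
      exact hB m (by simpa using hx)
    · intro a b hab
      apply hinj
      have := congrArg Subtype.val hab
      simpa using this
  rw [h1, ← h3, ← h2]
  gcongr

/-- the combination used for (MF) -/
theorem rank_le_mid (D : C →ₗ[k] C) (ι : M →ₗ[k] C) (π : C →ₗ[k] M') (A B : Submodule k C)
    (hA : ∀ x : C, ∃ m : M, x - ι m ∈ A) (hB : ∀ m : M, π (D (ι m)) = 0 → D (ι m) ∈ B) :
    finrank k (range D) ≤ finrank k (range (π ∘ₗ D ∘ₗ ι)) + finrank k A + finrank k B := by
  have h1 := rank_le_source D ι A hA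
  have h2 := rank_le_target (D ∘ₗ ι) π B hB
  omega

end rank

end Crest.Agent.R175.MFa_663
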