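import Mathlib
import Crest.Agent.R175.PTA_534
import Crest.Agent.R175.MFa_663
import Crest.Agent.R175.ResI_663

/-!
# The inequality (MF)

`h(X|, Y|) + ∑_{u ∉ range ι} (d_u lam'_u + lam_u d'_u) + ∑_{u,u' ∉ range ι} #E(u,u') d_u d'_{u'}
          ≤ h(X, Y) + 2 ∑_{u ∉ range ι} d_u d'_u`.
-/

set_option autoImplicit false
set_option linter.unusedSectionVars false
set_option linter.unusedVariables false

open CategoryTheory Module

namespace Crest.Agent.R175.MFI_663

open Crest.Agent.R175.PTA Crest.Agent.R175.MFa_663 Crest.Agent.R175.ResI_663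

universe v

variable {T : Type} {G : MG T} {k : Type v} [Field k] {T' : Type} (ι : T' → T)
variable [Fintype T] [Fintype T']

/-! ### the comparison map -/

/-- the part of `Hom(W', V')` on the new frames -/
noncomputable def pfi (X Y : FObj G k) (f : Cp X.X Y.X) (t : T) : NW ι X.X t →ₗ[k] Y.X.V t :=
  ∑ u : Out ι, ∑ a : G.E u.1 t, Cp.f1 f a ∘ₗ LinearMap.proj a ∘ₗ LinearMap.proj u

def pfj (X Y : FObj G k) (f : Cp X.X Y.X) (t : T) : X.X.V t →ₗ[k] NW ι Y.X t :=
  LinearMap.pi fun _ => LinearMap.pi fun a => Cp.f1 f (G.rev a)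

variable {ι}

theorem pfi_apply (X Y : FObj G k) (f : Cp X.X Y.X) (t : T) (x : NW ι X.X t) :
    pfi ι X Y f t x = ∑ u : Out ι, ∑ a : G.E u.1 t, Cp.f1 f a (x u a) := by
  simp [pfi]

theorem pfj_apply (X Y : FObj G k) (f : Cp X.X Y.X) (t : T) (x : X.X.V t) (u : Out ι)
    (a : G.E u.1 t) : pfj ι X Y f t x u a = Cp.f1 f (G.rev a) x := rfl

/-- the components of `Cp(X, Y)` seen by the restricted complex -/
noncomputable def pr (hι : Function.Injective ι) (X Y : FObj G k) : Cp X.X Y.X →ₗ[k] Cp (resF hι X).X (resF hι Y).X where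
  toFun f := Cp.mk (X := (resF hι X).X) (Y := (resF hι Y).X) (fun t => Cp.f0 f (ι t))
    (fun s t a => Cp.f1 f (s := ι s) (t := ι t) a)
    (fun t => LinearMap.coprod (Cp.fi f (ι t)) (pfi ι X Y f (ι t)))
    (fun t => LinearMap.prod (Cp.fj f (ι t)) (pfj ι X Y f (ι t)))
    (fun t => Cp.f2 f (ι t))
  map_add' f g := by
    apply Cp.ext'
    · intro t; rfl
    · intro s t a; rfl
    · intro t
      refine LinearMap.ext fun x => ?_
      change (Cp.fi f (ι t) + Cp.fi g (ι t)) x.1 + pfi ι X Y (f + g) (ι t) x.2 =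
        (Cp.fi f (ι t) x.1 + pfi ι X Y f (ι t) x.2) +
          (Cp.fi g (ι t) x.1 + pfi ι X Y g (ι t) x.2)
      simp only [pfi_apply, Cp.f1_add, LinearMap.add_apply, Finset.sum_add_distrib]
      abel
    · intro t; rfl
    · intro t; rfl
  map_smul' c f := by
    apply Cp.ext'
    · intro t; rfl
    · intro s t a; rfl
    · intro t
      refine LinearMap.ext fun x => ?_
      change (c • Cp.fi f (ι t)) x.1 + pfi ι X Y (c • f) (ι t) x.2 =
        c • (Cp.fi f (ι t) x.1 + pfi ι X Y f (ι t) x.2)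
      simp only [pfi_apply, Cp.f1_smul, LinearMap.smul_apply, smul_add, Finset.smul_sum]
    · intro t; rfl
    · intro t; rfl

variable (ι) in
/-- the subspace `f0 u = 0` for `u ∉ range ι` -/
def Nsub (X Y : FObj G k) : Submodule k (Cp X.X Y.X) where
  carrier := {f | ∀ u, u ∉ Set.range ι → Cp.f0 f u = 0}
  add_mem' := by
    intro f g hf hg u hu; rw [Cp.f0_add, hf u hu, hg u hu, add_zero]
  zero_mem' := by intro u hu; rfl
  smul_mem' := by intro c f hf u hu; rw [Cp.f0_smul, hf u hu, smul_zero]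

/-- the length 2 part, split along `ι` -/
theorem f2_aux (hι : Function.Injective ι) (X Y : FObj G k) (f : Cp X.X Y.X) (t : T) (x : X.X.V t) :
    Cp.f2 (FD X Y f) t x =
      Y.e t (Cp.f0 f t x) - Y.X.gV t (Cp.f0 f t (X.X.gV t (X.e t x)))
      + (∑ s : T', ∑ a : G.E t (ι s), Y.B (G.rev a) ∘ₗ Cp.f1 f a) x
      - (∑ s : T', ∑ a : G.E t (ι s),
          (Y.X.gV t ∘ₗ Cp.f1 f (G.rev a) ∘ₗ X.X.gV (ι s)) ∘ₗ X.B a) x
      + (Y.i t (Cp.fj f t x) + newI ι Y t (pfj ι X Y f t x))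
      - Y.X.gV t (Cp.fi f t (X.X.gW t (X.j t x)) +
          pfi ι X Y f t (newG ι X.X t (newJ ι X t x))) := by
  have h1 : newI ι Y t (pfj ι X Y f t x) =
      (∑ u : Out ι, ∑ a : G.E t u.1, Y.B (G.rev a) ∘ₗ Cp.f1 f a) x := by
    rw [newI_apply, LinearMap.sum_apply]
    refine Finset.sum_congr rfl fun u _ => ?_
    rw [LinearMap.sum_apply]
    refine (Fintype.sum_equiv (revE G t u.1) _ _ fun a => ?_).symm
    rw [pfj_apply]
    simp [revE]
  have h2 : Y.X.gV t (pfi ι X Y f t (newG ι X.X t (newJ ι X t x))) =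
      (∑ u : Out ι, ∑ a : G.E t u.1,
        (Y.X.gV t ∘ₗ Cp.f1 f (G.rev a) ∘ₗ X.X.gV u.1) ∘ₗ X.B a) x := by
    rw [pfi_apply, LinearMap.sum_apply, map_sum]
    refine Finset.sum_congr rfl fun u _ => ?_
    rw [LinearMap.sum_apply, map_sum]
    refine (Fintype.sum_equiv (revE G t u.1) _ _ fun a => ?_).symm
    rw [newG_apply, newJ_apply]
    simp [revE]
  rw [f2_FD, sum_split hι (fun s => ∑ a : G.E t s, Y.B (G.rev a) ∘ₗ Cp.f1 f a),
    sum_split hι (fun s => ∑ a : G.E t s,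
      (Y.X.gV t ∘ₗ Cp.f1 f (G.rev a) ∘ₗ X.X.gV s) ∘ₗ X.B a), map_add, h1, h2]
  simp only [LinearMap.add_apply, LinearMap.sub_apply, LinearMap.comp_apply]
  abel

/-- `pr` is a chain map on `Nsub` -/
theorem pr_FD (hι : Function.Injective ι) (X Y : FObj G k) (f : Cp X.X Y.X)
    (hf : f ∈ Nsub ι X Y) :
    pr hι X Y (FD X Y f) = FD (resF hι X) (resF hι Y) (pr hι X Y f) := by
  apply Cp.ext'
  · intro t
    rw [f0_FD]
    exact f0_FD X Y f (ι t)
  · intro s t a
    rw [f1_FD]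
    exact f1_FD X Y f (s := ι s) (t := ι t) a
  · intro t
    rw [fi_FD]
    refine LinearMap.ext fun x => ?_
    change Cp.fi (FD X Y f) (ι t) x.1 + pfi ι X Y (FD X Y f) (ι t) x.2 =
      -(Y.X.gV (ι t) (Cp.f0 f (ι t) (X.X.gV (ι t) (X.i (ι t) x.1 + newI ι X (ι t) x.2))))
    rw [fi_FD, pfi_apply, newI_apply]
    simp only [f1_FD, LinearMap.neg_apply, LinearMap.comp_apply, map_add, map_sum,
      LinearMap.sub_apply, Finset.sum_sub_distrib]
    have : ∀ (u : Out ι) (a : G.E u.1 (ι t)), Y.B a (Cp.f0 f u.1 (x.2 u a)) = 0 := by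
      intro u a
      rw [hf u.1 u.2, LinearMap.zero_apply, map_zero]
    simp only [this, Finset.sum_const_zero]
    abel
  · intro t
    rw [fj_FD]
    refine LinearMap.ext fun x => Prod.ext ?_ ?_
    · exact LinearMap.congr_fun (fj_FD X Y f (ι t)) x
    · funext u a
      change Cp.f1 (FD X Y f) (G.rev a) x = Y.B (G.rev a) (Cp.f0 f (ι t) x)
      rw [f1_FD, hf u.1 u.2]
      first | (simp; done) | (simp; rfl)
  · intro t
    rw [f2_FD]
    refine LinearMap.ext fun x => ?_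
    exact f2_aux hι X Y f (ι t) x

/-! ### the two subspaces -/

open Classical in
variable (ι) in
/-- extension by zero of a family given outside `range ι` -/
noncomputable def ext0 (X Y : Gob G k) : (∀ u : Out ι, X.V u.1 →ₗ[k] Y.V u.1) →ₗ[k]
    (∀ t, X.V t →ₗ[k] Y.V t) :=
  LinearMap.pi fun t => if h : t ∈ Set.range ι then 0 else LinearMap.proj (⟨t, h⟩ : Out ι)

theorem ext0_pos (X Y : Gob G k) (g : ∀ u : Out ι, X.V u.1 →ₗ[k] Y.V u.1) {t : T}
    (h : t ∈ Set.range ι) : ext0 ι X Y g t = 0 := by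
  rw [ext0, LinearMap.pi_apply, dif_pos h]; rfl

theorem ext0_neg (X Y : Gob G k) (g : ∀ u : Out ι, X.V u.1 →ₗ[k] Y.V u.1) {t : T}
    (h : t ∉ Set.range ι) : ext0 ι X Y g t = g ⟨t, h⟩ := by
  rw [ext0, LinearMap.pi_apply, dif_neg h]; rfl

variable (ι) in
/-- into the length 0 part -/
noncomputable def in0 (X Y : Gob G k) : (∀ u : Out ι, X.V u.1 →ₗ[k] Y.V u.1) →ₗ[k] Cp X Y :=
  LinearMap.inl k (∀ t, X.V t →ₗ[k] Y.V t) ((∀ s t, G.E s t → (X.V s →ₗ[k] Y.V t)) ×
  (∀ t, X.W t →ₗ[k] Y.V t) × (∀ t, X.V t →ₗ[k] Y.W t) × (∀ t, X.V t →ₗ[k] Y.V t)) ∘ₗ ext0 ι X Y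

variable (ι) in
/-- into the length 2 part -/
noncomputable def in2 (X Y : Gob G k) : (∀ u : Out ι, X.V u.1 →ₗ[k] Y.V u.1) →ₗ[k] Cp X Y :=
  LinearMap.inr k (∀ t, X.V t →ₗ[k] Y.V t) ((∀ s t, G.E s t → (X.V s →ₗ[k] Y.V t)) ×
  (∀ t, X.W t →ₗ[k] Y.V t) × (∀ t, X.V t →ₗ[k] Y.W t) × (∀ t, X.V t →ₗ[k] Y.V t)) ∘ₗ
  LinearMap.inr k (∀ s t, G.E s t → (X.V s →ₗ[k] Y.V t)) (
  (∀ t, X.W t →ₗ[k] Y.V t) × (∀ t, X.V t →ₗ[k] Y.W t) × (∀ t, X.V t →ₗ[k] Y.V t)) ∘ₗ
  LinearMap.inr k (∀ t, X.W t →ₗ[k] Y.V t) ((∀ t, X.V t →ₗ[k] Y.W t) ×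
    (∀ t, X.V t →ₗ[k] Y.V t)) ∘ₗ
  LinearMap.inr k (∀ t, X.V t →ₗ[k] Y.W t) (∀ t, X.V t →ₗ[k] Y.V t) ∘ₗ ext0 ι X Y

theorem in0_eq (X Y : Gob G k) (g : ∀ u : Out ι, X.V u.1 →ₗ[k] Y.V u.1) :
    in0 ι X Y g = Cp.mk (ext0 ι X Y g) 0 0 0 0 := rfl

theorem in2_eq (X Y : Gob G k) (g : ∀ u : Out ι, X.V u.1 →ₗ[k] Y.V u.1) :
    in2 ι X Y g = Cp.mk 0 0 0 0 (ext0 ι X Y g) := rfl

theorem finrank_ext (X Y : Gob G k) :
    finrank k (∀ u : Out ι, X.V u.1 →ₗ[k] Y.V u.1) =
      ∑ u : Out ι, finrank k (X.V u.1) * finrank k (Y.V u.1) := by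
  rw [Module.finrank_pi_fintype]
  simp [Module.finrank_linearMap]

theorem f1_of_pfi {X Y : FObj G k} {f : Cp X.X Y.X} {t : T} (h : pfi ι X Y f t = 0)
    (u : Out ι) (a : G.E u.1 t) : Cp.f1 f a = 0 := by
  classical
  refine LinearMap.ext fun x => ?_
  have h1 := LinearMap.congr_fun h (Pi.single u (Pi.single a x))
  rw [pfi_apply, Finset.sum_eq_single u, Finset.sum_eq_single a] at h1
  · simpa using h1
  · intro b _ hb
    simp [hb]
  · simp
  · intro u' _ hu
    refine Finset.sum_eq_zero fun b _ => ?_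
    rw [Pi.single_eq_of_ne hu]
    simp
  · simp

theorem f1_of_pfj {X Y : FObj G k} {f : Cp X.X Y.X} {t : T} (h : pfj ι X Y f t = 0)
    (u : Out ι) (a : G.E t u.1) : Cp.f1 f a = 0 := by
  refine LinearMap.ext fun x => ?_
  have h1 := congrFun (congrFun (LinearMap.congr_fun h x) u) (G.rev a)
  rw [pfj_apply] at h1
  simpa using h1

/-- the rank estimate -/
theorem rank_FD_le (hι : Function.Injective ι) (X Y : FObj G k) :
    finrank k (LinearMap.range (FD X Y)) ≤
      finrank k (LinearMap.range (FD (resF hι X) (resF hι Y))) +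
        2 * ∑ u : Out ι, finrank k (X.X.V u.1) * finrank k (Y.X.V u.1) := by
  classical
  have h := rank_le_mid (FD X Y) (Nsub ι X Y).subtype (pr hι X Y)
    (LinearMap.range (in0 ι X.X Y.X)) (LinearMap.range (in2 ι X.X Y.X)) ?_ ?_
  · have h1 : finrank k (LinearMap.range (in0 ι X.X Y.X)) ≤ _ := LinearMap.finrank_range_le _
    have h2 : finrank k (LinearMap.range (in2 ι X.X Y.X)) ≤ _ := LinearMap.finrank_range_le _
    rw [finrank_ext] at h1 h2
    have h3 : finrank k (LinearMap.range (pr hι X Y ∘ₗ FD X Y ∘ₗ (Nsub ι X Y).subtype)) ≤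
        finrank k (LinearMap.range (FD (resF hι X) (resF hι Y))) := by
      apply Submodule.finrank_mono
      rintro _ ⟨m, rfl⟩
      exact ⟨pr hι X Y m.1, (pr_FD hι X Y m.1 m.2).symm⟩
    omega
  · intro x
    have hm : Cp.mk (fun t => if t ∈ Set.range ι then Cp.f0 x t else 0) (fun _ _ a => Cp.f1 x a)
        (Cp.fi x) (Cp.fj x) (Cp.f2 x) ∈ Nsub ι X Y := by
      intro u hu
      rw [Cp.f0_mk, if_neg hu]
    refine ⟨⟨_, hm⟩, fun u => Cp.f0 x u.1, ?_⟩
    rw [in0_eq, eq_sub_iff_add_eq]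
    change _ + Cp.mk (fun t => if t ∈ Set.range ι then Cp.f0 x t else 0)
      (fun _ _ a => Cp.f1 x a) (Cp.fi x) (Cp.fj x) (Cp.f2 x) = _
    apply Cp.ext'
    · intro t
      by_cases ht : t ∈ Set.range ι
      · rw [Cp.f0_add, Cp.f0_mk, Cp.f0_mk, ext0_pos _ _ _ ht, if_pos ht, zero_add]
      · rw [Cp.f0_add, Cp.f0_mk, Cp.f0_mk, ext0_neg _ _ _ ht, if_neg ht, add_zero]
    · intro s t a; simp
    · intro t; simp
    · intro t; simp
    · intro t; simp
  · rintro ⟨m, hm⟩ h0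
    change pr hι X Y (FD X Y m) = 0 at h0
    refine ⟨fun u => Cp.f2 (FD X Y m) u.1, ?_⟩
    rw [in2_eq]
    change _ = FD X Y m
    apply Cp.ext'
    · intro t; rw [f0_FD]; rfl
    · intro s t a
      rw [Cp.f1_mk]
      change 0 = Cp.f1 (FD X Y m) a
      symm
      by_cases hs : s ∈ Set.range ι
      · obtain ⟨s', rfl⟩ := hs
        by_cases ht : t ∈ Set.range ι
        · obtain ⟨t', rfl⟩ := ht
          exact congrArg (fun g => Cp.f1 g (s := s') (t := t') a) h0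
        · have h1 : LinearMap.prod (Cp.fj (FD X Y m) (ι s')) (pfj ι X Y (FD X Y m) (ι s')) = 0 :=
            congrArg (fun g => Cp.fj g s') h0
          refine f1_of_pfj (t := ι s') ?_ ⟨t, ht⟩ a
          refine LinearMap.ext fun x => ?_
          exact congrArg Prod.snd (LinearMap.congr_fun h1 x)
      · by_cases ht : t ∈ Set.range ι
        · obtain ⟨t', rfl⟩ := ht
          have h1 : LinearMap.coprod (Cp.fi (FD X Y m) (ι t')) (pfi ι X Y (FD X Y m) (ι t')) = 0 :=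
            congrArg (fun g => Cp.fi g t') h0
          refine f1_of_pfi (t := ι t') ?_ ⟨s, hs⟩ a
          refine LinearMap.ext fun x => ?_
          simpa using LinearMap.congr_fun h1 (0, x)
        · rw [f1_FD, hm s hs, hm t ht]
          simp
    · intro t
      rw [Cp.fi_mk]
      change 0 = Cp.fi (FD X Y m) t
      symm
      by_cases ht : t ∈ Set.range ι
      · obtain ⟨t', rfl⟩ := ht
        have h1 : LinearMap.coprod (Cp.fi (FD X Y m) (ι t')) (pfi ι X Y (FD X Y m) (ι t')) = 0 :=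
            congrArg (fun g => Cp.fi g t') h0
        refine LinearMap.ext fun x => ?_
        simpa using LinearMap.congr_fun h1 (x, 0)
      · rw [fi_FD, hm t ht]
        simp
    · intro t
      rw [Cp.fj_mk]
      change 0 = Cp.fj (FD X Y m) t
      symm
      by_cases ht : t ∈ Set.range ι
      · obtain ⟨t', rfl⟩ := ht
        have h1 : LinearMap.prod (Cp.fj (FD X Y m) (ι t')) (pfj ι X Y (FD X Y m) (ι t')) = 0 :=
            congrArg (fun g => Cp.fj g t') h0
        refine LinearMap.ext fun x => ?_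
        exact congrArg Prod.fst (LinearMap.congr_fun h1 x)
      · rw [fj_FD, hm t ht]
        simp
    · intro t
      rw [Cp.f2_mk]
      by_cases ht : t ∈ Set.range ι
      · rw [ext0_pos _ _ _ ht]
        obtain ⟨t', rfl⟩ := ht
        exact (congrArg (fun g => Cp.f2 g t') h0).symm
      · rw [ext0_neg _ _ _ ht]

/-! ### dimensions -/

theorem finrank_Cp {T : Type} {G : MG T} [Fintype T] (X Y : Gob G k) :
    finrank k (Cp X Y) = 2 * (∑ t, finrank k (X.V t) * finrank k (Y.V t)) +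
      (∑ s, ∑ t, Fintype.card (G.E s t) * (finrank k (X.V s) * finrank k (Y.V t))) +
      (∑ t, finrank k (X.W t) * finrank k (Y.V t)) +
      (∑ t, finrank k (X.V t) * finrank k (Y.W t)) := by
  have h : finrank k (Cp X Y) = finrank k ((∀ t, X.V t →ₗ[k] Y.V t) ×
    (∀ s t, G.E s t → (X.V s →ₗ[k] Y.V t)) ×
    (∀ t, X.W t →ₗ[k] Y.V t) × (∀ t, X.V t →ₗ[k] Y.W t) × (∀ t, X.V t →ₗ[k] Y.V t)) := rfl
  rw [h]
  simp only [Module.finrank_prod, Module.finrank_pi_fintype, Module.finrank_linearMap,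
    Finset.sum_const, Finset.card_univ, smul_eq_mul]
  ring

theorem card_rev (G : MG T) (s t : T) : Fintype.card (G.E s t) = Fintype.card (G.E t s) :=
  Fintype.card_congr (revE G s t)

theorem dim_aux (hι : Function.Injective ι) (c : T → T → ℕ) (hc : ∀ s t, c s t = c t s)
    (d d' l l' : T → ℕ) :
    (2 * (∑ t, d t * d' t) + (∑ s, ∑ t, c s t * (d s * d' t)) + (∑ t, l t * d' t) +
      (∑ t, d t * l' t)) =
    (2 * (∑ t : T', d (ι t) * d' (ι t)) +
      (∑ s : T', ∑ t : T', c (ι s) (ι t) * (d (ι s) * d' (ι t))) +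
      (∑ t : T', (l (ι t) + ∑ u : Out ι, c u (ι t) * d u) * d' (ι t)) +
      (∑ t : T', d (ι t) * (l' (ι t) + ∑ u : Out ι, c u (ι t) * d' u))) +
    (2 * (∑ u : Out ι, d u * d' u) + (∑ u : Out ι, (d u * l' u + l u * d' u)) +
      ∑ u : Out ι, ∑ u' : Out ι, c u u' * (d u * d' u')) := by
  have e1 : ∑ s : T', ∑ u : Out ι, c (ι s) u * (d (ι s) * d' u) =
      ∑ t : T', d (ι t) * (∑ u : Out ι, c u (ι t) * d' u) := by
    refine Finset.sum_congr rfl fun s _ => ?_
    rw [Finset.mul_sum]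
    refine Finset.sum_congr rfl fun u _ => ?_
    rw [hc (ι s) u]; ring
  have e2 : ∑ u : Out ι, ∑ s : T', c u (ι s) * (d u * d' (ι s)) =
      ∑ t : T', (∑ u : Out ι, c u (ι t) * d u) * d' (ι t) := by
    rw [Finset.sum_comm]
    refine Finset.sum_congr rfl fun s _ => ?_
    rw [Finset.sum_mul]
    refine Finset.sum_congr rfl fun u _ => ?_
    ring
  rw [sum_split hι (fun t => d t * d' t), sum_split hι (fun t => l t * d' t),
    sum_split hι (fun t => d t * l' t),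
    sum_split hι (fun s => ∑ t, c s t * (d s * d' t))]
  simp only [sum_split hι (fun t => c _ t * (d _ * d' t)), Finset.sum_add_distrib, add_mul,
    mul_add, e1, e2]
  ring

/-- **(MF)** -/
theorem MF (hι : Function.Injective ι) (X Y : FObj G k) :
    hT (resF hι X).toTOb (resF hι Y).toTOb +
      (∑ u : Out ι, (finrank k (X.X.V u.1) * lam Y.toTOb u.1 +
        lam X.toTOb u.1 * finrank k (Y.X.V u.1))) +
      (∑ u : Out ι, ∑ u' : Out ι, Fintype.card (G.E u.1 u'.1) *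
        (finrank k (X.X.V u.1) * finrank k (Y.X.V u'.1))) ≤
    hT X.toTOb Y.toTOb +
      2 * ∑ u : Out ι, finrank k (X.X.V u.1) * finrank k (Y.X.V u.1) := by
  rw [hT_eq_FD, hT_eq_FD]
  have h1 := hd_add_two_range (D := FD X Y) (FD_FD X Y)
  have h2 := hd_add_two_range (D := FD (resF hι X) (resF hι Y)) (FD_FD _ _)
  have h3 := rank_FD_le hι X Y
  have h4 := finrank_Cp X.X Y.X
  have h5 := finrank_Cp (resF hι X).X (resF hι Y).X
  have h6 := dim_aux hι (fun s t => Fintype.card (G.E s t)) (card_rev G)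
    (fun t => finrank k (X.X.V t)) (fun t => finrank k (Y.X.V t))
    (fun t => finrank k (X.X.W t)) (fun t => finrank k (Y.X.W t))
  have h7 : finrank k (Cp (resF hι X).X (resF hι Y).X) =
    (2 * (∑ t : T', finrank k (X.X.V (ι t)) * finrank k (Y.X.V (ι t))) +
      (∑ s : T', ∑ t : T', Fintype.card (G.E (ι s) (ι t)) *
        (finrank k (X.X.V (ι s)) * finrank k (Y.X.V (ι t)))) +
      (∑ t : T', (finrank k (X.X.W (ι t)) +
        ∑ u : Out ι, Fintype.card (G.E u.1 (ι t)) * finrank k (X.X.V u.1)) *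
          finrank k (Y.X.V (ι t))) +
      (∑ t : T', finrank k (X.X.V (ι t)) * (finrank k (Y.X.W (ι t)) +
        ∑ u : Out ι, Fintype.card (G.E u.1 (ι t)) * finrank k (Y.X.V u.1)))) := by
    rw [h5]
    have hl := fun t => lam_resF hι X t
    have hl' := fun t => lam_resF hι Y t
    simp only [lam] at hl hl'
    simp only [hl, hl']
    rfl
  simp only [lam]
  omega

end Crest.Agent.R175.MFI_663
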