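import Crest.Agent.R175.ResI_663

/-!
# Restriction of T-framed objects along an injection of vertices (row 175, S0263-RES)

On top of `ResI_663` (`comap G ι`, `Out ι`, `resG ι X`):
* `resH ι f` : restriction of a morphism; `resH_comp` (ι injective), `resH_id`, linear, `resH_gam`,
  `resH_bar`; `Res hι : Gob G k ⥤ Gob (comap G ι) k` (additive, linear);
* `resT hι X h` : restriction of a T-framed object with `c0 X.d u = 0` for `u` outside the image;
* `resH_D`, `resE` (homotopy equivalences), `resHIso`, `lam_resT`, `resT_toTOb` (= `resF`).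
-/

set_option autoImplicit false
set_option linter.unusedSectionVars false
set_option linter.unusedVariables false
set_option linter.unusedSimpArgs false

open CategoryTheory

namespace Crest.Agent.R175.Res_428

open Crest.Agent.R175.PTA Crest.Agent.R175.ResI_663

universe v

variable {T T' : Type} {k : Type v} [Field k] [Fintype T] [Fintype T']

theorem c2_comp_apply {T : Type} {G : MG T} [Fintype T] {X Y Z : Gob G k} (f : X ⟶ Y)
    (g : Y ⟶ Z) (t : T) (x : X.V t) :
    c2 (f ≫ g) t x = c2 g t (c0 f t x) + c0 g t (c2 f t x) +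
      (∑ s, ∑ a : G.E t s, c1 g (G.rev a) (c1 f a x)) + ci g t (cj f t x) := by
  simp

section gob

variable {G : MG T} (ι : T' → T) {X Y Z : Gob G k}

/-- the `W → V` part of the restriction -/
noncomputable def ciR (f : X ⟶ Y) (t : T') : (X.W (ι t) × NW ι X (ι t)) →ₗ[k] Y.V (ι t) where
  toFun x := ci f (ι t) x.1 + ∑ u : Out ι, ∑ a : G.E u.1 (ι t), c1 f a (x.2 u a)
  map_add' x y := by
    simp only [Prod.fst_add, Prod.snd_add, Pi.add_apply, map_add, Finset.sum_add_distrib]
    abel
  map_smul' r x := by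
    simp only [Prod.smul_fst, Prod.smul_snd, Pi.smul_apply, map_smul, smul_add, Finset.smul_sum,
      RingHom.id_apply]

/-- the `W → W` part of the restriction -/
def cWR (f : X ⟶ Y) (t : T') :
    (X.W (ι t) × NW ι X (ι t)) →ₗ[k] (Y.W (ι t) × NW ι Y (ι t)) where
  toFun x := (cW f (ι t) x.1, fun u a => c0 f u.1 (x.2 u a))
  map_add' x y := by
    apply Prod.ext
    · exact map_add _ _ _
    · funext c a
      exact map_add _ _ _
  map_smul' r x := by
    apply Prod.ext
    · exact map_smul _ _ _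
    · funext c a
      exact map_smul _ _ _

/-- the `V → W` part of the restriction -/
def cjR (f : X ⟶ Y) (t : T') : X.V (ι t) →ₗ[k] (Y.W (ι t) × NW ι Y (ι t)) where
  toFun x := (cj f (ι t) x, fun u a => c1 f (G.rev a) x)
  map_add' x y := by
    apply Prod.ext
    · exact map_add _ _ _
    · funext c a
      exact map_add _ _ _
  map_smul' r x := by
    apply Prod.ext
    · exact map_smul _ _ _
    · funext c a
      exact map_smul _ _ _

/-- restriction of morphisms -/
noncomputable def resH (f : X ⟶ Y) : resG ι X ⟶ resG ι Y :=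
  mkH (fun t => c0 f (ι t)) (fun t => cWR ι f t) (fun s t a => c1 (G := G) f a)
    (fun t => ciR ι f t) (fun t => cjR ι f t) (fun t => c2 f (ι t))

section lem
variable (f : X ⟶ Y)
@[simp] theorem c0_resH (t : T') : c0 (resH ι f) t = c0 f (ι t) := rfl
@[simp] theorem c1_resH {s t : T'} (a : (comap G ι).E s t) :
    c1 (resH ι f) a = c1 (G := G) f a := rfl
@[simp] theorem c2_resH (t : T') : c2 (resH ι f) t = c2 f (ι t) := rfl
theorem cW_resH (t : T') (x : (resG ι X).W t) :
    cW (resH ι f) t x = (cW f (ι t) x.1, fun u a => c0 f u.1 (x.2 u a)) := rfl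
theorem cj_resH (t : T') (x : (resG ι X).V t) :
    cj (resH ι f) t x = (cj f (ι t) x, fun u a => c1 f (G.rev a) x) := rfl
theorem ci_resH (t : T') (x : (resG ι X).W t) :
    ci (resH ι f) t x =
      ci f (ι t) x.1 + ∑ u : Out ι, ∑ a : G.E u.1 (ι t), c1 f a (x.2 u a) := rfl
end lem

theorem sum_rev {M : Type*} [AddCommMonoid M] {s t : T} (F : G.E s t → M) :
    ∑ a : G.E t s, F (G.rev a) = ∑ a, F a :=
  Fintype.sum_equiv (revE G t s) _ _ fun a => rfl

variable {ι} in
theorem resH_comp (hι : Function.Injective ι) (f : X ⟶ Y) (g : Y ⟶ Z) :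
    resH ι (f ≫ g) = resH ι f ≫ resH ι g := by
  apply hm_ext
  · intro t; rfl
  · intro t; rfl
  · intro s t a; rfl
  · intro t
    apply LinearMap.ext; intro x
    change ci (f ≫ g) (ι t) x.1 + ∑ u : Out ι, ∑ a : G.E u.1 (ι t), c1 (f ≫ g) a (x.2 u a) =
      (ci g (ι t) (cW f (ι t) x.1) +
        ∑ u : Out ι, ∑ a : G.E u.1 (ι t), c1 g a (c0 f u.1 (x.2 u a))) +
      c0 g (ι t) (ci f (ι t) x.1 + ∑ u : Out ι, ∑ a : G.E u.1 (ι t), c1 f a (x.2 u a))
    simp only [ci_comp, LinearMap.add_apply, LinearMap.comp_apply,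
      c1_comp, map_add, map_sum, Finset.sum_add_distrib]
    abel
  · intro t; rfl
  · intro t
    apply LinearMap.ext; intro (x : X.V (ι t))
    have h := sum_split hι fun s => ∑ a : G.E (ι t) s, c1 g (G.rev a) (c1 f a x)
    have h2 : ∀ u : Out ι, ∑ a : G.E (ι t) u.1, c1 g (G.rev a) (c1 f a x) =
        ∑ a : G.E u.1 (ι t), c1 g a (c1 f (G.rev a) x) := by
      intro c
      rw [← sum_rev (G := G) fun a : G.E (ι t) c.1 => c1 g (G.rev a) (c1 f a x)]
      simp
    simp only [h2] at h
    refine Eq.trans ?_ (c2_comp_apply (resH ι f) (resH ι g) t x).symm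
    change c2 (f ≫ g) (ι t) x = c2 g (ι t) (c0 f (ι t) x) + c0 g (ι t) (c2 f (ι t) x) +
      (∑ s : T', ∑ a : G.E (ι t) (ι s), c1 g (G.rev a) (c1 f a x)) +
      (ci g (ι t) (cj f (ι t) x) +
        ∑ u : Out ι, ∑ a : G.E u.1 (ι t), c1 g a (c1 f (G.rev a) x))
    rw [c2_comp_apply, h]
    abel

@[simp] theorem resH_id : resH ι (𝟙 X) = 𝟙 (resG ι X) := by
  apply hm_ext
  · intro t; rfl
  · intro t; rfl
  · intro s t a; rfl
  · intro t
    apply LinearMap.ext
    intro (x : X.W (ι t) × NW ι X (ι t))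
    change (0 : X.W (ι t) →ₗ[k] X.V (ι t)) x.1 + ∑ u : Out ι, ∑ a : G.E u.1 (ι t),
      (0 : X.V u.1 →ₗ[k] X.V (ι t)) (x.2 u a) = 0
    simp
  · intro t; rfl
  · intro t; rfl

@[simp] theorem resH_add (f g : X ⟶ Y) : resH ι (f + g) = resH ι f + resH ι g := by
  apply hm_ext
  · intro t; rfl
  · intro t; rfl
  · intro s t a; rfl
  · intro t
    apply LinearMap.ext; intro x
    change (ci f (ι t) + ci g (ι t)) x.1 +
      ∑ u : Out ι, ∑ a : G.E u.1 (ι t), (c1 f a + c1 g a) (x.2 u a) =
      (ci f (ι t) x.1 + ∑ u : Out ι, ∑ a : G.E u.1 (ι t), c1 f a (x.2 u a)) +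
      (ci g (ι t) x.1 + ∑ u : Out ι, ∑ a : G.E u.1 (ι t), c1 g a (x.2 u a))
    simp only [LinearMap.add_apply, Finset.sum_add_distrib]
    abel
  · intro t; rfl
  · intro t; rfl

@[simp] theorem resH_smul (r : k) (f : X ⟶ Y) : resH ι (r • f) = r • resH ι f := by
  apply hm_ext
  · intro t; rfl
  · intro t; rfl
  · intro s t a; rfl
  · intro t
    apply LinearMap.ext; intro x
    change (r • ci f (ι t)) x.1 +
      ∑ u : Out ι, ∑ a : G.E u.1 (ι t), (r • c1 f a) (x.2 u a) =
      r • (ci f (ι t) x.1 + ∑ u : Out ι, ∑ a : G.E u.1 (ι t), c1 f a (x.2 u a))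
    simp only [LinearMap.smul_apply, smul_add, Finset.smul_sum]
  · intro t; rfl
  · intro t; rfl

variable (X Y) in
/-- `resH` as a linear map -/
noncomputable def resL : (X ⟶ Y) →ₗ[k] (resG ι X ⟶ resG ι Y) where
  toFun f := resH ι f
  map_add' := resH_add ι
  map_smul' := resH_smul ι

@[simp] theorem resL_apply (f : X ⟶ Y) : resL ι X Y f = resH ι f := rfl

@[simp] theorem resH_zero : resH ι (0 : X ⟶ Y) = 0 := (resL ι X Y).map_zero
@[simp] theorem resH_neg (f : X ⟶ Y) : resH ι (-f) = -resH ι f := (resL ι X Y).map_neg f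
@[simp] theorem resH_sub (f g : X ⟶ Y) : resH ι (f - g) = resH ι f - resH ι g :=
  (resL ι X Y).map_sub f g

@[simp] theorem resH_gam : resH ι (gam X) = gam (resG ι X) := by
  apply hm_ext
  · intro t; rfl
  · intro t; rfl
  · intro s t a; rfl
  · intro t
    apply LinearMap.ext
    intro (x : X.W (ι t) × NW ι X (ι t))
    change (0 : X.W (ι t) →ₗ[k] X.V (ι t)) x.1 + ∑ u : Out ι, ∑ a : G.E u.1 (ι t),
      (0 : X.V u.1 →ₗ[k] X.V (ι t)) (x.2 u a) = 0
    simp
  · intro t; rfl
  · intro t; rfl

variable {ι} in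
theorem resH_bar (hι : Function.Injective ι) (f : X ⟶ Y) : resH ι (bar f) = bar (resH ι f) := by
  simp [bar, resH_comp hι]

variable (k G) {ι} in
/-- restriction as a functor -/
noncomputable def Res (hι : Function.Injective ι) : Gob G k ⥤ Gob (comap G ι) k where
  obj X := resG ι X
  map f := resH ι f
  map_id X := resH_id ι
  map_comp f g := resH_comp hι f g

instance (hι : Function.Injective ι) : (Res k G hι).Additive where
  map_add := resH_add ι _ _

instance (hι : Function.Injective ι) : Functor.Linear k (Res k G hι) where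
  map_smul f r := resH_smul ι r f

theorem resH_mem_Cs {f : X ⟶ Y} (hf : f ∈ Cs X Y) (h0 : ∀ u : Out ι, c0 f u.1 = 0) :
    resH ι f ∈ Cs (resG ι X) (resG ι Y) := by
  intro t
  apply LinearMap.ext
  intro (x : X.W (ι t) × NW ι X (ι t))
  apply Prod.ext
  · exact LinearMap.congr_fun (hf (ι t)) x.1
  · funext u a
    exact LinearMap.congr_fun (h0 u) (x.2 u a)

end gob

section tob

variable {G : MG T} {ι : T' → T} (hι : Function.Injective ι)

variable (ι) in
/-- the objects which are minimal outside the image -/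
def Ok (X : TOb G k) : Prop := ∀ u : Out ι, c0 X.d u.1 = 0

theorem ok_F (X : FObj G k) : Ok ι X.toTOb := fun _ => rfl

/-- restriction of T-framed objects -/
noncomputable abbrev resT (X : TOb G k) (h : Ok ι X) : TOb (comap G ι) k where
  X := resG ι X.X
  d := resH ι X.d
  dd := by rw [← resH_comp hι, X.dd, resH_zero]
  dg := by rw [← resH_gam, ← resH_comp hι, X.dg, resH_neg, resH_comp hι]
  dW := resH_mem_Cs ι X.dW h

variable {X Y : TOb G k}

theorem resH_D (hX : Ok ι X) (hY : Ok ι Y) (f : X.X ⟶ Y.X) :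
    resH ι (D X Y f) = D (resT hι X hX) (resT hι Y hY) (resH ι f) := by
  rw [D_apply, D_apply, resH_sub, resH_comp hι, resH_comp hι, resH_bar hι]

/-- restriction of homotopy equivalences -/
noncomputable def resE (hX : Ok ι X) (hY : Ok ι Y) (e : HEquiv X Y) :
    HEquiv (resT hι X hX) (resT hι Y hY) where
  p := resH ι e.p
  q := resH ι e.q
  s := resH ι e.s
  r := resH ι e.r
  bp := (resH_bar hι _).symm.trans (congrArg (resH ι) e.bp)
  bq := (resH_bar hι _).symm.trans (congrArg (resH ι) e.bq)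
  Dp := by rw [← resH_D, e.Dp, resH_zero]
  Dq := by rw [← resH_D, e.Dq, resH_zero]
  pq := by rw [← resH_D, ← resH_comp hι, e.pq, resH_add, resH_id]
  qp := by rw [← resH_D, ← resH_comp hι, e.qp, resH_add, resH_id]

theorem resHIso (hX : Ok ι X) (hY : Ok ι Y) (e : HIso X Y) :
    HIso (resT hι X hX) (resT hι Y hY) :=
  e.map (resE hι hX hY)

theorem lam_resT (hX : Ok ι X) (t : T') :
    lam (resT hι X hX) t = lam X (ι t) +
      ∑ u : Out ι, Fintype.card (G.E u.1 (ι t)) * Module.finrank k (X.X.V u.1) := by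
  rw [← finrank_NW X.X (ι t)]
  exact Module.finrank_prod

/-- for minimal objects this is `resF` of `ResI_663` -/
theorem resT_toTOb (X : FObj G k) : resT hι X.toTOb (ok_F X) = (resF hι X).toTOb := by
  have : resH ι X.dm = (resF hι X).dm := by
    apply hm_ext
    · intro t; rfl
    · intro t; rfl
    · intro s t a; rfl
    · intro t
      apply LinearMap.ext
      intro (x : X.X.W (ι t) × NW ι X.X (ι t))
      change X.i (ι t) x.1 + ∑ u : Out ι, ∑ a : G.E u.1 (ι t), X.B a (x.2 u a) =
        X.i (ι t) x.1 + newI ι X (ι t) x.2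
      rw [newI_apply]
    · intro t; rfl
    · intro t; rfl
  simp only [resT, FObj.toTOb]
  congr 1

end tob

end Crest.Agent.R175.Res_428
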