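import Crest.Agent.R175.PTD_450
import Crest.Agent.R175.FrmHd_988
import Crest.Agent.R175.Res_428

/-!
Row 175, task 486 (S0263-RES), over `ResI_663` (comap, resG, resF) and `Res_428` (resH, resT):

* `dT_resT`, `dT_resF`: `dT (Res X) t = dT X (ι t)`;
* `HIso_of_q`, `HIso_of_finrank`; `res_free`, `res_frm`, `res_frm_out`, `res_prj`, `res_prj_out`;
* transitivity `res_res`: `Res κ (Res ι X) ≅ Res (ι ∘ κ) X`;
* relabeling `hT_relabel`: for `e : T' ≃ T`, `hT (Res e X) (Res e Y) = hT X Y`; `hT_res_congr`;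
* `res_dsum`.
-/

set_option autoImplicit false
set_option linter.unusedSectionVars false
set_option linter.unusedVariables false
set_option linter.unusedSimpArgs false

open CategoryTheory

namespace Crest.Agent.R175.ResB_988

open Crest.Agent.R175.PTA Crest.Agent.R175.ResI_663 Crest.Agent.R175.Res_428
open Crest.Agent.R175.Res_988 (dT_hd)

universe v

section dT

variable {T T' : Type} {G : MG T} {k : Type v} [Field k] [Fintype T] [Fintype T'] {ι : T' → T}
  [DecidableEq T] [DecidableEq T']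

/-- `d_t (Res X) = d_(ι t) X` -/
theorem dT_resT (hι : Function.Injective ι) (X : TOb G k) (h : Ok ι X) (t : T') :
    dT (resT hι X h) t = dT X (ι t) := by
  rw [dT_hd, dT_hd]; rfl

theorem dT_resF (hι : Function.Injective ι) (X : FObj G k) (t : T') :
    dT (resF hι X).toTOb t = dT X.toTOb (ι t) := by
  rw [dT_hd, dT_hd]; rfl

/-- `Hom(x_t, Res X)` and `Hom(x_(ι t), X)` have the same dimension -/
theorem hT_frm_resT (hι : Function.Injective ι) (X : TOb G k) (h : Ok ι X) (t : T') :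
    hT (frm (comap G ι) k t) (resT hι X h) = hT (frm G k (ι t)) X := by
  rw [Res_988.hT_frm_left_hd, Res_988.hT_frm_left_hd]; rfl

/-- `Hom(Res X, x_t)` and `Hom(X, x_(ι t))` have the same dimension -/
theorem hT_resT_frm (hι : Function.Injective ι) (X : TOb G k) (h : Ok ι X) (t : T') :
    hT (resT hι X h) (frm (comap G ι) k t) = hT X (frm G k (ι t)) := by
  rw [Res_988.hT_frm_right_hd, Res_988.hT_frm_right_hd]; rfl

/-- `V u = d_u` outside of the image -/
theorem finrank_out (X : TOb G k) (h : Ok ι X) (u : Out ι) :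
    Module.finrank k (X.X.V u.1) = dT X u.1 := by
  rw [dT_hd, h u, hd_zero]

/-- `lam (Res X)` in terms of `lam` and `dT` -/
theorem lam_resT' (hι : Function.Injective ι) (X : TOb G k) (h : Ok ι X) (t : T') :
    lam (resT hι X h) t = lam X (ι t) +
      ∑ u : Out ι, Fintype.card (G.E u.1 (ι t)) * dT X u.1 := by
  rw [lam_resT hι h]
  simp only [finrank_out X h]

end dT

/-! ### isomorphisms -/

section iso

variable {T : Type} {G : MG T} {k : Type v} [Field k] [Fintype T]

/-- an even closed isomorphism in the base category gives an isomorphism -/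
theorem HIso_of_q {X Y : TOb G k} (q : Y.X ⟶ X.X) (p : X.X ⟶ Y.X) (bq : bar q = q)
    (Dq : D Y X q = 0) (pq : p ≫ q = 𝟙 _) (qp : q ≫ p = 𝟙 _) : HIso X Y := by
  have bp : bar p = p := by
    have h : bar (p ≫ q) ≫ p = p := by rw [pq, bar_id, Category.id_comp]
    rw [bar_comp, bq, Category.assoc, qp, Category.comp_id] at h
    exact h
  have Dp : D X Y p = 0 := by
    have h : D Y Y (q ≫ p) = 0 := by rw [qp, D_id]
    rw [D_comp, Dq, Limits.zero_comp, add_zero] at h
    have h2 : p ≫ q ≫ D X Y p = 0 := by rw [h, Limits.comp_zero]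
    rwa [← Category.assoc, pq, Category.id_comp] at h2
  exact ⟨HEquiv.ofIso p q bp bq Dp Dq pq qp⟩

/-- the same with the components of `q` of length 0 only, given as bijective linear maps -/
theorem HIso_of_bij {X Y : TOb G k} (q : Y.X ⟶ X.X) (bq : bar q = q) (Dq : D Y X q = 0)
    (hV : ∀ t, Function.Bijective (c0 q t)) (hW : ∀ t, Function.Bijective (cW q t))
    (h1 : ∀ (s t : T) (a : G.E s t), c1 q a = 0) (hi : ∀ t, ci q t = 0) (hj : ∀ t, cj q t = 0)
    (h2 : ∀ t, c2 q t = 0) : HIso X Y := by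
  let eV : ∀ t, Y.X.V t ≃ₗ[k] X.X.V t := fun t => LinearEquiv.ofBijective (c0 q t) (hV t)
  let eW : ∀ t, Y.X.W t ≃ₗ[k] X.X.W t := fun t => LinearEquiv.ofBijective (cW q t) (hW t)
  have ev : ∀ t, c0 q t = (eV t).toLinearMap := fun t => rfl
  have ew : ∀ t, cW q t = (eW t).toLinearMap := fun t => rfl
  refine HIso_of_q q
    (mkH (fun t => (eV t).symm.toLinearMap) (fun t => (eW t).symm.toLinearMap)
      (fun _ _ _ => 0) (fun _ => 0) (fun _ => 0) (fun _ => 0)) bq Dq ?_ ?_
  · apply hm_ext <;> intros <;> simp [ev, ew, h1, hi, hj, h2]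
  · apply hm_ext <;> intros <;> simp [ev, ew, h1, hi, hj, h2]

/-- even objects with zero differential are classified by their dimensions -/
theorem HIso_of_finrank (X Y : TOb G k) (dX : X.d = 0) (dY : Y.d = 0)
    (gVX : ∀ t, X.X.gV t = LinearMap.id) (gWX : ∀ t, X.X.gW t = LinearMap.id)
    (gVY : ∀ t, Y.X.gV t = LinearMap.id) (gWY : ∀ t, Y.X.gW t = LinearMap.id)
    (hV : ∀ t, Module.finrank k (X.X.V t) = Module.finrank k (Y.X.V t))
    (hW : ∀ t, Module.finrank k (X.X.W t) = Module.finrank k (Y.X.W t)) : HIso X Y := by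
  let eV : ∀ t, X.X.V t ≃ₗ[k] Y.X.V t := fun t => LinearEquiv.ofFinrankEq _ _ (hV t)
  let eW : ∀ t, X.X.W t ≃ₗ[k] Y.X.W t := fun t => LinearEquiv.ofFinrankEq _ _ (hW t)
  refine HIso_of_q
    (mkH (fun t => (eV t).symm.toLinearMap) (fun t => (eW t).symm.toLinearMap)
      (fun _ _ _ => 0) (fun _ => 0) (fun _ => 0) (fun _ => 0))
    (mkH (fun t => (eV t).toLinearMap) (fun t => (eW t).toLinearMap)
      (fun _ _ _ => 0) (fun _ => 0) (fun _ => 0) (fun _ => 0)) ?_ ?_ ?_ ?_
  · apply hm_ext <;> intros <;> simp [gVX, gWX, gVY, gWY]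
  · rw [D_apply, dX, dY]; simp
  · apply hm_ext <;> intros <;> simp
  · apply hm_ext <;> intros <;> simp

end iso

section frames

variable {T T' : Type} {G : MG T} {k : Type v} [Field k] [Fintype T] [Fintype T'] {ι : T' → T}
  (hι : Function.Injective ι)

theorem ok_free (m n : T → ℕ) : Ok ι (free G k m n) := fun _ => rfl

theorem ok_frm [DecidableEq T] (t : T) : Ok ι (frm G k t) := fun _ => rfl

theorem ok_prj [DecidableEq T] (t : T) : Ok ι (prj G k t) := fun _ => rfl

/-- the restriction of a free object -/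
theorem res_free (m n : T → ℕ) (m' n' : T' → ℕ) (hm : ∀ t, m (ι t) = m' t)
    (hn : ∀ t, n (ι t) + ∑ u : Out ι, Fintype.card (G.E u.1 (ι t)) * m u.1 = n' t) :
    HIso (resT hι (free G k m n) (ok_free m n)) (free (comap G ι) k m' n') := by
  refine HIso_of_finrank _ _ (resH_zero ι) rfl (fun _ => rfl) (fun t => rfl) (fun _ => rfl)
    (fun _ => rfl) (fun t => ?_) fun t => ?_
  · change Module.finrank k (Fin (m (ι t)) → k) = Module.finrank k (Fin (m' t) → k)
    rw [hm]
  · have h1 := lam_resT hι (ok_free m n : Ok ι (free G k m n)) t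
    refine h1.trans ?_
    change Module.finrank k (Fin (n (ι t)) → k) + ∑ u : Out ι, Fintype.card (G.E u.1 (ι t)) *
      Module.finrank k (Fin (m u.1) → k) = Module.finrank k (Fin (n' t) → k)
    simp only [Module.finrank_fintype_fun_eq_card, Fintype.card_fin]
    exact hn t

variable [DecidableEq T] [DecidableEq T']

include hι in
theorem single_ι (t s : T') : (Pi.single (ι t) 1 : T → ℕ) (ι s) = (Pi.single t 1 : T' → ℕ) s := by
  by_cases h : s = t
  · subst h; rw [Pi.single_eq_same, Pi.single_eq_same]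
  · rw [Pi.single_eq_of_ne h, Pi.single_eq_of_ne (fun e => h (hι e))]

theorem single_out (u : Out ι) (s : T') : (Pi.single u.1 1 : T → ℕ) (ι s) = 0 :=
  Pi.single_eq_of_ne (fun e => u.2 ⟨s, e⟩) _

theorem single_out' (u : Out ι) (s : T') : (Pi.single (ι s) 1 : T → ℕ) u.1 = 0 :=
  Pi.single_eq_of_ne (fun e => u.2 ⟨s, e.symm⟩) _

/-- `Res (frm (ι t)) ≅ frm t` -/
theorem res_frm (t : T') : HIso (resT hι (frm G k (ι t)) (ok_frm _)) (frm (comap G ι) k t) :=
  res_free hι _ _ _ _ (fun s => rfl) fun s => by simp [single_ι hι]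

/-- `Res (frm u) ≅ 0` for `u` outside -/
theorem res_frm_out (u : Out ι) :
    HIso (resT hι (frm G k u.1) (ok_frm _)) (free (comap G ι) k 0 0) :=
  res_free hι _ _ _ _ (fun s => rfl) fun s => by simp [single_out]

/-- `Res (prj (ι t)) ≅ prj t` -/
theorem res_prj (t : T') : HIso (resT hι (prj G k (ι t)) (ok_prj _)) (prj (comap G ι) k t) :=
  res_free hι _ _ _ _ (fun s => single_ι hι t s) fun s => by simp [single_out']

/-- `Res (prj u)` for `u` outside: the sum of the frames at the neighbours of `u` -/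
theorem res_prj_out (u : Out ι) : HIso (resT hι (prj G k u.1) (ok_prj _))
    (free (comap G ι) k 0 (fun t => Fintype.card (G.E u.1 (ι t)))) := by
  refine res_free hι _ _ _ _ (fun s => single_out u s) fun s => ?_
  rw [Finset.sum_eq_single u]
  · rw [Pi.single_eq_same]; simp
  · intro b _ hb
    rw [Pi.single_eq_of_ne (fun e => hb (Subtype.ext e)), mul_zero]
  · intro h; exact absurd (Finset.mem_univ u) h

end frames

/-! ### transitivity -/

section trans

variable {T T' T'' : Type} {G : MG T} {k : Type v} [Field k] [Fintype T] [Fintype T']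
  [Fintype T''] {ι : T' → T} {κ : T'' → T'}

/-- `Out (ι ∘ κ) = Out ι ⊕ Out κ` -/
noncomputable def outE (hι : Function.Injective ι) (κ : T'' → T') :
    Out ι ⊕ Out κ ≃ Out (ι ∘ κ) :=
  Equiv.ofBijective (Sum.elim (fun u => ⟨u.1, fun ⟨s, h⟩ => u.2 ⟨κ s, h⟩⟩)
    (fun u => ⟨ι u.1, fun ⟨s, h⟩ => u.2 ⟨s, hι h⟩⟩)) (by
    constructor
    · rintro (a | a) (b | b) h
      · have h1 : a.1 = b.1 := congrArg (fun z : Out (ι ∘ κ) => z.1) h
        exact congrArg _ (Subtype.ext h1)
      · exact absurd ⟨b.1, (congrArg (fun z : Out (ι ∘ κ) => z.1) h).symm⟩ a.2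
      · exact absurd ⟨a.1, congrArg (fun z : Out (ι ∘ κ) => z.1) h⟩ b.2
      · have h1 : ι a.1 = ι b.1 := congrArg (fun z : Out (ι ∘ κ) => z.1) h
        exact congrArg _ (Subtype.ext (hι h1))
    · rintro ⟨u, hu⟩
      by_cases h : u ∈ Set.range ι
      · obtain ⟨a, rfl⟩ := h
        exact ⟨Sum.inr ⟨a, fun ⟨s, h⟩ => hu ⟨s, congrArg ι h⟩⟩, rfl⟩
      · exact ⟨Sum.inl ⟨u, h⟩, rfl⟩)

theorem sum_out (hι : Function.Injective ι) (κ : T'' → T') {M : Type*} [AddCommMonoid M]
    (F : Out (ι ∘ κ) → M) : ∑ u, F u = ∑ u : Out ι, F (outE hι κ (Sum.inl u)) +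
      ∑ u : Out κ, F (outE hι κ (Sum.inr u)) := by
  rw [← Fintype.sum_equiv (outE hι κ) (fun x => F (outE hι κ x)) F fun _ => rfl,
    Fintype.sum_sum_type]

variable (hι : Function.Injective ι) (hκ : Function.Injective κ)

variable (ι κ) in
/-- the two step restriction as an object over `comap G (ι ∘ κ)` -/
def r2O (X : Gob G k) : Gob (comap G (ι ∘ κ)) k := resG κ (resG ι X)

variable (ι κ) in
/-- the two step restriction of a morphism -/
noncomputable def r2H {X Y : Gob G k} (f : X ⟶ Y) : r2O ι κ X ⟶ r2O ι κ Y := resH κ (resH ι f)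

/-- the comparison of the frames -/
noncomputable def trW (X : Gob G k) (t : T'') :
    (X.W (ι (κ t)) × NW (ι ∘ κ) X (ι (κ t))) →ₗ[k] (r2O ι κ X).W t where
  toFun x := ((x.1, fun u a => x.2 (outE hι κ (Sum.inl u)) a),
    fun u a => x.2 (outE hι κ (Sum.inr u)) a)
  map_add' x y := rfl
  map_smul' c x := rfl

/-- the comparison map `Res (ι ∘ κ) X → Res κ (Res ι X)` -/
noncomputable def trG (X : Gob G k) : resG (ι ∘ κ) X ⟶ r2O ι κ X :=
  mkH (X := resG (ι ∘ κ) X) (Y := r2O ι κ X) (fun _ => LinearMap.id)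
    (fun t => trW hι X t) (fun _ _ _ => 0) (fun _ => 0) (fun _ => 0) (fun _ => 0)

theorem trW_injective (X : Gob G k) (t : T'') : Function.Injective (trW hι (κ := κ) X t) := by
  rw [injective_iff_map_eq_zero]
  intro x hx
  have h1 := congrArg (fun z : (X.W (ι (κ t)) × NW ι X (ι (κ t))) ×
    (∀ (u : Out κ) (_ : (comap G ι).E u.1 (κ t)), X.V (ι u.1)) => z.1.1) hx
  refine Prod.ext h1 ?_
  funext u
  obtain ⟨v, rfl⟩ := (outE hι κ).surjective u
  funext a
  rcases v with v | v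
  · have h2 := congrArg (fun z : (X.W (ι (κ t)) × NW ι X (ι (κ t))) ×
      (∀ (u : Out κ) (_ : (comap G ι).E u.1 (κ t)), X.V (ι u.1)) => z.1.2 v a) hx
    exact h2
  · have h2 := congrArg (fun z : (X.W (ι (κ t)) × NW ι X (ι (κ t))) ×
      (∀ (u : Out κ) (_ : (comap G ι).E u.1 (κ t)), X.V (ι u.1)) => z.2 v a) hx
    exact h2

include hι in
theorem trW_finrank (X : Gob G k) (t : T'') :
    Module.finrank k (X.W (ι (κ t)) × NW (ι ∘ κ) X (ι (κ t))) =
    Module.finrank k ((r2O ι κ X).W t) := by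
  have h1 : Module.finrank k (X.W (ι (κ t)) × NW (ι ∘ κ) X (ι (κ t))) =
      Module.finrank k (X.W (ι (κ t))) + ∑ u : Out (ι ∘ κ),
        Fintype.card (G.E u.1 (ι (κ t))) * Module.finrank k (X.V u.1) := by
    rw [← finrank_NW (ι := ι ∘ κ) X]; exact Module.finrank_prod
  have h2 : Module.finrank k ((r2O ι κ X).W t) =
      (Module.finrank k (X.W (ι (κ t))) + ∑ u : Out ι,
        Fintype.card (G.E u.1 (ι (κ t))) * Module.finrank k (X.V u.1)) + ∑ u : Out κ,
        Fintype.card ((comap G ι).E u.1 (κ t)) * Module.finrank k ((resG ι X).V u.1) := by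
    rw [← finrank_NW (ι := κ) (resG ι X), ← finrank_NW (ι := ι) X]
    exact Module.finrank_prod.trans (congrArg (· + _) Module.finrank_prod)
  rw [h1, h2, sum_out hι κ, add_assoc]
  rfl

theorem trW_bijective (X : Gob G k) (t : T'') : Function.Bijective (trW hι (κ := κ) X t) :=
  ⟨trW_injective hι X t,
    (LinearMap.injective_iff_surjective_of_finrank_eq_finrank (trW_finrank hι X t)).1
      (trW_injective hι X t)⟩

/-- naturality of the comparison map -/
theorem trG_nat {X Y : Gob G k} (f : X ⟶ Y) :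
    trG hι (κ := κ) X ≫ r2H ι κ f = resH (ι ∘ κ) f ≫ trG hι Y := by
  apply hm_ext
  · intro t; rfl
  · intro t; rfl
  · intro s t a
    refine LinearMap.ext fun (x : X.V (ι (κ s))) => ?_
    have h : ∀ y : Y.V (ι (κ t)), y + c0 f (ι (κ t)) 0 = 0 + y := fun y => by
      rw [map_zero, add_zero, zero_add]
    exact h (c1 (G := G) (s := ι (κ s)) (t := ι (κ t)) f a x)
  · intro t
    refine LinearMap.ext fun (x : X.W (ι (κ t)) × NW (ι ∘ κ) X (ι (κ t))) => ?_
    have h : ((ci f (ι (κ t)) x.1 + ∑ u : Out ι, ∑ a : G.E u.1 (ι (κ t)),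
        c1 f a (x.2 (outE hι κ (Sum.inl u)) a)) + ∑ u : Out κ, ∑ a : G.E (ι u.1) (ι (κ t)),
        c1 f a (x.2 (outE hι κ (Sum.inr u)) a)) + c0 f (ι (κ t)) 0 =
      (0 : Y.V (ι (κ t))) + (ci f (ι (κ t)) x.1 +
        ∑ u : Out (ι ∘ κ), ∑ a : G.E u.1 (ι (κ t)), c1 f a (x.2 u a)) := by
      rw [sum_out hι κ, map_zero, add_zero, zero_add, add_assoc]
      rfl
    exact h
  · intro t
    refine LinearMap.ext fun (x : X.V (ι (κ t))) => ?_
    have h1 : cj (trG hι (κ := κ) X ≫ r2H ι κ f) t x =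
      cj (r2H ι κ f) t x + cW (r2H ι κ f) t 0 := rfl
    have h2 : cj (resH (ι ∘ κ) f ≫ trG hι Y) t x = 0 + trW hι Y t (cjR (ι ∘ κ) f t x) := rfl
    rw [h1, h2, map_zero, add_zero, zero_add]
    rfl
  · intro t
    refine LinearMap.ext fun (x : X.V (ι (κ t))) => ?_
    have h1 := c2_comp_apply (trG hι (κ := κ) X) (r2H ι κ f) t x
    have h2 := c2_comp_apply (resH (ι ∘ κ) f) (trG hι (κ := κ) Y) t x
    refine h1.trans (Eq.trans ?_ h2.symm)
    have e1 : ∀ (s : T'') (a : (comap G (ι ∘ κ)).E t s),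
      c1 (trG hι (κ := κ) X) a x = 0 := fun s a => rfl
    have e2 : ∀ (s : T'') (a : (comap G (ι ∘ κ)).E t s) (y),
      c1 (trG hι (κ := κ) Y) ((comap G (ι ∘ κ)).rev a) y = 0 := fun s a y => rfl
    have e3 : c2 (trG hι (κ := κ) X) t x = 0 := rfl
    have e4 : ∀ y, c2 (trG hι (κ := κ) Y) t y = 0 := fun y => rfl
    have e5 : cj (trG hι (κ := κ) X) t x = 0 := rfl
    have e6 : ∀ y, ci (trG hι (κ := κ) Y) t y = 0 := fun y => rfl
    simp only [e1, e2, e3, e4, e5, e6, map_zero, Finset.sum_const_zero, add_zero, zero_add]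
    rfl

theorem trG_gam (X : Gob G k) :
    trG hι (κ := κ) X ≫ gam (r2O ι κ X) = gam (resG (ι ∘ κ) X) ≫ trG hι X := by
  have h1 : r2H ι κ (gam X) = gam (r2O ι κ X) := by
    have h2 : resH ι (gam X) = gam (resG ι X) := resH_gam ι
    have h3 : resH κ (gam (resG ι X)) = gam (resG κ (resG ι X)) := resH_gam κ
    exact (congrArg (resH κ) h2).trans h3
  rw [← h1, trG_nat, resH_gam]

include hι in
theorem ok_res (X : TOb G k) (h : Ok (ι ∘ κ) X) : Ok ι X :=
  fun u => h (outE hι κ (Sum.inl u))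

theorem ok_res' (X : TOb G k) (h : Ok (ι ∘ κ) X) (h' : Ok ι X) : Ok κ (resT hι X h') :=
  fun u => h (outE hι κ (Sum.inr u))

/-- **transitivity**: `Res κ (Res ι X) ≅ Res (ι ∘ κ) X` -/
theorem res_res (X : TOb G k) (h : Ok (ι ∘ κ) X) (h' : Ok ι X) (h'' : Ok κ (resT hι X h')) :
    HIso (G := comap G (ι ∘ κ)) (resT (G := comap G ι) hκ (resT (G := G) hι X h') h'')
      (resT (hι.comp hκ) X h) := by
  refine HIso_of_bij (G := comap G (ι ∘ κ))
    (X := (resT (G := comap G ι) hκ (resT (G := G) hι X h') h''))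
    (Y := resT (hι.comp hκ) X h) (trG hι X.X) ?_ ?_ (fun t => Function.bijective_id)
    (fun t => trW_bijective hι X.X t) (fun s t a => rfl) (fun t => rfl) (fun t => rfl)
    (fun t => rfl)
  · change gam (resG (ι ∘ κ) X.X) ≫ trG hι X.X ≫ gam (r2O ι κ X.X) = _
    rw [trG_gam, ← Category.assoc, gam_gam, Category.id_comp]
  · have h1 : bar (trG hι (κ := κ) X.X) = trG hι X.X := by
      change gam (resG (ι ∘ κ) X.X) ≫ trG hι X.X ≫ gam (r2O ι κ X.X) = _
      rw [trG_gam, ← Category.assoc, gam_gam, Category.id_comp]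
    change trG hι X.X ≫ r2H ι κ X.d - resH (ι ∘ κ) X.d ≫ bar (trG hι X.X) = 0
    rw [h1, trG_nat, sub_self]

/-- transitivity for minimal objects -/
theorem res_resF (X : FObj G k) :
    HIso ((resF hκ (resF hι X)).toTOb : TOb (comap G (ι ∘ κ)) k)
      (resF (hι.comp hκ) X).toTOb := by
  have h := res_res hι hκ X.toTOb (ok_F X) (ok_F X) (fun _ => rfl)
  have h1 : resT hι X.toTOb (ok_F X) = (resF hι X).toTOb := resT_toTOb hι X
  have h2 : resT (hι.comp hκ) X.toTOb (ok_F X) = (resF (hι.comp hκ) X).toTOb :=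
    resT_toTOb _ X
  have h3 : resT hκ (resF hι X).toTOb (ok_F _) = (resF hκ (resF hι X)).toTOb :=
    resT_toTOb _ _
  have h4 : ∀ (Z Z' : TOb (comap G ι) k) (e : Z = Z') (hZ : Ok κ Z) (hZ' : Ok κ Z'),
    resT hκ Z hZ = resT hκ Z' hZ' := by
    intro Z Z' e hZ hZ'
    subst e; rfl
  rw [h2] at h
  have h5 : resT hκ (resT hι X.toTOb (ok_F X)) (fun _ => rfl) =
    (resF hκ (resF hι X)).toTOb := (h4 _ _ h1 _ (ok_F _)).trans h3
  exact h5 ▸ h

end trans

/-! ### relabeling -/

section relabel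

variable {T T' : Type} {G : MG T} {k : Type v} [Field k] [Fintype T] [Fintype T'] {e : T' → T}

theorem out_isEmpty (he : Function.Surjective e) : IsEmpty (Out e) := ⟨fun u => u.2 (he u.1)⟩

theorem ok_surj (he : Function.Surjective e) (X : TOb G k) : Ok e X :=
  fun u => absurd (he u.1) u.2

theorem NW_subsingleton (he : Function.Surjective e) (X : Gob G k) (t : T) :
    Subsingleton (NW e X t) := by
  have := out_isEmpty he
  infer_instance

theorem exists_ext (he : Function.Bijective e) (P : T → Type*) (f : ∀ t', P (e t')) :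
    ∃ F : ∀ t, P t, ∀ t', F (e t') = f t' :=
  ⟨(Equiv.ofBijective e he).piCongrLeft P f,
    fun t' => (Equiv.ofBijective e he).piCongrLeft_apply_apply P f t'⟩

theorem exists_ext2 (he : Function.Bijective e) (P : T → T → Type*)
    (f : ∀ s' t', P (e s') (e t')) :
    ∃ F : ∀ s t, P s t, ∀ s' t', F (e s') (e t') = f s' t' := by
  choose F1 h1 using fun s' => exists_ext he (P (e s')) (f s')
  obtain ⟨F, hF⟩ := exists_ext he (fun s => ∀ t, P s t) F1
  exact ⟨F, fun s' t' => by rw [hF, h1]⟩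

variable (e) in
/-- the restriction on the complexes with separate frames -/
noncomputable def rlC (he : Function.Surjective e) (X Y : Gob G k) :
    Cs X Y →ₗ[k] Cs (resG e X) (resG e Y) where
  toFun f := ⟨resH e f.1, resH_mem_Cs e f.2 fun u => absurd (he u.1) u.2⟩
  map_add' f g := Subtype.ext (resH_add e f.1 g.1)
  map_smul' c f := Subtype.ext (resH_smul e c f.1)

theorem ciR_empty (he : Function.Surjective e) {X Y : Gob G k} (f : X ⟶ Y) (t : T')
    (x : X.W (e t) × NW e X (e t)) : ciR e f t x = ci f (e t) x.1 := by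
  have := out_isEmpty he
  change ci f (e t) x.1 + ∑ u : Out e, ∑ a : G.E u.1 (e t), c1 f a (x.2 u a) = _
  simp

theorem rlC_injective (he : Function.Surjective e) (X Y : Gob G k) :
    Function.Injective (rlC e he X Y) := by
  rw [injective_iff_map_eq_zero]
  intro f hf
  have hf1 : resH e f.1 = 0 := congrArg Subtype.val hf
  have := out_isEmpty he
  apply Subtype.ext
  apply hm_ext
  · intro t
    obtain ⟨t, rfl⟩ := he t
    exact congrArg (fun g => c0 g t) hf1
  · intro t; rw [f.2 t]; rfl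
  · intro s t a
    obtain ⟨t, rfl⟩ := he t
    obtain ⟨s, rfl⟩ := he s
    exact congrArg (fun g : resG e X ⟶ resG e Y => c1 (G := comap G e) g (s := s) (t := t) a) hf1
  · intro t
    obtain ⟨t, rfl⟩ := he t
    refine LinearMap.ext fun w => ?_
    have h1 : ciR e f.1 t (w, 0) = 0 :=
      congrArg (fun g : resG e X ⟶ resG e Y => ci g t ((w, 0) : X.W (e t) × NW e X (e t))) hf1
    rw [ciR_empty he] at h1
    exact h1
  · intro t
    obtain ⟨t, rfl⟩ := he t
    refine LinearMap.ext fun x => ?_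
    have h1 : cjR e f.1 t x = 0 :=
      congrArg (fun g : resG e X ⟶ resG e Y => cj g t x) hf1
    exact congrArg Prod.fst h1
  · intro t
    obtain ⟨t, rfl⟩ := he t
    exact congrArg (fun g => c2 g t) hf1

theorem rlC_surjective (he : Function.Bijective e) (X Y : Gob G k) :
    Function.Surjective (rlC e he.2 X Y) := by
  intro g
  have := out_isEmpty he.2
  obtain ⟨f0, h0⟩ := exists_ext he (fun t => X.V t →ₗ[k] Y.V t) (fun t' => c0 g.1 t')
  obtain ⟨f2, h2⟩ := exists_ext he (fun t => X.V t →ₗ[k] Y.V t) (fun t' => c2 g.1 t')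
  obtain ⟨f1, h1⟩ := exists_ext2 he (fun s t => G.E s t → (X.V s →ₗ[k] Y.V t))
    (fun s' t' (a : G.E (e s') (e t')) => c1 (G := comap G e) g.1 (s := s') (t := t') a)
  obtain ⟨fi, hi⟩ := exists_ext he (fun t => X.W t →ₗ[k] Y.V t)
    (fun t' => (ci g.1 t' : X.W (e t') × NW e X (e t') →ₗ[k] Y.V (e t')) ∘ₗ
      LinearMap.inl k (X.W (e t')) (NW e X (e t')))
  obtain ⟨fj, hj⟩ := exists_ext he (fun t => X.V t →ₗ[k] Y.W t)
    (fun t' => LinearMap.fst k (Y.W (e t')) (NW e Y (e t')) ∘ₗ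
      (cj g.1 t' : X.V (e t') →ₗ[k] Y.W (e t') × NW e Y (e t')))
  refine ⟨⟨mkH f0 (fun _ => 0) f1 fi fj f2, fun _ => rfl⟩, ?_⟩
  apply Subtype.ext
  apply hm_ext
  · intro t; exact h0 t
  · intro t
    rw [g.2 t]
    exact (rlC e he.2 X Y ⟨mkH f0 (fun _ => 0) f1 fi fj f2, fun _ => rfl⟩).2 t
  · intro s t a; exact congrFun (h1 s t) a
  · intro t
    refine LinearMap.ext fun (x : X.W (e t) × NW e X (e t)) => ?_
    have hs := NW_subsingleton he.2 X (e t)
    have h3 : ciR e (mkH f0 (fun _ => 0) f1 fi fj f2) t x = fi (e t) x.1 := by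
      rw [ciR_empty he.2, ci_mkH]
    refine h3.trans ?_
    rw [hi]
    have h4 : x = (x.1, 0) := Prod.ext rfl (Subsingleton.elim _ _)
    exact congrArg (ci g.1 t) h4.symm
  · intro t
    refine LinearMap.ext fun (x : X.V (e t)) => ?_
    have hs := NW_subsingleton he.2 Y (e t)
    have h3 : ∀ y z : Y.W (e t) × NW e Y (e t), y.1 = z.1 → y = z := fun y z h =>
      Prod.ext h (Subsingleton.elim _ _)
    refine h3 _ _ ?_
    exact LinearMap.congr_fun (hj t) x
  · intro t; exact h2 t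

/-- **relabeling of the vertices** does not change `hT` -/
theorem hT_relabel (he : Function.Bijective e) (X Y : TOb G k) :
    hT (resT he.1 X (ok_surj he.2 X)) (resT he.1 Y (ok_surj he.2 Y)) = hT X Y := by
  symm
  refine hd_congr _ _ (LinearEquiv.ofBijective (rlC e he.2 X.X Y.X)
    ⟨rlC_injective he.2 _ _, rlC_surjective he _ _⟩) fun f => ?_
  apply Subtype.ext
  exact resH_D he.1 (ok_surj he.2 X) (ok_surj he.2 Y) f.1

theorem hT_relabelF (he : Function.Bijective e) (X Y : FObj G k) :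
    hT (resF he.1 X).toTOb (resF he.1 Y).toTOb = hT X.toTOb Y.toTOb := by
  rw [← resT_toTOb, ← resT_toTOb]
  exact hT_relabel he X.toTOb Y.toTOb

end relabel

section congr

variable {T T₁ T₂ : Type} {G : MG T} {k : Type v} [Field k] [Fintype T] [Fintype T₁] [Fintype T₂]
  {ι₁ : T₁ → T} {ι₂ : T₂ → T}

/-- two injections with the same range differ by a bijection -/
theorem exists_relabel (h₁ : Function.Injective ι₁) (h₂ : Function.Injective ι₂)
    (hr : Set.range ι₁ = Set.range ι₂) : ∃ e : T₁ → T₂, Function.Bijective e ∧ ι₁ = ι₂ ∘ e := by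
  have h : ∀ t, ∃ s, ι₂ s = ι₁ t := fun t => by
    have : ι₁ t ∈ Set.range ι₂ := hr ▸ ⟨t, rfl⟩
    exact this
  choose e he using h
  refine ⟨e, ⟨fun a b hab => h₁ ?_, fun s => ?_⟩, funext fun t => (he t).symm⟩
  · rw [← he, ← he, hab]
  · have : ι₂ s ∈ Set.range ι₁ := hr.symm ▸ ⟨s, rfl⟩
    obtain ⟨t, ht⟩ := this
    exact ⟨t, h₂ (by rw [he, ht])⟩

/-- `hT (Res X) (Res Y)` depends only on the range of the injection -/
theorem hT_res_congr (h₁ : Function.Injective ι₁) (h₂ : Function.Injective ι₂)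
    (hr : Set.range ι₁ = Set.range ι₂) (X Y : TOb G k) (hX₁ : Ok ι₁ X) (hX₂ : Ok ι₂ X)
    (hY₁ : Ok ι₁ Y) (hY₂ : Ok ι₂ Y) :
    hT (resT h₁ X hX₁) (resT h₁ Y hY₁) = hT (resT h₂ X hX₂) (resT h₂ Y hY₂) := by
  obtain ⟨e, he, rfl⟩ := exists_relabel h₁ h₂ hr
  rw [← hT_relabel he (resT h₂ X hX₂) (resT h₂ Y hY₂)]
  have hx := res_res h₂ he.1 X hX₁ hX₂ (ok_surj he.2 _)
  have hy := res_res h₂ he.1 Y hY₁ hY₂ (ok_surj he.2 _)
  exact ((hx.hT_left _).trans (hy.hT_right _)).symm

theorem hT_resF_congr (h₁ : Function.Injective ι₁) (h₂ : Function.Injective ι₂)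
    (hr : Set.range ι₁ = Set.range ι₂) (X Y : FObj G k) :
    hT (resF h₁ X).toTOb (resF h₁ Y).toTOb = hT (resF h₂ X).toTOb (resF h₂ Y).toTOb := by
  rw [← resT_toTOb, ← resT_toTOb, ← resT_toTOb, ← resT_toTOb]
  exact hT_res_congr h₁ h₂ hr _ _ _ _ _ _

end congr

/-! ### direct sums -/

section sums

variable {T T' : Type} {G : MG T} {k : Type v} [Field k] [Fintype T] [Fintype T'] {ι : T' → T}
  (hι : Function.Injective ι)

theorem ok_dsum (X Y : TOb G k) (hX : Ok ι X) (hY : Ok ι Y) : Ok ι (dsum X Y) := fun u => by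
  rw [dsum_d]
  simp [hX u, hY u]

/-- `Res (X ⊕ Y) ≅ Res X ⊕ Res Y` -/
theorem res_dsum (X Y : TOb G k) (hX : Ok ι X) (hY : Ok ι Y) (h : Ok ι (dsum X Y)) :
    HIso (resT hι (dsum X Y) h) (dsum (resT hι X hX) (resT hι Y hY)) := by
  have e1 : resH ι (inl X.X Y.X) ≫ resH ι (fst X.X Y.X) = 𝟙 (resG ι X.X) := by
    rw [← resH_comp hι, inl_fst, resH_id]
  have e2 : resH ι (inr X.X Y.X) ≫ resH ι (snd X.X Y.X) = 𝟙 (resG ι Y.X) := by
    rw [← resH_comp hι, inr_snd, resH_id]
  have e3 : resH ι (inl X.X Y.X) ≫ resH ι (snd X.X Y.X) = 0 := by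
    rw [← resH_comp hι, inl_snd, resH_zero]
  have e4 : resH ι (inr X.X Y.X) ≫ resH ι (fst X.X Y.X) = 0 := by
    rw [← resH_comp hι, inr_fst, resH_zero]
  have e5 : resH ι (fst X.X Y.X) ≫ resH ι (inl X.X Y.X) +
      resH ι (snd X.X Y.X) ≫ resH ι (inr X.X Y.X) = 𝟙 _ := by
    rw [← resH_comp hι, ← resH_comp hι, ← resH_add, sum_one, resH_id]
  have e6 : resH ι (dsum X Y).d = resH ι (fst X.X Y.X) ≫ resH ι X.d ≫ resH ι (inl X.X Y.X) +
      resH ι (snd X.X Y.X) ≫ resH ι Y.d ≫ resH ι (inr X.X Y.X) := by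
    rw [← resH_comp hι, ← resH_comp hι, ← resH_comp hι, ← resH_comp hι, ← resH_add]
    rw [dsum_d]
  have b1 : bar (resH ι (fst X.X Y.X)) = resH ι (fst X.X Y.X) := by
    rw [← resH_bar hι, bar_fst]
  have b2 : bar (resH ι (snd X.X Y.X)) = resH ι (snd X.X Y.X) := by
    rw [← resH_bar hι, bar_snd]
  have a1 : ∀ {Z : Gob (comap G ι) k} (f : resG ι X.X ⟶ Z),
      resH ι (inl X.X Y.X) ≫ resH ι (fst X.X Y.X) ≫ f = f := fun f => by
    rw [← Category.assoc, e1, Category.id_comp]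
  have a2 : ∀ {Z : Gob (comap G ι) k} (f : resG ι Y.X ⟶ Z),
      resH ι (inr X.X Y.X) ≫ resH ι (snd X.X Y.X) ≫ f = f := fun f => by
    rw [← Category.assoc, e2, Category.id_comp]
  have a3 : ∀ {Z : Gob (comap G ι) k} (f : resG ι Y.X ⟶ Z),
      resH ι (inl X.X Y.X) ≫ resH ι (snd X.X Y.X) ≫ f = 0 := fun f => by
    rw [← Category.assoc, e3, Limits.zero_comp]
  have a4 : ∀ {Z : Gob (comap G ι) k} (f : resG ι X.X ⟶ Z),
      resH ι (inr X.X Y.X) ≫ resH ι (fst X.X Y.X) ≫ f = 0 := fun f => by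
    rw [← Category.assoc, e4, Limits.zero_comp]
  refine HIso.symm (HIso_of_q
    (resH ι (fst X.X Y.X) ≫ inl (resG ι X.X) (resG ι Y.X) +
      resH ι (snd X.X Y.X) ≫ inr (resG ι X.X) (resG ι Y.X))
    (fst (resG ι X.X) (resG ι Y.X) ≫ resH ι (inl X.X Y.X) +
      snd (resG ι X.X) (resG ι Y.X) ≫ resH ι (inr X.X Y.X)) ?_ ?_ ?_ ?_)
  · simp only [bar_add, bar_comp, b1, b2, bar_inl, bar_inr]
  · rw [D_apply]
    have hb : bar (resH ι (fst X.X Y.X) ≫ inl (resG ι X.X) (resG ι Y.X) +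
      resH ι (snd X.X Y.X) ≫ inr (resG ι X.X) (resG ι Y.X)) = resH ι (fst X.X Y.X) ≫ inl _ _ +
      resH ι (snd X.X Y.X) ≫ inr _ _ := by
      simp only [bar_add, bar_comp, b1, b2, bar_inl, bar_inr]
    rw [hb, dsum_d]
    change _ - resH ι (dsum X Y).d ≫ _ = 0
    rw [e6]
    simp only [Preadditive.add_comp, Preadditive.comp_add, Category.assoc, inl_fst_assoc,
      inl_snd_assoc, inr_fst_assoc, inr_snd_assoc, a1, a2, a3, a4, Limits.comp_zero,
      Limits.zero_comp, add_zero, zero_add, sub_self]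
  · simp only [Preadditive.add_comp, Preadditive.comp_add, Category.assoc, a1, a2, a3, a4,
      Limits.comp_zero, add_zero, zero_add]
    exact sum_one _ _
  · simp only [Preadditive.add_comp, Preadditive.comp_add, Category.assoc, inl_fst_assoc,
      inl_snd_assoc, inr_fst_assoc, inr_snd_assoc, Limits.comp_zero, add_zero, zero_add]
    exact e5

end sums

end Crest.Agent.R175.ResB_988
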