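import Crest.Agent.R175.Cls_133
import Crest.Agent.R175.ResB_988
import Crest.Agent.R175.MFI_663
import Crest.Agent.R175.PTM_450

/-!
# Restriction on classes (row 175, helper774)

`rC hι : Cls G k →+ Cls (comap G ι) k`, `⟦X⟧ ↦ ⟦resT hι X h⟧` for every `X` with `Ok ι X`
(every class has such a representative, by the minimal model PTM_450).

* `rC_mk`, `rC_F`, `rC_fr`, `rC_fr_out`, `hC_fr_rC`, `hC_rC_fr`, `lamC_rC`;
* `rC_rC` : transitivity;  `hC_rC_congr` : only the range of `ι` matters;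
* `MF_C` : `h(Res x, Res y) + ∑_u (d_u x · lam_u y + lam_u x · d_u y) + ∑_{u,u'} card E(u,u') d_u x d_{u'} y
  ≤ h(x, y) + 2 ∑_u d_u x d_u y`.
-/

set_option autoImplicit false
set_option linter.unusedSectionVars false
set_option linter.unusedVariables false
set_option linter.unusedSimpArgs false

open CategoryTheory

namespace Crest.Agent.R175.ResC_774

open Crest.Agent.R175.PTA Crest.Agent.R175.ResI_663 Crest.Agent.R175.Res_428
open Crest.Agent.R175.ResB_988 Crest.Agent.R175.Cls_133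

universe v

section basic

variable {T T' : Type} {G : MG T} {k : Type v} [Field k] [NeZero (2 : k)] [Fintype T] [Fintype T']

/-- every class has a minimal representative -/
theorem exists_rep (x : Cls G k) : ∃ F : FObj G k, (⟦F.toTOb⟧ : Cls G k) = x := by
  induction x using Quotient.inductionOn with
  | h X =>
    obtain ⟨F, hF⟩ := exists_min (NeZero.ne (2 : k)) X
    exact ⟨F, (Quotient.sound hF : (⟦X⟧ : Cls G k) = ⟦F.toTOb⟧).symm⟩

variable {ι : T' → T} (hι : Function.Injective ι)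

/-- every class has a representative minimal outside of the image -/
theorem exists_ok (x : Cls G k) : ∃ X : TOb G k, Ok ι X ∧ (⟦X⟧ : Cls G k) = x := by
  obtain ⟨F, hF⟩ := exists_rep x
  exact ⟨F.toTOb, ok_F F, hF⟩

/-- the underlying function -/
noncomputable def rC0 (x : Cls G k) : Cls (comap G ι) k :=
  ⟦resT hι (exists_ok (ι := ι) x).choose (exists_ok (ι := ι) x).choose_spec.1⟧

theorem rC0_mk (X : TOb G k) (h : Ok ι X) : rC0 hι (⟦X⟧ : Cls G k) = ⟦resT hι X h⟧ := by
  have h1 := (exists_ok (ι := ι) (⟦X⟧ : Cls G k)).choose_spec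
  exact Quotient.sound (resHIso hι h1.1 h (Quotient.exact h1.2))

/-- **restriction on classes** -/
noncomputable def rC : Cls G k →+ Cls (comap G ι) k where
  toFun := rC0 hι
  map_zero' := by
    have h : (0 : Cls G k) = ⟦free G k 0 0⟧ := rfl
    rw [h, rC0_mk hι _ (ok_free 0 0)]
    refine Quotient.sound ?_
    exact res_free hι 0 0 0 0 (fun _ => rfl) fun t => by simp
  map_add' x y := by
    obtain ⟨X, hX, rfl⟩ := exists_ok (ι := ι) x
    obtain ⟨Y, hY, rfl⟩ := exists_ok (ι := ι) y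
    rw [mk_add, rC0_mk hι _ (ok_dsum X Y hX hY), rC0_mk hι _ hX, rC0_mk hι _ hY, mk_add]
    exact Quotient.sound (res_dsum hι X Y hX hY (ok_dsum X Y hX hY))

theorem rC_mk (X : TOb G k) (h : Ok ι X) : rC hι (⟦X⟧ : Cls G k) = ⟦resT hι X h⟧ :=
  rC0_mk hι X h

theorem rC_F (F : FObj G k) : rC hι (⟦F.toTOb⟧ : Cls G k) = ⟦(resF hι F).toTOb⟧ := by
  rw [rC_mk hι _ (ok_F F), resT_toTOb]

/-- the restriction of any object is the restriction of its minimal model -/
theorem rC_minF (X : TOb G k) : rC hι (⟦X⟧ : Cls G k) =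
    ⟦(resF hι (minF (NeZero.ne (2 : k)) X)).toTOb⟧ := by
  rw [← rC_F]
  exact congrArg _ (Quotient.sound (hiso_minF (NeZero.ne (2 : k)) X))

end basic

section fr

variable {T T' : Type} {G : MG T} {k : Type v} [Field k] [NeZero (2 : k)] [Fintype T] [Fintype T']
  [DecidableEq T] [DecidableEq T'] {ι : T' → T} (hι : Function.Injective ι)

/-- `Res (frm (ι t)) = frm t` -/
theorem rC_fr (t : T') : rC hι (frC G k (ι t)) = frC (comap G ι) k t := by
  rw [frC_def, rC_mk hι _ (ok_frm _)]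
  exact Quotient.sound (res_frm hι t)

/-- `Res (frm u) = 0` outside -/
theorem rC_fr_out (u : Out ι) : rC hι (frC G k u.1) = 0 := by
  rw [frC_def, rC_mk hι _ (ok_frm _)]
  exact Quotient.sound (res_frm_out hι u)

/-- `d_t (Res x) = d_(ι t) x` -/
theorem hC_fr_rC (x : Cls G k) (t : T') :
    hC (frC (comap G ι) k t) (rC hι x) = hC (frC G k (ι t)) x := by
  obtain ⟨X, hX, rfl⟩ := exists_ok (ι := ι) x
  rw [rC_mk hι _ hX]
  exact hT_frm_resT hι X hX t

theorem hC_rC_fr (x : Cls G k) (t : T') :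
    hC (rC hι x) (frC (comap G ι) k t) = hC x (frC G k (ι t)) := by
  rw [hC_symm, hC_fr_rC, hC_symm]

/-- `lam_t (Res x) = lam_(ι t) x + ∑_u card E(u, ι t) d_u x` -/
theorem lamC_rC (x : Cls G k) (t : T') :
    lamC (rC hι x) t = lamC x (ι t) +
      ∑ u : Out ι, Fintype.card (G.E u.1 (ι t)) * hC (frC G k u.1) x := by
  obtain ⟨X, hX, rfl⟩ := exists_ok (ι := ι) x
  rw [rC_mk hι _ hX, lamC_mk, lamC_mk, lam_resT' hι X hX t]
  congr 1
  refine Finset.sum_congr rfl fun u _ => ?_
  rw [hC_fr_left]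

end fr

section trans

variable {T T' T'' : Type} {G : MG T} {k : Type v} [Field k] [NeZero (2 : k)] [Fintype T]
  [Fintype T'] [Fintype T''] {ι : T' → T} {κ : T'' → T'}

/-- **transitivity** -/
theorem rC_rC (hι : Function.Injective ι) (hκ : Function.Injective κ) (x : Cls G k) :
    (rC (G := comap G ι) hκ (rC (G := G) hι x) : Cls (comap G (ι ∘ κ)) k) =
      rC (G := G) (hι.comp hκ) x := by
  obtain ⟨F, rfl⟩ := exists_rep x
  rw [rC_F hι, rC_F (G := comap G ι) hκ, rC_F (hι.comp hκ)]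
  exact Quotient.sound (res_resF hι hκ F)

end trans

section congr

variable {T T₁ T₂ : Type} {G : MG T} {k : Type v} [Field k] [NeZero (2 : k)] [Fintype T]
  [Fintype T₁] [Fintype T₂] {ι₁ : T₁ → T} {ι₂ : T₂ → T}

/-- relabeling along a bijection preserves `hC` -/
theorem hC_rC_bij {e : T₁ → T} (he : Function.Bijective e) (x y : Cls G k) :
    hC (rC he.1 x) (rC he.1 y) = hC x y := by
  obtain ⟨X, rfl⟩ := exists_rep x
  obtain ⟨Y, rfl⟩ := exists_rep y
  rw [rC_F, rC_F]
  exact hT_relabelF he X Y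

/-- `hC (Res x) (Res y)` only depends on the range -/
theorem hC_rC_congr (h₁ : Function.Injective ι₁) (h₂ : Function.Injective ι₂)
    (hr : Set.range ι₁ = Set.range ι₂) (x y : Cls G k) :
    hC (rC h₁ x) (rC h₁ y) = hC (rC h₂ x) (rC h₂ y) := by
  obtain ⟨X, rfl⟩ := exists_rep x
  obtain ⟨Y, rfl⟩ := exists_rep y
  rw [rC_F, rC_F, rC_F, rC_F]
  exact hT_resF_congr h₁ h₂ hr X Y

end congr

section mf

variable {T T' : Type} {G : MG T} {k : Type v} [Field k] [NeZero (2 : k)] [Fintype T] [Fintype T']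
  [DecidableEq T] [DecidableEq T'] {ι : T' → T} (hι : Function.Injective ι)

/-- `(MF_I)` on classes -/
theorem MF_C (x y : Cls G k) :
    hC (rC hι x) (rC hι y) +
      (∑ u : Out ι, (hC (frC G k u.1) x * lamC y u.1 + lamC x u.1 * hC (frC G k u.1) y)) +
      (∑ u : Out ι, ∑ u' : Out ι, Fintype.card (G.E u.1 u'.1) *
        (hC (frC G k u.1) x * hC (frC G k u'.1) y)) ≤
    hC x y + 2 * ∑ u : Out ι, hC (frC G k u.1) x * hC (frC G k u.1) y := by
  obtain ⟨X, rfl⟩ := exists_rep x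
  obtain ⟨Y, rfl⟩ := exists_rep y
  have h := MFI_663.MF hι X Y
  have e : ∀ (Z : FObj G k) (u : Out ι), Module.finrank k (Z.X.V u.1) =
      hC (frC G k u.1) (⟦Z.toTOb⟧ : Cls G k) := fun Z u => by
    rw [hC_fr_left]
    exact finrank_out Z.toTOb (ok_F Z) u
  rw [rC_F, rC_F]
  simp only [e] at h
  exact h

end mf

section mf2

variable {T T' T'' : Type} {G : MG T} {k : Type v} [Field k] [NeZero (2 : k)] [Fintype T]
  [Fintype T'] [Fintype T''] [DecidableEq T] [DecidableEq T'] [DecidableEq T'']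
  {ι : T' → T} {κ : T'' → T'}

/-- `(MF)` for a two-step restriction: `Res (ι ∘ κ)` inside `Res ι` -/
theorem MF_C2 (hι : Function.Injective ι) (hκ : Function.Injective κ) (x y : Cls G k) :
    hC (rC (hι.comp hκ) x) (rC (hι.comp hκ) y) +
      (∑ u : Out κ, (hC (frC G k (ι u.1)) x * lamC (rC hι y) u.1 +
        lamC (rC hι x) u.1 * hC (frC G k (ι u.1)) y)) +
      (∑ u : Out κ, ∑ u' : Out κ, Fintype.card (G.E (ι u.1) (ι u'.1)) *
        (hC (frC G k (ι u.1)) x * hC (frC G k (ι u'.1)) y)) ≤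
    hC (rC hι x) (rC hι y) +
      2 * ∑ u : Out κ, hC (frC G k (ι u.1)) x * hC (frC G k (ι u.1)) y := by
  have h := MF_C (G := comap G ι) hκ (rC hι x) (rC hι y)
  have h1 := rC_rC (G := G) hι hκ x
  have h2 := rC_rC (G := G) hι hκ y
  simp only [hC_fr_rC] at h
  have h3 : hC (rC (G := comap G ι) hκ (rC hι x)) (rC (G := comap G ι) hκ (rC hι y)) =
      hC (rC (hι.comp hκ) x) (rC (hι.comp hκ) y) := congrArg₂ (hC (G := comap G (ι ∘ κ))) h1 h2
  rw [h3] at h
  exact h

end mf2

end Crest.Agent.R175.ResC_774
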