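import Crest.Agent.R175.LevC_788
import Crest.Agent.R175.MFI_663
import Crest.Agent.R175.ResB_988
import Crest.Agent.R175.Unfr_83
import Crest.Agent.R175.FmResU_663
import Crest.Agent.R175.ResC_774

/-!
Row 175 (S0263), helper427: the field `MF` of `Lev_788.Sys`, concretely, over `UG M Λ`.

* `lamT_out`  : `lamT (muS M Λ)` as a sum over `Out (inc T Λ)`;
* `lamT_resF` : `lam (resF (inc T Λ) X)` = `lamT` (the r_lam translation, for minimal objects);
* `MF_F`      : (MF) for minimal objects, faces `T \ {t} ⊆ T`;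
* `MF_cls`    : (MF) on classes, `rC` of `ResC_774`;
* `MF_sys`    : the field `MF` of `Lev_788.Sys` for `lev A` and any restrictions whose `r` is `rC`.
-/

set_option autoImplicit false
set_option linter.unusedSectionVars false
set_option linter.unusedVariables false

open CategoryTheory
open scoped Classical

namespace Crest.Agent.R175.MFC_427

open Crest.GroupTheory Crest.Agent.R175.PTA Crest.Agent.R175.Cls_133 Crest.Agent.R175.UG_27
open Crest.Agent.R175.Unf_109 Crest.Agent.R175.FmResU_663 Crest.Agent.R175.ResI_663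
open Crest.Agent.R175.Lev_788 Crest.Agent.R175.CatNum_427 Crest.Agent.R175.VdL_527

universe v

variable {S : Type} [Fintype S]

theorem sum_out_inc (T : Set S) (Λ : Finset ℕ) (f : S × J Λ → ℝ) :
    ∑ u : Out (inc T Λ), f u.1 = ∑ u, ind Tᶜ u * ∑ k, f (u, k) := by
  have h1 : ∑ u, ind Tᶜ u * ∑ k, f (u, k)
      = ∑ a : S × J Λ, if a ∈ Set.range (inc T Λ) then 0 else f a := by
    rw [Fintype.sum_prod_type]
    refine Finset.sum_congr rfl fun u _ => ?_
    rw [Finset.mul_sum]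
    refine Finset.sum_congr rfl fun k _ => ?_
    by_cases h : u ∈ T
    · rw [ind_not (by simpa using h), zero_mul, if_pos ((mem_range_inc T Λ _).2 h)]
    · rw [ind_mem (by simpa using h), one_mul, if_neg (fun h' => h ((mem_range_inc T Λ _).1 h'))]
  rw [h1]
  have h2 : ∀ a : S × J Λ, (if a ∈ Set.range (inc T Λ) then 0 else f a)
      = if a ∉ Set.range (inc T Λ) then f a else 0 := fun a => by
    split_ifs <;> simp_all
  simp only [h2]
  rw [← Finset.sum_filter]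
  exact (Finset.sum_subtype _ (fun x => by simp) _).symm

/-- `lamT` as a sum over the vertices outside of the face -/
theorem lamT_out {M : CoxeterMatrix S} {Λ : Finset ℕ} {Ob : Type*} (d lam : Ob → S → J Λ → ℝ)
    (T : Set S) (X : Ob) {t : S} (ht : t ∈ T) (j : J Λ) :
    lamT (muS M Λ) d lam T X t j = lam X t j
      + ∑ u : Out (inc T Λ), (Fintype.card ((UG M Λ).E u.1 (t, j)) : ℝ) * d X u.1.1 u.1.2 := by
  unfold lamT
  congr 1
  have h := sum_out_inc T Λ
    (fun a => (Fintype.card ((UG M Λ).E a (t, j)) : ℝ) * d X a.1 a.2)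
  rw [h]
  refine Finset.sum_congr rfl fun u _ => ?_
  by_cases hu : u ∈ T
  · rw [ind_not (by simpa using hu), zero_mul, zero_mul]
  · congr 1
    refine Finset.sum_congr rfl fun k _ => ?_
    rw [card_UG_real]
    congr 1
    have hne : t ≠ u := fun e => hu (e ▸ ht)
    unfold muS
    rw [if_neg hne, M.symmetric t u]
    exact mu_comm _ _ _ _

section F

variable {M : CoxeterMatrix S} {Λ : Finset ℕ} {k : Type v} [Field k]

/-- the r_lam translation, for minimal objects -/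
theorem lamT_resF (T : Set S) [Fintype T] (X : FObj (UG M Λ) k) (t : T) (j : J Λ) :
    ((lam (resF (inc_inj T Λ) X).toTOb (t, j) : ℕ) : ℝ)
    = lamT (muS M Λ) (fun (X : FObj (UG M Λ) k) s j => (dT X.toTOb (s, j) : ℝ))
        (fun (X : FObj (UG M Λ) k) s j => (lam X.toTOb (s, j) : ℝ)) T X t j := by
  rw [lamT_out _ _ T X t.2 j, lam_resF]
  push_cast
  congr 1
  refine Finset.sum_congr rfl fun u _ => ?_
  rw [Unfr_83.dT_F]
  rfl

/-- the inclusion of `T \ {t}` in `T` -/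
def kap (T : Set S) (t : S) (Λ : Finset ℕ) : ↥(T \ {t}) × J Λ → T × J Λ :=
  fun a => (⟨a.1.1, a.1.2.1⟩, a.2)

theorem kap_inj (T : Set S) (t : S) (Λ : Finset ℕ) : Function.Injective (kap T t Λ) := by
  rintro ⟨⟨a, ha⟩, i⟩ ⟨⟨b, hb⟩, j⟩ h
  simp only [kap, Prod.mk.injEq, Subtype.mk.injEq] at h
  obtain ⟨rfl, rfl⟩ := h
  rfl

/-- the vertices over `t` -/
def outK (T : Set S) {t : S} (ht : t ∈ T) (Λ : Finset ℕ) : J Λ ≃ Out (kap T t Λ) where
  toFun j := ⟨(⟨t, ht⟩, j), by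
    rintro ⟨⟨⟨a, ha⟩, i⟩, h⟩
    simp only [kap, Prod.mk.injEq, Subtype.mk.injEq] at h
    exact ha.2 h.1⟩
  invFun u := u.1.2
  left_inv j := rfl
  right_inv u := by
    obtain ⟨⟨⟨a, ha⟩, i⟩, h⟩ := u
    have hat : a = t := by
      by_contra hne
      exact h ⟨(⟨a, ha, hne⟩, i), rfl⟩
    subst hat
    rfl

theorem range_kap (T : Set S) (t : S) (Λ : Finset ℕ) :
    Set.range (inc T Λ ∘ kap T t Λ) = Set.range (inc (T \ {t}) Λ) := rfl

/-- **(MF)** for minimal objects -/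
theorem MF_F (T : Set S) {t : S} (ht : t ∈ T) [Fintype T] [Fintype ↥(T \ {t})]
    (X Y : FObj (UG M Λ) k) :
    ((hT (resF (inc_inj (T \ {t}) Λ) X).toTOb (resF (inc_inj (T \ {t}) Λ) Y).toTOb : ℕ) : ℝ)
      + ∑ j, ((dT X.toTOb (t, j) : ℝ)
            * lamT (muS M Λ) (fun (X : FObj (UG M Λ) k) s j => (dT X.toTOb (s, j) : ℝ))
                (fun (X : FObj (UG M Λ) k) s j => (lam X.toTOb (s, j) : ℝ)) T Y t j
          + lamT (muS M Λ) (fun (X : FObj (UG M Λ) k) s j => (dT X.toTOb (s, j) : ℝ))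
                (fun (X : FObj (UG M Λ) k) s j => (lam X.toTOb (s, j) : ℝ)) T X t j
            * (dT Y.toTOb (t, j) : ℝ)
          - 2 * ((dT X.toTOb (t, j) : ℝ) * (dT Y.toTOb (t, j) : ℝ)))
    ≤ ((hT (resF (inc_inj T Λ) X).toTOb (resF (inc_inj T Λ) Y).toTOb : ℕ) : ℝ) := by
  have key := MFI_663.MF (kap_inj T t Λ) (resF (inc_inj T Λ) X) (resF (inc_inj T Λ) Y)
  have e1 : hT (resF (kap_inj T t Λ) (resF (inc_inj T Λ) X)).toTOb
      (resF (kap_inj T t Λ) (resF (inc_inj T Λ) Y)).toTOb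
      = hT (resF (inc_inj (T \ {t}) Λ) X).toTOb (resF (inc_inj (T \ {t}) Λ) Y).toTOb := by
    have hx := ResB_988.res_resF (inc_inj T Λ) (kap_inj T t Λ) X
    have hy := ResB_988.res_resF (inc_inj T Λ) (kap_inj T t Λ) Y
    have h3 := ResB_988.hT_resF_congr ((inc_inj T Λ).comp (kap_inj T t Λ))
      (inc_inj (T \ {t}) Λ) (range_kap T t Λ) X Y
    rw [← h3]
    exact (hx.hT_left _).trans (hy.hT_right _)
  rw [e1] at key
  have e2 : ∑ u : Out (kap T t Λ), ∑ u' : Out (kap T t Λ),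
      Fintype.card ((comap (UG M Λ) (inc T Λ)).E u.1 u'.1) *
        (Module.finrank k ((resF (inc_inj T Λ) X).X.V u.1)
          * Module.finrank k ((resF (inc_inj T Λ) Y).X.V u'.1)) = 0 := by
    refine Finset.sum_eq_zero fun u _ => Finset.sum_eq_zero fun u' _ => ?_
    obtain ⟨j, rfl⟩ := (outK T ht Λ).surjective u
    obtain ⟨j', rfl⟩ := (outK T ht Λ).surjective u'
    have h : IsEmpty ((comap (UG M Λ) (inc T Λ)).E (outK T ht Λ j).1 (outK T ht Λ j').1) :=
      isEmpty_fibre (M := M) (a := (t, j)) (b := (t, j')) rfl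
    rw [Fintype.card_eq_zero, zero_mul]
  rw [e2, add_zero] at key
  rw [← (outK T ht Λ).sum_comp, ← (outK T ht Λ).sum_comp] at key
  have key2 : ((hT (resF (inc_inj (T \ {t}) Λ) X).toTOb
        (resF (inc_inj (T \ {t}) Λ) Y).toTOb : ℕ) : ℝ)
      + ∑ j, ((dT X.toTOb (t, j) : ℝ)
            * lamT (muS M Λ) (fun (X : FObj (UG M Λ) k) s j => (dT X.toTOb (s, j) : ℝ))
                (fun (X : FObj (UG M Λ) k) s j => (lam X.toTOb (s, j) : ℝ)) T Y t j
          + lamT (muS M Λ) (fun (X : FObj (UG M Λ) k) s j => (dT X.toTOb (s, j) : ℝ))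
                (fun (X : FObj (UG M Λ) k) s j => (lam X.toTOb (s, j) : ℝ)) T X t j
            * (dT Y.toTOb (t, j) : ℝ))
      ≤ ((hT (resF (inc_inj T Λ) X).toTOb (resF (inc_inj T Λ) Y).toTOb : ℕ) : ℝ)
        + 2 * ∑ j, ((dT X.toTOb (t, j) : ℝ) * (dT Y.toTOb (t, j) : ℝ)) := by
    have h := (Nat.cast_le (α := ℝ)).2 key
    push_cast at h
    refine le_trans (le_of_eq ?_) (h.trans (le_of_eq ?_))
    · congr 1
      refine Finset.sum_congr rfl fun j _ => ?_
      rw [Unfr_83.dT_F, Unfr_83.dT_F, ← lamT_resF T X ⟨t, ht⟩ j, ← lamT_resF T Y ⟨t, ht⟩ j]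
      rfl
    · congr 2
      refine Finset.sum_congr rfl fun j _ => ?_
      rw [Unfr_83.dT_F, Unfr_83.dT_F]
      rfl
  have e3 : ∀ a b c : J Λ → ℝ, ∑ j, (a j + b j - 2 * c j)
      = ∑ j, (a j + b j) - 2 * ∑ j, c j := by
    intro a b c
    rw [Finset.sum_sub_distrib, Finset.mul_sum]
  rw [e3]
  linarith

end F

section cls

variable {M : CoxeterMatrix S} {Λ : Finset ℕ} {k : Type v} [Field k] [NeZero (2 : k)]

/-- the r_lam translation, on classes -/
theorem lamT_cls (T : Set S) [Fintype T] (x : Cls (UG M Λ) k) (t : T) (j : J Λ) :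
    ((lamC (ResC_774.rC (inc_inj T Λ) x) (t, j) : ℕ) : ℝ)
    = lamT (muS M Λ) (fun (x : Cls (UG M Λ) k) s j => (hC (frC (UG M Λ) k (s, j)) x : ℝ))
        (fun (x : Cls (UG M Λ) k) s j => (lamC x (s, j) : ℝ)) T x t j := by
  rw [lamT_out _ _ T x t.2 j, ResC_774.lamC_rC]
  push_cast
  rfl

/-- **(MF)** on classes -/
theorem MF_cls (T : Set S) {t : S} (ht : t ∈ T) [Fintype T] [Fintype ↥(T \ {t})]
    (x y : Cls (UG M Λ) k) :
    ((hC (ResC_774.rC (inc_inj (T \ {t}) Λ) x) (ResC_774.rC (inc_inj (T \ {t}) Λ) y) : ℕ) : ℝ)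
      + ∑ j, ((hC (frC (UG M Λ) k (t, j)) x : ℝ)
            * lamT (muS M Λ) (fun (x : Cls (UG M Λ) k) s j => (hC (frC (UG M Λ) k (s, j)) x : ℝ))
                (fun (x : Cls (UG M Λ) k) s j => (lamC x (s, j) : ℝ)) T y t j
          + lamT (muS M Λ) (fun (x : Cls (UG M Λ) k) s j => (hC (frC (UG M Λ) k (s, j)) x : ℝ))
                (fun (x : Cls (UG M Λ) k) s j => (lamC x (s, j) : ℝ)) T x t j
            * (hC (frC (UG M Λ) k (t, j)) y : ℝ)
          - 2 * ((hC (frC (UG M Λ) k (t, j)) x : ℝ) * (hC (frC (UG M Λ) k (t, j)) y : ℝ)))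
    ≤ ((hC (ResC_774.rC (inc_inj T Λ) x) (ResC_774.rC (inc_inj T Λ) y) : ℕ) : ℝ) := by
  obtain ⟨X, rfl⟩ := ResC_774.exists_rep x
  obtain ⟨Y, rfl⟩ := ResC_774.exists_rep y
  have key := MF_F T ht X Y
  rw [ResC_774.rC_F, ResC_774.rC_F, ResC_774.rC_F, ResC_774.rC_F]
  have e : ∀ (Z : FObj (UG M Λ) k) j,
      lamT (muS M Λ) (fun (x : Cls (UG M Λ) k) s j => (hC (frC (UG M Λ) k (s, j)) x : ℝ))
        (fun (x : Cls (UG M Λ) k) s j => (lamC x (s, j) : ℝ)) T ⟦Z.toTOb⟧ t j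
      = lamT (muS M Λ) (fun (X : FObj (UG M Λ) k) s j => (dT X.toTOb (s, j) : ℝ))
        (fun (X : FObj (UG M Λ) k) s j => (lam X.toTOb (s, j) : ℝ)) T Z t j := by
    intro Z j
    unfold lamT
    simp only [hC_fr_left, lamC_mk]
  simp only [hC_fr_left, e]
  exact key

/-- **the field `MF` of `Lev_788.Sys`** for the concrete levels -/
theorem MF_sys {h4 : ∀ m ∈ Λ, 4 ≤ m} (A : LevC_788.ActI M h4) (fT : ∀ T : Set S, Fintype T)
    (A' : ∀ T : Set S, @LevC_788.ActI T (fT T) (res M T) Λ h4)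
    (R : ∀ T : Set S, LRes (LevC_788.lev A) T (@LevC_788.lev T (fT T) (res M T) Λ h4 (A' T)))
    (hR : ∀ (T : Set S) (x : Cls (UG M Λ) ℂ), (R T).r x = ResC_774.rC (inc_inj T Λ) x)
    (T : Set S) (t : S) (ht : t ∈ T) (X Y : (LevC_788.lev A).Ob) :
    (((@LevC_788.lev _ (fT (T \ {t})) (res M (T \ {t})) Λ h4 (A' (T \ {t}))).h
        ((R _).r X) ((R _).r Y) : ℕ) : ℝ)
      + ∑ j, (((LevC_788.lev A).d X t j : ℝ)
            * lamT (muS M Λ) (fun X s j => ((LevC_788.lev A).d X s j : ℝ))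
              (fun X s j => ((LevC_788.lev A).lam X s j : ℝ)) T Y t j
          + lamT (muS M Λ) (fun X s j => ((LevC_788.lev A).d X s j : ℝ))
              (fun X s j => ((LevC_788.lev A).lam X s j : ℝ)) T X t j
            * ((LevC_788.lev A).d Y t j : ℝ)
          - 2 * (((LevC_788.lev A).d X t j : ℝ) * ((LevC_788.lev A).d Y t j : ℝ)))
      ≤ (((@LevC_788.lev T (fT T) (res M T) Λ h4 (A' T)).h ((R T).r X) ((R T).r Y) : ℕ) : ℝ) := by
  have key := @MF_cls S _ M Λ ℂ _ _ T t ht (fT T) (fT (T \ {t})) X Y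
  rw [hR, hR, hR, hR]
  exact key

end cls

end Crest.Agent.R175.MFC_427
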