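import Crest.Agent.R175.PTC_505
import Crest.Agent.R175.LevC_788

/-!
Row 175 (S0263), block (D) (helper505): `Lev.PT` of the concrete level `LevC_788.lev A`.
-/

set_option autoImplicit false
set_option linter.unusedSectionVars false
set_option linter.unusedVariables false

open scoped Classical
open CategoryTheory Module

namespace Crest.Agent.R175.PTC_505

open Crest.GroupTheory Crest.Agent.R175.Num_774 Crest.Agent.R175.CatNum_427
open Crest.Agent.R175.Unf_109 Crest.Agent.R175.Lev_788 Crest.Agent.R175.UG_27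
open Crest.Agent.R175.PTA Crest.Agent.R175.GlueData_445 Crest.Agent.R175.Cls_133
open Crest.Agent.R175.Fm_27 Crest.Agent.R175.LevC_788 Crest.Agent.R175.FmCls_303
open Crest.Agent.R175.Pos_418

variable {S : Type} [Fintype S] {M : CoxeterMatrix S} {Λ : Finset ℕ} {h4 : ∀ m ∈ Λ, 4 ≤ m}

/-- the objects of the concrete level -/
noncomputable def repC (A : ActI M h4) : Rep h4 (algebraMap ℝ ℂ) (lev A) where
  q X := (⟦X⟧ : Cls (UG M Λ) ℂ)
  surj x := Quotient.exists_rep x
  h X Y := rfl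
  lam X s j := rfl
  fr s j := rfl
  F m X := by
    change (if hm : (m : ℕ) ∈ Λ then FmC M h4 hm (⟦X⟧ : Cls (UG M Λ) ℂ) else ⟦X⟧) = _
    rw [dif_pos m.2]
    rfl

/-- **(P_T) of the concrete level** from the existence of `r` for orthogonal `F`-stable families of
minimisers -/
theorem pt_lev (hΛ : Good M Λ) (hM : PDm (Cr M)) (A : ActI M hΛ.four)
    (hO : letI := A.act; ∀ (s : S) (X : J Λ → TOb (UG M Λ) ℂ), OFam hΛ.four (algebraMap ℝ ℂ) s X →
      ∃ (r : ArtinGroup M) (j : J Λ), r • (⟦X j⟧ : Cls (UG M Λ) ℂ) = frC (UG M Λ) ℂ (s, j) ∨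
        r • (⟦X j⟧ : Cls (UG M Λ) ℂ) = shC (frC (UG M Λ) ℂ (s, j))) :
    (lev A).PT hΛ.four :=
  pt_of_orb hΛ hM (repC A) hO

end Crest.Agent.R175.PTC_505
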