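import Crest.Agent.R175.Lev_788

/-!
Row 175 (S0263), helper788: `PD M T` (numbers) gives `PDm (Cr (res M T))` and `Good (res M T) Λ`.
-/

set_option autoImplicit false
set_option linter.unusedSectionVars false

open scoped Classical

namespace Crest.Agent.R175.PdT_788

open Crest.Agent.R175.Num_774 Crest.Agent.R175.Unf_109 Crest.Agent.R175.Pos_418
open Crest.Agent.R175.VdL_527

variable {S : Type} [Fintype S] {M : CoxeterMatrix S}

theorem sum_ext_zero (T : Set S) [Fintype T] (f : T → ℝ) (g : S → ℝ → ℝ) (hg : ∀ s, g s 0 = 0) :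
    ∑ s : S, g s (if h : s ∈ T then f ⟨s, h⟩ else 0) = ∑ s : T, g s (f s) := by
  have h1 : ∀ s, g s (if h : s ∈ T then f ⟨s, h⟩ else 0)
      = if s ∈ T then g s (if h : s ∈ T then f ⟨s, h⟩ else 0) else 0 := by
    intro s
    by_cases h : s ∈ T
    · rw [if_pos h]
    · rw [if_neg h, dif_neg h, hg]
  rw [Finset.sum_congr rfl fun s _ => h1 s, ← Finset.sum_filter]
  refine (Finset.sum_subtype (p := fun s => s ∈ T) (F := inferInstanceAs (Fintype T)) _
    (fun x => by simp) _).trans ?_
  refine Finset.sum_congr rfl fun s _ => ?_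
  rw [dif_pos s.2]

/-- **positive definiteness of the face** -/
theorem pdm_of_pd {T : Set S} [Fintype T] (h : PD M T) : PDm (Cr (res M T)) := by
  intro x hx
  have h1 := h (fun s => if h : s ∈ T then x ⟨s, h⟩ else 0) (fun s hs => dif_neg hs) (by
    intro h0
    apply hx
    funext s
    have := congrFun h0 s.1
    rw [dif_pos s.2] at this
    exact this)
  refine lt_of_lt_of_le h1 (le_of_eq ?_)
  unfold qf
  rw [sum_ext_zero T x (fun s y => ∑ t, C M s t * y * (if h : t ∈ T then x ⟨t, h⟩ else 0))
    (fun s => by simp)]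
  refine Finset.sum_congr rfl fun s _ => ?_
  rw [sum_ext_zero T x (fun t z => C M s t * x s * z) (fun t => by simp)]
  refine Finset.sum_congr rfl fun t _ => ?_
  show C M s t * x s * x t = x s * x t * Cr (res M T) s t
  have : Cr (res M T) s t = C M s t := rfl
  rw [this]
  ring

theorem good_res {Λ : Finset ℕ} (hΛ : Good M Λ) (T : Set S) : Good (res M T) Λ where
  four := hΛ.four
  mem := fun s t h => hΛ.mem s t h

end Crest.Agent.R175.PdT_788
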