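import Crest.Agent.R175.LevF_788
import Crest.Agent.R175.LevC_788
import Crest.Agent.R175.PdT_788
import Crest.Agent.R175.LResC_774
import Crest.Agent.R175.MFC_427
import Crest.Agent.R175.PTC2_505

/-!
Row 175 (S0263), helper788: the system of levels of a Coxeter matrix from the four last inputs
`Inp Λ` (action on the classes, compatible with restriction; orbit of a rigid family; stabilisers),
and S0263.
-/

set_option autoImplicit false
set_option linter.unusedSectionVars false
set_option linter.unusedVariables false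

open CategoryTheory
open scoped Classical

namespace Crest.Agent.R175.CatI_788

open Crest.GroupTheory Crest.Agent.R175.PTA Crest.Agent.R175.Cls_133 Crest.Agent.R175.UG_27
open Crest.Agent.R175.Unf_109 Crest.Agent.R175.FmCls_303 Crest.Agent.R175.Pos_418
open Crest.Agent.R175.Lev_788 Crest.Agent.R175.LevC_788 Crest.Agent.R175.VdL_527
open Crest.Agent.R175.Num_774 Crest.Agent.R175.PdT_788 Crest.Agent.R175.LResC_774
open Crest.Agent.R175.GlueData_445

/-- the last inputs of the category side -/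
structure Inp (Λ : Finset ℕ) where
  A : ∀ {S : Type} [Fintype S] (M : CoxeterMatrix S) (hΛ : Good M Λ), ActI M hΛ.four
  hact : ∀ {S : Type} [Fintype S] (M : CoxeterMatrix S) (hΛ : Good M Λ) (T : Set S) [Fintype T]
    (t : T) (x : Cls (UG M Λ) ℂ),
    rU M Λ T ((A M hΛ).act.smul (artinGen M (t : S)) x) =
      (A (res M T) (good_res hΛ T)).act.smul (artinGen (res M T) t) (rU M Λ T x)
  orb : ∀ {S : Type} [Fintype S] (M : CoxeterMatrix S) (hΛ : Good M Λ), PDm (Cr M) →
    letI := (A M hΛ).act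
    ∀ (s : S) (X : J Λ → TOb (UG M Λ) ℂ), OFam hΛ.four (algebraMap ℝ ℂ) s X →
      ∃ (r : ArtinGroup M) (j : J Λ), r • (⟦X j⟧ : Cls (UG M Λ) ℂ) = frC (UG M Λ) ℂ (s, j) ∨
        r • (⟦X j⟧ : Cls (UG M Λ) ℂ) = shC (frC (UG M Λ) ℂ (s, j))
  stb : ∀ {S : Type} [Fintype S] (M : CoxeterMatrix S) (hΛ : Good M Λ), PDm (Cr M) →
    (lev (A M hΛ)).Stb

variable {Λ : Finset ℕ} (I : Inp Λ) {S : Type} [Fintype S] (M : CoxeterMatrix S) (hΛ : Good M Λ)

/-- **the system of levels** -/
noncomputable def Inp.sys : Sys.{1} Λ M hΛ.four where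
  L := lev (I.A M hΛ)
  LT := fun T => lev (I.A (res M T) (good_res hΛ T))
  R := fun T => lres T (I.A M hΛ) (I.A (res M T) (good_res hΛ T)) (I.hact M hΛ T)
  MF := fun T t ht X Y => MFC_427.MF_sys (I.A M hΛ) (fun T => inferInstance)
    (fun T => I.A (res M T) (good_res hΛ T))
    (fun T => lres T (I.A M hΛ) (I.A (res M T) (good_res hΛ T)) (I.hact M hΛ T))
    (fun T x => rfl) T t ht X Y
  PT := by
    intro T fT hT
    have h := PTC_505.pt_lev (good_res hΛ T) (pdm_of_pd hT) (I.A (res M T) (good_res hΛ T))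
      (I.orb (res M T) (good_res hΛ T) (pdm_of_pd hT))
    convert h
  Stb := fun T hT => I.stb (res M T) (good_res hΛ T) (pdm_of_pd hT)

/-- **S0263** from the inputs -/
theorem s0263_of_inp (I : ∀ Λ, Inp Λ) (S : Type*) [Finite S] (M : CoxeterMatrix S)
    (P Q : Subgroup (ArtinGroup M)) (hP : IsParabolic M P) (hQ : IsParabolic M Q) :
    IsParabolic M (P ⊓ Q) :=
  s0263_of_sys (fun n M => ⟨Inp.sys (I (lab M)) M (good_lab M)⟩) S M P Q hP hQ

end Crest.Agent.R175.CatI_788
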