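import Crest.Agent.R175.Num_774

/-!
Row 175 (S0263).  `CatD M` = the contract of the category side: exactly what `T`-framed objects have
to deliver; `CatD.toNum : CatD M → Num M` (proof of (K) = section 2 of post #2751).

Everything is stated for objects `X : Ob` of the WHOLE graph `S × J` (classes up to isomorphism or
homotopy equivalence); `hT T X Y` is `h_T (X|T, Y|T)` (restriction to `T × J`), so that no `T`-level
objects appear in the contract.
-/

set_option autoImplicit false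
set_option linter.unusedSectionVars false
set_option linter.deprecated false

namespace Crest.Agent.R175.CatNum_427

open Crest.GroupTheory Crest.Agent.R175.Num_774

universe u v

open Classical in
/-- indicator function of `T` -/
noncomputable def ind {S : Type*} (T : Set S) (s : S) : ℝ := if s ∈ T then 1 else 0

theorem ind_mem {S : Type*} {T : Set S} {s : S} (h : s ∈ T) : ind T s = 1 := by simp [ind, h]

theorem ind_not {S : Type*} {T : Set S} {s : S} (h : s ∉ T) : ind T s = 0 := by simp [ind, h]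

/-- `lam` of the restriction `X|T`: `W_(t,j)` plus one frame for every edge leaving `T` -/
noncomputable def lamT {S J Ob : Type*} [Fintype S] [Fintype J] (mu : S → J → S → J → ℝ)
    (d lam : Ob → S → J → ℝ) (T : Set S) (X : Ob) (t : S) (j : J) : ℝ :=
  lam X t j + ∑ u, ind Tᶜ u * ∑ k, mu t j u k * d X u k

/-- `(C_T h)_s` -/
noncomputable def CT {S : Type*} [Fintype S] (M : CoxeterMatrix S) (T : Set S) (h : S → ℝ)
    (s : S) : ℝ := ∑ u, ind T u * (C M s u * h u)

open Classical in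
/-- The category side. -/
structure CatD {S : Type u} [Fintype S] (M : CoxeterMatrix S) where
  /-- index set of the unfolding (one point when all labels are `2, 3, ∞`) -/
  J : Type
  [fJ : Fintype J]
  j0 : J
  th : J → ℝ
  th_pos : ∀ j, 0 < th j
  th_zero : th j0 = 1
  /-- number of edges from `(s,i)` to `(t,j)` -/
  mu : S → J → S → J → ℝ
  mu_symm : ∀ s i t j, mu s i t j = mu t j s i
  /-- KEY: `Σ_j mu th_j = a_st th_i` -/
  mu_th : ∀ s t i, s ≠ t → ∑ j, mu s i t j * th j = - C M s t * th i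
  /-- objects of the whole graph up to homotopy equivalence -/
  Ob : Type v
  [act : MulAction (ArtinGroup M) Ob]
  /-- `dim V_(s,j)` of the minimal model -/
  d : Ob → S → J → ℝ
  /-- `dim W_(s,j)` -/
  lam : Ob → S → J → ℝ
  /-- the frame `x_(s,j)` -/
  fr : S → J → Ob
  /-- `h_T (X|T, Y|T)` -/
  hT : Set S → Ob → Ob → ℝ
  d_nonneg : ∀ X s j, 0 ≤ d X s j
  lam_nonneg : ∀ X s j, 0 ≤ lam X s j
  lam_act : ∀ s X, lam (artinGen M s • X) = lam X
  d_act : ∀ s X t, t ≠ s → d (artinGen M s • X) t = d X t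
  fr_act : ∀ s t j, t ≠ s → artinGen M s • fr t j = fr t j
  fr_d : ∀ t i s j, d (fr t i) s j = 0
  fr_lam : ∀ t i s j, lam (fr t i) s j = if s = t ∧ j = i then 1 else 0
  hT_act : ∀ T : Set S, ∀ s ∈ T, ∀ X Y, hT T (artinGen M s • X) (artinGen M s • Y) = hT T X Y
  hT_symm : ∀ T X Y, hT T X Y = hT T Y X
  hT_fr : ∀ T : Set S, ∀ t ∈ T, ∀ j X, hT T (fr t j) X = d X t j
  /-- (MF): remove the whole fibre `{t} × J` -/
  MF : ∀ T : Set S, ∀ t ∈ T, ∀ X Y,
    hT (T \ {t}) X Y + ∑ j, (d X t j * lamT mu d lam T Y t j + lamT mu d lam T X t j * d Y t j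
      - 2 * (d X t j * d Y t j)) ≤ hT T X Y
  /-- the families `(Y_j)_{j ∈ J}` with `F_m Y_j = ⨁_{j' ~ j} Y_j'` -/
  Fam : Set (J → Ob)
  fam_fr : ∀ s, fr s ∈ Fam
  fam_act : ∀ s, ∀ Y ∈ Fam, (fun j => artinGen M s • Y j) ∈ Fam
  fam_act' : ∀ s, ∀ Y ∈ Fam, (fun j => (artinGen M s)⁻¹ • Y j) ∈ Fam
  /-- Perron-Frobenius for `d` -/
  PFd : ∀ Y ∈ Fam, ∀ s j, ∑ i, th i * d (Y i) s j = th j * ∑ i, th i * d (Y i) s j0
  /-- Perron-Frobenius for `lam` -/
  PFl : ∀ Y ∈ Fam, ∀ s j, ∑ i, th i * lam (Y i) s j = th j * ∑ i, th i * lam (Y i) s j0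
  /-- (P_T) -/
  PT : ∀ T : Set S, PD M T → ∀ Y ∈ Fam, ∀ h : S → ℝ, (∀ s ∈ T, 0 ≤ h s) →
    (∀ s ∈ T, CT M T h s ≤ ∑ i, th i * lamT mu d lam T (Y i) s j0) →
    (∀ r ∈ A M T, ∀ s ∈ T, h s ≤ ∑ i, th i * d (r⁻¹ • Y i) s j0) →
    ∀ X, ∑ s, ind T s * ∑ j, th j * h s * lamT mu d lam T X s j ≤ ∑ i, th i * hT T X (Y i)
  /-- (Z) + STAB -/
  zst : ∀ T : Set S, PD M T → ∀ t ∈ T, ∀ r ∈ A M T, (∀ i j, d (r • fr t j) t i = 0) →
    r ∈ A M (T \ {t})

attribute [instance] CatD.fJ CatD.act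

namespace CatD

variable {S : Type u} [Fintype S] {M : CoxeterMatrix S} (D : CatD.{u, v} M)

/-- `d_t (Y)` of a family -/
noncomputable def dF (Y : D.J → D.Ob) (t : S) : ℝ := ∑ i, D.th i * D.d (Y i) t D.j0

/-- `lam_t (Y)` of a family -/
noncomputable def lF (Y : D.J → D.Ob) (t : S) : ℝ := ∑ i, D.th i * D.lam (Y i) t D.j0

theorem act_ind (p : ArtinGroup M → Prop) {T : Set S} (h1 : p 1)
    (hm : ∀ s ∈ T, ∀ r, p r → p (r * artinGen M s))
    (hi : ∀ s ∈ T, ∀ r, p r → p (r * (artinGen M s)⁻¹)) {r : ArtinGroup M} (hr : r ∈ A M T) :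
    p r := by
  unfold A stdParabolic at hr
  induction hr using Subgroup.closure_induction_right with
  | one => exact h1
  | mul_right x y hx hy ih =>
    obtain ⟨s, hs, rfl⟩ := hy
    exact hm s hs _ ih
  | mul_inv_cancel x y hx hy ih =>
    obtain ⟨s, hs, rfl⟩ := hy
    exact hi s hs _ ih

theorem mem_univ' (r : ArtinGroup M) : r ∈ A M (Set.univ : Set S) := by
  have h : (A M (Set.univ : Set S)) = ⊤ := by
    unfold A stdParabolic
    rw [Set.image_univ]
    exact PresentedGroup.closure_range_of _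
  rw [h]; trivial

theorem lam_act_all (r : ArtinGroup M) (X : D.Ob) : D.lam (r • X) = D.lam X := by
  revert X
  refine act_ind (fun r => ∀ X, D.lam (r • X) = D.lam X) (by simp) ?_ ?_ (mem_univ' r)
  · intro s _ r ih X
    rw [mul_smul, ih, D.lam_act]
  · intro s _ r ih X
    rw [mul_smul, ih]
    have := D.lam_act s ((artinGen M s)⁻¹ • X)
    rw [smul_inv_smul] at this
    exact this.symm

theorem d_act_all {t : S} {r : ArtinGroup M} (hr : r ∈ A M ({t}ᶜ : Set S)) (X : D.Ob) :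
    D.d (r • X) t = D.d X t := by
  revert X
  refine act_ind (fun r => ∀ X, D.d (r • X) t = D.d X t) (by simp) ?_ ?_ hr
  · intro s hs r ih X
    rw [mul_smul, ih, D.d_act s X t (Ne.symm hs)]
  · intro s hs r ih X
    rw [mul_smul, ih]
    have := D.d_act s ((artinGen M s)⁻¹ • X) t (Ne.symm hs)
    rw [smul_inv_smul] at this
    exact this.symm

theorem fr_act_all {t : S} {r : ArtinGroup M} (hr : r ∈ A M ({t}ᶜ : Set S)) (j : D.J) :
    r • D.fr t j = D.fr t j := by
  refine act_ind (fun r => r • D.fr t j = D.fr t j) (by simp) ?_ ?_ hr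
  · intro s hs r ih
    rw [mul_smul, D.fr_act s t j (Ne.symm hs), ih]
  · intro s hs r ih
    rw [mul_smul]
    have : (artinGen M s)⁻¹ • D.fr t j = D.fr t j := by
      rw [inv_smul_eq_iff, D.fr_act s t j (Ne.symm hs)]
    rw [this, ih]

theorem hT_act_all {T : Set S} {r : ArtinGroup M} (hr : r ∈ A M T) (X Y : D.Ob) :
    D.hT T (r • X) (r • Y) = D.hT T X Y := by
  revert X Y
  refine act_ind (fun r => ∀ X Y, D.hT T (r • X) (r • Y) = D.hT T X Y) (by simp) ?_ ?_ hr
  · intro s hs r ih X Y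
    rw [mul_smul, mul_smul, ih, D.hT_act T s hs]
  · intro s hs r ih X Y
    rw [mul_smul, mul_smul, ih]
    have := D.hT_act T s hs ((artinGen M s)⁻¹ • X) ((artinGen M s)⁻¹ • Y)
    rw [smul_inv_smul, smul_inv_smul] at this
    exact this.symm

theorem fam_act_all (r : ArtinGroup M) {Y : D.J → D.Ob} (hY : Y ∈ D.Fam) :
    (fun j => r • Y j) ∈ D.Fam := by
  revert Y
  refine act_ind (fun r => ∀ {Y : D.J → D.Ob}, Y ∈ D.Fam → (fun j => r • Y j) ∈ D.Fam)
    (by intro Y hY; simpa using hY) ?_ ?_ (mem_univ' r)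
  · intro s _ r ih Y hY
    simp only [mul_smul]
    exact ih (D.fam_act s Y hY)
  · intro s _ r ih Y hY
    simp only [mul_smul]
    exact ih (D.fam_act' s Y hY)

theorem dF_nonneg (Y : D.J → D.Ob) (t : S) : 0 ≤ D.dF Y t :=
  Finset.sum_nonneg fun i _ => mul_nonneg (D.th_pos i).le (D.d_nonneg _ _ _)

theorem lF_nonneg (Y : D.J → D.Ob) (t : S) : 0 ≤ D.lF Y t :=
  Finset.sum_nonneg fun i _ => mul_nonneg (D.th_pos i).le (D.lam_nonneg _ _ _)

theorem PFd' {Y : D.J → D.Ob} (hY : Y ∈ D.Fam) (s : S) (j : D.J) :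
    ∑ i, D.th i * D.d (Y i) s j = D.th j * D.dF Y s := D.PFd Y hY s j

theorem PFl' {Y : D.J → D.Ob} (hY : Y ∈ D.Fam) (s : S) (j : D.J) :
    ∑ i, D.th i * D.lam (Y i) s j = D.th j * D.lF Y s := D.PFl Y hY s j

/-- `g s t r = h (E_s, r E_t)` -/
noncomputable def g (s t : S) (r : ArtinGroup M) : ℝ := D.dF (fun j => r • D.fr t j) s

theorem fr_fam (r : ArtinGroup M) (t : S) : (fun j => r • D.fr t j) ∈ D.Fam :=
  D.fam_act_all r (D.fam_fr t)

theorem d_eq_h (X : D.Ob) (t : S) (j : D.J) : D.d X t j = D.hT Set.univ (D.fr t j) X :=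
  (D.hT_fr Set.univ t (Set.mem_univ t) j X).symm

/-- `h (x_(s,i), r x_(t,j)) = h (x_(t,j), r⁻¹ x_(s,i))` -/
theorem d_swap (s t : S) (i j : D.J) (r : ArtinGroup M) :
    D.d (r • D.fr t j) s i = D.d (r⁻¹ • D.fr s i) t j := by
  rw [D.d_eq_h, D.d_eq_h, D.hT_symm, ← D.hT_act_all (mem_univ' (S := S) r⁻¹), inv_smul_smul]

theorem sum_d_fr (s t : S) (i : D.J) (r : ArtinGroup M) :
    ∑ j, D.th j * D.d (r • D.fr t j) s i = D.th i * D.g s t r :=
  D.PFd' (D.fr_fam r t) s i

theorem g_symm (s t : S) (r : ArtinGroup M) : D.g s t r = D.g t s r⁻¹ := by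
  have h1 : ∑ i, D.th i * ∑ j, D.th j * D.d (r • D.fr t j) s i
      = (∑ i, D.th i * D.th i) * D.g s t r := by
    rw [Finset.sum_mul]
    exact Finset.sum_congr rfl fun i _ => by rw [D.sum_d_fr, mul_assoc]
  have h2 : ∑ j, D.th j * ∑ i, D.th i * D.d (r⁻¹ • D.fr s i) t j
      = (∑ j, D.th j * D.th j) * D.g t s r⁻¹ := by
    rw [Finset.sum_mul]
    exact Finset.sum_congr rfl fun i _ => by rw [D.sum_d_fr, mul_assoc]
  have h3 : ∑ i, D.th i * ∑ j, D.th j * D.d (r • D.fr t j) s i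
      = ∑ j, D.th j * ∑ i, D.th i * D.d (r⁻¹ • D.fr s i) t j := by
    simp only [Finset.mul_sum]
    rw [Finset.sum_comm]
    refine Finset.sum_congr rfl fun j _ => Finset.sum_congr rfl fun i _ => ?_
    rw [D.d_swap s t i j r]
    ring
  have h4 : 0 < ∑ i, D.th i * D.th i :=
    Finset.sum_pos (fun i _ => mul_pos (D.th_pos i) (D.th_pos i)) ⟨D.j0, Finset.mem_univ _⟩
  rw [h1, h2] at h3
  exact mul_left_cancel₀ h4.ne' h3

theorem g_nonneg (s t : S) (r : ArtinGroup M) : 0 ≤ D.g s t r := D.dF_nonneg _ _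

theorem g_left (s t : S) (r a : ArtinGroup M) (ha : a ∈ A M ({s}ᶜ : Set S)) :
    D.g s t (a * r) = D.g s t r := by
  unfold g dF
  refine Finset.sum_congr rfl fun j _ => ?_
  simp only [mul_smul, D.d_act_all ha]

theorem g_right (s t : S) (r b : ArtinGroup M) (hb : b ∈ A M ({t}ᶜ : Set S)) :
    D.g s t (r * b) = D.g s t r := by
  unfold g dF
  refine Finset.sum_congr rfl fun j _ => ?_
  simp only [mul_smul, D.fr_act_all hb]

/-- `lam_t` of a restricted family -/
theorem sum_lamT {Y : D.J → D.Ob} (hY : Y ∈ D.Fam) {T : Set S} {t : S} (ht : t ∈ T) (j : D.J) :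
    ∑ i, D.th i * lamT D.mu D.d D.lam T (Y i) t j
      = D.th j * (D.lF Y t - ∑ u, C M t u * (ext T (fun _ => 0) (D.dF Y) u)) := by
  classical
  unfold lamT
  simp only [mul_add, Finset.sum_add_distrib, D.PFl' hY, mul_sub]
  rw [sub_eq_add_neg]
  congr 1
  rw [← mul_neg, ← Finset.sum_neg_distrib, Finset.mul_sum]
  have h0 : ∀ i, D.th i * ∑ u, ind Tᶜ u * ∑ k, D.mu t j u k * D.d (Y i) u k
      = ∑ u, D.th i * (ind Tᶜ u * ∑ k, D.mu t j u k * D.d (Y i) u k) := fun i => Finset.mul_sum _ _ _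
  rw [Finset.sum_congr rfl (fun i _ => h0 i), Finset.sum_comm]
  refine Finset.sum_congr rfl fun u _ => ?_
  by_cases hu : u ∈ T
  · rw [ext_mem hu]
    simp [ind_not (T := Tᶜ) (fun h : u ∈ Tᶜ => h hu)]
  · have hut : t ≠ u := fun h => hu (h ▸ ht)
    rw [ext_not hu, ind_mem (T := Tᶜ) hu]
    simp only [one_mul]
    have h1 : ∀ i, D.th i * ∑ k, D.mu t j u k * D.d (Y i) u k
        = ∑ k, D.mu t j u k * (D.th i * D.d (Y i) u k) := by
      intro i
      rw [Finset.mul_sum]
      exact Finset.sum_congr rfl fun k _ => by ring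
    simp only [h1]
    rw [Finset.sum_comm]
    have h2 : ∀ k, ∑ i, D.mu t j u k * (D.th i * D.d (Y i) u k)
        = (D.mu t j u k * D.th k) * D.dF Y u := by
      intro k
      rw [← Finset.mul_sum, D.PFd' hY]
      ring
    simp only [h2]
    rw [← Finset.sum_mul, D.mu_th t u j hut]
    ring

/-- the numbers of a family -/
noncomputable def pre (Y : D.J → D.Ob) : Pre M :=
  (fun t r => D.dF (fun j => r⁻¹ • Y j) t, D.lF Y)

theorem pre_one (Y : D.J → D.Ob) (t : S) : (D.pre Y).1 t 1 = D.dF Y t := by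
  simp [pre]

theorem pre_snd (Y : D.J → D.Ob) : (D.pre Y).2 = D.lF Y := rfl

/-- `Σ_i th_i h_T (r x_(t,0), Y_i) = d_t (r⁻¹ Y)` -/
theorem sum_hT {T : Set S} {t : S} (ht : t ∈ T) {r : ArtinGroup M} (hr : r ∈ A M T)
    (Y : D.J → D.Ob) :
    ∑ i, D.th i * D.hT T (r • D.fr t D.j0) (Y i) = D.dF (fun i => r⁻¹ • Y i) t := by
  unfold dF
  refine Finset.sum_congr rfl fun i _ => ?_
  have h1 := D.hT_act_all hr (D.fr t D.j0) (r⁻¹ • Y i)
  rw [smul_inv_smul] at h1
  rw [h1, D.hT_fr T t ht]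

/-- `d_u (r x_(t,j)) = 0` for `u ∉ T` -/
theorem d_out {T : Set S} {u t : S} (hu : u ∉ T) {r : ArtinGroup M} (hr : r ∈ A M T)
    (j k : D.J) : D.d (r • D.fr t j) u k = 0 := by
  rw [D.d_act_all (A_compl M hu hr), D.fr_d]

theorem sum_d_g {t t' : S} (r : ArtinGroup M) :
    ∑ k, D.th k * D.d (r • D.fr t' D.j0) t k = D.g t t' r := by
  rw [D.g_symm]
  unfold g dF
  exact Finset.sum_congr rfl fun k _ => by rw [D.d_swap]

/-- **(K)** -/
theorem K {T : Set S} (hT : PD M T) {t : S} (ht : t ∈ T) {Y : D.J → D.Ob} (hY : Y ∈ D.Fam)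
    {h : S → ℝ} (h0 : ∀ s ∈ T, 0 ≤ h s) (hht : h t = D.dF Y t)
    (hd : ∀ s ∈ T, s ≠ t → ∀ r ∈ A M (T \ {t}), h s ≤ D.dF (fun i => r⁻¹ • Y i) s)
    (hs : ∀ s ∈ T, s ≠ t → 0 ≤ slk T (D.pre Y) h s) {t' : S} (ht' : t' ∈ T)
    {r' : ArtinGroup M} (hr' : r' ∈ A M T) :
    h t' + slk T (D.pre Y) h t * D.g t t' r' ≤ D.dF (fun i => r'⁻¹ • Y i) t' := by
  classical
  set X : D.Ob := r' • D.fr t' D.j0 with hX
  set Dl : ℝ := D.g t t' r' with hDl
  have hDl' : ∑ k, D.th k * D.d X t k = Dl := D.sum_d_g r'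
  -- the lam of `X`
  have hlX : D.lam X = D.lam (D.fr t' D.j0) := D.lam_act_all r' _
  have hlT : ∀ j, lamT D.mu D.d D.lam T X t j = if t = t' ∧ j = D.j0 then 1 else 0 := by
    intro j
    unfold lamT
    rw [hlX, D.fr_lam]
    rw [Finset.sum_eq_zero, add_zero]
    intro u _
    by_cases hu : u ∈ T
    · rw [ind_not (T := Tᶜ) (fun h : u ∈ Tᶜ => h hu), zero_mul]
    · rw [Finset.sum_eq_zero (fun k _ => by rw [hX, D.d_out hu hr', mul_zero]), mul_zero]
  have hlT' : ∀ s ∈ T \ {t}, ∑ j, D.th j * lamT D.mu D.d D.lam (T \ {t}) X s j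
      = (if s = t' then 1 else 0) - C M t s * Dl := by
    intro s hs
    have hst : t ≠ s := fun h => hs.2 h.symm
    have h1 : ∀ j, lamT D.mu D.d D.lam (T \ {t}) X s j
        = (if s = t' ∧ j = D.j0 then 1 else 0) + ∑ k, D.mu s j t k * D.d X t k := by
      intro j
      unfold lamT
      rw [hlX, D.fr_lam]
      congr 1
      rw [Finset.sum_eq_single t]
      · rw [ind_mem (T := (T \ {t})ᶜ) (by simp), one_mul]
      · intro u _ hut
        by_cases hu : u ∈ T
        · rw [ind_not (T := (T \ {t})ᶜ) (fun h : u ∈ (T \ {t})ᶜ => h ⟨hu, hut⟩), zero_mul]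
        · rw [Finset.sum_eq_zero (fun k _ => by rw [hX, D.d_out hu hr', mul_zero]), mul_zero]
      · intro h; exact absurd (Finset.mem_univ _) h
    simp only [h1, mul_add, Finset.sum_add_distrib]
    have h2 : ∑ j, D.th j * (if s = t' ∧ j = D.j0 then (1 : ℝ) else 0) = if s = t' then 1 else 0 := by
      by_cases h : s = t'
      · simp [h, D.th_zero]
      · simp [h]
    have h3 : ∑ j, D.th j * ∑ k, D.mu s j t k * D.d X t k = - C M t s * Dl := by
      simp only [Finset.mul_sum]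
      rw [Finset.sum_comm]
      have h4 : ∀ k, ∑ j, D.th j * (D.mu s j t k * D.d X t k)
          = - C M t s * (D.th k * D.d X t k) := by
        intro k
        have h5 := D.mu_th t s k hst
        calc ∑ j, D.th j * (D.mu s j t k * D.d X t k)
            = (∑ j, D.mu t k s j * D.th j) * D.d X t k := by
              rw [Finset.sum_mul]
              exact Finset.sum_congr rfl fun j _ => by rw [D.mu_symm s j t k]; ring
          _ = _ := by rw [h5]; ring
      simp only [h4]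
      rw [← Finset.mul_sum, hDl']
    rw [h2, h3]
    ring
  -- (MF), summed
  have hMF : ∑ i, D.th i * D.hT (T \ {t}) X (Y i)
      + ∑ i, D.th i * ∑ j, (D.d X t j * lamT D.mu D.d D.lam T (Y i) t j
        + lamT D.mu D.d D.lam T X t j * D.d (Y i) t j - 2 * (D.d X t j * D.d (Y i) t j))
      ≤ ∑ i, D.th i * D.hT T X (Y i) := by
    rw [← Finset.sum_add_distrib]
    refine Finset.sum_le_sum fun i _ => ?_
    rw [← mul_add]
    exact mul_le_mul_of_nonneg_left (D.MF T t ht X (Y i)) (D.th_pos i).le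
  rw [D.sum_hT ht' hr' Y] at hMF
  set LT : ℝ := D.lF Y t - ∑ u, C M t u * (ext T (fun _ => 0) (D.dF Y) u) with hLT
  have hmid : ∑ i, D.th i * ∑ j, (D.d X t j * lamT D.mu D.d D.lam T (Y i) t j
        + lamT D.mu D.d D.lam T X t j * D.d (Y i) t j - 2 * (D.d X t j * D.d (Y i) t j))
      = Dl * LT + (if t = t' then h t else 0) - 2 * (Dl * h t) := by
    have e1 : ∑ i, D.th i * ∑ j, (D.d X t j * lamT D.mu D.d D.lam T (Y i) t j
        + lamT D.mu D.d D.lam T X t j * D.d (Y i) t j - 2 * (D.d X t j * D.d (Y i) t j))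
        = ∑ j, (D.d X t j * (∑ i, D.th i * lamT D.mu D.d D.lam T (Y i) t j)
          + lamT D.mu D.d D.lam T X t j * (∑ i, D.th i * D.d (Y i) t j)
          - 2 * (D.d X t j * (∑ i, D.th i * D.d (Y i) t j))) := by
      simp only [Finset.mul_sum, ← Finset.sum_add_distrib, ← Finset.sum_sub_distrib]
      rw [Finset.sum_comm]
      refine Finset.sum_congr rfl fun j _ => Finset.sum_congr rfl fun i _ => ?_
      ring
    rw [e1]
    have e2 : ∀ j, (D.d X t j * (∑ i, D.th i * lamT D.mu D.d D.lam T (Y i) t j)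
          + lamT D.mu D.d D.lam T X t j * (∑ i, D.th i * D.d (Y i) t j)
          - 2 * (D.d X t j * (∑ i, D.th i * D.d (Y i) t j)))
        = (D.th j * D.d X t j) * LT + (if t = t' ∧ j = D.j0 then D.th j * h t else 0)
          - 2 * ((D.th j * D.d X t j) * h t) := by
      intro j
      rw [D.sum_lamT hY ht, D.PFd' hY, hlT, ← hht, ← hLT]
      split_ifs <;> ring
    simp only [e2]
    rw [Finset.sum_sub_distrib, Finset.sum_add_distrib, ← Finset.sum_mul, hDl', ← Finset.mul_sum,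
      ← Finset.sum_mul, hDl']
    congr 2
    by_cases h : t = t'
    · simp [h, D.th_zero]
    · simp [h]
  -- (P_{T - t})
  have hPD : PD M (T \ {t}) := fun x hx hx0 =>
    hT x (fun s hs => hx s (fun h => hs h.1)) hx0
  have hsl : ∀ s, s ∈ T → slk T (D.pre Y) h s
      = (D.lF Y s - ∑ u, C M s u * (ext (T \ {t}) (fun _ => 0) (D.dF Y) u))
        - CT M (T \ {t}) h s := by
    intro s _
    unfold slk CT
    rw [pre_snd, sub_sub, ← Finset.sum_add_distrib]
    congr 1
    refine Finset.sum_congr rfl fun u _ => ?_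
    have e : (fun u => (D.pre Y).1 u 1) = D.dF Y := funext fun u => D.pre_one Y u
    rw [e]
    by_cases hut : u = t
    · subst hut
      rw [ext_mem ht, ext_not (by simp), ind_not (T := T \ {u}) (by simp), hht]
      ring
    · by_cases hu : u ∈ T
      · rw [ext_mem hu, ext_mem (T := T \ {t}) ⟨hu, hut⟩, ind_mem (T := T \ {t}) ⟨hu, hut⟩]
        ring
      · rw [ext_not hu, ext_not (fun h => hu h.1), ind_not (T := T \ {t}) (fun h => hu h.1)]
        ring
  have hPT := D.PT (T \ {t}) hPD Y hY h (fun s hs => h0 s hs.1)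
    (fun s hs => by
      rw [D.sum_lamT hY hs, D.th_zero, one_mul]
      have h1 := hs
      have h2 := hsl s hs.1
      have h3 := (‹∀ s ∈ T, s ≠ t → 0 ≤ slk T (D.pre Y) h s›) s hs.1 hs.2
      rw [h2] at h3
      linarith)
    (fun r hr s hs => hd s hs.1 hs.2 r hr) X
  have hL : ∑ s, ind (T \ {t}) s * ∑ j, D.th j * h s * lamT D.mu D.d D.lam (T \ {t}) X s j
      = (if t' = t then 0 else h t') - Dl * CT M (T \ {t}) h t := by
    have e1 : ∀ s, ind (T \ {t}) s * ∑ j, D.th j * h s * lamT D.mu D.d D.lam (T \ {t}) X s j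
        = (if s = t' then ind (T \ {t}) s * h s else 0)
          - Dl * (ind (T \ {t}) s * (C M t s * h s)) := by
      intro s
      by_cases hs1 : s ∈ T \ {t}
      · simp only [ind_mem hs1, one_mul]
        have : ∑ j, D.th j * h s * lamT D.mu D.d D.lam (T \ {t}) X s j
            = h s * ∑ j, D.th j * lamT D.mu D.d D.lam (T \ {t}) X s j := by
          rw [Finset.mul_sum]
          exact Finset.sum_congr rfl fun j _ => by ring
        rw [this, hlT' s hs1]
        split_ifs <;> ring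
      · simp only [ind_not hs1, zero_mul, mul_zero, sub_zero]
        split_ifs <;> rfl
    simp only [e1]
    rw [Finset.sum_sub_distrib, ← Finset.mul_sum]
    unfold CT
    congr 1
    rw [Finset.sum_ite_eq' Finset.univ t' (fun s => ind (T \ {t}) s * h s)]
    simp only [Finset.mem_univ, if_true]
    by_cases h' : t' = t
    · rw [if_pos h', h', ind_not (T := T \ {t}) (by simp), zero_mul]
    · rw [if_neg h', ind_mem (T := T \ {t}) ⟨ht', h'⟩, one_mul]
  rw [hL] at hPT
  rw [hmid] at hMF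
  have hfin : slk T (D.pre Y) h t = LT - 2 * h t - CT M (T \ {t}) h t := by
    rw [hsl t ht, hLT]
    have : ∑ u, C M t u * (ext (T \ {t}) (fun _ => 0) (D.dF Y) u)
        = ∑ u, C M t u * (ext T (fun _ => 0) (D.dF Y) u) + 2 * h t := by
      have e : ∀ u, C M t u * (ext (T \ {t}) (fun _ => 0) (D.dF Y) u)
          = C M t u * (ext T (fun _ => 0) (D.dF Y) u) + if u = t then 2 * h t else 0 := by
        intro u
        by_cases hut : u = t
        · subst hut
          rw [ext_mem ht, ext_not (by simp), C_self, hht]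
          simp
        · rw [if_neg hut, add_zero]
          by_cases hu : u ∈ T
          · rw [ext_mem hu, ext_mem (T := T \ {t}) ⟨hu, hut⟩]
          · rw [ext_not hu, ext_not (fun h => hu h.1)]
      simp only [e]
      rw [Finset.sum_add_distrib]
      simp
    rw [this]
    ring
  rw [hfin]
  by_cases h' : t = t'
  · subst h'
    simp only [if_true] at hMF hPT
    nlinarith [hMF, hPT]
  · have h'' : ¬ t' = t := fun h => h' h.symm
    simp only [if_neg h', if_neg h''] at hMF hPT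
    nlinarith [hMF, hPT]

/-- **the numbers of the category side** -/
noncomputable def toNum : Num M where
  g := D.g
  Ob := {X | ∃ Y ∈ D.Fam, X = D.pre Y}
  g_nonneg := D.g_nonneg
  g_left := fun s t r a ha => D.g_left s t r a ha
  g_right := fun s t r b hb => D.g_right s t r b hb
  d_nonneg := by
    rintro _ ⟨Y, _, rfl⟩ t r
    exact D.dF_nonneg _ _
  lam_nonneg := by
    rintro _ ⟨Y, _, rfl⟩ t
    exact D.lF_nonneg _ _
  d_inv := by
    rintro _ ⟨Y, _, rfl⟩ t r b hb
    show D.dF (fun j => (r * b)⁻¹ • Y j) t = D.dF (fun j => r⁻¹ • Y j) t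
    unfold dF
    refine Finset.sum_congr rfl fun j _ => ?_
    simp only [mul_inv_rev, mul_smul, D.d_act_all ((A M ({t}ᶜ : Set S)).inv_mem hb)]
  shift_mem := by
    rintro _ ⟨Y, hY, rfl⟩ r
    refine ⟨fun j => r⁻¹ • Y j, D.fam_act_all r⁻¹ hY, ?_⟩
    refine Prod.ext ?_ ?_
    · funext t x
      show D.dF (fun j => (r * x)⁻¹ • Y j) t = D.dF (fun j => x⁻¹ • r⁻¹ • Y j) t
      simp only [mul_inv_rev, mul_smul]
    · show D.lF Y = D.lF (fun j => r⁻¹ • Y j)
      funext t
      unfold lF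
      simp only [D.lam_act_all]
  single := by
    intro s
    refine ⟨D.pre (D.fr s), ⟨D.fr s, D.fam_fr s, rfl⟩, ?_, ?_⟩
    · intro t r
      show D.g t s r⁻¹ = D.g s t r
      rw [D.g_symm t s r⁻¹, inv_inv]
    · show 0 < D.lF (D.fr s) s
      unfold lF
      refine lt_of_lt_of_le ?_ (Finset.single_le_sum (f := fun i => D.th i * D.lam (D.fr s i) s D.j0)
        (fun i _ => mul_nonneg (D.th_pos i).le (D.lam_nonneg _ _ _)) (Finset.mem_univ D.j0))
      simp [D.fr_lam, D.th_zero]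
  K := by
    rintro T hT t ht _ ⟨Y, hY, rfl⟩ h h0 hht hd hs t' ht' r' hr'
    rw [D.pre_one] at hht
    exact D.K hT ht hY h0 hht (fun s hs1 hs2 r hr => hd s hs1 hs2 r hr) hs ht' hr'
  Z := by
    intro T hT t ht r hr h
    refine D.zst T hT t ht r hr ?_
    intro i j
    have h1 := D.sum_d_fr t t i r
    rw [h, mul_zero] at h1
    have h2 := (Finset.sum_eq_zero_iff_of_nonneg
      (fun j _ => mul_nonneg (D.th_pos j).le (D.d_nonneg _ _ _))).1 h1 j (Finset.mem_univ _)
    exact (mul_eq_zero.1 h2).resolve_left (D.th_pos j).ne'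

end CatD

end Crest.Agent.R175.CatNum_427
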