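import Mathlib
import Crest.Agent.R175.B3_83

/-!
# R175 (S0264), group side : centralisers in a free product

* `commute_list` : if `g ≠ 1` commutes with the product of a reduced word `t` whose first and last
  letters lie in different factors, then `g` or `g⁻¹` has a reduced word `l` with `l ++ t = t ++ l`;
* `cent_sa` : the centraliser of `sa` in `ℤ/2 * ℤ/3` is `⟨sa⟩`.
-/

set_option autoImplicit false

open Monoid Monoid.CoprodI

namespace Crest.Agent.R175.Cent23_83

variable {ι : Type*} [DecidableEq ι] {A : ι → Type*} [∀ i, Group (A i)] [∀ i, DecidableEq (A i)]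

theorem length_smul_le {i : ι} (m : A i) (w : Word A) :
    ((of m : CoprodI A) • w).toList.length ≤ w.toList.length + 1 := by
  by_cases hm1 : m = 1
  · subst hm1; rw [map_one, one_smul]; omega
  induction w using Word.consRecOn with
  | empty =>
    rw [← Word.cons_eq_smul (h1 := FirstLet_83.fstIdx_empty i) (h2 := hm1)]
    simp
  | cons k g t h1 h2 _ =>
    by_cases hk : k = i
    · subst hk
      rw [FirstLet_83.smul_cons]
      by_cases hm : m * g = 1
      · rw [hm, map_one, one_smul]
        simp only [Word.cons_toList, List.length_cons]
        omega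
      · rw [← Word.cons_eq_smul (h1 := h1) (h2 := hm)]
        simp only [Word.cons_toList, List.length_cons]
        omega
    · have h3 : (Word.cons g t h1 h2).fstIdx ≠ some i := by
        rw [Word.fstIdx_cons]
        exact fun h => hk (Option.some.inj h)
      rw [← Word.cons_eq_smul (h1 := h3) (h2 := hm1)]
      simp

/-- number of syllables -/
def len (g : CoprodI A) : ℕ := (g • (Word.empty : Word A)).toList.length

theorem length_prod_smul_le (l : List (Σ i, A i)) (w : Word A) :
    ((l.map fun x => (of x.2 : CoprodI A)).prod • w).toList.length ≤ l.length + w.toList.length := by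
  induction l with
  | nil => simp
  | cons x l ih =>
    rw [List.map_cons, List.prod_cons, mul_smul]
    refine (length_smul_le _ _).trans ?_
    rw [List.length_cons]
    omega

theorem prod_toList (g : CoprodI A) :
    ((g • (Word.empty : Word A)).toList.map fun x => (of x.2 : CoprodI A)).prod = g := by
  have : Word.prod (g • (Word.empty : Word A)) = g := by
    rw [Word.prod_smul, Word.prod_empty, mul_one]
  exact this

theorem len_mul_le (g h : CoprodI A) : len (g * h) ≤ len g + len h := by
  rw [len, mul_smul]
  conv_lhs => rw [← prod_toList g]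
  exact length_prod_smul_le _ _

theorem len_of_le {i : ι} (m : A i) : len (of m : CoprodI A) ≤ 1 :=
  (length_smul_le m _).trans (by simp)

theorem len_one : len (1 : CoprodI A) = 0 := by rw [len, one_smul]; rfl

theorem neWord_smul {i j : ι} (w : NeWord A i j) :
    (w.prod • (Word.empty : Word A)).toList = w.toList := by
  have h : w.prod • (Word.empty : Word A) = w.toWord := by
    apply (Word.equiv (M := A)).symm.injective
    show Word.prod (w.prod • (Word.empty : Word A)) = Word.prod w.toWord
    rw [Word.prod_smul, Word.prod_empty, mul_one]
    rfl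
  rw [h]
  rfl

theorem len_neWord {i j : ι} (w : NeWord A i j) : len w.prod = w.toList.length := by
  rw [len, neWord_smul]

omit [DecidableEq ι] [∀ i, DecidableEq (A i)] in
theorem length_pos {i j : ι} (w : NeWord A i j) : 0 < w.toList.length :=
  List.length_pos_iff.2 w.toList_ne_nil

theorem last_split {i j : ι} (w : NeWord A i j) :
    ∃ g : CoprodI A, w.prod = g * of w.last ∧ len g + 1 ≤ w.toList.length := by
  induction w with
  | singleton x hx => exact ⟨1, by simp, by rw [len_one]; simp⟩
  | append w₁ hne w₂ _ ih =>
    obtain ⟨g, hg, hl⟩ := ih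
    refine ⟨w₁.prod * g, ?_, ?_⟩
    · rw [NeWord.append_prod, hg, NeWord.append_last, mul_assoc]
    · have := len_mul_le w₁.prod g
      rw [len_neWord] at this
      simp only [NeWord.toList, List.length_append]
      omega

theorem head_split {i j : ι} (w : NeWord A i j) :
    ∃ g : CoprodI A, w.prod = of w.head * g ∧ len g + 1 ≤ w.toList.length := by
  induction w with
  | singleton x hx => exact ⟨1, by simp, by rw [len_one]; simp⟩
  | append w₁ hne w₂ ih _ =>
    obtain ⟨g, hg, hl⟩ := ih
    refine ⟨g * w₂.prod, ?_, ?_⟩
    · rw [NeWord.append_prod, hg, NeWord.append_head, mul_assoc]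
    · have := len_mul_le g w₂.prod
      rw [len_neWord] at this
      simp only [NeWord.toList, List.length_append]
      omega

theorem len_merge {p i j : ι} (v : NeWord A p i) (w : NeWord A i j) :
    len (v.prod * w.prod) + 1 ≤ v.toList.length + w.toList.length := by
  obtain ⟨g, hg, hg'⟩ := last_split v
  obtain ⟨k, hk, hk'⟩ := head_split w
  have e : v.prod * w.prod = g * (of (v.last * w.head) * k) := by
    rw [hg, hk, map_mul]; group
  rw [e]
  have h1 := len_mul_le g (of (v.last * w.head) * k)
  have h2 := len_mul_le (of (v.last * w.head) : CoprodI A) k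
  have h3 := len_of_le (A := A) (v.last * w.head)
  omega

theorem exists_neWord {g : CoprodI A} (hg : g ≠ 1) : ∃ (i j : ι) (w : NeWord A i j), w.prod = g := by
  obtain ⟨i, j, w, hw⟩ := NeWord.of_word (g • (Word.empty : Word A)) (by
    intro h
    apply hg
    have := congrArg Word.prod h
    rwa [Word.prod_smul, Word.prod_empty, mul_one] at this)
  refine ⟨i, j, w, ?_⟩
  show Word.prod w.toWord = g
  rw [hw, Word.prod_smul, Word.prod_empty, mul_one]

theorem len_inv (g : CoprodI A) : len g⁻¹ = len g := by
  by_cases hg : g = 1
  · rw [hg, inv_one]
  obtain ⟨i, j, w, rfl⟩ := exists_neWord hg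
  rw [← NeWord.inv_prod, len_neWord, len_neWord]
  clear hg
  induction w with
  | singleton x hx => rfl
  | append w₁ hne w₂ h1 h2 =>
    simp only [NeWord.inv, NeWord.toList, List.length_append]
    omega

theorem neWord_idx {i j p q : ι} (v : NeWord A i j) (w : NeWord A p q) (h : v.prod = w.prod) :
    i = p ∧ j = q ∧ v.toList = w.toList := by
  have h1 : v.toList = w.toList := by rw [← neWord_smul, ← neWord_smul, h]
  have h2 := congrArg List.head? h1
  have h3 := congrArg List.getLast? h1
  rw [NeWord.toList_head?, NeWord.toList_head?, Option.some_inj] at h2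
  rw [NeWord.toList_getLast?, NeWord.toList_getLast?, Option.some_inj] at h3
  exact ⟨congrArg Sigma.fst h2, congrArg Sigma.fst h3, h1⟩

/-- Elements commuting with a word whose ends are in different factors. -/
theorem commute_list {i j : ι} (hij : i ≠ j) (t : NeWord A i j) {g : CoprodI A} (hg1 : g ≠ 1)
    (h : g * t.prod = t.prod * g) : ∃ v : NeWord A i j, (v.prod = g ∨ v.prod = g⁻¹) ∧
      v.toList ++ t.toList = t.toList ++ v.toList := by
  have main : ∀ {p q : ι} (v : NeWord A p q), p ≠ j → q ≠ i → v.prod * t.prod = t.prod * v.prod →
      ∃ v' : NeWord A i j, v'.prod = v.prod ∧ v'.toList ++ t.toList = t.toList ++ v'.toList := by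
    intro p q v hp hq h
    have e := neWord_idx (NeWord.append v hq t) (NeWord.append t (Ne.symm hp) v) (by
      rw [NeWord.append_prod, NeWord.append_prod, h])
    obtain ⟨rfl, rfl, e⟩ := e
    exact ⟨v, rfl, e⟩
  obtain ⟨p, q, v, rfl⟩ := exists_neWord hg1
  by_cases hp : p = j
  · by_cases hq : q = i
    · subst hp hq
      obtain ⟨v', h1, h2⟩ := main v.inv hij hij.symm (by
        rw [NeWord.inv_prod]
        exact (Commute.inv_left (show Commute v.prod t.prod from h)))
      exact ⟨v', Or.inr (by rw [h1, NeWord.inv_prod]), h2⟩
    · exfalso
      subst hp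
      have h1 := len_merge t v
      rw [← h] at h1
      have h2 := len_neWord (NeWord.append v hq t)
      rw [NeWord.append_prod] at h2
      simp only [NeWord.toList, List.length_append] at h2
      omega
  · by_cases hq : q = i
    · exfalso
      subst hq
      have h1 := len_merge v t
      rw [h] at h1
      have h2 := len_neWord (NeWord.append t (Ne.symm hp) v)
      rw [NeWord.append_prod] at h2
      simp only [NeWord.toList, List.length_append] at h2
      omega
    · obtain ⟨v', h1, h2⟩ := main v hp hq h
      exact ⟨v', Or.inl h1, h2⟩

/-- The centraliser of `x y`, `x ∈ A i`, `y ∈ A j`, `i ≠ j`, is generated by `x y`. -/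
theorem centralizer_two {i j : ι} (hij : i ≠ j) {x : A i} {y : A j} (hx : x ≠ 1) (hy : y ≠ 1)
    {g : CoprodI A} (h : g * (of x * of y) = of x * of y * g) :
    g ∈ Subgroup.zpowers (of x * of y : CoprodI A) := by
  set t : NeWord A i j := NeWord.append (NeWord.singleton x hx) hij (NeWord.singleton y hy) with ht
  have htp : t.prod = of x * of y := by
    rw [ht, NeWord.append_prod, NeWord.prod_singleton, NeWord.prod_singleton]
  have key : ∀ (n : ℕ) (g : CoprodI A), len g ≤ n → g * t.prod = t.prod * g →
      g ∈ Subgroup.zpowers t.prod := by
    intro n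
    induction n using Nat.strong_induction_on with
    | _ n ih =>
      intro g hn h
      by_cases hg1 : g = 1
      · subst hg1; exact one_mem _
      obtain ⟨v, hv, hl⟩ := commute_list hij t hg1 h
      have hcv : v.prod * t.prod = t.prod * v.prod := by
        rcases hv with hv | hv
        · rw [hv]; exact h
        · rw [hv]; exact (Commute.inv_left (show Commute g t.prod from h))
      have hmem : v.prod ∈ Subgroup.zpowers t.prod → g ∈ Subgroup.zpowers t.prod := by
        rcases hv with hv | hv
        · rw [hv]; exact id
        · rw [hv]; exact fun h => (Subgroup.inv_mem_iff _).1 h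
      apply hmem
      have htl : t.toList = [⟨i, x⟩, ⟨j, y⟩] := rfl
      rw [htl] at hl
      -- the list of `v` has length at least two
      have hh := NeWord.toList_head? v
      have hL := NeWord.toList_getLast? v
      rcases hvl : v.toList with _ | ⟨a, _ | ⟨b, l⟩⟩
      · exact absurd hvl v.toList_ne_nil
      · exfalso
        rw [hvl] at hh hL
        simp only [List.head?_cons, List.getLast?_singleton, Option.some_inj] at hh hL
        rw [hh] at hL
        exact hij (congrArg Sigma.fst hL)
      · rw [hvl] at hl
        simp only [List.cons_append, List.nil_append, List.cons.injEq] at hl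
        obtain ⟨rfl, rfl, hl⟩ := hl
        have hp : v.prod = t.prod * (l.map fun x => (of x.2 : CoprodI A)).prod := by
          have : v.prod = (v.toList.map fun x => (of x.2 : CoprodI A)).prod := rfl
          rw [this, hvl, htp]
          simp [mul_assoc]
        have hlen : len v.prod = l.length + 2 := by
          rw [len_neWord, hvl]; rfl
        have hvn : len v.prod ≤ n := by
          rcases hv with hv | hv
          · rw [hv]; exact hn
          · rw [hv, len_inv]; exact hn
        have hle : len (l.map fun x => (of x.2 : CoprodI A)).prod ≤ l.length := by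
          have := length_prod_smul_le l (Word.empty : Word A)
          simpa [len] using this
        rw [hp]
        refine mul_mem (Subgroup.mem_zpowers _) (ih l.length (by omega) _ hle ?_)
        have e : (l.map fun x => (of x.2 : CoprodI A)).prod = t.prod⁻¹ * v.prod := by
          rw [hp]; group
        rw [e]
        exact ((Commute.refl t.prod).inv_left.mul_left (show Commute v.prod t.prod from hcv))
  rw [← htp]
  exact key _ g le_rfl (by rw [htp]; exact h)

open B3_83 in
/-- The centraliser of `sa` in `ℤ/2 * ℤ/3`. -/
theorem cent_sa {g : P23} (h : g * sa = sa * g) : g ∈ Subgroup.zpowers sa := by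
  have e : sa = of Y0⁻¹ * of X0 := by rw [sa, Y, X, map_inv]
  rw [e] at h ⊢
  exact centralizer_two (A := AA) (by decide) Y0i_ne X0_ne h

end Crest.Agent.R175.Cent23_83
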