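import Crest.Agent.R175.A2t_83
import Crest.Agent.R175.Cent23_83

/-!
The centralizer of `s1` in the three strand braid group is `⟨s1⟩ × ⟨z⟩`.
-/

set_option autoImplicit false

namespace Crest.Agent.R175.CentS1_663

open Crest.GroupTheory Semi_663 A2t_83 B3_83

/-- `B₃ → ℤ/2 * ℤ/3` -/
noncomputable def pi23 : B3 →* P23 := toH ![sa, sb] (by
  intro s t
  fin_cases s <;> fin_cases t
  · rfl
  · exact braid
  · exact braid.symm
  · rfl)

theorem pi23_s1 : pi23 s1 = sa := by rw [pi23, s1, toH_gen]; rfl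
theorem pi23_s2 : pi23 s2 = sb := by rw [pi23, s2, toH_gen]; rfl

/-- the length homomorphism -/
noncomputable def dgB : B3 →* Multiplicative ℤ :=
  toH (fun _ => Multiplicative.ofAdd 1) (fun _ _ => rfl)

theorem dgB_s1 : dgB s1 = Multiplicative.ofAdd 1 := by rw [dgB, s1, toH_gen]
theorem dgB_s2 : dgB s2 = Multiplicative.ofAdd 1 := by rw [dgB, s2, toH_gen]

theorem dgB_zz : dgB ((s1 * s2) ^ 3) = Multiplicative.ofAdd 6 := by
  rw [map_pow, map_mul, dgB_s1, dgB_s2]; rfl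

theorem mem_closure (b : B3) : b ∈ Subgroup.closure {s1, s2} := by
  have hb : b ∈ Subgroup.closure (Set.range (artinGen (MM 2))) := by
    rw [closure_gen]; trivial
  refine Subgroup.closure_mono ?_ hb
  rintro _ ⟨i, rfl⟩
  fin_cases i
  · exact Or.inl rfl
  · exact Or.inr rfl

theorem zz_comm (b : B3) : b * (s1 * s2) ^ 3 = (s1 * s2) ^ 3 * b := by
  induction mem_closure b using Subgroup.closure_induction with
  | mem x hx =>
    rcases hx with rfl | hx
    · exact (comm_a s_braid).symm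
    · rw [Set.mem_singleton_iff] at hx
      subst hx
      exact (comm_b s_braid).symm
  | one => simp
  | mul x y _ _ hx hy => rw [mul_assoc, hy, ← mul_assoc, hx, mul_assoc]
  | inv x _ hx => exact (Commute.inv_left (show Commute x ((s1 * s2) ^ 3) from hx))

/-- **centralizer of `s1`** -/
theorem cent_s1 (b : B3) (h : b * s1 = s1 * b) : ∃ k m : ℤ, b = s1 ^ k * ((s1 * s2) ^ 3) ^ m := by
  have h1 : pi23 b * sa = sa * pi23 b := by
    rw [← pi23_s1, ← map_mul, ← map_mul, h]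
  obtain ⟨k, hk⟩ := Cent23_83.cent_sa h1
  have h2 : pi23 ((s1 ^ k)⁻¹ * b) = 1 := by
    rw [map_mul, map_inv, map_zpow, pi23_s1]
    have hk' : sa ^ k = pi23 b := hk
    rw [hk', inv_mul_cancel]
  obtain ⟨m, hm⟩ := ker_zpowers s_braid pi23 pi23_s1 pi23_s2 (mem_closure _) h2
  refine ⟨k, m, ?_⟩
  have hm' : ((s1 * s2) ^ 3) ^ m = (s1 ^ k)⁻¹ * b := hm
  rw [hm', mul_inv_cancel_left]

theorem sa_zpow_ne {n : ℤ} (h : sa ^ n = 1) : n = 0 := by
  by_contra hn
  have h1 : ∀ m : ℕ, 0 < m → sa ^ m ≠ 1 := by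
    intro m hm e
    have h2 := sa_pow_mem hm
    rw [e, FirstLet_83.mem_st, inv_one, one_smul] at h2
    exact absurd h2 (by rw [FirstLet_83.lst_empty]; simp)
  rcases lt_or_gt_of_ne hn with h0 | h0
  · apply h1 n.natAbs (Int.natAbs_pos.2 hn)
    rw [← zpow_natCast, Int.ofNat_natAbs_of_nonpos h0.le, zpow_neg, h, inv_one]
  · apply h1 n.natAbs (Int.natAbs_pos.2 hn)
    rw [← zpow_natCast, Int.natAbs_of_nonneg h0.le, h]

/-- **uniqueness** -/
theorem uniq (k m k' m' : ℤ)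
    (h : s1 ^ k * ((s1 * s2) ^ 3) ^ m = s1 ^ k' * ((s1 * s2) ^ 3) ^ m') : k = k' ∧ m = m' := by
  have hz : pi23 ((s1 * s2) ^ 3) = 1 := by
    rw [map_pow, map_mul, pi23_s1, pi23_s2, sa_mul_sb, p3]
    exact Y_cube
  have h1 := congrArg pi23 h
  rw [map_mul, map_mul, map_zpow, map_zpow, map_zpow, map_zpow, hz, pi23_s1, one_zpow, one_zpow,
    mul_one, mul_one] at h1
  have h2 : sa ^ (k - k') = 1 := by rw [zpow_sub, h1, mul_inv_cancel]
  have h3 : k = k' := by have := sa_zpow_ne h2; omega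
  refine ⟨h3, ?_⟩
  subst h3
  have h4 := congrArg dgB (mul_left_cancel h)
  rw [map_zpow, map_zpow, dgB_zz] at h4
  have h5 := congrArg Multiplicative.toAdd h4
  rw [toAdd_zpow, toAdd_zpow, toAdd_ofAdd, smul_eq_mul, smul_eq_mul] at h5
  omega

end Crest.Agent.R175.CentS1_663
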