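import Mathlib

/-!
# R175, Track D, node D-f (post #2460 of helper145): intersections of parabolic subgroups in a
Garside group, abstract form

`Gars G` collects the facts about an Artin group of finite type used in the proof.
`Gars.inter`: `A_X ∩ g A_Y g⁻¹ = h A_Z h⁻¹` with `h ∈ A_X`, `Z ⊆ X`.
-/

set_option autoImplicit false

namespace Crest.Agent.R175.DF_184

/-- Garside data with parabolic subgroups. `x ≼ y` is `x⁻¹ * y ∈ P`. -/
structure Gars (G : Type*) [Group G] where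
  /-- atoms -/
  S : Set G
  /-- positive elements -/
  P : Submonoid G
  /-- Garside element -/
  Δ : G
  /-- length -/
  len : G →* Multiplicative ℤ
  /-- meet -/
  meet : G → G → G
  S_pos : S ⊆ P
  /-- positive elements are words in the atoms -/
  gen : P ≤ Submonoid.closure S
  len_atom : ∀ s ∈ S, len s = Multiplicative.ofAdd 1
  len_pos : ∀ g ∈ P, g ≠ 1 → 0 < (len g).toAdd
  meet_left : ∀ x y, (meet x y)⁻¹ * x ∈ P
  meet_right : ∀ x y, (meet x y)⁻¹ * y ∈ P
  le_meet : ∀ x y z, z⁻¹ * x ∈ P → z⁻¹ * y ∈ P → z⁻¹ * meet x y ∈ P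
  Δ_pos : Δ ∈ P
  Δ_conj : ∀ g ∈ P, Δ⁻¹ * g * Δ ∈ P
  Δ_cen : ∃ m : ℕ, 0 < m ∧ ∀ g, Commute (Δ ^ m) g
  /-- every element is bounded by a power of `Δ` -/
  Δ_cof : ∀ g : G, ∃ n : ℕ, g⁻¹ * Δ ^ n ∈ P
  /-- finitely many divisors of `Δ ^ n` -/
  fin_div : ∀ n : ℕ, {g : G | g ∈ P ∧ g⁻¹ * Δ ^ n ∈ P}.Finite
  atom_le : ∀ s ∈ S, s⁻¹ * Δ ∈ P
  /-- positive elements of a parabolic subgroup are positive words in its atoms -/
  par_pos : ∀ X ⊆ S, ∀ g ∈ Subgroup.closure X, g ∈ P → g ∈ Submonoid.closure X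
  /-- divisors of positive elements of a parabolic subgroup -/
  par_div : ∀ X ⊆ S, ∀ a ∈ P, ∀ b ∈ P, a * b ∈ Subgroup.closure X → a ∈ Subgroup.closure X
  par_meet : ∀ X ⊆ S, ∀ x ∈ Subgroup.closure X, ∀ y ∈ Subgroup.closure X,
    meet x y ∈ Subgroup.closure X
  par_join : ∀ X ⊆ S, ∀ x ∈ Subgroup.closure X, ∀ y ∈ Subgroup.closure X, ∀ z : G,
    x⁻¹ * z ∈ P → y⁻¹ * z ∈ P → ∃ j ∈ Subgroup.closure X, x⁻¹ * j ∈ P ∧ y⁻¹ * j ∈ P ∧ j⁻¹ * z ∈ P
  /-- (0a): the projection to `X`-reduced elements is monotone on simple elements -/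
  proj_mono : ∀ X ⊆ S, ∀ a b p q : G, a ∈ P → a⁻¹ * b ∈ P → b⁻¹ * Δ ∈ P →
    p ∈ Subgroup.closure X → p ∈ P → p⁻¹ * a ∈ P →
    (∀ e ∈ Subgroup.closure X, e ∈ P → e⁻¹ * a ∈ P → e⁻¹ * p ∈ P) →
    q ∈ Subgroup.closure X → q ∈ P → q⁻¹ * b ∈ P →
    (∀ e ∈ Subgroup.closure X, e ∈ P → e⁻¹ * b ∈ P → e⁻¹ * q ∈ P) →
    (p⁻¹ * a)⁻¹ * (q⁻¹ * b) ∈ P
  /-- (0b) -/
  par_shift : ∀ X ⊆ S, ∀ w p : G, w ∈ P → w⁻¹ * Δ ∈ P → (∀ x ∈ X, x⁻¹ * w ∉ P) →
    p ∈ Subgroup.closure X → p ∈ P → (p * w)⁻¹ * Δ ∈ P → w⁻¹ * (p * w) ∈ P →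
    p ∈ Subgroup.closure {x | x ∈ X ∧ w⁻¹ * x * w ∈ S}

namespace Gars

variable {G : Type*} [Group G] (D : Gars G)

/-- prefix order -/
def le (x y : G) : Prop := x⁻¹ * y ∈ D.P

variable {D}

lemma le_refl (x : G) : D.le x x := by
  unfold le; rw [inv_mul_cancel]; exact D.P.one_mem

lemma le_trans {x y z : G} (h : D.le x y) (h' : D.le y z) : D.le x z := by
  unfold le at *
  have := D.P.mul_mem h h'
  rwa [show x⁻¹ * y * (y⁻¹ * z) = x⁻¹ * z by group] at this

lemma le_mul (g : G) {x y : G} : D.le (g * x) (g * y) ↔ D.le x y := by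
  unfold le; rw [show (g * x)⁻¹ * (g * y) = x⁻¹ * y by group]

lemma len_nonneg {g : G} (h : g ∈ D.P) : 0 ≤ (D.len g).toAdd := by
  by_cases h1 : g = 1
  · rw [h1, map_one]; simp
  · exact (D.len_pos g h h1).le

lemma eq_one_of_len {g : G} (h : g ∈ D.P) (h0 : (D.len g).toAdd ≤ 0) : g = 1 := by
  by_contra h1
  exact absurd (D.len_pos g h h1) (not_lt.2 h0)

lemma eq_one_of_inv {g : G} (h : g ∈ D.P) (h' : g⁻¹ ∈ D.P) : g = 1 := by
  apply eq_one_of_len h
  have := len_nonneg h'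
  rw [map_inv, toAdd_inv] at this
  linarith

lemma le_antisymm {x y : G} (h : D.le x y) (h' : D.le y x) : x = y := by
  have h1 : (x⁻¹ * y)⁻¹ ∈ D.P := by
    rw [show (x⁻¹ * y)⁻¹ = y⁻¹ * x by group]; exact h'
  have := eq_one_of_inv h h1
  rwa [inv_mul_eq_one] at this

lemma one_le {x : G} : D.le 1 x ↔ x ∈ D.P := by unfold le; simp

lemma le_mul_right {x p : G} (hp : p ∈ D.P) : D.le x (x * p) := by
  unfold le; rwa [inv_mul_cancel_left]

lemma meet_le_left (x y : G) : D.le (D.meet x y) x := D.meet_left x y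
lemma meet_le_right (x y : G) : D.le (D.meet x y) y := D.meet_right x y
lemma le_meet' {x y z : G} (h : D.le z x) (h' : D.le z y) : D.le z (D.meet x y) :=
  D.le_meet x y z h h'

lemma mul_meet (g x y : G) : g * D.meet x y = D.meet (g * x) (g * y) := by
  apply le_antisymm
  · exact le_meet' ((le_mul g).2 (meet_le_left _ _)) ((le_mul g).2 (meet_le_right _ _))
  · have h1 : D.le (g⁻¹ * D.meet (g * x) (g * y)) x := by
      rw [← le_mul g, mul_inv_cancel_left]; exact meet_le_left _ _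
    have h2 : D.le (g⁻¹ * D.meet (g * x) (g * y)) y := by
      rw [← le_mul g, mul_inv_cancel_left]; exact meet_le_right _ _
    have := (le_mul g).2 (le_meet' h1 h2)
    rwa [mul_inv_cancel_left] at this

lemma conj_mem {g : G} (h : g ∈ D.P) (r : ℕ) : (D.Δ ^ r)⁻¹ * g * D.Δ ^ r ∈ D.P := by
  induction r with
  | zero => simpa using h
  | succ r ih =>
    have := D.Δ_conj _ ih
    rwa [show (D.Δ ^ (r+1))⁻¹ * g * D.Δ ^ (r+1) = D.Δ⁻¹ * ((D.Δ ^ r)⁻¹ * g * D.Δ ^ r) * D.Δ by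
      rw [pow_succ]; group]

lemma pow_Δ_mem (r : ℕ) : D.Δ ^ r ∈ D.P := D.P.pow_mem D.Δ_pos r

/-- `x ≤ x Δ`-type fact: `Δ ≤ a Δ` for `a` positive. -/
lemma Δ_le_mul {a : G} (ha : a ∈ D.P) : D.le D.Δ (a * D.Δ) := by
  unfold le
  rw [← mul_assoc]; exact D.Δ_conj a ha

/-- head -/
def head (D : Gars G) (g : G) : G := D.meet g D.Δ

lemma head_le (g : G) : D.le (D.head g) g := meet_le_left _ _
lemma head_le_Δ (g : G) : D.le (D.head g) D.Δ := meet_le_right _ _
lemma le_head {z g : G} (h : D.le z g) (h' : D.le z D.Δ) : D.le z (D.head g) := le_meet' h h'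

lemma head_mem {g : G} (h : g ∈ D.P) : D.head g ∈ D.P :=
  one_le.1 (le_head (one_le.2 h) (one_le.2 D.Δ_pos))

lemma head_mono {g g' : G} (h : D.le g g') : D.le (D.head g) (D.head g') :=
  le_head (le_trans (head_le g) h) (head_le_Δ g)

lemma head_mul {a : G} (b : G) (ha : a ∈ D.P) : D.head (a * b) = D.head (a * D.head b) := by
  apply le_antisymm
  · refine le_head ?_ (head_le_Δ _)
    unfold head at *
    rw [mul_meet]
    exact le_meet' (meet_le_left _ _) (le_trans (meet_le_right _ _) (Δ_le_mul ha))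
  · exact head_mono ((le_mul a).2 (head_le b))

/-! ### parabolic parts -/

variable (D) in
/-- `p` is the `X`-part of the positive element `g`. -/
structure IsPart (X : Set G) (g p : G) : Prop where
  mem : p ∈ Subgroup.closure X
  pos : p ∈ D.P
  le : D.le p g
  max : ∀ e ∈ Subgroup.closure X, e ∈ D.P → D.le e g → D.le e p

variable {X Y : Set G}

lemma IsPart.unique {g p q : G} (hp : D.IsPart X g p) (hq : D.IsPart X g q) : p = q :=
  le_antisymm (hq.max p hp.mem hp.pos hp.le) (hp.max q hq.mem hq.pos hq.le)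

lemma exists_part (hX : X ⊆ D.S) {g : G} (hg : g ∈ D.P) : ∃ p, D.IsPart X g p := by
  classical
  -- maximal length
  let Q : ℕ → Prop := fun n => ∃ p ∈ Subgroup.closure X, p ∈ D.P ∧ D.le p g ∧
    (D.len p).toAdd = n
  have hQ0 : Q 0 := ⟨1, one_mem _, one_mem _, one_le.2 hg, by simp⟩
  have hb : ∀ n, Q n → n ≤ ((D.len g).toAdd).toNat := by
    rintro n ⟨p, _, _, h3, h4⟩
    have h5 := len_nonneg (D := D) h3
    rw [map_mul, map_inv, toAdd_mul, toAdd_inv] at h5
    omega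
  obtain ⟨n, ⟨p, h1, h2, h3, h4⟩, hmax⟩ : ∃ n, Q n ∧ ∀ m, Q m → m ≤ n := by
    refine ⟨Nat.findGreatest Q ((D.len g).toAdd).toNat, Nat.findGreatest_spec (Nat.zero_le _) hQ0,
      fun m hm => Nat.le_findGreatest (hb m hm) hm⟩
  refine ⟨p, h1, h2, h3, fun e he1 he2 he3 => ?_⟩
  obtain ⟨j, j1, j2, j3, j4⟩ := D.par_join X hX p h1 e he1 g h3 he3
  have hjP : j ∈ D.P := one_le.1 (le_trans (one_le.2 h2) j2)
  have hj0 := len_nonneg hjP
  have := hmax ((D.len j).toAdd).toNat ⟨j, j1, hjP, j4, by omega⟩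
  have h5 : p⁻¹ * j = 1 := by
    apply eq_one_of_len (D := D) j2
    rw [map_mul, map_inv, toAdd_mul, toAdd_inv]
    omega
  have h6 : p = j := by rwa [inv_mul_eq_one] at h5
  rw [h6]; exact j3

/-- `X`-reduced -/
def Red (D : Gars G) (X : Set G) (g : G) : Prop := ∀ x ∈ X, ¬ D.le x g

lemma closure_cases {X : Set G} {q : G} (hq : q ∈ Submonoid.closure X) :
    q = 1 ∨ ∃ x ∈ X, ∃ q' ∈ Submonoid.closure X, q = x * q' := by
  induction hq using Submonoid.closure_induction with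
  | mem x hx => exact Or.inr ⟨x, hx, 1, one_mem _, (mul_one x).symm⟩
  | one => exact Or.inl rfl
  | mul a b ha hb iha ihb =>
    rcases iha with rfl | ⟨x, hx, a', ha', rfl⟩
    · rw [one_mul]; exact ihb
    · exact Or.inr ⟨x, hx, a' * b, mul_mem ha' hb, by rw [mul_assoc]⟩

lemma closure_le_P {X : Set G} (hX : X ⊆ D.S) : Submonoid.closure X ≤ D.P :=
  Submonoid.closure_le.2 (hX.trans D.S_pos)

lemma sub_closure {X : Set G} {a : G} (ha : a ∈ Submonoid.closure X) : a ∈ Subgroup.closure X :=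
  Subgroup.le_closure_toSubmonoid X ha

/-- an atom in `A_X` is in `X` -/
lemma atom_mem (hX : X ⊆ D.S) {s : G} (hs : s ∈ D.S) (h : s ∈ Subgroup.closure X) : s ∈ X := by
  have h1 := D.par_pos X hX s h (D.S_pos hs)
  have hl := D.len_atom s hs
  rcases closure_cases h1 with h2 | ⟨x, hx, q, hq, e⟩
  · rw [h2, map_one] at hl
    have := congrArg Multiplicative.toAdd hl
    simp at this
  · have hqP := closure_le_P (D := D) hX hq
    have : q = 1 := by
      apply eq_one_of_len hqP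
      rw [e, map_mul, D.len_atom x (hX hx)] at hl
      have := congrArg Multiplicative.toAdd hl
      simp at this
      rw [this]; simp
    rw [this, mul_one] at e
    rw [e]; exact hx

lemma part_one_of_red (hX : X ⊆ D.S) {g : G} (hr : D.Red X g) (hg : g ∈ D.P) :
    D.IsPart X g 1 := by
  obtain ⟨p, hp⟩ := exists_part hX hg
  have h1 := D.par_pos X hX p hp.mem hp.pos
  have : p = 1 := by
    by_contra hne
    rcases closure_cases h1 with h | ⟨x, hx, q', hq', e⟩
    · exact hne h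
    · apply hr x hx
      refine le_trans ?_ hp.le
      rw [e]
      apply le_mul_right
      have : Submonoid.closure X ≤ D.P := Submonoid.closure_le.2 (hX.trans D.S_pos)
      exact this hq'
  rw [this] at hp; exact hp

lemma red_of_part_one {g : G} (hX : X ⊆ D.S) (h : D.IsPart X g 1) : D.Red X g := by
  intro x hx hle
  have h1 := h.max x (Subgroup.subset_closure hx) (D.S_pos (hX hx)) hle
  have h2 : x = 1 := le_antisymm h1 (one_le.2 (D.S_pos (hX hx)))
  have h3 := D.len_atom x (hX hx)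
  rw [h2, map_one] at h3
  have := congrArg Multiplicative.toAdd h3
  simp at this

/-- decomposition `g = p g'` -/
lemma IsPart.rest {g p : G} (hp : D.IsPart X g p) : D.IsPart X (p⁻¹ * g) 1 where
  mem := one_mem _
  pos := one_mem _
  le := one_le.2 hp.le
  max e he1 he2 he3 := by
    have h1 : D.le (p * e) g := by
      rw [← le_mul p, mul_inv_cancel_left] at he3; exact he3
    have h2 := hp.max (p * e) (mul_mem hp.mem he1) (mul_mem hp.pos he2) h1
    rw [← le_mul p, mul_one]; exact h2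

/-- the `X`-part of `a g`, `a ∈ A_X⁺` -/
lemma IsPart.mul {g p a : G} (hp : D.IsPart X g p) (ha : a ∈ Subgroup.closure X)
    (haP : a ∈ D.P) (hX : X ⊆ D.S) (hg : g ∈ D.P) : D.IsPart X (a * g) (a * p) := by
  obtain ⟨q, hq⟩ := exists_part hX (mul_mem haP hg)
  have h1 : D.le (a * p) q := hq.max _ (mul_mem ha hp.mem) (mul_mem haP hp.pos)
    ((le_mul a).2 hp.le)
  have h2 : D.le a q := hq.max _ ha haP (le_mul_right hg)
  have h3 : D.le (a⁻¹ * q) p := hp.max _ (mul_mem (inv_mem ha) hq.mem) h2 (by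
    rw [← le_mul a, mul_inv_cancel_left]; exact hq.le)
  have h4 : D.le q (a * p) := by
    rw [← le_mul a, mul_inv_cancel_left] at h3; exact h3
  rw [le_antisymm h1 h4]; exact hq

/-- (0a) -/
lemma mono_rest (hX : X ⊆ D.S) {a b p q : G} (ha : a ∈ D.P) (hab : D.le a b)
    (hb : D.le b D.Δ) (hp : D.IsPart X a p) (hq : D.IsPart X b q) :
    D.le (p⁻¹ * a) (q⁻¹ * b) :=
  D.proj_mono X hX a b p q ha hab hb hp.mem hp.pos hp.le hp.max hq.mem hq.pos hq.le hq.max

/-- **Lemma A**. -/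
lemma lemmaA (hX : X ⊆ D.S) {w : G} (hw : w ∈ D.P) (hwΔ : D.le w D.Δ) (hwr : D.IsPart X w 1) :
    ∀ a ∈ Submonoid.closure X, ∀ p, D.IsPart X (D.head (a * w)) p →
      D.le (p⁻¹ * D.head (a * w)) w := by
  have hXP : Submonoid.closure X ≤ D.P := Submonoid.closure_le.2 (hX.trans D.S_pos)
  have hXA : ∀ a ∈ Submonoid.closure X, a ∈ Subgroup.closure X := fun a ha =>
    Subgroup.le_closure_toSubmonoid X ha
  intro a ha
  induction ha using Submonoid.closure_induction_left with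
  | one =>
    intro p hp
    rw [one_mul] at hp ⊢
    have h1 : D.head w = w := le_antisymm (head_le w) (le_head (le_refl w) hwΔ)
    rw [h1] at hp ⊢
    rw [hp.unique hwr]; simpa using le_refl w
  | mul_left x hx a ha ih =>
    intro p hp
    have haP := hXP ha
    have hxP : x ∈ D.P := D.S_pos (hX hx)
    have hxA : x ∈ Subgroup.closure X := Subgroup.subset_closure hx
    -- head of `a w`
    obtain ⟨p1, hp1⟩ := exists_part hX (head_mem (D := D) (mul_mem haP hw))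
    have ih1 := ih p1 hp1
    have e1 : D.head (x * a * w) = D.head (x * D.head (a * w)) := by
      rw [mul_assoc, head_mul _ hxP]
    set h1 := D.head (a * w) with hh1
    have hh1P : h1 ∈ D.P := head_mem (mul_mem haP hw)
    rw [e1] at hp ⊢
    -- `x ≤ head (x h1)`
    have hx1 : D.le x (D.head (x * h1)) := le_head (le_mul_right hh1P) (D.atom_le x (hX hx))
    set h2 := x⁻¹ * D.head (x * h1) with hh2
    have hh2P : h2 ∈ D.P := hx1
    have e2 : D.head (x * h1) = x * h2 := by rw [hh2, mul_inv_cancel_left]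
    have h21 : D.le h2 h1 := by
      rw [← le_mul x, ← e2]; exact head_le _
    obtain ⟨p2, hp2⟩ := exists_part hX hh2P
    rw [e2] at hp ⊢
    have e3 := hp.unique (hp2.mul hxA hxP hX hh2P)
    rw [e3, show (x * p2)⁻¹ * (x * h2) = p2⁻¹ * h2 by group]
    exact le_trans (mono_rest hX hh2P h21 (head_le_Δ _) hp2 hp1) ih1

/-- `X_w` -/
def shift (D : Gars G) (X : Set G) (w : G) : Set G := {x | x ∈ X ∧ w⁻¹ * x * w ∈ D.S}

lemma shift_sub (X : Set G) (w : G) : D.shift X w ⊆ X := fun _ h => h.1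

/-- for `p ∈ A⁺_{X_w}`: `w ≤ p w` -/
lemma le_of_shift {w p : G} (hp : p ∈ Submonoid.closure (D.shift X w)) :
    D.le w (p * w) := by
  induction hp using Submonoid.closure_induction with
  | mem x hx =>
    unfold le
    rw [← mul_assoc]; exact D.S_pos hx.2
  | one => rw [one_mul]; exact le_refl w
  | mul a b _ _ iha ihb =>
    unfold le at *
    have := D.P.mul_mem iha ihb
    rwa [show w⁻¹ * (a * w) * (w⁻¹ * (b * w)) = w⁻¹ * (a * b * w) by group] at this

/-- **Lemma C**. -/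
lemma lemmaC (hX : X ⊆ D.S) {w : G} (hw : w ∈ D.P) (hwΔ : D.le w D.Δ) (hwr : D.IsPart X w 1) :
    ∀ a ∈ Submonoid.closure X, D.le w (a * w) → a ∈ Subgroup.closure (D.shift X w) := by
  have hXP : Submonoid.closure X ≤ D.P := Submonoid.closure_le.2 (hX.trans D.S_pos)
  have hXA : ∀ a ∈ Submonoid.closure X, a ∈ Subgroup.closure X := fun a ha =>
    Subgroup.le_closure_toSubmonoid X ha
  have hsX : D.shift X w ⊆ D.S := (shift_sub X w).trans hX
  intro a ha
  induction ha using Submonoid.closure_induction_left with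
  | one => intro _; exact one_mem _
  | mul_left x hx a ha ih =>
    intro hle
    have haP := hXP ha
    have hxP : x ∈ D.P := D.S_pos (hX hx)
    have hxA : x ∈ Subgroup.closure X := Subgroup.subset_closure hx
    have hxaP : x * a ∈ D.P := mul_mem hxP haP
    set h := D.head (x * a * w) with hh
    have hhP : h ∈ D.P := head_mem (mul_mem hxaP hw)
    obtain ⟨p, hp⟩ := exists_part hX hhP
    have hxaX : x * a ∈ Submonoid.closure X := mul_mem (Submonoid.subset_closure hx) ha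
    have h1 : D.le (p⁻¹ * h) w := lemmaA hX hw hwΔ hwr _ hxaX p hp
    have h2 : D.le w h := le_head hle hwΔ
    have h3 : D.le w (p⁻¹ * h) := by
      have := mono_rest hX hw h2 (head_le_Δ _) hwr hp
      simpa using this
    have e : h = p * w := by
      have := le_antisymm h1 h3
      rw [← this, mul_inv_cancel_left]
    -- `x ≤ p`
    have hxp : D.le x p := hp.max x hxA hxP (le_head (by
      rw [mul_assoc]; exact le_mul_right (mul_mem haP hw)) (D.atom_le x (hX hx)))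
    have hps : p ∈ Subgroup.closure (D.shift X w) :=
      D.par_shift X hX w p hw hwΔ (red_of_part_one hX hwr) hp.mem hp.pos
        (by rw [← e]; exact head_le_Δ _) (by rw [← e]; exact h2)
    have hxp' : x ∈ Subgroup.closure (D.shift X w) :=
      D.par_div _ hsX x hxP (x⁻¹ * p) hxp (by rwa [mul_inv_cancel_left])
    have hx1 : x ∈ D.shift X w := atom_mem hsX (hX hx) hxp'
    have hp' : x⁻¹ * p ∈ Submonoid.closure (D.shift X w) :=
      D.par_pos _ hsX _ (mul_mem (inv_mem hxp') hps) hxp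
    have h4 : D.le w (x⁻¹ * p * w) := le_of_shift hp'
    have h5 : D.le (x⁻¹ * p * w) (a * w) := by
      rw [← le_mul x, show x * (x⁻¹ * p * w) = p * w by group, ← e, ← mul_assoc]
      exact head_le _
    exact mul_mem hxp' (ih (le_trans h4 h5))

/-! ### the ribbon lemma -/

lemma Red.mono {g g' : G} (h : D.Red X g) (h' : D.le g' g) : D.Red X g' :=
  fun x hx hle => h x hx (le_trans hle h')

lemma shift_one (hX : X ⊆ D.S) : D.shift X 1 = X := by
  ext x
  simp only [shift, Set.mem_ofPred_eq, inv_one, one_mul, mul_one]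
  exact ⟨fun h => h.1, fun h => ⟨h, hX h⟩⟩

lemma exists_atom {g : G} (hg : g ∈ D.P) (h1 : g ≠ 1) : ∃ s ∈ D.S, D.le s g := by
  rcases closure_cases (D.gen hg) with h | ⟨s, hs, q, hq, e⟩
  · exact absurd h h1
  · refine ⟨s, hs, ?_⟩
    rw [e]; exact le_mul_right (closure_le_P (Set.Subset.refl D.S) hq)

lemma head_ne_one {g : G} (hg : g ∈ D.P) (h1 : g ≠ 1) : D.head g ≠ 1 := by
  obtain ⟨s, hs, hsg⟩ := exists_atom hg h1
  intro h
  have h2 : D.le s 1 := by
    rw [← h]; exact le_head hsg (D.atom_le s hs)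
  have h3 : s = 1 := le_antisymm h2 (one_le.2 (D.S_pos hs))
  have h4 := D.len_atom s hs
  rw [h3, map_one] at h4
  have := congrArg Multiplicative.toAdd h4
  simp at this

/-- **Ribbon lemma**. -/
lemma ribbon : ∀ n : ℕ, ∀ X ⊆ D.S, ∀ g ∈ D.P, (D.len g).toAdd ≤ n → D.Red X g →
    ∀ a ∈ Submonoid.closure X, D.le g (a * g) → a ∈ Subgroup.closure (D.shift X g) := by
  intro n
  induction n with
  | zero =>
    intro X hX g hg hl _ a ha _
    rw [eq_one_of_len hg (by simpa using hl), shift_one hX]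
    exact sub_closure ha
  | succ n ih =>
    intro X hX g hg hl hred a ha hle
    by_cases h1 : g = 1
    · rw [h1, shift_one hX]; exact sub_closure ha
    have haP := closure_le_P hX ha
    have hrP : D.head g ∈ D.P := head_mem hg
    have hr1 : D.head g ≠ 1 := head_ne_one hg h1
    set r := D.head g with hr
    have hrred : D.Red X r := hred.mono (head_le g)
    have hrle : D.le r (a * r) := by
      have h2 : D.le r (D.head (a * g)) := le_head (le_trans (head_le g) hle) (head_le_Δ g)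
      rw [head_mul _ haP] at h2
      exact le_trans h2 (head_le _)
    have h3 : a ∈ Subgroup.closure (D.shift X r) :=
      lemmaC hX hrP (head_le_Δ g) (part_one_of_red hX hrred hrP) a ha hrle
    have hsX : D.shift X r ⊆ D.S := (shift_sub X r).trans hX
    have h4 : a ∈ Submonoid.closure (D.shift X r) := D.par_pos _ hsX a h3 haP
    -- the conjugated set
    set Y : Set G := (fun x => r⁻¹ * x * r) '' D.shift X r with hY
    have hYS : Y ⊆ D.S := by
      rintro _ ⟨x, hx, rfl⟩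
      exact hx.2
    have hconj : ∀ b ∈ Submonoid.closure (D.shift X r), r⁻¹ * b * r ∈ Submonoid.closure Y := by
      intro b hb
      induction hb using Submonoid.closure_induction with
      | mem x hx => exact Submonoid.subset_closure ⟨x, hx, rfl⟩
      | one => rw [mul_one, inv_mul_cancel]; exact one_mem _
      | mul b c _ _ ihb ihc =>
        rw [show r⁻¹ * (b * c) * r = (r⁻¹ * b * r) * (r⁻¹ * c * r) by group]
        exact mul_mem ihb ihc
    have hg' : r⁻¹ * g ∈ D.P := head_le g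
    have hl' : (D.len (r⁻¹ * g)).toAdd ≤ n := by
      have h5 := D.len_pos r hrP hr1
      rw [map_mul, map_inv, toAdd_mul, toAdd_inv]
      push_cast at hl
      omega
    have hred' : D.Red Y (r⁻¹ * g) := by
      rintro _ ⟨x, hx, rfl⟩ hle'
      apply hred x hx.1
      rw [← le_mul r, mul_inv_cancel_left] at hle'
      refine le_trans ?_ hle'
      rw [show r * (r⁻¹ * x * r) = x * r by group]
      exact le_mul_right hrP
    have hle' : D.le (r⁻¹ * g) ((r⁻¹ * a * r) * (r⁻¹ * g)) := by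
      rw [← le_mul r, show r * ((r⁻¹ * a * r) * (r⁻¹ * g)) = a * g by group, mul_inv_cancel_left]
      exact hle
    have h6 := ih Y hYS (r⁻¹ * g) hg' hl' hred' _ (hconj a h4) hle'
    have hback : ∀ b ∈ Subgroup.closure (D.shift Y (r⁻¹ * g)),
        r * b * r⁻¹ ∈ Subgroup.closure (D.shift X g) := by
      intro b hb
      induction hb using Subgroup.closure_induction with
      | mem y hy =>
        obtain ⟨⟨x, hx, rfl⟩, hy2⟩ := hy
        apply Subgroup.subset_closure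
        have e1 : r * (r⁻¹ * x * r) * r⁻¹ = x := by group
        simp only [e1]
        refine ⟨hx.1, ?_⟩
        have e2 : (r⁻¹ * g)⁻¹ * (r⁻¹ * x * r) * (r⁻¹ * g) = g⁻¹ * x * g := by group
        simp only [e2] at hy2
        exact hy2
      | one => rw [mul_one, mul_inv_cancel]; exact one_mem _
      | mul b c _ _ ihb ihc =>
        rw [show r * (b * c) * r⁻¹ = (r * b * r⁻¹) * (r * c * r⁻¹) by group]
        exact mul_mem ihb ihc
      | inv b _ ihb =>
        rw [show r * b⁻¹ * r⁻¹ = (r * b * r⁻¹)⁻¹ by group]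
        exact inv_mem ihb
    have := hback _ h6
    rwa [show r * (r⁻¹ * a * r) * r⁻¹ = a by group] at this

/-- positive elements of `A_X ∩ g A_Y g⁻¹` for `g` positive and `X`-reduced with
`g⁻¹ κ g` positive. -/
lemma posK (hX : X ⊆ D.S) (hY : Y ⊆ D.S) {g : G} (hg : g ∈ D.P) (hred : D.Red X g) {a : G}
    (ha : a ∈ Subgroup.closure X) (haP : a ∈ D.P) (hle : g⁻¹ * a * g ∈ D.P)
    (haY : g⁻¹ * a * g ∈ Subgroup.closure Y) :
    a ∈ Subgroup.closure {x | x ∈ X ∧ g⁻¹ * x * g ∈ Y} := by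
  have h1 : a ∈ Subgroup.closure (D.shift X g) := by
    refine ribbon ((D.len g).toAdd).toNat X hX g hg ?_ hred a (D.par_pos X hX a ha haP) ?_
    · have := len_nonneg hg
      omega
    · unfold le; rwa [← mul_assoc]
  have hsX : D.shift X g ⊆ D.S := (shift_sub X g).trans hX
  have h2 : a ∈ Submonoid.closure (D.shift X g) := D.par_pos _ hsX a h1 haP
  clear ha haP hle h1
  -- letters
  induction h2 using Submonoid.closure_induction_left with
  | one => exact one_mem _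
  | mul_left x hx b hb ih =>
    have e : g⁻¹ * (x * b) * g = (g⁻¹ * x * g) * (g⁻¹ * b * g) := by group
    have hxS : g⁻¹ * x * g ∈ D.S := hx.2
    have hbP : g⁻¹ * b * g ∈ D.P := by
      have := le_of_shift hb
      unfold le at this
      rwa [← mul_assoc] at this
    rw [e] at haY
    have h3 : g⁻¹ * x * g ∈ Subgroup.closure Y :=
      D.par_div Y hY _ (D.S_pos hxS) _ hbP haY
    have h4 : g⁻¹ * x * g ∈ Y := atom_mem hY hxS h3
    have h5 : g⁻¹ * b * g ∈ Subgroup.closure Y := by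
      have := mul_mem (inv_mem h3) haY
      rwa [inv_mul_cancel_left] at this
    exact mul_mem (Subgroup.subset_closure ⟨hx.1, h4⟩) (ih h5)

/-! ### closed pairs -/

/-- minimal upper bounds exist -/
lemma exists_join (a b : G) (h : ∃ z, D.le a z ∧ D.le b z) :
    ∃ j, D.le a j ∧ D.le b j ∧ ∀ z, D.le a z → D.le b z → D.le j z := by
  classical
  let Q : ℕ → Prop := fun n => ∃ z, D.le a z ∧ D.le b z ∧ (D.len (a⁻¹ * z)).toAdd = n
  have hQ : ∃ n, Q n := by
    obtain ⟨z, h1, h2⟩ := h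
    have := len_nonneg h1
    exact ⟨((D.len (a⁻¹ * z)).toAdd).toNat, z, h1, h2, by omega⟩
  obtain ⟨j, j1, j2, j3⟩ := Nat.find_spec hQ
  refine ⟨j, j1, j2, fun z h1 h2 => ?_⟩
  have m1 : D.le a (D.meet j z) := le_meet' j1 h1
  have m2 : D.le b (D.meet j z) := le_meet' j2 h2
  have m0 := len_nonneg m1
  have h3 := Nat.find_min' hQ ⟨D.meet j z, m1, m2, (by omega :
    (D.len (a⁻¹ * D.meet j z)).toAdd = (((D.len (a⁻¹ * D.meet j z)).toAdd).toNat : ℕ))⟩
  have h4 : (D.meet j z)⁻¹ * j = 1 := by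
    apply eq_one_of_len (D := D) (meet_le_left j z)
    rw [map_mul, map_inv, toAdd_mul, toAdd_inv] at j3 m0 h3 ⊢
    omega
  rw [inv_mul_eq_one] at h4
  rw [← h4]; exact meet_le_right j z

lemma exists_ub (a b : G) : ∃ z, D.le a z ∧ D.le b z := by
  obtain ⟨n, hn⟩ := D.Δ_cof a
  obtain ⟨m, hm⟩ := D.Δ_cof b
  refine ⟨D.Δ ^ (n + m), ?_, ?_⟩
  · refine le_trans hn ?_
    rw [pow_add]; exact le_mul_right (pow_Δ_mem m)
  · refine le_trans hm ?_
    rw [add_comm, pow_add]; exact le_mul_right (pow_Δ_mem n)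

variable (D) in
/-- closed pairs -/
structure CP (X Y : Set G) (h x y : G) : Prop where
  hx : x ∈ Subgroup.closure X
  hy : h⁻¹ * y ∈ Subgroup.closure Y
  le : D.le x y
  max : ∀ a ∈ Subgroup.closure X, D.le a y → D.le a x
  min : ∀ b, h⁻¹ * b ∈ Subgroup.closure Y → D.le x b → D.le y b

lemma exists_max (hX : X ⊆ D.S) {a0 b : G} (ha0 : a0 ∈ Subgroup.closure X) (hab : D.le a0 b) :
    ∃ x ∈ Subgroup.closure X, D.le x b ∧ ∀ a ∈ Subgroup.closure X, D.le a b → D.le a x := by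
  obtain ⟨p, hp⟩ := exists_part (D := D) hX hab
  refine ⟨a0 * p, mul_mem ha0 hp.mem, ?_, fun a ha hle => ?_⟩
  · have := (le_mul (D := D) a0).2 hp.le
    rwa [mul_inv_cancel_left] at this
  · obtain ⟨j, j1, j2, j3, j4⟩ := D.par_join X hX a0 ha0 a ha b hab hle
    refine le_trans j3 ?_
    have h1 := hp.max (a0⁻¹ * j) (mul_mem (inv_mem ha0) j1) j2 ((le_mul _).2 j4)
    rw [← le_mul a0, mul_inv_cancel_left] at h1
    exact h1

lemma exists_min (hY : Y ⊆ D.S) {h x b0 : G} (hb0 : h⁻¹ * b0 ∈ Subgroup.closure Y)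
    (hxb : D.le x b0) :
    ∃ y, h⁻¹ * y ∈ Subgroup.closure Y ∧ D.le x y ∧
      ∀ b, h⁻¹ * b ∈ Subgroup.closure Y → D.le x b → D.le y b := by
  classical
  let Q : ℕ → Prop := fun n => ∃ z, h⁻¹ * z ∈ Subgroup.closure Y ∧ D.le x z ∧
    (D.len (x⁻¹ * z)).toAdd = n
  have hQ : ∃ n, Q n := by
    have := len_nonneg hxb
    exact ⟨((D.len (x⁻¹ * b0)).toAdd).toNat, b0, hb0, hxb, by omega⟩
  obtain ⟨j, j1, j2, j3⟩ := Nat.find_spec hQ
  refine ⟨j, j1, j2, fun z h1 h2 => ?_⟩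
  have m1 : h⁻¹ * D.meet j z ∈ Subgroup.closure Y := by
    rw [mul_meet]; exact D.par_meet Y hY _ j1 _ h1
  have m2 : D.le x (D.meet j z) := le_meet' j2 h2
  have m0 := len_nonneg m2
  have h3 := Nat.find_min' hQ ⟨D.meet j z, m1, m2, (by omega :
    (D.len (x⁻¹ * D.meet j z)).toAdd = (((D.len (x⁻¹ * D.meet j z)).toAdd).toNat : ℕ))⟩
  have h4 : (D.meet j z)⁻¹ * j = 1 := by
    apply eq_one_of_len (D := D) (meet_le_left j z)
    rw [map_mul, map_inv, toAdd_mul, toAdd_inv] at j3 m0 h3 ⊢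
    omega
  rw [inv_mul_eq_one] at h4
  rw [← h4]; exact meet_le_right j z

/-- closing up -/
lemma exists_CP (hX : X ⊆ D.S) (hY : Y ⊆ D.S) {h a0 b : G} (ha0 : a0 ∈ Subgroup.closure X)
    (hb : h⁻¹ * b ∈ Subgroup.closure Y) (hab : D.le a0 b) :
    ∃ x y, D.CP X Y h x y ∧ D.le y b ∧ ∀ a ∈ Subgroup.closure X, D.le a b → D.le a x := by
  obtain ⟨x, hx1, hx2, hx3⟩ := exists_max hX ha0 hab
  obtain ⟨y, hy1, hy2, hy3⟩ := exists_min hY hb hx2
  refine ⟨x, y, ⟨hx1, hy1, hy2, fun a ha hle => hx3 a ha (le_trans hle (hy3 b hb hx2)), hy3⟩,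
    hy3 b hb hx2, hx3⟩

/-- closed pairs are directed -/
lemma CP.directed (hX : X ⊆ D.S) (hY : Y ⊆ D.S) {h x y x' y' : G} (hc : D.CP X Y h x y)
    (hc' : D.CP X Y h x' y') :
    ∃ x'' y'', D.CP X Y h x'' y'' ∧ D.le x x'' ∧ D.le y y'' ∧ D.le x' x'' ∧ D.le y' y'' := by
  obtain ⟨z, z1, z2⟩ := exists_ub (D := D) (h⁻¹ * y) (h⁻¹ * y')
  obtain ⟨j, j1, j2, j3, j4⟩ := D.par_join Y hY _ hc.hy _ hc'.hy z z1 z2
  have k1 : D.le y (h * j) := by
    have := (le_mul (D := D) h).2 j2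
    rwa [mul_inv_cancel_left] at this
  have k2 : D.le y' (h * j) := by
    have := (le_mul (D := D) h).2 j3
    rwa [mul_inv_cancel_left] at this
  obtain ⟨x'', y'', hc'', h1, h2⟩ := exists_CP (D := D) (b := h * j) (h := h) hX hY hc.hx
    (by rwa [inv_mul_cancel_left]) (le_trans hc.le k1)
  have e1 := h2 x hc.hx (le_trans hc.le k1)
  have e2 := h2 x' hc'.hx (le_trans hc'.le k2)
  exact ⟨x'', y'', hc'', e1, hc.min y'' hc''.hy (le_trans e1 hc''.le), e2,
    hc'.min y'' hc''.hy (le_trans e2 hc''.le)⟩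

lemma CP.red (hX : X ⊆ D.S) {h x y : G} (hc : D.CP X Y h x y) : D.Red X (x⁻¹ * y) := by
  intro s hs hle
  have h1 : D.le (x * s) y := by
    rw [← le_mul x, mul_inv_cancel_left] at hle; exact hle
  have h2 := hc.max _ (mul_mem hc.hx (Subgroup.subset_closure hs)) h1
  have h3 : D.le s 1 := by rw [← le_mul x, mul_one]; exact h2
  have h4 : s = 1 := le_antisymm h3 (one_le.2 (D.S_pos (hX hs)))
  have h5 := D.len_atom s (hX hs)
  rw [h4, map_one] at h5
  have := congrArg Multiplicative.toAdd h5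
  simp at this

/-- translation by `K` -/
lemma CP.smul {h x y k : G} (hc : D.CP X Y h x y) (hk : k ∈ Subgroup.closure X)
    (hk' : h⁻¹ * k * h ∈ Subgroup.closure Y) : D.CP X Y h (k * x) (k * y) where
  hx := mul_mem hk hc.hx
  hy := by
    rw [show h⁻¹ * (k * y) = (h⁻¹ * k * h) * (h⁻¹ * y) by group]
    exact mul_mem hk' hc.hy
  le := (le_mul k).2 hc.le
  max a ha hle := by
    have := hc.max (k⁻¹ * a) (mul_mem (inv_mem hk) ha) (by
      rw [← le_mul k, mul_inv_cancel_left]; exact hle)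
    rw [← le_mul k, mul_inv_cancel_left] at this; exact this
  min b hb hle := by
    have := hc.min (k⁻¹ * b) (by
      rw [show h⁻¹ * (k⁻¹ * b) = (h⁻¹ * k * h)⁻¹ * (h⁻¹ * b) by group]
      exact mul_mem (inv_mem hk') hb) (by
      rw [← le_mul k, mul_inv_cancel_left]; exact hle)
    rw [← le_mul k, mul_inv_cancel_left] at this; exact this

/-- widths above a given pair are bounded by the same power of `Δ`. -/
lemma CP.width (_hX : X ⊆ D.S) (hY : Y ⊆ D.S) {h x y x' y' : G} (hc : D.CP X Y h x y)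
    (hc' : D.CP X Y h x' y') (h1 : D.le x x') (h2 : D.le y y') {n : ℕ}
    (hn : D.le (x⁻¹ * y) (D.Δ ^ n)) : D.le (x'⁻¹ * y') (D.Δ ^ n) := by
  -- `e = y⁻¹ y'`, `g' = x'⁻¹ y'`, `v = g'⁻¹ Δ ^ n`
  have heP : y⁻¹ * y' ∈ D.P := h2
  have heY : y⁻¹ * y' ∈ Subgroup.closure Y := by
    have := mul_mem (inv_mem hc.hy) hc'.hy
    rwa [show (h⁻¹ * y)⁻¹ * (h⁻¹ * y') = y⁻¹ * y' by group] at this
  set v := (x'⁻¹ * y')⁻¹ * D.Δ ^ n with hv
  have hgv : (x'⁻¹ * y') * v ∈ D.P := by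
    rw [hv, mul_inv_cancel_left]; exact pow_Δ_mem n
  have hev : (y⁻¹ * y') * v ∈ D.P := by
    have h3 : D.le (x⁻¹ * y) (x⁻¹ * x' * D.Δ ^ n) := by
      refine le_trans hn ?_
      unfold Gars.le
      rw [← mul_assoc]; exact conj_mem h1 n
    unfold Gars.le at h3
    rw [hv]
    rwa [show y⁻¹ * y' * ((x'⁻¹ * y')⁻¹ * D.Δ ^ n) = (x⁻¹ * y)⁻¹ * (x⁻¹ * x' * D.Δ ^ n) by group]
  obtain ⟨j, j1, j2, j3⟩ := exists_join (D := D) (y⁻¹ * y')⁻¹ (x'⁻¹ * y')⁻¹
    ⟨1, by unfold Gars.le; simpa using heP, by unfold Gars.le; rw [inv_inv, mul_one]; exact hc'.le⟩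
  have hj1 : D.le j 1 := j3 1 (by unfold Gars.le; simpa using heP) (by unfold Gars.le; rw [inv_inv, mul_one]; exact hc'.le)
  have hjP : j⁻¹ ∈ D.P := by unfold Gars.le at hj1; simpa using hj1
  unfold Gars.le at j1 j2
  rw [inv_inv] at j1 j2
  have hjY : j ∈ Subgroup.closure Y := by
    have := D.par_div Y hY _ j1 _ hjP (by rwa [mul_inv_cancel_right])
    have := mul_mem (inv_mem heY) this
    rwa [inv_mul_cancel_left] at this
  have h4 : D.le y' (y' * j) := by
    apply hc'.min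
    · rw [← mul_assoc]; exact mul_mem hc'.hy hjY
    · unfold Gars.le; rwa [← mul_assoc]
  have h5 : j ∈ D.P := by unfold Gars.le at h4; rwa [inv_mul_cancel_left] at h4
  have h6 : j = 1 := eq_one_of_inv h5 hjP
  have h7 := j3 v (by unfold Gars.le; rwa [inv_inv]) (by unfold Gars.le; rwa [inv_inv])
  rw [h6, one_le] at h7
  exact h7

/-- **pigeonhole**: some width is cofinal. -/
lemma exists_width (hX : X ⊆ D.S) (hY : Y ⊆ D.S) {h x0 y0 : G} (hc0 : D.CP X Y h x0 y0) :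
    ∃ g, ∀ x y, D.CP X Y h x y → ∃ x' y', D.CP X Y h x' y' ∧ D.le x x' ∧ D.le y y' ∧
      x'⁻¹ * y' = g := by
  classical
  by_contra hcon
  push Not at hcon
  obtain ⟨n, hn⟩ := D.Δ_cof (x0⁻¹ * y0)
  have key : ∀ F : Finset G, ∃ x y, D.CP X Y h x y ∧ D.le x0 x ∧ D.le y0 y ∧
      ∀ g ∈ F, ∀ x' y', D.CP X Y h x' y' → D.le x x' → D.le y y' → x'⁻¹ * y' ≠ g := by
    intro F
    induction F using Finset.induction_on with
    | empty => exact ⟨x0, y0, hc0, le_refl _, le_refl _, by simp⟩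
    | insert g F _ ih =>
      obtain ⟨x, y, hc, e1, e2, e3⟩ := ih
      obtain ⟨x', y', hc', e'⟩ := hcon g
      obtain ⟨x'', y'', hc'', f1, f2, f3, f4⟩ := hc.directed hX hY hc'
      refine ⟨x'', y'', hc'', le_trans e1 f1, le_trans e2 f2, ?_⟩
      intro g' hg' a b hab ha hb
      rcases Finset.mem_insert.1 hg' with rfl | hg''
      · exact e' a b hab (le_trans f3 ha) (le_trans f4 hb)
      · exact e3 g' hg'' a b hab (le_trans f1 ha) (le_trans f2 hb)
  obtain ⟨x, y, hc, e1, e2, e3⟩ := key (D.fin_div n).toFinset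
  refine e3 (x⁻¹ * y) ?_ x y hc (le_refl _) (le_refl _) rfl
  rw [Set.Finite.mem_toFinset]
  exact ⟨hc.le, hc0.width hX hY hc e1 e2 hn⟩

/-- the intersection theorem for positive `h`. -/
lemma inter_pos (hX : X ⊆ D.S) (hY : Y ⊆ D.S) {h : G} (hh : h ∈ D.P) :
    ∃ x ∈ Subgroup.closure X, ∃ Z ⊆ X, ∀ k : G,
      (k ∈ Subgroup.closure X ∧ h⁻¹ * k * h ∈ Subgroup.closure Y) ↔
        x⁻¹ * k * x ∈ Subgroup.closure Z := by
  obtain ⟨x0, y0, hc0, -, -⟩ := exists_CP (D := D) (h := h) (a0 := 1) (b := h) hX hY (one_mem _)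
    (by rw [inv_mul_cancel]; exact one_mem _) (one_le.2 hh)
  obtain ⟨g, hg⟩ := exists_width hX hY hc0
  obtain ⟨x1, y1, hc1, -, -, hg1⟩ := hg x0 y0 hc0
  have hgP : g ∈ D.P := by rw [← hg1]; exact hc1.le
  have hgred : D.Red X g := by rw [← hg1]; exact hc1.red hX
  have hy1 : y1 = x1 * g := by rw [← hg1, mul_inv_cancel_left]
  refine ⟨x1, hc1.hx, {z | z ∈ X ∧ g⁻¹ * z * g ∈ Y}, fun z hz => hz.1, fun k => ⟨?_, ?_⟩⟩
  · rintro ⟨hk1, hk2⟩
    have hc2 := hc1.smul hk1 hk2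
    obtain ⟨x2, y2, hc3, a1, a2, a3, a4⟩ := hc1.directed hX hY hc2
    obtain ⟨x, y, hc, b1, b2, b3⟩ := hg x2 y2 hc3
    have hy : y = x * g := by rw [← b3, mul_inv_cancel_left]
    have i1 : D.le x1 x := le_trans a1 b1
    have i2 : D.le y1 y := le_trans a2 b2
    have i3 : D.le (k * x1) x := le_trans a3 b1
    have i4 : D.le (k * y1) y := le_trans a4 b2
    have p1 : x1⁻¹ * x ∈ Subgroup.closure {z | z ∈ X ∧ g⁻¹ * z * g ∈ Y} := by
      apply posK hX hY hgP hgred (mul_mem (inv_mem hc1.hx) hc.hx) i1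
      · have : g⁻¹ * (x1⁻¹ * x) * g = y1⁻¹ * y := by rw [hy1, hy]; group
        rw [this]; exact i2
      · have : g⁻¹ * (x1⁻¹ * x) * g = (h⁻¹ * y1)⁻¹ * (h⁻¹ * y) := by rw [hy1, hy]; group
        rw [this]; exact mul_mem (inv_mem hc1.hy) hc.hy
    have p2 : (k * x1)⁻¹ * x ∈ Subgroup.closure {z | z ∈ X ∧ g⁻¹ * z * g ∈ Y} := by
      apply posK hX hY hgP hgred (mul_mem (inv_mem hc2.hx) hc.hx) i3
      · have : g⁻¹ * ((k * x1)⁻¹ * x) * g = (k * y1)⁻¹ * y := by rw [hy1, hy]; group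
        rw [this]; exact i4
      · have : g⁻¹ * ((k * x1)⁻¹ * x) * g = (h⁻¹ * (k * y1))⁻¹ * (h⁻¹ * y) := by
          rw [hy1, hy]; group
        rw [this]; exact mul_mem (inv_mem hc2.hy) hc.hy
    have := mul_mem p1 (inv_mem p2)
    rwa [show x1⁻¹ * x * ((k * x1)⁻¹ * x)⁻¹ = x1⁻¹ * k * x1 by group] at this
  · intro hk
    have key : ∀ b ∈ Subgroup.closure {z | z ∈ X ∧ g⁻¹ * z * g ∈ Y},
        b ∈ Subgroup.closure X ∧ g⁻¹ * b * g ∈ Subgroup.closure Y := by
      intro b hb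
      induction hb using Subgroup.closure_induction with
      | mem z hz => exact ⟨Subgroup.subset_closure hz.1, Subgroup.subset_closure hz.2⟩
      | one => exact ⟨one_mem _, by rw [mul_one, inv_mul_cancel]; exact one_mem _⟩
      | mul b c _ _ ihb ihc =>
        refine ⟨mul_mem ihb.1 ihc.1, ?_⟩
        rw [show g⁻¹ * (b * c) * g = (g⁻¹ * b * g) * (g⁻¹ * c * g) by group]
        exact mul_mem ihb.2 ihc.2
      | inv b _ ihb =>
        refine ⟨inv_mem ihb.1, ?_⟩
        rw [show g⁻¹ * b⁻¹ * g = (g⁻¹ * b * g)⁻¹ by group]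
        exact inv_mem ihb.2
    obtain ⟨k1, k2⟩ := key _ hk
    constructor
    · have := mul_mem (mul_mem hc1.hx k1) (inv_mem hc1.hx)
      rwa [show x1 * (x1⁻¹ * k * x1) * x1⁻¹ = k by group] at this
    · have := mul_mem (mul_mem hc1.hy k2) (inv_mem hc1.hy)
      rwa [show h⁻¹ * y1 * (g⁻¹ * (x1⁻¹ * k * x1) * g) * (h⁻¹ * y1)⁻¹ = h⁻¹ * k * h by
        rw [hy1]; group] at this

/-- **The intersection theorem** (Cumplido–Gebhardt–González-Meneses–Wiest), abstract form. -/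
theorem inter (D : Gars G) (X Y : Set G) (hX : X ⊆ D.S) (hY : Y ⊆ D.S) (g : G) :
    ∃ x ∈ Subgroup.closure X, ∃ Z ⊆ X, ∀ k : G,
      (k ∈ Subgroup.closure X ∧ g⁻¹ * k * g ∈ Subgroup.closure Y) ↔
        x⁻¹ * k * x ∈ Subgroup.closure Z := by
  obtain ⟨m, hm, hcen⟩ := D.Δ_cen
  obtain ⟨n, hn⟩ := D.Δ_cof g⁻¹
  rw [inv_inv] at hn
  have hP : g * (D.Δ ^ m) ^ n ∈ D.P := by
    have h1 : g * (D.Δ ^ m) ^ n = g * D.Δ ^ n * D.Δ ^ ((m - 1) * n) := by
      rw [← pow_mul, mul_assoc, ← pow_add]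
      congr 2
      obtain ⟨m', rfl⟩ : ∃ m', m = m' + 1 := ⟨m - 1, by omega⟩
      simp; ring
    rw [h1]; exact mul_mem hn (pow_Δ_mem _)
  have hcen' : ∀ k, Commute ((D.Δ ^ m) ^ n) k := fun k => (hcen k).pow_left n
  obtain ⟨x, hx, Z, hZ, H⟩ := inter_pos hX hY hP
  refine ⟨x, hx, Z, hZ, fun k => ?_⟩
  rw [← H k]
  have : (g * (D.Δ ^ m) ^ n)⁻¹ * k * (g * (D.Δ ^ m) ^ n) = g⁻¹ * k * g := by
    have e := (hcen' (g⁻¹ * k * g)).eq
    rw [show (g * (D.Δ ^ m) ^ n)⁻¹ * k * (g * (D.Δ ^ m) ^ n) =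
      ((D.Δ ^ m) ^ n)⁻¹ * ((g⁻¹ * k * g) * (D.Δ ^ m) ^ n) by group, ← e, inv_mul_cancel_left]
  rw [this]

end Gars

end Crest.Agent.R175.DF_184
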