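import Crest.Agent.R175.WA_527

/-!
Coxeter group facts for Track D of row 175 (W4 = Matsumoto, W8, W9, W2, W3 of `DW_145`),
universe polymorphic.
-/

set_option autoImplicit false

namespace Crest.Agent.R175.WB_527

open Crest.Agent.R061.GeomFull Crest.Agent.R175.DDef_145 CoxeterSystem
open Crest.Agent.R175.WA_527

variable {S W : Type*} [Group W] {M : CoxeterMatrix S} {cs : CoxeterSystem M W}

theorem reduced_append {ω ν : List S} (h : cs.IsReduced ω) (h' : cs.IsReduced ν)
    (hl : PL cs (cs.wordProd ω) (cs.wordProd ω * cs.wordProd ν)) : cs.IsReduced (ω ++ ν) := by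
  rw [pl_mul_iff, h.eq, h'.eq] at hl
  rw [CoxeterSystem.IsReduced, cs.wordProd_append, hl, List.length_append]

theorem reduced_alt {i j : S} (hij : i ≠ j) {k : ℕ} (hk : M i j = 0 ∨ k ≤ M i j) :
    cs.IsReduced (alt i j k) := by
  rw [CoxeterSystem.IsReduced, w1' hij k hk, length_alt]

/-- (W4) Matsumoto: a function satisfying the braid relations has a well defined value on reduced
words. -/
theorem w4 {N : Type*} [Monoid N] {f : S → N} (hf : Braid M f) : ∀ (ω ω' : List S),
    cs.IsReduced ω → cs.IsReduced ω' → cs.wordProd ω = cs.wordProd ω' →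
    (ω.map f).prod = (ω'.map f).prod := by
  intro ω
  induction hn : ω.length using Nat.strong_induction_on generalizing ω with
  | _ n ih =>
    intro ω' hr hr' he
    have hlen : ω.length = ω'.length := by rw [← hr.eq, ← hr'.eq, he]
    cases ω with
    | nil =>
      have : ω' = [] := List.length_eq_zero_iff.1 hlen.symm
      rw [this]
    | cons i ω1 =>
      cases ω' with
      | nil => simp at hlen
      | cons j ω2 =>
        have hr1 := reduced_tail hr
        have hr2 := reduced_tail hr'
        simp only [List.length_cons] at hn hlen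
        by_cases hij : i = j
        · subst hij
          rw [cs.wordProd_cons, cs.wordProd_cons] at he
          rw [List.map_cons, List.map_cons, List.prod_cons, List.prod_cons,
            ih _ (by omega) ω1 rfl ω2 hr1 hr2 (mul_left_cancel he)]
        · set w := cs.wordProd (i :: ω1) with hw
          have hi : cs.IsLeftDescent w i := leftDescent_cons hr
          have hj : cs.IsLeftDescent w j := by rw [he]; exact leftDescent_cons hr'
          obtain ⟨hM, hpl⟩ := w1 hij hi hj
          obtain ⟨m, hm⟩ : ∃ m, M i j = m + 1 := ⟨M i j - 1, by omega⟩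
          obtain ⟨ν, hν, hνe⟩ := cs.exists_isReduced ((cs.wordProd (alt i j (M i j)))⁻¹ * w)
          have hwe : w = cs.wordProd (alt i j (M i j)) * cs.wordProd ν := by
            rw [← hνe, mul_inv_cancel_left]
          have hwe' : w = cs.wordProd (alt j i (M i j)) * cs.wordProd ν := by
            rw [hwe, alt_comm_word]
          have hMs := M.symmetric j i
          have ha : cs.IsReduced (alt i j (M i j) ++ ν) := by
            apply reduced_append (reduced_alt hij (Or.inr le_rfl)) hν
            rw [← hwe]; exact hpl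
          have hb : cs.IsReduced (alt j i (M i j) ++ ν) := by
            apply reduced_append (reduced_alt (Ne.symm hij) (Or.inr (by rw [hMs]))) hν
            rw [← hwe', ← alt_comm_word]; exact hpl
          have hwa : cs.wordProd (alt i j (M i j) ++ ν) = w := by
            rw [cs.wordProd_append, ← hwe]
          have hwb : cs.wordProd (alt j i (M i j) ++ ν) = w := by
            rw [cs.wordProd_append, ← hwe']
          have e1 : ((i :: ω1).map f).prod = ((alt i j (M i j) ++ ν).map f).prod := by
            rw [hm, alt_succ, List.cons_append] at ha hwa ⊢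
            rw [List.map_cons, List.map_cons, List.prod_cons, List.prod_cons]
            congr 1
            apply ih _ (by omega) ω1 rfl _ hr1 (reduced_tail ha)
            rw [hw, cs.wordProd_cons, cs.wordProd_cons] at hwa
            exact (mul_left_cancel hwa).symm
          have e2 : ((j :: ω2).map f).prod = ((alt j i (M i j) ++ ν).map f).prod := by
            rw [hm, alt_succ, List.cons_append] at hb hwb ⊢
            rw [List.map_cons, List.map_cons, List.prod_cons, List.prod_cons]
            congr 1
            apply ih ω2.length (by omega) ω2 rfl _ hr2 (reduced_tail hb)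
            rw [he, cs.wordProd_cons, cs.wordProd_cons] at hwb
            exact (mul_left_cancel hwb).symm
          rw [e1, e2, List.map_append, List.map_append, List.prod_append, List.prod_append,
            hf i j hM]

/-- a cover in the weak order projects to a cover or an equality -/
theorem proj_cover {X : Set S} {p q : W} (hp : p ∈ WP cs X) (hq : XRed cs X q) {s : S}
    (hs : ¬ cs.IsRightDescent (p * q) s) : ∃ p' ∈ WP cs X, ∃ q', XRed cs X q' ∧
      p * q * cs.simple s = p' * q' ∧ PL cs q q' := by
  rcases w6 (cs := cs) s hq with h | ⟨x, hx, he⟩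
  · refine ⟨p, hp, q * cs.simple s, h, by rw [mul_assoc], ?_⟩
    rw [pl_mul_iff, cs.length_simple]
    have h1 := cs.not_isRightDescent_iff.1 hs
    rw [mul_assoc, w5' hp h, w5' hp hq] at h1
    omega
  · refine ⟨p * cs.simple x, (WP cs X).mul_mem hp (simple_mem hx), q, hq, ?_, pl_refl q⟩
    rw [mul_assoc, mul_assoc, ← he]

theorem exists_rightDescent_of_pl {u w : W} (h : PL cs u w) (hne : u ≠ w) :
    ∃ s, PL cs u (w * cs.simple s) ∧ cs.IsRightDescent w s := by
  have h1 : u⁻¹ * w ≠ 1 := fun h' => hne (inv_mul_eq_one.1 h')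
  obtain ⟨s, hs⟩ := cs.exists_rightDescent_of_ne_one h1
  refine ⟨s, ?_, ?_⟩
  · have h2 := cs.isRightDescent_iff.1 hs
    have h3 : u⁻¹ * (w * cs.simple s) = u⁻¹ * w * cs.simple s := by rw [mul_assoc]
    have h4 := cs.length_mul_le u (u⁻¹ * w * cs.simple s)
    have h5 : u * (u⁻¹ * w * cs.simple s) = w * cs.simple s := by group
    rw [h5] at h4
    have h6 := cs.length_mul_simple w s
    rw [PL] at *
    rw [h3]
    omega
  · have h2 := cs.isRightDescent_iff.1 hs
    have h4 := cs.length_mul_le u (u⁻¹ * w * cs.simple s)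
    have h5 : u * (u⁻¹ * w * cs.simple s) = w * cs.simple s := by group
    rw [h5] at h4
    rw [PL] at h
    show cs.length (w * cs.simple s) < cs.length w
    omega

/-- (W9) the projection to the `X`-reduced part is monotone for the prefix order. -/
theorem w9 {X : Set S} {p q p' q' : W} (hp : p ∈ WP cs X) (hq : XRed cs X q)
    (hp' : p' ∈ WP cs X) (hq' : XRed cs X q') (h : PL cs (p * q) (p' * q')) : PL cs q q' := by
  induction hn : cs.length (p' * q') using Nat.strong_induction_on generalizing p' q' with
  | _ n ih =>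
    by_cases hne : p * q = p' * q'
    · obtain ⟨-, rfl⟩ := w5_unique hp hq hp' hq' hne
      exact pl_refl _
    · obtain ⟨s, h1, h2⟩ := exists_rightDescent_of_pl h hne
      obtain ⟨p1, hp1, q1, hq1, he1⟩ := w5 (cs := cs) X (p' * q' * cs.simple s)
      rw [he1] at h1
      have h3 := cs.isRightDescent_iff.1 h2
      have hnd : ¬ cs.IsRightDescent (p1 * q1) s := by
        rw [← he1]
        exact cs.isRightDescent_iff_not_isRightDescent_mul.1 h2
      obtain ⟨p2, hp2, q2, hq2, he2, hpl⟩ := proj_cover hp1 hq1 hnd
      rw [← he1, cs.simple_mul_simple_cancel_right] at he2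
      obtain ⟨-, rfl⟩ := w5_unique hp' hq' hp2 hq2 he2
      rw [he1] at h3
      exact (ih _ (by omega) hp1 hq1 h1 rfl).trans hpl

/-- (W8) if `w` is `X`-reduced, `p ∈ W_X` and `w ≤ p w` then every letter of `p` is conjugated to
a simple reflection by `w`. -/
theorem w8 {X : Set S} {w p : W} (hw : XRed cs X w) (hp : p ∈ WP cs X) (h : PL cs w (p * w)) :
    p ∈ WP cs {x ∈ X | ∃ s, cs.simple x * w = w * cs.simple s} := by
  induction hn : cs.length (p * w) using Nat.strong_induction_on generalizing p with
  | _ n ih =>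
    by_cases hne : w = p * w
    · have : p = 1 := by
        have h1 : 1 * w = p * w := by rw [one_mul]; exact hne
        exact (mul_right_cancel h1).symm
      rw [this]
      exact Subgroup.one_mem _
    · obtain ⟨s, h1, h2⟩ := exists_rightDescent_of_pl h hne
      have h3 := cs.isRightDescent_iff.1 h2
      obtain ⟨p1, hp1, q1, hq1, he1⟩ := w5 (cs := cs) X (p * w * cs.simple s)
      have hnd : ¬ cs.IsRightDescent (p1 * q1) s := by
        rw [← he1]
        exact cs.isRightDescent_iff_not_isRightDescent_mul.1 h2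
      obtain ⟨p2, hp2, q2, hq2, he2, hpl⟩ := proj_cover hp1 hq1 hnd
      rw [← he1, cs.simple_mul_simple_cancel_right] at he2
      obtain ⟨rfl, rfl⟩ := w5_unique hp hw hp2 hq2 he2
      have hq1w : PL cs w q1 := by
        apply w9 (Subgroup.one_mem (WP cs X)) hw hp1 hq1
        rw [one_mul, ← he1]; exact h1
      have hq1e : q1 = w := hpl.antisymm hq1w
      subst hq1e
      -- `p w s = p1 w`, so `w s = (p⁻¹ p1) w`
      have hws : q1 * cs.simple s = (p⁻¹ * p1) * q1 := by
        rw [mul_assoc, ← he1]; group
      have hin := ih _ (by rw [← he1]; omega) hp1 (by rw [← he1]; exact h1) rfl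
      rcases w6 (cs := cs) s hw with h4 | ⟨x, hx, he⟩
      · exfalso
        have hm := (WP cs X).mul_mem ((WP cs X).inv_mem hp) hp1
        have h5 : (1 : W) * (q1 * cs.simple s) = (p⁻¹ * p1) * q1 := by rw [one_mul, hws]
        obtain ⟨-, h6⟩ := w5_unique (Subgroup.one_mem (WP cs X)) h4 hm hw h5
        have h7 := cs.length_mul_simple_ne q1 s
        rw [h6] at h7
        exact h7 rfl
      · have h8 : p⁻¹ * p1 = cs.simple x := by
          rw [hws] at he
          exact (mul_right_cancel he).symm
        have h9 : p = p1 * cs.simple x := by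
          rw [← cs.inv_simple, ← h8]; group
        rw [h9]
        exact Subgroup.mul_mem _ hin (simple_mem ⟨hx, s, he⟩)

/-- (W2) the longest element of a finite Coxeter group is the largest one. -/
theorem w2 [Finite W] : ∃ w0 : W, ∀ w, PL cs w w0 := by
  classical
  obtain ⟨w0, hw0⟩ : ∃ w0 : W, ∀ w, cs.length w ≤ cs.length w0 := by
    have := Finite.exists_max (fun w : W => cs.length w)
    exact this
  refine ⟨w0, fun w => ?_⟩
  have hd : ∀ s, cs.IsLeftDescent w0 s := by
    intro s
    by_contra hn
    have h1 := cs.not_isLeftDescent_iff.1 hn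
    have h2 := hw0 (cs.simple s * w0)
    omega
  have hneg : ∀ v : S →₀ ℝ, Pos v → Pos (-(rep cs w0⁻¹ v)) := by
    intro v hv
    refine ⟨fun h => hv.1 (rep_injective_apply cs w0⁻¹ (neg_eq_zero.1 h)), fun b => ?_⟩
    rw [Finsupp.neg_apply, Crest.Agent.R175.VdL_527.rep_apply_eq_sum]
    rw [neg_nonneg]
    apply Finset.sum_nonpos
    intro x _
    have h1 := ((leftDescent_iff cs w0 x).1 (hd x)).2 b
    rw [Finsupp.neg_apply] at h1
    exact mul_nonpos_of_nonneg_of_nonpos (hv.2 x) (by linarith)
  induction hn : cs.length w generalizing w with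
  | zero =>
    rw [cs.length_eq_zero_iff] at hn
    rw [hn]; exact pl_one w0
  | succ n ih =>
    have hw1 : w ≠ 1 := by
      rintro rfl
      rw [cs.length_one] at hn
      omega
    obtain ⟨s, hs⟩ := cs.exists_rightDescent_of_ne_one hw1
    have h1 := cs.isRightDescent_iff.1 hs
    have h2 := ih (w * cs.simple s) (by omega)
    have h3 : Pos (rep cs (w * cs.simple s) (sr s)) := by
      rw [pos_rep_sr_iff]
      exact cs.isRightDescent_iff_not_isRightDescent_mul.1 hs
    have h4 := hneg _ h3
    have h5 : cs.IsLeftDescent ((w * cs.simple s)⁻¹ * w0) s := by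
      rw [leftDescent_iff, mul_inv_rev, inv_inv, rep_mul_apply]
      exact h4
    have h6 := cs.isLeftDescent_iff.1 h5
    have h7 : cs.simple s * ((w * cs.simple s)⁻¹ * w0) = w⁻¹ * w0 := by
      rw [mul_inv_rev, cs.inv_simple, mul_assoc, cs.simple_mul_simple_cancel_left]
    rw [h7] at h6
    rw [PL] at *
    omega

/-- upper bounds of two covers -/
theorem pl_alt_of_covers {z w : W} {i j : S} (hij : i ≠ j) (hi : ¬ cs.IsRightDescent z i)
    (hj : ¬ cs.IsRightDescent z j) (h1 : PL cs (z * cs.simple i) w)
    (h2 : PL cs (z * cs.simple j) w) :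
    M i j ≠ 0 ∧ PL cs (z * cs.wordProd (alt i j (M i j))) w := by
  have hzi : PL cs z (z * cs.simple i) := by
    rw [pl_mul_iff, cs.length_simple]; exact cs.not_isRightDescent_iff.1 hi
  have hzj : PL cs z (z * cs.simple j) := by
    rw [pl_mul_iff, cs.length_simple]; exact cs.not_isRightDescent_iff.1 hj
  have hzw : PL cs z w := hzi.trans h1
  obtain ⟨v, rfl⟩ : ∃ v, w = z * v := ⟨z⁻¹ * w, by rw [mul_inv_cancel_left]⟩
  have hi' := pl_simple_iff.1 (h1.cancel_left hzi)
  have hj' := pl_simple_iff.1 (h2.cancel_left hzj)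
  obtain ⟨hM, hpl⟩ := w1 hij hi' hj'
  exact ⟨hM, hzw.mul_left hpl⟩

theorem pl_covers_alt {z : W} {i j : S} {m : ℕ} (hm : 0 < m)
    (h : PL cs z (z * cs.wordProd (alt i j m)))
    (hr : cs.length (cs.wordProd (alt i j m)) = m) :
    PL cs (z * cs.simple i) (z * cs.wordProd (alt i j m)) := by
  apply h.mul_left
  rw [pl_simple_iff]
  obtain ⟨k, rfl⟩ : ∃ k, m = k + 1 := ⟨m - 1, by omega⟩
  rw [alt_succ]
  apply leftDescent_cons
  rw [CoxeterSystem.IsReduced, ← alt_succ, hr, length_alt]

theorem exists_cover {z x : W} (h : PL cs z x) (hne : z ≠ x) :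
    ∃ s, ¬ cs.IsRightDescent z s ∧ PL cs (z * cs.simple s) x := by
  have h1 : z⁻¹ * x ≠ 1 := fun h' => hne (inv_mul_eq_one.1 h')
  obtain ⟨s, hs⟩ := cs.exists_leftDescent_of_ne_one h1
  have hx : z * (z⁻¹ * x) = x := mul_inv_cancel_left z x
  have h2 : PL cs (z * cs.simple s) (z * (z⁻¹ * x)) := by
    apply PL.mul_left
    · rw [hx]; exact h
    · rw [pl_simple_iff]; exact hs
  rw [hx] at h2
  refine ⟨s, ?_, h2⟩
  intro hd
  have h3 := cs.isRightDescent_iff.1 hd
  have h4 := cs.isLeftDescent_iff.1 hs
  have h5 : (z * cs.simple s)⁻¹ * x = cs.simple s * (z⁻¹ * x) := by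
    rw [mul_inv_rev, cs.inv_simple, mul_assoc]
  rw [PL, h5] at h2
  rw [PL] at h
  omega

/-- (W3) for bounded pairs, any Coxeter group -/
theorem w3_bdd (u v b : W) (hub : PL cs u b) (hvb : PL cs v b) : ∃ j, PL cs u j ∧ PL cs v j ∧
    ∀ w, PL cs u w → PL cs v w → PL cs j w := by
  suffices H : ∀ (n : ℕ) (z x y : W), cs.length b - cs.length z ≤ n → PL cs z x → PL cs z y →
      PL cs x b → PL cs y b → ∃ j, PL cs x j ∧ PL cs y j ∧ ∀ w, PL cs x w → PL cs y w →
        PL cs j w from
    H (cs.length b) 1 u v (by omega) (pl_one u) (pl_one v) hub hvb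
  intro n
  induction n with
  | zero =>
    intro z x y hn hzx hzy hxb hyb
    have hzb := hzx.trans hxb
    have h1 : z = b := by
      have h2 := hzb
      rw [PL] at h2
      have h3 : cs.length (z⁻¹ * b) = 0 := by omega
      rw [cs.length_eq_zero_iff] at h3
      exact inv_mul_eq_one.1 h3
    subst h1
    have hx := hzx.antisymm hxb
    have hy := hzy.antisymm hyb
    subst hx
    exact ⟨z, pl_refl _, by rw [← hy]; exact pl_refl _, fun w h _ => h⟩
  | succ n ih =>
    intro z x y hn hzx hzy hxb hyb
    by_cases hzx' : z = x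
    · subst hzx'
      exact ⟨y, hzy, pl_refl _, fun w _ h => h⟩
    by_cases hzy' : z = y
    · subst hzy'
      exact ⟨x, pl_refl _, hzx, fun w h _ => h⟩
    obtain ⟨i, hi, hix⟩ := exists_cover hzx hzx'
    obtain ⟨j, hj, hjy⟩ := exists_cover hzy hzy'
    have hli := cs.not_isRightDescent_iff.1 hi
    have hlj := cs.not_isRightDescent_iff.1 hj
    by_cases hij : i = j
    · subst hij
      exact ih _ x y (by omega) hix hjy hxb hyb
    · obtain ⟨hM, hab⟩ := pl_alt_of_covers hij hi hj (hix.trans hxb) (hjy.trans hyb)
      set a := z * cs.wordProd (alt i j (M i j)) with ha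
      have hza : PL cs z a := by
        -- lengths add
        have hzb := hzx.trans hxb
        obtain ⟨v, hv⟩ : ∃ v, b = z * v := ⟨z⁻¹ * b, by rw [mul_inv_cancel_left]⟩
        have hzi : PL cs z (z * cs.simple i) := by
          rw [pl_mul_iff, cs.length_simple]; exact hli
        have hzj : PL cs z (z * cs.simple j) := by
          rw [pl_mul_iff, cs.length_simple]; exact hlj
        have h1 := hix.trans hxb
        have h2 := hjy.trans hyb
        rw [hv] at h1 h2 hzb
        have hi' := pl_simple_iff.1 (h1.cancel_left hzi)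
        have hj' := pl_simple_iff.1 (h2.cancel_left hzj)
        obtain ⟨-, hpl⟩ := w1 hij hi' hj'
        rw [pl_mul_iff] at hzb
        have h3 := cs.length_mul_le z (cs.wordProd (alt i j (M i j)))
        have h4 := cs.length_mul_le (z * cs.wordProd (alt i j (M i j)))
          ((cs.wordProd (alt i j (M i j)))⁻¹ * v)
        have h5 : z * cs.wordProd (alt i j (M i j)) * ((cs.wordProd (alt i j (M i j)))⁻¹ * v)
            = z * v := by group
        rw [h5] at h4
        rw [PL] at hpl
        rw [ha, pl_mul_iff]
        omega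
      have hr := w1' (cs := cs) hij (M i j) (Or.inr le_rfl)
      have hia : PL cs (z * cs.simple i) a := pl_covers_alt (by omega) hza hr
      have hja : PL cs (z * cs.simple j) a := by
        have ha' : a = z * cs.wordProd (alt j i (M i j)) := by rw [ha, alt_comm_word]
        rw [ha']
        apply pl_covers_alt (by omega) (by rw [← ha']; exact hza)
        rw [← alt_comm_word, hr]
      obtain ⟨c, hxc, hac, hc⟩ := ih (z * cs.simple i) x a (by omega) hix hia hxb hab
      have hcb := hc b hxb hab
      obtain ⟨d, hcd, hyd, hd⟩ := ih (z * cs.simple j) c y (by omega) (hja.trans hac) hjy hcb hyb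
      refine ⟨d, hxc.trans hcd, hyd, ?_⟩
      intro w hxw hyw
      have haw : PL cs a w := (pl_alt_of_covers hij hi hj (hix.trans hxw) (hjy.trans hyw)).2
      exact hd w (hc w hxw haw) hyw

/-- (W3) joins in the weak order of a finite Coxeter group. -/
theorem w3 [Finite W] (u v : W) : ∃ j, PL cs u j ∧ PL cs v j ∧
    ∀ w, PL cs u w → PL cs v w → PL cs j w := by
  obtain ⟨w0, h0⟩ := w2 (cs := cs)
  exact w3_bdd u v w0 (h0 u) (h0 v)

end Crest.Agent.R175.WB_527
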