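import Crest.Agent.R175.GGrp_145
import Crest.Agent.R175.DF_184
import Crest.Agent.R175.WB_527

/-!
Row 175, Track D: the Garside structure of an Artin group of spherical type, and the theorem of
Cumplido, Gebhardt, Gonzalez-Meneses, Wiest (intersections of parabolic subgroups) (helper145).
-/

set_option autoImplicit false

namespace Crest.Agent.R175.GSph_145

open Crest.GroupTheory
open Crest.Agent.R175.DDef_145 Crest.Agent.R175.DW_145 Crest.Agent.R175.GPL_145
open Crest.Agent.R175.GMon_145 Crest.Agent.R175.GLat_145 Crest.Agent.R175.GGrp_145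

universe u v

variable {S : Type u} {M : CoxeterMatrix S} {W : Type v} [Group W] {cs : CoxeterSystem M W}

/-- the data of a finite Coxeter group -/
noncomputable def dat [Finite W] (cs : CoxeterSystem M W) : Dat cs where
  w0 := (WB_527.w2 (cs := cs)).choose
  top := (WB_527.w2 (cs := cs)).choose_spec
  join := fun u v => WB_527.w3 (cs := cs) u v
  mats := fun ω ω' h h' he => WB_527.w4 (cs := cs) braid_at ω ω' h h' he
  alt_red := fun _ _ k hij hk => WA_527.w1' (cs := cs) hij k hk
  two := fun _ _ _ hij hi hj => WA_527.w1 (cs := cs) hij hi hj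

variable (D : Dat cs)

/-! ### Simple elements -/

theorem eq_sg {z : AM M} (h : z ∣ Dl D) : z = sg cs (hd D z) := by
  have h1 : tl D z ∣ Dl D ^ 0 := tl_dvd D (by simpa using h)
  have h2 : deg (tl D z) = 0 := by
    have := deg_le_of_dvd h1
    simpa using this
  have h3 := hd_tl D z
  rw [eq_one_of_deg h2, mul_one] at h3
  exact h3.symm

include D in
theorem sg_dvd_sg {u w : W} : sg cs u ∣ sg cs w ↔ PL cs u w := by
  rw [sg_dvd_iff D, hd_sg]

include D in
theorem sg_inj {u w : W} (h : sg cs u = sg cs w) : u = w := by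
  rw [← hd_sg D u, h, hd_sg]

include D in
theorem eq_mul_of_sg {u v w : W} (h : sg cs u * sg cs v = sg cs w) : w = u * v ∧ Rd cs u v := by
  have h1 : PL cs u w := (sg_dvd_sg D).1 ⟨_, h.symm⟩
  obtain ⟨w1, hw, hr⟩ := h1.exists_eq
  subst hw
  rw [sg_mul D hr] at h
  have h2 := sg_inj D (mul_left_cancel' D h)
  subst h2
  exact ⟨rfl, hr⟩

theorem list_mem_PM {X : Set S} {l : List S} (h : ∀ s ∈ l, s ∈ X) :
    (l.map (at' M)).prod ∈ PM M X := by
  apply Submonoid.list_prod_mem
  intro x hx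
  obtain ⟨s, hs, rfl⟩ := List.mem_map.1 hx
  exact at_mem_PM (h s hs)

theorem sg_mem_PM {X : Set S} {u : W} (h : u ∈ WP cs X) : sg cs u ∈ PM M X := by
  unfold sg
  apply list_mem_PM
  exact WA_527.w7 (cs := cs) (redWord_red u) (by rw [redWord_prod]; exact h)

theorem list_mem_of_PM {X : Set S} {l : List S} (h : (l.map (at' M)).prod ∈ PM M X) :
    ∀ s ∈ l, s ∈ X := by
  induction l with
  | nil => simp
  | cons a l ih =>
    rw [List.map_cons, List.prod_cons] at h
    obtain ⟨h1, h2⟩ := mul_mem_PM_iff.1 h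
    intro s hs
    rcases List.mem_cons.1 hs with rfl | hs
    · exact at_mem_PM_iff.1 h1
    · exact ih h2 s hs

theorem mem_WP_of_PM {X : Set S} {u : W} (h : sg cs u ∈ PM M X) : u ∈ WP cs X := by
  have h1 := list_mem_of_PM (l := redWord cs u) h
  rw [← redWord_prod (cs := cs) u]
  exact WA_527.wordProd_mem (cs := cs) h1

/-! ### The order through the submonoid of positive elements -/

theorem mem_P_iff {g : ArtinGroup M} : g ∈ MonoidHom.mrange (toG M) ↔ ∃ z, toG M z = g := Iff.rfl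

theorem le_iff {x y : ArtinGroup M} : x⁻¹ * y ∈ MonoidHom.mrange (toG M) ↔ Gle x y := by
  rw [mem_P_iff]
  constructor
  · rintro ⟨z, hz⟩; exact ⟨z, by rw [hz]; group⟩
  · rintro ⟨z, rfl⟩; exact ⟨z, by group⟩

include D in
theorem toG_le_iff {x y : AM M} : (toG M x)⁻¹ * toG M y ∈ MonoidHom.mrange (toG M) ↔ x ∣ y := by
  rw [le_iff, toG_Gle_iff D]

/-- length on the group -/
noncomputable def lenG (M : CoxeterMatrix S) : ArtinGroup M →* Multiplicative ℤ :=
  artinLift M (fun _ => Multiplicative.ofAdd 1) (by intro s t h; simp)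

theorem lenG_toG (z : AM M) : (lenG M (toG M z)).toAdd = (deg z : ℤ) := by
  induction z using induction_left with
  | h1 => simp
  | h2 s z ih =>
    rw [map_mul, map_mul, toAdd_mul, ih, toG_at, deg_mul, deg_at]
    simp [lenG]

/-- the set of generators of a subset of `Set.range (artinGen M)` -/
theorem image_of_subset {X : Set (ArtinGroup M)} (h : X ⊆ Set.range (artinGen M)) :
    artinGen M '' (artinGen M ⁻¹' X) = X := Set.image_preimage_eq_of_subset h

theorem closure_eq {X : Set (ArtinGroup M)} (h : X ⊆ Set.range (artinGen M)) :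
    Subgroup.closure X = stdParabolic M (artinGen M ⁻¹' X) := by
  unfold stdParabolic
  rw [image_of_subset h]

theorem finite_deg [Finite S] (N : ℕ) : {z : AM M | deg z ≤ N}.Finite := by
  have h1 : {l : List S | l.length ≤ N}.Finite := List.finite_length_le S N
  refine (h1.image (fun l => (l.map (at' M)).prod)).subset ?_
  intro z hz
  obtain ⟨l, rfl⟩ := exists_list z
  refine ⟨l, ?_, rfl⟩
  rw [Set.mem_setOf_eq, deg_list] at hz
  exact hz

include D in
/-- the parabolic part of a simple element -/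
theorem part_eq {X : Set S} {a p : W} {q : W} (hq : XRed cs X q) (hp : p ∈ WP cs X)
    (ha : a = p * q) {p' : AM M} (hp' : p' ∈ PM M X) (hd' : p' ∣ sg cs a)
    (hmax : ∀ e ∈ PM M X, e ∣ sg cs a → e ∣ p') : p' = sg cs p := by
  have hr : Rd cs p q := WA_527.w5' (cs := cs) hp hq
  have h1 : sg cs p ∣ p' := hmax _ (sg_mem_PM hp) (by
    rw [sg_dvd_sg D, ha]; exact PL_mul hr)
  have h2 : p' = sg cs (hd D p') := eq_sg D (hd'.trans (sg_dvd_Dl D a))
  have h3 : hd D p' ∈ WP cs X := mem_WP_of_PM (by rw [← h2]; exact hp')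
  obtain ⟨c, hc⟩ := h1
  -- `c ∣ sg q`, `c ∈ PM X`, so `c = 1`
  have h4 : c ∣ sg cs q := by
    rw [hc, ha, sg_mul D hr] at hd'
    exact (mul_dvd_mul_left_iff D).1 hd'
  have h5 : c ∈ PM M X := by rw [hc] at hp'; exact (mul_mem_PM_iff.1 hp').2
  by_cases hc1 : c = 1
  · rw [hc, hc1, mul_one]
  · exfalso
    obtain ⟨s, c', rfl⟩ := exists_at_mul hc1
    have h6 : s ∈ X := at_mem_PM_iff.1 (mul_mem_PM_iff.1 h5).1
    have h7 : at' M s ∣ sg cs q := (Dvd.intro _ rfl).trans h4
    rw [at_dvd_iff D, hd_sg] at h7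
    exact hq s h6 h7

/-! ### The Garside structure -/

variable [Finite S]

/-- The Garside structure of an Artin group of spherical type. -/
noncomputable def gars : DF_184.Gars (ArtinGroup M) where
  S := Set.range (artinGen M)
  P := MonoidHom.mrange (toG M)
  Δ := toG M (Dl D)
  len := lenG M
  meet := fun x y => (exists_glb D x y).choose
  S_pos := by
    rintro _ ⟨s, rfl⟩
    exact ⟨at' M s, toG_at s⟩
  gen := by
    rintro _ ⟨z, rfl⟩
    induction z using induction_left with
    | h1 => rw [map_one]; exact Submonoid.one_mem _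
    | h2 s z ih =>
      rw [map_mul, toG_at]
      exact Submonoid.mul_mem _ (Submonoid.subset_closure ⟨s, rfl⟩) ih
  len_atom := by
    rintro _ ⟨s, rfl⟩
    simp [lenG]
  len_pos := by
    rintro _ ⟨z, rfl⟩ h
    rw [lenG_toG]
    have h1 : deg z ≠ 0 := fun h0 => h (by rw [eq_one_of_deg h0, map_one])
    omega
  meet_left := fun x y => le_iff.2 (exists_glb D x y).choose_spec.1
  meet_right := fun x y => le_iff.2 (exists_glb D x y).choose_spec.2.1
  le_meet := fun x y z hx hy =>
    le_iff.2 ((exists_glb D x y).choose_spec.2.2 z (le_iff.1 hx) (le_iff.1 hy))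
  Δ_pos := ⟨Dl D, rfl⟩
  Δ_conj := by
    rintro _ ⟨z, rfl⟩
    obtain ⟨z', hz'⟩ := exists_mul_Dl D z
    refine ⟨z', ?_⟩
    rw [mul_assoc, ← map_mul, hz', map_mul, inv_mul_cancel_left]
  Δ_cen := by
    refine ⟨2, by norm_num, fun g => ?_⟩
    have h := OmG_central D g
    have h1 : toG M (Dl D) ^ 2 = OmG D := by
      unfold OmG Om
      rw [map_mul, pow_two]
    rw [h1]
    exact h.symm
  Δ_cof := fun g => by
    obtain ⟨n, z, h⟩ := exists_pos D g⁻¹
    refine ⟨2 * n, z, ?_⟩
    have h1 : toG M (Dl D) ^ (2 * n) = OmG D ^ n := by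
      unfold OmG Om
      rw [map_mul, ← pow_two, ← pow_mul]
    rw [h1, ← OmG_pow_mul, h]
  fin_div := fun n => by
    refine ((finite_deg (M := M) (deg (Dl D ^ n))).image (toG M)).subset ?_
    rintro _ ⟨⟨z, rfl⟩, hz⟩
    refine ⟨z, ?_, rfl⟩
    rw [← map_pow, toG_le_iff D] at hz
    exact deg_le_of_dvd hz
  atom_le := by
    rintro _ ⟨s, rfl⟩
    rw [← toG_at, toG_le_iff D]
    exact at_dvd_Dl D s
  par_pos := by
    rintro X hX _ hg ⟨z, rfl⟩
    rw [closure_eq hX, toG_mem_iff D] at hg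
    induction hg using Submonoid.closure_induction with
    | mem x hx =>
      obtain ⟨s, hs, rfl⟩ := hx
      rw [toG_at]
      exact Submonoid.subset_closure hs
    | one => rw [map_one]; exact Submonoid.one_mem _
    | mul x y _ _ hx hy => rw [map_mul]; exact Submonoid.mul_mem _ hx hy
  par_div := by
    rintro X hX _ ⟨a, rfl⟩ _ ⟨b, rfl⟩ h
    rw [closure_eq hX] at h ⊢
    rw [← map_mul, toG_mem_iff D] at h
    rw [toG_mem_iff D]
    exact (mul_mem_PM_iff.1 h).1
  par_meet := by
    intro X hX x hx y hy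
    rw [closure_eq hX] at hx hy ⊢
    obtain ⟨h1, h2, h3⟩ := (exists_glb D x y).choose_spec
    exact glb_mem D hx hy h1 h2 h3
  par_join := by
    intro X hX x hx y hy z hxz hyz
    rw [closure_eq hX] at hx hy ⊢
    obtain ⟨j, h1, h2, h3⟩ := exists_lub D x y
    exact ⟨j, lub_mem D hx hy h1 h2 h3, le_iff.2 h1, le_iff.2 h2,
      le_iff.2 (h3 z (le_iff.1 hxz) (le_iff.1 hyz))⟩
  proj_mono := by
    rintro X hX a b p q ⟨a, rfl⟩ hab hb hp ⟨p, rfl⟩ hpa hpmax hq ⟨q, rfl⟩ hqb hqmax
    obtain ⟨b, rfl⟩ : ∃ b', toG M b' = b := by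
      obtain ⟨c, hc⟩ := hab
      exact ⟨a * c, by rw [map_mul, hc, mul_inv_cancel_left]⟩
    rw [closure_eq hX] at hp hq hpmax hqmax
    rw [toG_mem_iff D] at hp hq
    rw [toG_le_iff D] at hab hb hpa hqb
    have ha1 := eq_sg D (hab.trans hb)
    have hb1 := eq_sg D hb
    obtain ⟨pa, hpa1, qa, hqa1, ha2⟩ :=
      WA_527.w5 (cs := cs) (artinGen M ⁻¹' X) (hd D a)
    obtain ⟨pb, hpb1, qb, hqb1, hb2⟩ :=
      WA_527.w5 (cs := cs) (artinGen M ⁻¹' X) (hd D b)
    have hp1 : p = sg cs pa := part_eq D hqa1 hpa1 ha2 hp (by rw [← ha1]; exact hpa)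
      (fun e he hed => by
        rw [← ha1] at hed
        have := hpmax (toG M e) ((toG_mem_iff D).2 he) ⟨e, rfl⟩ ((toG_le_iff D).2 hed)
        exact (toG_le_iff D).1 this)
    have hq1 : q = sg cs pb := part_eq D hqb1 hpb1 hb2 hq (by rw [← hb1]; exact hqb)
      (fun e he hed => by
        rw [← hb1] at hed
        have := hqmax (toG M e) ((toG_mem_iff D).2 he) ⟨e, rfl⟩ ((toG_le_iff D).2 hed)
        exact (toG_le_iff D).1 this)
    have hra : Rd cs pa qa := WA_527.w5' (cs := cs) hpa1 hqa1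
    have hrb : Rd cs pb qb := WA_527.w5' (cs := cs) hpb1 hqb1
    have ha3 : a = sg cs pa * sg cs qa := by rw [ha1, ha2, sg_mul D hra]
    have hb3 : b = sg cs pb * sg cs qb := by rw [hb1, hb2, sg_mul D hrb]
    have hab' : PL cs (pa * qa) (pb * qb) := by
      rw [← ha2, ← hb2, ← sg_dvd_sg D, ← ha1, ← hb1]; exact hab
    have h9 : PL cs qa qb := WB_527.w9 (cs := cs) hpa1 hqa1 hpb1 hqb1 hab'
    have e1 : (toG M p)⁻¹ * toG M a = toG M (sg cs qa) := by
      rw [hp1, ha3, map_mul, inv_mul_cancel_left]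
    have e2 : (toG M q)⁻¹ * toG M b = toG M (sg cs qb) := by
      rw [hq1, hb3, map_mul, inv_mul_cancel_left]
    rw [e1, e2, toG_le_iff D, sg_dvd_sg D]
    exact h9
  par_shift := by
    rintro X hX _ _ ⟨w, rfl⟩ hw hwX hp ⟨p, rfl⟩ hpw hwp
    rw [closure_eq hX, toG_mem_iff D] at hp
    rw [toG_le_iff D] at hw
    rw [← map_mul, toG_le_iff D] at hpw
    rw [← map_mul, toG_le_iff D] at hwp
    have hw1 := eq_sg D hw
    have hpw1 := eq_sg D hpw
    have hp1 := eq_sg D ((Dvd.intro _ rfl).trans hpw : p ∣ Dl D)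
    set w' := hd D w with hw'
    set p' := hd D p with hp'
    have hxr : XRed cs (artinGen M ⁻¹' X) w' := by
      intro x hx hdx
      refine hwX (artinGen M x) hx ?_
      rw [← toG_at, toG_le_iff D, at_dvd_iff D]
      exact hdx
    have h1 : sg cs p' * sg cs w' = sg cs (hd D (p * w)) := by
      rw [← hp1, ← hw1, ← hpw1]
    obtain ⟨h2, h3⟩ := eq_mul_of_sg D h1
    have h4 : p' ∈ WP cs (artinGen M ⁻¹' X) := mem_WP_of_PM (by rw [← hp1]; exact hp)
    have h5 : PL cs w' (p' * w') := by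
      rw [← h2, ← sg_dvd_sg D, ← hpw1, ← hw1]; exact hwp
    have h6 := WB_527.w8 (cs := cs) hxr h4 h5
    have h7 : p ∈ PM M {x ∈ artinGen M ⁻¹' X | ∃ s, cs.simple x * w' = w' * cs.simple s} := by
      rw [hp1]; exact sg_mem_PM h6
    have h8 := toG_mem_of_PM h7
    unfold stdParabolic at h8
    refine Subgroup.closure_mono ?_ h8
    rintro _ ⟨x, ⟨hx, s, hs⟩, rfl⟩
    refine ⟨hx, s, ?_⟩
    have hr1 : Rd cs (cs.simple x) w' := Rd_simple_iff.2 (hxr x hx)
    have hr2 : Rd cs w' (cs.simple s) := by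
      unfold Rd at hr1 ⊢
      rw [← hs, hr1, cs.length_simple, cs.length_simple, add_comm]
    have h9 : at' M x * w = w * at' M s := by
      rw [hw1, ← sg_simple D x, ← sg_simple D s, ← sg_mul D hr1, ← sg_mul D hr2, hs]
    have h10 : artinGen M x * toG M w = toG M w * artinGen M s := by
      rw [← toG_at, ← toG_at, ← map_mul, ← map_mul, h9]
    rw [mul_assoc, h10, inv_mul_cancel_left]

/-- **Cumplido-Gebhardt-Gonzalez-Meneses-Wiest**: in an Artin group of spherical type
`A_X ∩ g A_Y g⁻¹ = h A_Z h⁻¹` with `h ∈ A_X`, `Z ⊆ X`. -/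
theorem relInt_of_dat (D : Dat cs) : RelInt M := by
  intro X Y g
  obtain ⟨x, hx, Z, hZ, h⟩ := (gars D).inter (artinGen M '' X) (artinGen M '' Y)
    (Set.image_subset_range _ _) (Set.image_subset_range _ _) g
  refine ⟨x, hx, X ∩ artinGen M ⁻¹' Z, Set.inter_subset_left, ?_⟩
  have h1 : artinGen M '' (X ∩ artinGen M ⁻¹' Z) = Z := by
    rw [Set.image_inter_preimage, Set.inter_eq_right.2 hZ]
  ext k
  rw [Subgroup.mem_inf, mem_cj, mem_cj]
  unfold stdParabolic
  rw [h1]
  exact h k

/-- (D2) spherical type, any universe. -/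
theorem relInt_of_finite (M : CoxeterMatrix S) [Finite M.Group] : RelInt M :=
  relInt_of_dat (dat M.toCoxeterSystem)

/-- (D2) as stated in `DDef_145`. -/
theorem sphInt : SphInt := fun S _ M _ => relInt_of_finite (S := S) M

end Crest.Agent.R175.GSph_145
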