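import Crest.Agent.R175.TopF_774
import Crest.Agent.R175.GSph_145

/-!
Row 175 (S0263): the spherical intersection theorem (helper145) in the form used by `TopF_774`.
-/

set_option autoImplicit false

namespace Crest.Agent.R175.D2_774

open Crest.GroupTheory Crest.Agent.R175.Num_774 Crest.Agent.R175.TopF_774

universe u

theorem d2 : D2.{u} := by
  intro S _ M hM X Y g
  obtain ⟨h, hh, Z, hZ, he⟩ := GSph_145.relInt_of_finite M X Y g
  refine ⟨h, hh, Z, hZ, fun x => ?_⟩
  have h1 : x ∈ stdParabolic M X ⊓ DDef_145.cj g (stdParabolic M Y) ↔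
      x ∈ DDef_145.cj h (stdParabolic M Z) := by rw [he]
  rw [Subgroup.mem_inf, DDef_145.mem_cj, DDef_145.mem_cj] at h1
  exact h1

/-- the intersection theorem for positive definite `T` -/
theorem int_of_PD {S : Type u} [Fintype S] {M : CoxeterMatrix S} {T : Set S} (h : PD M T) :
    IntT M T := int_of_D2 d2 h

end Crest.Agent.R175.D2_774
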