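import Mathlib

/-!
# Differential spaces (row 175, helper450)

`V` a finite dimensional space, `D : V →ₗ[k] V` with `D ∘ D = 0`.
`hd D = dim ker D - dim range D` is the dimension of the homology.
-/

set_option linter.unusedSectionVars false

namespace Crest.Agent.R175.DS_450

open Module LinearMap

variable {k : Type*} [Field k]
variable {V V₁ V₂ V₃ W : Type*}
  [AddCommGroup V] [Module k V] [FiniteDimensional k V]
  [AddCommGroup V₁] [Module k V₁] [FiniteDimensional k V₁]
  [AddCommGroup V₂] [Module k V₂] [FiniteDimensional k V₂]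
  [AddCommGroup V₃] [Module k V₃] [FiniteDimensional k V₃]
  [AddCommGroup W] [Module k W] [FiniteDimensional k W]

/-- dimension of the homology of a differential space -/
noncomputable def hd (D : V →ₗ[k] V) : ℕ :=
  finrank k (ker D) - finrank k (range D)

theorem range_le_ker {D : V →ₗ[k] V} (h : D ∘ₗ D = 0) : range D ≤ ker D := by
  rintro _ ⟨x, rfl⟩
  rw [mem_ker]
  exact LinearMap.congr_fun h x

theorem finrank_range_le {D : V →ₗ[k] V} (h : D ∘ₗ D = 0) :
    finrank k (range D) ≤ finrank k (ker D) :=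
  Submodule.finrank_mono (range_le_ker h)

theorem hd_add {D : V →ₗ[k] V} (h : D ∘ₗ D = 0) :
    hd D + finrank k (range D) = finrank k (ker D) := by
  unfold hd
  have := finrank_range_le h
  omega

/-- `hd + 2 rank = dim` -/
theorem hd_add_two {D : V →ₗ[k] V} (h : D ∘ₗ D = 0) :
    hd D + 2 * finrank k (range D) = finrank k V := by
  have h1 := hd_add h
  have h2 := finrank_range_add_finrank_ker D
  omega

theorem hd_le (D : V →ₗ[k] V) : hd D ≤ finrank k V := by
  have : finrank k (ker D) ≤ finrank k V := Submodule.finrank_le _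
  unfold hd; omega

theorem hd_zero_of_zero : hd (0 : V →ₗ[k] V) = finrank k V := by
  unfold hd
  rw [ker_zero, range_zero, finrank_top, finrank_bot, Nat.sub_zero]

/-- homology as a quotient module -/
abbrev Hm (D : V →ₗ[k] V) : Type _ := (ker D) ⧸ ((range D).comap (ker D).subtype)

theorem finrank_Hm {D : V →ₗ[k] V} (h : D ∘ₗ D = 0) :
    finrank k (Hm D) = hd D := by
  have h1 := Submodule.finrank_quotient_add_finrank ((range D).comap (ker D).subtype)
  have h2 : finrank k ((range D).comap (ker D).subtype) = finrank k (range D) := by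
    have := Submodule.comap_equiv_self_of_inj_of_le
      (f := (ker D).subtype) (p := range D) (ker D).injective_subtype (by
        rw [Submodule.range_subtype]; exact range_le_ker h)
    exact this.finrank_eq
  have h3 := hd_add h
  have h4 : finrank k (Hm D) = finrank k ((ker D) ⧸ ((range D).comap (ker D).subtype)) := rfl
  omega

/-- `hd D = 0` iff every cocycle is a coboundary -/
theorem hd_eq_zero_iff {D : V →ₗ[k] V} (h : D ∘ₗ D = 0) :
    hd D = 0 ↔ ∀ x, D x = 0 → ∃ y, D y = x := by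
  constructor
  · intro h0 x hx
    have h1 := hd_add h
    have h2 : range D = ker D :=
      Submodule.eq_of_le_of_finrank_eq (range_le_ker h) (by omega)
    have : x ∈ range D := by rw [h2]; exact hx
    exact this
  · intro h0
    have h2 : range D = ker D := le_antisymm (range_le_ker h) (fun x hx => h0 x hx)
    unfold hd
    rw [h2]; omega

/-- a map compatible with the differentials up to a unit scalar and injective on
homology gives `hd ≤ hd` -/
theorem hd_le_of_inj {D₁ : V₁ →ₗ[k] V₁} {D₂ : V₂ →ₗ[k] V₂} (h₁ : D₁ ∘ₗ D₁ = 0)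
    (h₂ : D₂ ∘ₗ D₂ = 0) (f : V₁ →ₗ[k] V₂)
    (hc : ∀ x, D₁ x = 0 → D₂ (f x) = 0)
    (hi : ∀ x y, D₁ x = 0 → f x = D₂ y → ∃ z, x = D₁ z) : hd D₁ ≤ hd D₂ := by
  rw [← finrank_Hm h₁, ← finrank_Hm h₂]
  let g : ker D₁ →ₗ[k] ker D₂ :=
    (f.comp (ker D₁).subtype).codRestrict (ker D₂) (fun x => hc x.1 x.2)
  let q : ker D₁ →ₗ[k] Hm D₂ := (Submodule.mkQ _).comp g
  have hker : ker q ≤ (range D₁).comap (ker D₁).subtype := by
    intro x hx
    have hx1 : g x ∈ (range D₂).comap (ker D₂).subtype := by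
      have : q x = 0 := hx
      exact (Submodule.Quotient.mk_eq_zero _).1 this
    obtain ⟨y, hy⟩ := hx1
    obtain ⟨z, hz⟩ := hi x.1 y x.2 hy.symm
    exact ⟨z, hz.symm⟩
  have e1 : finrank k (range q) ≤ finrank k (Hm D₂) := Submodule.finrank_le _
  have e2 := finrank_range_add_finrank_ker q
  have e3 : finrank k (ker q) ≤ finrank k ((range D₁).comap (ker D₁).subtype) :=
    Submodule.finrank_mono hker
  have e4 := Submodule.finrank_quotient_add_finrank ((range D₁).comap (ker D₁).subtype)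
  have e5 : finrank k (Hm D₁) =
    finrank k ((ker D₁) ⧸ ((range D₁).comap (ker D₁).subtype)) := rfl
  omega

/-- invariance under homotopy equivalence of differential spaces (weak form: the maps
send cocycles to cocycles and coboundaries to coboundaries, and the composites are the
identity on homology) -/
theorem hd_eq_of_equiv {D₁ : V₁ →ₗ[k] V₁} {D₂ : V₂ →ₗ[k] V₂} (h₁ : D₁ ∘ₗ D₁ = 0)
    (h₂ : D₂ ∘ₗ D₂ = 0) (f : V₁ →ₗ[k] V₂) (g : V₂ →ₗ[k] V₁)
    (hf : ∀ x, D₁ x = 0 → D₂ (f x) = 0) (hg : ∀ x, D₂ x = 0 → D₁ (g x) = 0)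
    (hf' : ∀ x, ∃ y, f (D₁ x) = D₂ y) (hg' : ∀ x, ∃ y, g (D₂ x) = D₁ y)
    (hgf : ∀ x, D₁ x = 0 → ∃ z, x - g (f x) = D₁ z)
    (hfg : ∀ x, D₂ x = 0 → ∃ z, x - f (g x) = D₂ z) : hd D₁ = hd D₂ := by
  apply le_antisymm
  · refine hd_le_of_inj h₁ h₂ f hf ?_
    intro x y hx hxy
    obtain ⟨z, hz⟩ := hgf x hx
    obtain ⟨w, hw⟩ := hg' y
    refine ⟨z + w, ?_⟩
    rw [map_add, ← hz, ← hw, ← hxy]
    abel
  · refine hd_le_of_inj h₂ h₁ g hg ?_
    intro x y hx hxy
    obtain ⟨z, hz⟩ := hfg x hx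
    obtain ⟨w, hw⟩ := hf' y
    refine ⟨z + w, ?_⟩
    rw [map_add, ← hz, ← hw, ← hxy]
    abel

/-- invariance under isomorphism (compatible up to a unit scalar) -/
theorem hd_congr {D₁ : V₁ →ₗ[k] V₁} {D₂ : V₂ →ₗ[k] V₂} (e : V₁ ≃ₗ[k] V₂) (c : k)
    (hc : c ≠ 0) (h : ∀ x, D₂ (e x) = c • e (D₁ x)) : hd D₁ = hd D₂ := by
  have k1 : finrank k (ker D₁) = finrank k (ker D₂) := by
    have : (ker D₁).map (e : V₁ →ₗ[k] V₂) = ker D₂ := by
      ext y
      constructor
      · rintro ⟨x, hx, rfl⟩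
        have hx' : D₁ x = 0 := hx
        change D₂ (e x) = 0
        rw [h, hx', map_zero, smul_zero]
      · intro hy
        refine ⟨e.symm y, ?_, by simp⟩
        have hy' : D₂ y = 0 := hy
        have := h (e.symm y)
        rw [LinearEquiv.apply_symm_apply, hy'] at this
        have h2 : e (D₁ (e.symm y)) = 0 := by
          rcases smul_eq_zero.1 this.symm with h3 | h3
          · exact absurd h3 hc
          · exact h3
        exact (LinearEquiv.map_eq_zero_iff e).1 h2
    rw [← this]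
    exact (LinearEquiv.finrank_map_eq e _).symm
  have k2 : finrank k (range D₁) = finrank k (range D₂) := by
    have : (range D₁).map (e : V₁ →ₗ[k] V₂) = range D₂ := by
      ext y
      constructor
      · rintro ⟨_, ⟨x, rfl⟩, rfl⟩
        refine ⟨c⁻¹ • e x, ?_⟩
        rw [map_smul, h, smul_smul, inv_mul_cancel₀ hc, one_smul]
        rfl
      · rintro ⟨x, rfl⟩
        refine ⟨D₁ (c • e.symm x), ⟨_, rfl⟩, ?_⟩
        change e _ = _
        rw [map_smul, map_smul, ← h, LinearEquiv.apply_symm_apply]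
    rw [← this]
    exact (LinearEquiv.finrank_map_eq e _).symm
  unfold hd
  rw [k1, k2]

/-- direct sums -/
theorem hd_prod {D₁ : V₁ →ₗ[k] V₁} {D₂ : V₂ →ₗ[k] V₂} (h₁ : D₁ ∘ₗ D₁ = 0)
    (h₂ : D₂ ∘ₗ D₂ = 0) : hd (D₁.prodMap D₂) = hd D₁ + hd D₂ := by
  have h : (D₁.prodMap D₂) ∘ₗ (D₁.prodMap D₂) = 0 := by
    apply LinearMap.ext
    rintro ⟨x, y⟩
    exact Prod.ext (LinearMap.congr_fun h₁ x) (LinearMap.congr_fun h₂ y)
  have e := hd_add_two h
  have e1 := hd_add_two h₁
  have e2 := hd_add_two h₂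
  have e3 : finrank k (range (D₁.prodMap D₂)) =
      finrank k (range D₁) + finrank k (range D₂) := by
    rw [← Module.finrank_prod]
    have : range (D₁.prodMap D₂) =
        range ((range D₁).subtype.prodMap (range D₂).subtype) := by
      rw [LinearMap.range_prodMap, LinearMap.range_prodMap, Submodule.range_subtype,
        Submodule.range_subtype]
    rw [this]
    apply LinearMap.finrank_range_of_inj
    rintro ⟨x, y⟩ ⟨x', y'⟩ h
    have h1 := congrArg Prod.fst h
    have h2 := congrArg Prod.snd h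
    exact Prod.ext (Subtype.ext h1) (Subtype.ext h2)
  rw [Module.finrank_prod] at e
  omega

section SES

variable {D : V →ₗ[k] V} {D₁ : V₁ →ₗ[k] V₁} {D₂ : V₂ →ₗ[k] V₂}

/-- short exact sequence `V₁ → V → V₂` of differential spaces: `hd V ≤ hd V₁ + hd V₂`.
The signs are arbitrary nonzero scalars. -/
theorem hd_ses_le (h : D ∘ₗ D = 0) (h₁ : D₁ ∘ₗ D₁ = 0) (h₂ : D₂ ∘ₗ D₂ = 0)
    (i : V₁ →ₗ[k] V) (p : V →ₗ[k] V₂) (hi : Function.Injective i)
    (hp : Function.Surjective p) (hex : ∀ x, p x = 0 ↔ ∃ y, i y = x) (c c' : k)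
    (hc : c ≠ 0) (hc' : c' ≠ 0) (hiD : ∀ x, D (i x) = c • i (D₁ x))
    (hpD : ∀ x, D₂ (p x) = c' • p (D x)) : hd D ≤ hd D₁ + hd D₂ := by
  have e := hd_add_two h
  have e1 := hd_add_two h₁
  have e2 := hd_add_two h₂
  -- dimension
  have hdim : finrank k V = finrank k V₁ + finrank k V₂ := by
    have a1 := finrank_range_add_finrank_ker p
    rw [LinearMap.range_eq_top.2 hp, finrank_top] at a1
    have a2 : finrank k (ker p) = finrank k V₁ := by
      have : ker p = range i := by
        ext x; rw [mem_ker, hex]; rfl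
      rw [this]
      exact (LinearEquiv.ofInjective i hi).finrank_eq.symm
    omega
  -- rank
  have hr : finrank k (range D₁) + finrank k (range D₂) ≤ finrank k (range D) := by
    -- the map range D → range D₂ is onto with kernel containing i (range D₁)
    let g : range D →ₗ[k] range D₂ :=
      (p.comp (range D).subtype).codRestrict (range D₂) (by
        rintro ⟨_, ⟨x, rfl⟩⟩
        refine ⟨c'⁻¹ • p x, ?_⟩
        rw [map_smul, hpD, smul_smul, inv_mul_cancel₀ hc', one_smul]
        rfl)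
    have hg : Function.Surjective g := by
      rintro ⟨_, ⟨y, rfl⟩⟩
      obtain ⟨x, rfl⟩ := hp y
      refine ⟨⟨D (c' • x), ⟨_, rfl⟩⟩, ?_⟩
      apply Subtype.ext
      change p (D (c' • x)) = D₂ (p x)
      rw [map_smul, map_smul, hpD]
    let f : range D₁ →ₗ[k] ker g :=
      ((i.comp (range D₁).subtype).codRestrict (range D) (by
        rintro ⟨_, ⟨x, rfl⟩⟩
        refine ⟨c⁻¹ • i x, ?_⟩
        rw [map_smul, hiD, smul_smul, inv_mul_cancel₀ hc, one_smul]
        rfl)).codRestrict (ker g) (by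
        rintro ⟨x, hx⟩
        rw [mem_ker]
        apply Subtype.ext
        change p (i x) = 0
        exact (hex _).2 ⟨_, rfl⟩)
    have hf : Function.Injective f := by
      rintro ⟨x, hx⟩ ⟨y, hy⟩ hxy
      apply Subtype.ext
      apply hi
      have := congrArg (fun z : ker g => ((z : range D) : V)) hxy
      exact this
    have b1 := LinearMap.finrank_le_finrank_of_injective hf
    have b2 := finrank_range_add_finrank_ker g
    rw [LinearMap.range_eq_top.2 hg, finrank_top] at b2
    omega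
  omega

/-- the parity of `hd` in a short exact sequence -/
theorem hd_ses_parity (h : D ∘ₗ D = 0) (h₁ : D₁ ∘ₗ D₁ = 0) (h₂ : D₂ ∘ₗ D₂ = 0)
    (hdim : finrank k V = finrank k V₁ + finrank k V₂) :
    hd D % 2 = (hd D₁ + hd D₂) % 2 := by
  have e := hd_add_two h
  have e1 := hd_add_two h₁
  have e2 := hd_add_two h₂
  omega

/-- if some cocycle of the quotient does not lift to a cocycle then `hd` drops by `2` -/
theorem hd_ses_lt (h : D ∘ₗ D = 0) (h₁ : D₁ ∘ₗ D₁ = 0) (h₂ : D₂ ∘ₗ D₂ = 0)
    (i : V₁ →ₗ[k] V) (p : V →ₗ[k] V₂) (hi : Function.Injective i)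
    (hp : Function.Surjective p) (hex : ∀ x, p x = 0 ↔ ∃ y, i y = x) (c c' : k)
    (hc : c ≠ 0) (hc' : c' ≠ 0) (hiD : ∀ x, D (i x) = c • i (D₁ x))
    (hpD : ∀ x, D₂ (p x) = c' • p (D x))
    (hno : ∃ y, D₂ y = 0 ∧ ∀ x, D x = 0 → p x ≠ y) : hd D + 2 ≤ hd D₁ + hd D₂ := by
  have e := hd_add_two h
  have e1 := hd_add_two h₁
  have e2 := hd_add_two h₂
  have hdim : finrank k V = finrank k V₁ + finrank k V₂ := by
    have a1 := finrank_range_add_finrank_ker p
    rw [LinearMap.range_eq_top.2 hp, finrank_top] at a1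
    have a2 : finrank k (ker p) = finrank k V₁ := by
      have : ker p = range i := by
        ext x; rw [mem_ker, hex]; rfl
      rw [this]
      exact (LinearEquiv.ofInjective i hi).finrank_eq.symm
    omega
  have hr : finrank k (range D₁) + finrank k (range D₂) + 1 ≤ finrank k (range D) := by
    let g : range D →ₗ[k] range D₂ :=
      (p.comp (range D).subtype).codRestrict (range D₂) (by
        rintro ⟨_, ⟨x, rfl⟩⟩
        refine ⟨c'⁻¹ • p x, ?_⟩
        rw [map_smul, hpD, smul_smul, inv_mul_cancel₀ hc', one_smul]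
        rfl)
    have hg : Function.Surjective g := by
      rintro ⟨_, ⟨y, rfl⟩⟩
      obtain ⟨x, rfl⟩ := hp y
      refine ⟨⟨D (c' • x), ⟨_, rfl⟩⟩, ?_⟩
      apply Subtype.ext
      change p (D (c' • x)) = D₂ (p x)
      rw [map_smul, map_smul, hpD]
    let f : range D₁ →ₗ[k] ker g :=
      ((i.comp (range D₁).subtype).codRestrict (range D) (by
        rintro ⟨_, ⟨x, rfl⟩⟩
        refine ⟨c⁻¹ • i x, ?_⟩
        rw [map_smul, hiD, smul_smul, inv_mul_cancel₀ hc, one_smul]
        rfl)).codRestrict (ker g) (by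
        rintro ⟨x, hx⟩
        rw [mem_ker]
        apply Subtype.ext
        change p (i x) = 0
        exact (hex _).2 ⟨_, rfl⟩)
    have hf : Function.Injective f := by
      rintro ⟨x, hx⟩ ⟨y, hy⟩ hxy
      apply Subtype.ext
      apply hi
      have := congrArg (fun z : ker g => ((z : range D) : V)) hxy
      exact this
    have hns : ¬ Function.Surjective f := by
      intro hs
      obtain ⟨y, hy, hno⟩ := hno
      obtain ⟨x, rfl⟩ := hp y
      -- D x is in ker g
      have hx0 : p (D x) = 0 := by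
        have := hpD x
        rw [hy] at this
        rcases smul_eq_zero.1 this.symm with h3 | h3
        · exact absurd h3 hc'
        · exact h3
      obtain ⟨⟨_, ⟨z, rfl⟩⟩, hw⟩ := hs ⟨⟨D x, ⟨x, rfl⟩⟩, by
        rw [mem_ker]; apply Subtype.ext; exact hx0⟩
      have hw' : i (D₁ z) = D x :=
        congrArg (fun z : ker g => ((z : range D) : V)) hw
      refine hno (x - c⁻¹ • i z) ?_ ?_
      · rw [map_sub, map_smul, hiD, smul_smul, inv_mul_cancel₀ hc, one_smul, hw', sub_self]
      · rw [map_sub, map_smul, (hex _).2 ⟨z, rfl⟩, smul_zero, sub_zero]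
    have b1 : finrank k (range D₁) < finrank k (ker g) := by
      by_contra hcon
      have b0 := LinearMap.finrank_le_finrank_of_injective hf
      exact hns ((LinearMap.injective_iff_surjective_of_finrank_eq_finrank
        (by omega)).1 hf)
    have b2 := finrank_range_add_finrank_ker g
    rw [LinearMap.range_eq_top.2 hg, finrank_top] at b2
    omega
  omega

/-- the opposite estimate: if every cocycle of the quotient lifts to a cocycle then
`hd` is additive -/
theorem hd_ses_eq (h : D ∘ₗ D = 0) (h₁ : D₁ ∘ₗ D₁ = 0) (h₂ : D₂ ∘ₗ D₂ = 0)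
    (i : V₁ →ₗ[k] V) (p : V →ₗ[k] V₂) (hi : Function.Injective i)
    (hp : Function.Surjective p) (hex : ∀ x, p x = 0 ↔ ∃ y, i y = x) (c c' : k)
    (hc : c ≠ 0) (hc' : c' ≠ 0) (hiD : ∀ x, D (i x) = c • i (D₁ x))
    (hpD : ∀ x, D₂ (p x) = c' • p (D x))
    (hlift : ∀ y, D₂ y = 0 → ∃ x, D x = 0 ∧ p x = y) : hd D = hd D₁ + hd D₂ := by
  have e := hd_add_two h
  have e1 := hd_add_two h₁
  have e2 := hd_add_two h₂
  have hdim : finrank k V = finrank k V₁ + finrank k V₂ := by
    have a1 := finrank_range_add_finrank_ker p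
    rw [LinearMap.range_eq_top.2 hp, finrank_top] at a1
    have a2 : finrank k (ker p) = finrank k V₁ := by
      have : ker p = range i := by
        ext x; rw [mem_ker, hex]; rfl
      rw [this]
      exact (LinearEquiv.ofInjective i hi).finrank_eq.symm
    omega
  have hle := hd_ses_le h h₁ h₂ i p hi hp hex c c' hc hc' hiD hpD
  have hr : finrank k (range D) ≤ finrank k (range D₁) + finrank k (range D₂) := by
    let g : range D →ₗ[k] range D₂ :=
      (p.comp (range D).subtype).codRestrict (range D₂) (by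
        rintro ⟨_, ⟨x, rfl⟩⟩
        refine ⟨c'⁻¹ • p x, ?_⟩
        rw [map_smul, hpD, smul_smul, inv_mul_cancel₀ hc', one_smul]
        rfl)
    have hg : Function.Surjective g := by
      rintro ⟨_, ⟨y, rfl⟩⟩
      obtain ⟨x, rfl⟩ := hp y
      refine ⟨⟨D (c' • x), ⟨_, rfl⟩⟩, ?_⟩
      apply Subtype.ext
      change p (D (c' • x)) = D₂ (p x)
      rw [map_smul, map_smul, hpD]
    let f : range D₁ →ₗ[k] ker g :=
      ((i.comp (range D₁).subtype).codRestrict (range D) (by
        rintro ⟨_, ⟨x, rfl⟩⟩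
        refine ⟨c⁻¹ • i x, ?_⟩
        rw [map_smul, hiD, smul_smul, inv_mul_cancel₀ hc, one_smul]
        rfl)).codRestrict (ker g) (by
        rintro ⟨x, hx⟩
        rw [mem_ker]
        apply Subtype.ext
        change p (i x) = 0
        exact (hex _).2 ⟨_, rfl⟩)
    have hs : Function.Surjective f := by
      rintro ⟨⟨_, ⟨x, rfl⟩⟩, hx⟩
      have hx0 : p (D x) = 0 := by
        rw [mem_ker] at hx
        exact congrArg (fun z : range D₂ => (z : V₂)) hx
      have hy : D₂ (p x) = 0 := by rw [hpD, hx0, smul_zero]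
      obtain ⟨x', hx', hpx⟩ := hlift _ hy
      obtain ⟨z, hz⟩ := (hex (x - x')).1 (by rw [map_sub, hpx, sub_self])
      refine ⟨⟨D₁ (c • z), ⟨_, rfl⟩⟩, ?_⟩
      apply Subtype.ext
      apply Subtype.ext
      change i (D₁ (c • z)) = D x
      rw [map_smul, map_smul, ← hiD, hz, map_sub, hx', sub_zero]
    have b1 : finrank k (ker g) ≤ finrank k (range D₁) :=
      LinearMap.finrank_le_finrank_of_surjective hs
    have b2 := finrank_range_add_finrank_ker g
    rw [LinearMap.range_eq_top.2 hg, finrank_top] at b2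
    omega
  omega

end SES

/-- elimination inside one differential space: `s ∘ s = 0`, `s D s = s`; a retract
`(W, r : W → V, q : V → W)` with `q r = 1`, `s r = 0`, `q s = 0` and
`r q + a s + s b = 1`. Then `hd D = hd (q (D - D s D) r)`. -/
theorem elim {D : V →ₗ[k] V} (h : D ∘ₗ D = 0) (s : V →ₗ[k] V) (hss : ∀ x, s (s x) = 0)
    (hsDs : ∀ x, s (D (s x)) = s x) (r : W →ₗ[k] V) (q : V →ₗ[k] W)
    (hqr : ∀ x, q (r x) = x) (hsr : ∀ x, s (r x) = 0) (hqs : ∀ x, q (s x) = 0)
    (a b : V →ₗ[k] V) (hab : ∀ x, r (q x) + a (s x) + s (b x) = x) :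
    (q ∘ₗ (D - D ∘ₗ s ∘ₗ D) ∘ₗ r) ∘ₗ (q ∘ₗ (D - D ∘ₗ s ∘ₗ D) ∘ₗ r) = 0 ∧
    hd D = hd (q ∘ₗ (D - D ∘ₗ s ∘ₗ D) ∘ₗ r) := by
  have hDD : ∀ x, D (D x) = 0 := fun x => LinearMap.congr_fun h x
  set D' : W →ₗ[k] W := q ∘ₗ (D - D ∘ₗ s ∘ₗ D) ∘ₗ r with hD'
  have hD'a : ∀ x, D' x = q (D (r x)) - q (D (s (D (r x)))) := by
    intro x; simp [hD', map_sub]
  -- the maps f = q (1 - D s), g = (1 - s D) r
  -- key identity: (1-e) r q (1-e) = 1 - e, e = sD + Ds
  -- f : V → W,  f x = q x - q (D (s x)) ; g : W → V, g y = r y - s (D (r y))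
  have key : ∀ x, r (q x - q (D (s x))) - s (D (r (q x - q (D (s x)))))
      = x - s (D x) - D (s x) := by
    intro x
    have h1 := hab (x - D (s x))
    have e1 : s (x - D (s x)) = 0 := by rw [map_sub, hsDs, sub_self]
    rw [e1, map_zero, add_zero, map_sub] at h1
    have h2 : r (q x - q (D (s x))) = x - D (s x) - s (b (x - D (s x))) := by
      rw [eq_sub_iff_add_eq]; exact h1
    rw [h2]
    have h3 : s (D (x - D (s x) - s (b (x - D (s x))))) =
        s (D x) - s (b (x - D (s x))) := by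
      rw [map_sub, map_sub, map_sub, map_sub, hDD, hsDs, map_zero, sub_zero]
    rw [h3]; abel
  have hgD : ∀ y, D (r y - s (D (r y))) = r (D' y) - s (D (r (D' y))) := by
    intro y
    have h1 := key (D (r y))
    rw [hDD, map_zero, sub_zero] at h1
    rw [hD'a, h1, map_sub]
  let f : V →ₗ[k] W := q - q ∘ₗ D ∘ₗ s
  let g : W →ₗ[k] V := r - s ∘ₗ D ∘ₗ r
  have hfa : ∀ x, f x = q x - q (D (s x)) := fun x => rfl
  have hga : ∀ y, g y = r y - s (D (r y)) := fun y => rfl
  have gf : ∀ x, g (f x) = x - s (D x) - D (s x) := by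
    intro x; rw [hfa, hga]; exact key x
  have fg : ∀ y, f (g y) = y := by
    intro y
    rw [hfa, hga]
    simp only [map_sub, hqr, hqs, hsr, hss, map_zero, sub_zero]
  have Dg : ∀ y, D (g y) = g (D' y) := by
    intro y; rw [hga, hga]; exact hgD y
  have fD : ∀ x, f (D x) = D' (f x) := by
    intro x
    have e1 : f (D (g (f x))) = D' (f x) := by rw [Dg, fg]
    have e2 : D (g (f x)) = g (f (D x)) := by
      rw [gf, gf, map_sub, map_sub, hDD, hDD, map_zero]
      abel
    rw [e2, fg] at e1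
    exact e1
  have h' : D' ∘ₗ D' = 0 := by
    ext y
    change D' (D' y) = 0
    have e1 : g (D' (D' y)) = 0 := by rw [← Dg, ← Dg, hDD]
    have e2 := fg (D' (D' y))
    rw [e1, map_zero] at e2
    exact e2.symm
  refine ⟨h', hd_eq_of_equiv h h' f g ?_ ?_ ?_ ?_ ?_ ?_⟩
  · intro x hx; rw [← fD, hx, map_zero]
  · intro x hx; rw [Dg, hx, map_zero]
  · intro x; exact ⟨f x, fD x⟩
  · intro x; exact ⟨g x, (Dg x).symm⟩
  · intro x hx
    refine ⟨s x, ?_⟩
    rw [gf, hx, map_zero]; abel
  · intro x _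
    exact ⟨0, by rw [fg, map_zero, sub_self]⟩

end Crest.Agent.R175.DS_450
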