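import Crest.Agent.R175.DDef_145

/-!
Row 175, Track D: statements about Coxeter groups (weak order, parabolic subgroups) used for the
Garside theory (helper145).
-/

set_option autoImplicit false

namespace Crest.Agent.R175.DW_145

open Crest.Agent.R175.DDef_145

variable {S W : Type*} [Group W] {M : CoxeterMatrix S} (cs : CoxeterSystem M W)

/-- prefix (weak) order: `w = u * v` with lengths adding. -/
def PL (u w : W) : Prop := cs.length u + cs.length (u⁻¹ * w) = cs.length w

/-- `W_X`, the standard parabolic subgroup. -/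
def WP (X : Set S) : Subgroup W := Subgroup.closure (cs.simple '' X)

/-- `X`-reduced elements: no left descent in `X`. -/
def XRed (X : Set S) (w : W) : Prop := ∀ x ∈ X, ¬ cs.IsLeftDescent w x

/-- (W1) two left descents. -/
def W1 : Prop := ∀ (w : W) (i j : S), i ≠ j → cs.IsLeftDescent w i → cs.IsLeftDescent w j →
  M i j ≠ 0 ∧ PL cs (cs.wordProd (alt i j (M i j))) w

/-- (W1') alternating words of length at most `M i j` are reduced. -/
def W1' : Prop := ∀ (i j : S) (k : ℕ), i ≠ j → (M i j = 0 ∨ k ≤ M i j) →
  cs.length (cs.wordProd (alt i j k)) = k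

/-- (W2) the longest element of a finite Coxeter group is the largest one. -/
def W2 : Prop := Finite W → ∃ w0 : W, ∀ w, PL cs w w0

/-- (W3) joins in the weak order of a finite Coxeter group. -/
def W3 : Prop := Finite W → ∀ u v : W, ∃ j, PL cs u j ∧ PL cs v j ∧
  ∀ w, PL cs u w → PL cs v w → PL cs j w

/-- (W4) Matsumoto: a function satisfying the braid relations has a well defined value on reduced
words. -/
def W4 : Prop := ∀ (N : Type) (_ : Monoid N) (f : S → N), Braid M f → ∀ ω ω' : List S,
  cs.IsReduced ω → cs.IsReduced ω' → cs.wordProd ω = cs.wordProd ω' →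
    (ω.map f).prod = (ω'.map f).prod

/-- (W5) decomposition `w = p q`, `p ∈ W_X`, `q` `X`-reduced. -/
def W5 : Prop := ∀ (X : Set S) (w : W), ∃ p ∈ WP cs X, ∃ q, XRed cs X q ∧ w = p * q

/-- (W5') lengths add. -/
def W5' : Prop := ∀ (X : Set S) (p q : W), p ∈ WP cs X → XRed cs X q →
  cs.length (p * q) = cs.length p + cs.length q

/-- (W6) Deodhar's lemma. -/
def W6 : Prop := ∀ (X : Set S) (q : W) (s : S), XRed cs X q →
  XRed cs X (q * cs.simple s) ∨ ∃ x ∈ X, cs.simple x * q = q * cs.simple s

/-- (W7) reduced words of elements of `W_X` have letters in `X`. -/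
def W7 : Prop := ∀ (X : Set S) (ω : List S), cs.IsReduced ω → cs.wordProd ω ∈ WP cs X →
  ∀ s ∈ ω, s ∈ X

/-- (W8) if `w` is `X`-reduced, `p ∈ W_X` and `w ≤ p w` then every letter of `p` is conjugated to
a simple reflection by `w`. -/
def W8 : Prop := ∀ (X : Set S) (w p : W), XRed cs X w → p ∈ WP cs X → PL cs w (p * w) →
  p ∈ WP cs {x ∈ X | ∃ s, cs.simple x * w = w * cs.simple s}

/-- (W9) the projection to the `X`-reduced part is monotone for the prefix order. -/
def W9 : Prop := ∀ (X : Set S) (p q p' q' : W), p ∈ WP cs X → XRed cs X q → p' ∈ WP cs X →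
  XRed cs X q' → PL cs (p * q) (p' * q') → PL cs q q'

/-- (W10) the order of `s t` is `M s t`. -/
def W10 : Prop := ∀ s t : S, orderOf (cs.simple s * cs.simple t) = M s t

end Crest.Agent.R175.DW_145
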