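import Crest.Agent.R175.DW_145
import Crest.Agent.R175.VdL_527

/-!
Row 175, Track D, Coxeter side (helper880): the leaves W1, W1', W4 (Matsumoto), W5, W5', W6, W7, W8,
W9, W10 of `DW_145`, for every Coxeter system, in every universe.
-/

set_option autoImplicit false

namespace Crest.Agent.R175.DWa_880

open Crest.Agent.R061.GeomFull Crest.Agent.R175.DDef_145 Crest.Agent.R175.VdL_527 CoxeterSystem

section defs

variable {S : Type*} {W : Type*} [Group W] {M : CoxeterMatrix S} (cs : CoxeterSystem M W)

/-- prefix (weak) order: `w = u * v` with lengths adding. -/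
def PL (u w : W) : Prop := cs.length u + cs.length (u⁻¹ * w) = cs.length w

/-- `W_X`, the standard parabolic subgroup. -/
def WP (X : Set S) : Subgroup W := Subgroup.closure (cs.simple '' X)

/-- `X`-reduced elements: no left descent in `X`. -/
def XRed (X : Set S) (w : W) : Prop := ∀ x ∈ X, ¬ cs.IsLeftDescent w x

/-- the letter which continues the alternating word `alt a b k` -/
def lst : S → S → ℕ → S
  | a, _, 0 => a
  | a, b, k + 1 => lst b a k

theorem lst_mem (k : ℕ) : ∀ a b : S, lst a b k = a ∨ lst a b k = b := by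
  induction k with
  | zero => intro a b; left; rfl
  | succ k ih => intro a b; exact (ih b a).symm

theorem alt_concat (k : ℕ) : ∀ a b : S, alt a b (k + 1) = alt a b k ++ [lst a b k] := by
  induction k with
  | zero => intro a b; rfl
  | succ k ih => intro a b; rw [alt_succ, ih b a, alt_succ a b k]; rfl

end defs

section roots

variable {S : Type*} {W : Type*} [Group W] {M : CoxeterMatrix S} (cs : CoxeterSystem M W)

theorem left_iff {w : W} {i : S} : cs.IsLeftDescent w i ↔ Pos (-(rep cs w⁻¹ (sr i))) := by
  rw [neg_rep_sr_iff, cs.isRightDescent_inv_iff]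

theorem not_left_iff {w : W} {i : S} : ¬ cs.IsLeftDescent w i ↔ Pos (rep cs w⁻¹ (sr i)) := by
  rw [pos_rep_sr_iff, cs.isRightDescent_inv_iff]

theorem rep_alt (k : ℕ) : ∀ a b : S,
    rep cs (cs.wordProd (alt a b k)) (sr (lst a b k)) = gam M a b k := by
  induction k with
  | zero => intro a b; simp only [alt_zero, cs.wordProd_nil, lst, rep_one_apply, gam]
  | succ k ih =>
    intro a b
    rw [alt_succ, cs.wordProd_cons, rep_mul_apply, lst, ih b a, rep_simple, gam]

theorem ne_one {i j : S} (h : i ≠ j) : M i j ≠ 1 := M.off_diagonal i j h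

/-- image of a root of a rank two subsystem -/
theorem rep_gam (w : W) (a b : S) (k : ℕ) : rep cs w (gam M a b k) =
    qs (Real.cos (Real.pi / (M a b : ℝ))) (k + 1) • rep cs w (sr a)
      + qs (Real.cos (Real.pi / (M a b : ℝ))) k • rep cs w (sr b) := by
  rw [gam_eq, map_add, map_smul, map_smul]

/-- a root which is a nonnegative combination of positive roots is positive -/
theorem pos_of_comb {v x y : S →₀ ℝ} (hv : v ≠ 0) {a b : ℝ} (ha : 0 ≤ a) (hb : 0 ≤ b)
    (hx : ∀ c, 0 ≤ x c) (hy : ∀ c, 0 ≤ y c) (h : v = a • x + b • y) : Pos v := by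
  refine ⟨hv, fun c => ?_⟩
  rw [h]
  simp only [Finsupp.add_apply, Finsupp.smul_apply, smul_eq_mul]
  have := hx c
  have := hy c
  positivity

theorem gam_ne_zero (a b : S) (k : ℕ) : gam M a b k ≠ 0 := by
  intro h
  have h1 := rep_alt M.toCoxeterSystem k a b
  rw [h] at h1
  exact sr_ne_zero _ (rep_injective_apply M.toCoxeterSystem _ h1)

theorem rep_ne_zero (w : W) {v : S →₀ ℝ} (h : v ≠ 0) : rep cs w v ≠ 0 :=
  fun h1 => h (rep_injective_apply cs w h1)

theorem rep_gam_pos {w : W} {a b : S} (hab : a ≠ b) {k : ℕ} (hk : M a b ≠ 0 → k < M a b)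
    (ha : Pos (rep cs w (sr a))) (hb : Pos (rep cs w (sr b))) :
    Pos (rep cs w (gam M a b k)) :=
  pos_of_comb (rep_ne_zero cs w (gam_ne_zero a b k))
    (qs_nonneg _ _ (ne_one hab) (fun h => hk h))
    (qs_nonneg _ _ (ne_one hab) (fun h => (hk h).le)) ha.2 hb.2 (rep_gam cs w a b k)

theorem rep_gam_neg {w : W} {a b : S} (hab : a ≠ b) {k : ℕ} (hk : M a b ≠ 0 → k < M a b)
    (ha : Pos (-rep cs w (sr a))) (hb : Pos (-rep cs w (sr b))) :
    Pos (-rep cs w (gam M a b k)) := by
  refine pos_of_comb (neg_ne_zero.2 (rep_ne_zero cs w (gam_ne_zero a b k)))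
    (qs_nonneg (M a b) (k + 1) (ne_one hab) (fun h => hk h))
    (qs_nonneg (M a b) k (ne_one hab) (fun h => (hk h).le)) ha.2 hb.2 ?_
  rw [rep_gam]
  module

theorem gam_pos {a b : S} (hab : a ≠ b) {k : ℕ} (hk : M a b ≠ 0 → k < M a b) :
    Pos (gam M a b k) := by
  have h := rep_gam_pos M.toCoxeterSystem (w := 1) hab hk
    (by rw [rep_one_apply]; exact pos_sr a) (by rw [rep_one_apply]; exact pos_sr b)
  rwa [rep_one_apply] at h

/-- (W1') -/
theorem length_alt' {i j : S} (hij : i ≠ j) : ∀ k : ℕ, (M i j = 0 ∨ k ≤ M i j) →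
    cs.length (cs.wordProd (alt i j k)) = k := by
  intro k
  induction k with
  | zero => intro _; simp
  | succ k ih =>
    intro hk
    have h1 : ¬ cs.IsRightDescent (cs.wordProd (alt i j k)) (lst i j k) := by
      rw [← pos_rep_sr_iff cs, rep_alt]
      exact gam_pos hij (fun h => by omega)
    rw [alt_concat, cs.wordProd_append, cs.wordProd_singleton]
    rw [(cs.not_isRightDescent_iff).1 h1, ih (by omega)]

theorem w1' (i j : S) (k : ℕ) (hij : i ≠ j) (h : M i j = 0 ∨ k ≤ M i j) :
    cs.length (cs.wordProd (alt i j k)) = k := length_alt' cs hij k h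

/-- two left descents: all alternating words are prefixes -/
theorem w1_aux {w : W} {i j : S} (hij : i ≠ j) (hi : cs.IsLeftDescent w i)
    (hj : cs.IsLeftDescent w j) : ∀ k : ℕ, (M i j = 0 ∨ k ≤ M i j) →
    cs.length ((cs.wordProd (alt i j k))⁻¹ * w) + k = cs.length w := by
  intro k
  induction k with
  | zero => intro _; simp
  | succ k ih =>
    intro hk
    have h0 := ih (by omega)
    have h1 : cs.IsLeftDescent ((cs.wordProd (alt i j k))⁻¹ * w) (lst i j k) := by
      rw [left_iff, mul_inv_rev, inv_inv, rep_mul_apply, rep_alt]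
      exact rep_gam_neg cs hij (fun h => by omega) ((left_iff cs).1 hi) ((left_iff cs).1 hj)
    have h2 := (cs.isLeftDescent_iff).1 h1
    rw [alt_concat, cs.wordProd_append, cs.wordProd_singleton, mul_inv_rev, cs.inv_simple,
      mul_assoc]
    omega

theorem w1_ne {w : W} {i j : S} (hij : i ≠ j) (hi : cs.IsLeftDescent w i)
    (hj : cs.IsLeftDescent w j) : M i j ≠ 0 := by
  intro h0
  have h := w1_aux cs hij hi hj (cs.length w + 1) (Or.inl h0)
  omega

/-- (W1) -/
theorem w1 (w : W) (i j : S) (hij : i ≠ j) (hi : cs.IsLeftDescent w i)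
    (hj : cs.IsLeftDescent w j) : M i j ≠ 0 ∧ PL cs (cs.wordProd (alt i j (M i j))) w := by
  refine ⟨w1_ne cs hij hi hj, ?_⟩
  have h := w1_aux cs hij hi hj (M i j) (Or.inr le_rfl)
  have h2 := w1' cs i j (M i j) hij (Or.inr le_rfl)
  unfold PL
  omega

/-- braid relation in the Coxeter group -/
theorem wordProd_alt_comm (i j : S) :
    cs.wordProd (alt i j (M i j)) = cs.wordProd (alt j i (M i j)) := by
  have key : ∀ (n : ℕ) (a b : S), cs.wordProd (alt a b (2 * n)) = (cs.simple a * cs.simple b) ^ n
      := by
    intro n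
    induction n with
    | zero => intro a b; simp
    | succ n ih =>
      intro a b
      rw [show 2 * (n + 1) = 2 * n + 1 + 1 by ring, alt_succ, alt_succ, cs.wordProd_cons,
        cs.wordProd_cons, ih, pow_succ', mul_assoc]
  have add : ∀ (n m : ℕ) (a b : S), alt a b (n + m) =
      alt a b n ++ (if Even n then alt a b m else alt b a m) := by
    intro n
    induction n with
    | zero => intro m a b; simp
    | succ n ih =>
      intro m a b
      rw [show n + 1 + m = (n + m) + 1 by ring, alt_succ, ih m b a, alt_succ a b n]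
      by_cases h : Even n
      · have h1 : ¬ Even (n + 1) := by simp [h, parity_simps]
        rw [if_pos h, if_neg h1]; rfl
      · have h1 : Even (n + 1) := by simp [h, parity_simps]
        rw [if_neg h, if_pos h1]; rfl
  have rev : ∀ (n : ℕ) (a b : S), (cs.wordProd (alt a b n))⁻¹ =
      if Even n then cs.wordProd (alt b a n) else cs.wordProd (alt a b n) := by
    intro n
    induction n with
    | zero => intro a b; simp
    | succ n ih =>
      intro a b
      rw [alt_succ, cs.wordProd_cons, mul_inv_rev, ih b a, cs.inv_simple]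
      have h2 : ∀ (c d : S), cs.wordProd (alt c d n) * cs.simple (lst c d n) =
          cs.wordProd (alt c d (n + 1)) := by
        intro c d
        rw [alt_concat, cs.wordProd_append, cs.wordProd_singleton]
      have h3 : ∀ (n : ℕ) (c d : S), lst c d n = if Even n then c else d := by
        intro n
        induction n with
        | zero => intro c d; simp [lst]
        | succ n ih =>
          intro c d
          rw [lst, ih]
          by_cases h : Even n
          · have h1 : ¬ Even (n + 1) := by simp [h, parity_simps]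
            rw [if_pos h, if_neg h1]
          · have h1 : Even (n + 1) := by simp [h, parity_simps]
            rw [if_neg h, if_pos h1]
      by_cases h : Even n
      · have h1 : ¬ Even (n + 1) := by simp [h, parity_simps]
        rw [if_pos h, if_neg h1]
        have := h2 a b
        rw [h3, if_pos h] at this
        rw [this]; rfl
      · have h1 : Even (n + 1) := by simp [h, parity_simps]
        rw [if_neg h, if_pos h1]
        have := h2 b a
        rw [h3, if_neg h] at this
        rw [this]
  have h1 := key (M i j) i j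
  rw [cs.simple_mul_simple_pow, two_mul, add, cs.wordProd_append] at h1
  rw [eq_inv_of_mul_eq_one_left h1]
  by_cases h : Even (M i j)
  · rw [if_pos h, rev, if_pos h]
  · rw [if_neg h, rev, if_neg h]

end roots

section basicPL

variable {S : Type*} {W : Type*} [Group W] {M : CoxeterMatrix S} (cs : CoxeterSystem M W)

theorem PL.refl (w : W) : PL cs w w := by simp [PL]

theorem PL.one (w : W) : PL cs 1 w := by simp [PL]

theorem PL.le {u w : W} (h : PL cs u w) : cs.length u ≤ cs.length w := by
  unfold PL at h; omega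

theorem PL.trans {u v w : W} (h1 : PL cs u v) (h2 : PL cs v w) : PL cs u w := by
  unfold PL at *
  have h3 := cs.length_mul_le (u⁻¹ * v) (v⁻¹ * w)
  rw [mul_assoc, mul_inv_cancel_left] at h3
  have h4 := cs.length_mul_le u (u⁻¹ * w)
  rw [mul_inv_cancel_left] at h4
  omega

theorem PL.antisymm {u v : W} (h1 : PL cs u v) (h2 : PL cs v u) : u = v := by
  unfold PL at *
  have h3 : cs.length (u⁻¹ * v) = 0 := by omega
  rw [cs.length_eq_zero_iff, inv_mul_eq_one] at h3
  exact h3

theorem PL.eq_of_length {u v : W} (h1 : PL cs u v) (h2 : cs.length v ≤ cs.length u) : u = v := by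
  unfold PL at *
  have h3 : cs.length (u⁻¹ * v) = 0 := by omega
  rw [cs.length_eq_zero_iff, inv_mul_eq_one] at h3
  exact h3

/-- prefix of a product with lengths adding -/
theorem pl_mul_iff {u z : W} : PL cs u (u * z) ↔ cs.length (u * z) = cs.length u + cs.length z := by
  unfold PL
  rw [inv_mul_cancel_left]
  exact eq_comm

/-- intermediate products are prefixes -/
theorem PL.middle {u y z : W} (h : cs.length (u * (y * z)) = cs.length u + cs.length y + cs.length z) :
    cs.length (u * y) = cs.length u + cs.length y ∧ PL cs (u * y) (u * (y * z)) := by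
  have h1 := cs.length_mul_le (u * y) z
  have h2 := cs.length_mul_le u y
  rw [mul_assoc] at h1
  have h3 : cs.length (u * y) = cs.length u + cs.length y := by omega
  refine ⟨h3, ?_⟩
  rw [← mul_assoc, pl_mul_iff, mul_assoc]
  omega

theorem pl_simple_iff {w : W} {i : S} : PL cs (cs.simple i) w ↔ cs.IsLeftDescent w i := by
  unfold PL
  rw [cs.length_simple, cs.inv_simple, cs.isLeftDescent_iff]
  omega

theorem PL.descent {u w : W} (h : PL cs u w) {i : S} (hi : cs.IsLeftDescent u i) :
    cs.IsLeftDescent w i := by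
  rw [← pl_simple_iff] at *
  exact hi.trans cs h

theorem PL.mul_left {u w : W} {i : S} (hw : ¬ cs.IsLeftDescent w i) (h : PL cs u w) :
    PL cs (cs.simple i * u) (cs.simple i * w) := by
  have hu : ¬ cs.IsLeftDescent u i := fun h1 => hw (h.descent cs h1)
  rw [cs.not_isLeftDescent_iff] at *
  unfold PL at *
  rw [mul_inv_rev, mul_assoc, inv_mul_cancel_left]
  omega

theorem PL.cancel_left {u w : W} {i : S} (hu : cs.IsLeftDescent u i) (h : PL cs u w) :
    PL cs (cs.simple i * u) (cs.simple i * w) := by
  have hw := h.descent cs hu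
  rw [cs.isLeftDescent_iff] at *
  unfold PL at *
  rw [mul_inv_rev, mul_assoc, inv_mul_cancel_left]
  omega

theorem not_left_mul {w : W} {i : S} (h : cs.IsLeftDescent w i) :
    ¬ cs.IsLeftDescent (cs.simple i * w) i := (cs.isLeftDescent_iff_not_isLeftDescent_mul).1 h

/-- reducedness of a cons -/
theorem isReduced_cons_iff {i : S} {ω : List S} : cs.IsReduced (i :: ω) ↔
    cs.IsReduced ω ∧ ¬ cs.IsLeftDescent (cs.wordProd ω) i := by
  rw [cs.not_isLeftDescent_iff]
  unfold CoxeterSystem.IsReduced
  rw [cs.wordProd_cons, List.length_cons]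
  have h1 := cs.length_wordProd_le ω
  have h2 := cs.length_simple_mul (cs.wordProd ω) i
  omega

theorem isReduced_append_iff {ω ω' : List S} (h : cs.IsReduced ω) (h' : cs.IsReduced ω') :
    cs.IsReduced (ω ++ ω') ↔
    cs.length (cs.wordProd ω * cs.wordProd ω') = cs.length (cs.wordProd ω) +
      cs.length (cs.wordProd ω') := by
  unfold CoxeterSystem.IsReduced at *
  rw [cs.wordProd_append, List.length_append, h, h']

/-- **W4**, Matsumoto's theorem -/
theorem w4 {N : Type*} [Monoid N] (f : S → N) (hf : Braid M f) : ∀ ω ω' : List S,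
    cs.IsReduced ω → cs.IsReduced ω' → cs.wordProd ω = cs.wordProd ω' →
    (ω.map f).prod = (ω'.map f).prod := by
  have main : ∀ (n : ℕ) (ω ω' : List S), ω.length = n → cs.IsReduced ω → cs.IsReduced ω' →
      cs.wordProd ω = cs.wordProd ω' → (ω.map f).prod = (ω'.map f).prod := by
    intro n
    induction n using Nat.strong_induction_on with
    | _ n ih =>
    intro ω ω' hn h h' he
    have hlen : ω.length = ω'.length := by
      rw [← h.eq, ← h'.eq, he]
    -- same first letter
    have same : ∀ (i : S) (τ τ' : List S), τ.length < n → cs.IsReduced (i :: τ) →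
        cs.IsReduced (i :: τ') → cs.wordProd (i :: τ) = cs.wordProd (i :: τ') →
        ((i :: τ).map f).prod = ((i :: τ').map f).prod := by
      intro i τ τ' hl hr hr' hee
      rw [cs.wordProd_cons, cs.wordProd_cons] at hee
      have := ih τ.length hl τ τ' rfl ((isReduced_cons_iff cs).1 hr).1
        ((isReduced_cons_iff cs).1 hr').1 (mul_left_cancel hee)
      simp [this]
    match ω, ω', hn, h, h', he, hlen with
    | [], [], _, _, _, _, _ => rfl
    | [], _ :: _, _, _, _, _, hl => simp at hl
    | _ :: _, [], _, _, _, _, hl => simp at hl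
    | a :: τ, b :: τ', hn, h, h', he, hl =>
      simp only [List.length_cons] at hn hl
      by_cases hab : a = b
      · subst hab
        exact same a τ τ' (by omega) h h' he
      · have ha : cs.IsLeftDescent (cs.wordProd (a :: τ)) a := by
          rw [cs.wordProd_cons, cs.isLeftDescent_iff_not_isLeftDescent_mul,
            cs.simple_mul_simple_cancel_left]
          exact ((isReduced_cons_iff cs).1 h).2
        have hb : cs.IsLeftDescent (cs.wordProd (a :: τ)) b := by
          rw [he, cs.wordProd_cons, cs.isLeftDescent_iff_not_isLeftDescent_mul,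
            cs.simple_mul_simple_cancel_left]
          exact ((isReduced_cons_iff cs).1 h').2
        obtain ⟨hm, hp⟩ := w1 cs _ a b hab ha hb
        set m := M a b with hmdef
        obtain ⟨σ, hσ, hσe⟩ := cs.exists_isReduced ((cs.wordProd (alt a b m))⁻¹ *
          cs.wordProd (a :: τ))
        have hred : ∀ (c d : S), c ≠ d → M c d = m → cs.IsReduced (alt c d m) := by
          intro c d hcd hM
          unfold CoxeterSystem.IsReduced
          rw [w1' cs c d m hcd (Or.inr hM.ge), length_alt]
        have e1 : cs.wordProd (alt a b m) * cs.wordProd σ = cs.wordProd (a :: τ) := by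
          rw [← hσe, mul_inv_cancel_left]
        have e2 : cs.wordProd (alt b a m) * cs.wordProd σ = cs.wordProd (a :: τ) := by
          rw [← e1, hmdef, wordProd_alt_comm]
        have hlen2 : cs.length (cs.wordProd (alt a b m)) + cs.length (cs.wordProd σ) =
            cs.length (cs.wordProd (a :: τ)) := by
          rw [← hσe]; exact hp
        have r1 : cs.IsReduced (alt a b m ++ σ) := by
          rw [isReduced_append_iff cs (hred a b hab rfl) hσ, e1, hlen2]
        have r2 : cs.IsReduced (alt b a m ++ σ) := by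
          rw [isReduced_append_iff cs (hred b a (Ne.symm hab) (M.symmetric b a)) hσ, e2, ← hlen2]
          congr 1
          rw [hmdef, wordProd_alt_comm]
        have hmpos : ∃ m', m = m' + 1 := ⟨m - 1, by omega⟩
        obtain ⟨m', hm'⟩ := hmpos
        have c1 : ((a :: τ).map f).prod = ((alt a b m ++ σ).map f).prod := by
          rw [hm', alt_succ, List.cons_append]
          rw [hm', alt_succ, List.cons_append] at r1
          apply same a τ _ (by omega) h r1
          rw [← List.cons_append, ← alt_succ, ← hm', cs.wordProd_append, e1]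
        have c2 : ((alt b a m ++ σ).map f).prod = ((b :: τ').map f).prod := by
          rw [hm', alt_succ, List.cons_append]
          rw [hm', alt_succ, List.cons_append] at r2
          have hlen3 : (alt a b m' ++ σ).length < n := by
            have := r2.eq
            rw [← List.cons_append, ← alt_succ, ← hm', cs.wordProd_append, e2, h.eq] at this
            simp only [List.length_append, List.length_cons, length_alt] at this ⊢
            omega
          apply same b _ τ' hlen3 r2 h'
          rw [← List.cons_append, ← alt_succ, ← hm', cs.wordProd_append, e2, he]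
        rw [c1, ← c2, List.map_append, List.map_append, List.prod_append, List.prod_append,
          hmdef, hf a b hm]
  intro ω ω' h h' he
  exact main _ ω ω' rfl h h' he

end basicPL

section parab

variable {S : Type*} {W : Type*} [Group W] {M : CoxeterMatrix S} (cs : CoxeterSystem M W)
  (X : Set S)

variable {X} in
theorem simple_mem_WP {x : S} (hx : x ∈ X) : cs.simple x ∈ WP cs X :=
  Subgroup.subset_closure ⟨x, hx, rfl⟩

variable {X} in
theorem wordProd_mem_WP {ω : List S} (h : ∀ x ∈ ω, x ∈ X) : cs.wordProd ω ∈ WP cs X := by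
  induction ω with
  | nil => simp
  | cons a ω ih =>
    rw [cs.wordProd_cons]
    exact (WP cs X).mul_mem (simple_mem_WP cs (h a (by simp)))
      (ih (fun x hx => h x (by simp [hx])))

/-- induction principle for `W_X` -/
theorem WP_induction {P : W → Prop} (h1 : P 1)
    (hm : ∀ x ∈ X, ∀ w ∈ WP cs X, P w → P (cs.simple x * w)) : ∀ w ∈ WP cs X, P w := by
  intro w hw
  have : w ∈ WP cs X ∧ P w := by
    refine Subgroup.closure_induction_left (p := fun w _ => w ∈ WP cs X ∧ P w)
      ⟨(WP cs X).one_mem, h1⟩ ?_ ?_ hw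
    · rintro _ ⟨x, hx, rfl⟩ y hy ⟨h2, h3⟩
      exact ⟨(WP cs X).mul_mem (simple_mem_WP cs hx) h2, hm x hx y h2 h3⟩
    · rintro _ ⟨x, hx, rfl⟩ y hy ⟨h2, h3⟩
      rw [cs.inv_simple]
      exact ⟨(WP cs X).mul_mem (simple_mem_WP cs hx) h2, hm x hx y h2 h3⟩
  exact this.2

/-- outside `X` the coordinates are not changed by `W_X` -/
theorem rep_WP_apply {p : W} (hp : p ∈ WP cs X) (v : S →₀ ℝ) {b : S} (hb : b ∉ X) :
    rep cs p v b = v b := by
  revert v
  refine WP_induction cs X (P := fun p => ∀ v : S →₀ ℝ, rep cs p v b = v b) ?_ ?_ p hp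
  · intro v; rw [rep_one_apply]
  · intro x hx w _ h v
    rw [rep_mul_apply, rep_simple, sig_apply, Finsupp.sub_apply, h, Finsupp.smul_apply,
      Finsupp.single_eq_of_ne (by rintro rfl; exact hb hx)]
    simp

/-- a left descent of an element of `W_X` belongs to `X` -/
theorem descent_mem {p : W} (hp : p ∈ WP cs X) {s : S} (hs : cs.IsLeftDescent p s) : s ∈ X := by
  by_contra hn
  rw [left_iff] at hs
  have h1 := hs.2 s
  rw [Finsupp.neg_apply, rep_WP_apply cs X ((WP cs X).inv_mem hp) _ hn,
    Finsupp.single_eq_same] at h1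
  linarith

/-- **W7** -/
theorem w7 (ω : List S) (h : cs.IsReduced ω) (hp : cs.wordProd ω ∈ WP cs X) :
    ∀ s ∈ ω, s ∈ X := by
  induction ω with
  | nil => simp
  | cons a ω ih =>
    have h1 := (isReduced_cons_iff cs).1 h
    have ha : a ∈ X := by
      apply descent_mem cs X hp
      rw [cs.wordProd_cons, cs.isLeftDescent_iff_not_isLeftDescent_mul,
        cs.simple_mul_simple_cancel_left]
      exact h1.2
    have h2 : cs.wordProd ω ∈ WP cs X := by
      have := (WP cs X).mul_mem (simple_mem_WP cs ha) hp
      rwa [cs.wordProd_cons, cs.simple_mul_simple_cancel_left] at this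
    intro s hs
    rcases List.mem_cons.1 hs with rfl | hs
    · exact ha
    · exact ih h1.1 h2 s hs

/-- elements of `W_X` have reduced words with letters in `X` -/
theorem exists_reduced_X {p : W} (hp : p ∈ WP cs X) :
    ∃ ω : List S, cs.IsReduced ω ∧ p = cs.wordProd ω ∧ ∀ s ∈ ω, s ∈ X := by
  obtain ⟨ω, h1, h2⟩ := cs.exists_isReduced p
  exact ⟨ω, h1, h2, w7 cs X ω h1 (h2 ▸ hp)⟩

/-- a nonnegative combination of roots with nonnegative coordinates -/
theorem rep_nonneg_of {q : W} {v : S →₀ ℝ} (hv : ∀ b, 0 ≤ v b)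
    (hq : ∀ x, v x ≠ 0 → ∀ b, 0 ≤ rep cs q (sr x) b) (b : S) : 0 ≤ rep cs q v b := by
  rw [rep_apply_eq_sum]
  apply Finset.sum_nonneg
  intro x hx
  exact mul_nonneg (hv x) (hq x (Finsupp.mem_support_iff.1 hx) b)

/-- **W5'** -/
theorem w5' (p q : W) (hp : p ∈ WP cs X) (hq : XRed cs X q) :
    cs.length (p * q) = cs.length p + cs.length q := by
  obtain ⟨ω, h1, rfl, h3⟩ := exists_reduced_X cs X hp
  clear hp
  induction ω with
  | nil => simp
  | cons a ω ih =>
    have h4 := (isReduced_cons_iff cs).1 h1
    have h5 := ih h4.1 (fun s hs => h3 s (by simp [hs]))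
    have h6 : ¬ cs.IsLeftDescent (cs.wordProd ω * q) a := by
      rw [not_left_iff, mul_inv_rev, rep_mul_apply]
      have h7 := (not_left_iff cs).1 h4.2
      have hne : rep cs q⁻¹ (rep cs (cs.wordProd ω)⁻¹ (sr a)) ≠ 0 :=
        rep_ne_zero cs _ h7.1
      refine ⟨hne, rep_nonneg_of cs h7.2 ?_⟩
      intro x hx
      have hxX : x ∈ X := by
        by_contra hn
        apply hx
        rw [rep_WP_apply cs X ((WP cs X).inv_mem (wordProd_mem_WP cs
          (fun s hs => h3 s (by simp [hs])))) _ hn, Finsupp.single_eq_of_ne]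
        rintro rfl
        exact hn (h3 _ (by simp))
      exact ((not_left_iff cs).1 (hq x hxX)).2
    have h8 := h1.eq
    rw [cs.wordProd_cons] at h8 ⊢
    rw [mul_assoc, (cs.not_isLeftDescent_iff).1 h6, h5, h8, h4.1.eq, List.length_cons]
    ring

/-- **W5** -/
theorem w5 (w : W) : ∃ p ∈ WP cs X, ∃ q, XRed cs X q ∧ w = p * q := by
  have main : ∀ (n : ℕ) (w : W), cs.length w = n → ∃ p ∈ WP cs X, ∃ q, XRed cs X q ∧ w = p * q := by
    intro n
    induction n using Nat.strong_induction_on with
    | _ n ih =>
    intro w hw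
    by_cases h : XRed cs X w
    · exact ⟨1, (WP cs X).one_mem, w, h, by simp⟩
    · unfold XRed at h
      push Not at h
      obtain ⟨x, hx, hd⟩ := h
      obtain ⟨p, hp, q, hq, he⟩ := ih (cs.length (cs.simple x * w)) (by rw [← hw]; exact hd)
        (cs.simple x * w) rfl
      refine ⟨cs.simple x * p, (WP cs X).mul_mem (simple_mem_WP cs hx) hp, q, hq, ?_⟩
      rw [mul_assoc, ← he, cs.simple_mul_simple_cancel_left]
  exact main _ w rfl

/-- conjugation of simple reflections from roots -/
theorem mul_eq_of_rep {q : W} {s x : S} (h : rep cs q⁻¹ (sr x) = sr s) :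
    cs.simple x * q = q * cs.simple s := VdL_527.mul_eq cs h

/-- **W6**, Deodhar's lemma -/
theorem w6 (q : W) (s : S) (hq : XRed cs X q) :
    XRed cs X (q * cs.simple s) ∨ ∃ x ∈ X, cs.simple x * q = q * cs.simple s := by
  by_cases h : XRed cs X (q * cs.simple s)
  · exact Or.inl h
  · right
    unfold XRed at h
    push Not at h
    obtain ⟨x, hx, hd⟩ := h
    refine ⟨x, hx, mul_eq_of_rep cs ?_⟩
    by_contra hne
    have h1 := (not_left_iff cs).1 (hq x hx)
    have h2 := pos_sig_of_ne cs ⟨q⁻¹, x, rfl⟩ h1 hne
    rw [left_iff, mul_inv_rev, rep_mul_apply, cs.inv_simple, rep_simple] at hd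
    exact h2.not_neg hd

/-- uniqueness of the decomposition `w = p q` -/
theorem decomp_unique {p q p' q' : W} (hp : p ∈ WP cs X) (hq : XRed cs X q) (hp' : p' ∈ WP cs X)
    (hq' : XRed cs X q') (h : p * q = p' * q') : p = p' ∧ q = q' := by
  have h1 : q' = (p'⁻¹ * p) * q := by rw [mul_assoc, h, inv_mul_cancel_left]
  have h2 : q = (p⁻¹ * p') * q' := by rw [mul_assoc, ← h, inv_mul_cancel_left]
  have l1 := w5' cs X (p'⁻¹ * p) q ((WP cs X).mul_mem ((WP cs X).inv_mem hp') hp) hq
  have l2 := w5' cs X (p⁻¹ * p') q' ((WP cs X).mul_mem ((WP cs X).inv_mem hp) hp') hq'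
  rw [← h1] at l1
  rw [← h2] at l2
  have l3 : cs.length (p'⁻¹ * p) = 0 := by omega
  rw [cs.length_eq_zero_iff, inv_mul_eq_one] at l3
  subst l3
  exact ⟨rfl, mul_left_cancel h⟩

/-- a product of two `X`-decomposed elements: `PL` in terms of the factors -/
theorem pl_left_factor {p q : W} (hp : p ∈ WP cs X) (hq : XRed cs X q) : PL cs p (p * q) := by
  rw [pl_mul_iff]; exact w5' cs X p q hp hq

/-- **W9** -/
theorem w9 (p q p' q' : W) (hp : p ∈ WP cs X) (hq : XRed cs X q) (hp' : p' ∈ WP cs X)
    (hq' : XRed cs X q') (h : PL cs (p * q) (p' * q')) : PL cs q q' := by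
  obtain ⟨τ, hτ, hτe⟩ := cs.exists_isReduced ((p * q)⁻¹ * (p' * q'))
  have he : p' * q' = p * q * cs.wordProd τ := by rw [← hτe, mul_inv_cancel_left]
  have hl : cs.length (p * q * cs.wordProd τ) = cs.length (p * q) + τ.length := by
    rw [← he, ← hτ.eq, ← hτe]; exact h.symm
  clear h hτe
  induction τ using List.reverseRecOn generalizing p' q' with
  | nil =>
    rw [cs.wordProd_nil, mul_one] at he
    rw [(decomp_unique cs X hp' hq' hp hq he).2]
    exact PL.refl cs q
  | append_singleton τ s ih =>
    -- the element before the last letter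
    obtain ⟨p1, hp1, q1, hq1, he1⟩ := w5 cs X (p * q * cs.wordProd τ)
    have hτ' : cs.IsReduced τ := by
      have := hτ.take τ.length
      rwa [List.take_left] at this
    have hlast : p' * q' = p1 * q1 * cs.simple s := by
      rw [he, cs.wordProd_append, cs.wordProd_singleton, ← mul_assoc, he1]
    have hl1 : cs.length (p * q * cs.wordProd τ) = cs.length (p * q) + τ.length := by
      have h1 := cs.length_mul_le (p * q * cs.wordProd τ) (cs.simple s)
      have h2 := cs.length_mul_le (p * q) (cs.wordProd τ)
      rw [hτ'.eq] at h2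
      rw [cs.length_simple, mul_assoc (p * q), ← cs.wordProd_singleton, ← cs.wordProd_append] at h1
      rw [hl] at h1
      simp only [List.length_append, List.length_singleton] at h1
      omega
    have ih1 := ih p1 q1 hp1 hq1 hτ' he1.symm hl1
    refine ih1.trans cs ?_
    rcases w6 cs X q1 s hq1 with h6 | ⟨x, hx, hxe⟩
    · have := decomp_unique cs X hp' hq' hp1 h6 (by rw [hlast, mul_assoc])
      obtain ⟨rfl, rfl⟩ := this
      rw [pl_mul_iff, cs.length_simple]
      have l1 := w5' cs X p' q1 hp1 hq1
      have l2 := w5' cs X p' (q1 * cs.simple s) hp1 h6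
      rw [he, hl, List.length_append, List.length_singleton, ← add_assoc, ← hl1, he1] at l2
      omega
    · have := decomp_unique cs X hp' hq' ((WP cs X).mul_mem hp1 (simple_mem_WP cs hx)) hq1
        (by rw [hlast, mul_assoc, ← hxe, mul_assoc])
      rw [this.2]
      exact PL.refl cs q1

/-- **W8** -/
theorem w8 (w p : W) (hw : XRed cs X w) (hp : p ∈ WP cs X) (h : PL cs w (p * w)) :
    p ∈ WP cs {x ∈ X | ∃ s, cs.simple x * w = w * cs.simple s} := by
  obtain ⟨τ, hτ, hτe⟩ := cs.exists_isReduced (w⁻¹ * (p * w))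
  have he : p * w = w * cs.wordProd τ := by rw [← hτe, mul_inv_cancel_left]
  have hl : cs.length (w * cs.wordProd τ) = cs.length w + τ.length := by
    rw [← he, ← hτ.eq, ← hτe]; exact h.symm
  clear h hτe
  induction τ generalizing p with
  | nil =>
    rw [cs.wordProd_nil, mul_one, mul_eq_right] at he
    rw [he]; exact one_mem _
  | cons s τ ih =>
    have hτ' := ((isReduced_cons_iff cs).1 hτ)
    rw [cs.wordProd_cons] at he hl
    have hmid := PL.middle cs (u := w) (y := cs.simple s) (z := cs.wordProd τ) (by
      rw [hl, cs.length_simple, hτ'.1.eq, List.length_cons]; ring)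
    -- `w s` is not `X`-reduced
    obtain ⟨x, hx, hxe⟩ : ∃ x ∈ X, cs.simple x * w = w * cs.simple s := by
      rcases w6 cs X w s hw with h6 | h6
      · exfalso
        have h9 := w9 cs X 1 (w * cs.simple s) p w (one_mem _) h6 hp hw (by
          rw [one_mul, he]; exact hmid.2)
        have := h9.le
        rw [hmid.1, cs.length_simple] at this
        omega
      · exact h6
    have he2 : cs.simple x * p * w = w * cs.wordProd τ := by
      have : cs.simple x * (w * cs.simple s) = w := by
        rw [← hxe, cs.simple_mul_simple_cancel_left]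
      rw [mul_assoc, he, ← mul_assoc w, ← mul_assoc, this]
    have hl2 : cs.length (w * cs.wordProd τ) = cs.length w + τ.length := by
      have h1 := cs.length_mul_le w (cs.wordProd τ)
      rw [hτ'.1.eq] at h1
      have h2 := cs.length_mul_le (cs.simple x) (w * cs.wordProd τ)
      have e : cs.simple x * (w * cs.wordProd τ) = w * (cs.simple s * cs.wordProd τ) := by
        rw [← he2, mul_assoc, cs.simple_mul_simple_cancel_left, he]
      rw [cs.length_simple, e, hl, List.length_cons] at h2
      omega
    have := ih (cs.simple x * p) ((WP cs X).mul_mem (simple_mem_WP cs hx) hp) hτ'.1 he2 hl2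
    have h3 := (WP cs {x ∈ X | ∃ s, cs.simple x * w = w * cs.simple s}).mul_mem
      (simple_mem_WP cs (X := {x ∈ X | ∃ s, cs.simple x * w = w * cs.simple s})
        (x := x) ⟨hx, s, hxe⟩) this
    rwa [cs.simple_mul_simple_cancel_left] at h3

end parab

section finiteW

variable {S : Type*} {W : Type*} [Group W] {M : CoxeterMatrix S} (cs : CoxeterSystem M W)

/-- an element all of whose left (hence right) descents are everything is the largest -/
theorem pl_of_all {w0 : W} (h0 : ∀ s, cs.IsLeftDescent w0 s) (w : W) : PL cs w w0 := by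
  have key : ∀ v : S →₀ ℝ, (∀ b, 0 ≤ v b) → ∀ b, rep cs w0⁻¹ v b ≤ 0 := by
    intro v hv b
    rw [rep_apply_eq_sum]
    apply Finset.sum_nonpos
    intro x _
    have h1 := ((left_iff cs).1 (h0 x)).2 b
    rw [Finsupp.neg_apply] at h1
    exact mul_nonpos_of_nonneg_of_nonpos (hv x) (by linarith)
  obtain ⟨ω, hω, rfl⟩ := cs.exists_isReduced w
  induction ω using List.reverseRecOn with
  | nil => exact PL.one cs _
  | append_singleton ω s ih =>
    have hω' : cs.IsReduced ω := by
      have := hω.take ω.length
      rwa [List.take_left] at this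
    have h1 := ih hω'
    rw [cs.wordProd_append, cs.wordProd_singleton]
    have h2 : ¬ cs.IsRightDescent (cs.wordProd ω) s := by
      rw [cs.not_isRightDescent_iff, ← cs.wordProd_singleton, ← cs.wordProd_append, hω.eq, hω'.eq]
      simp
    have h3 : cs.IsLeftDescent ((cs.wordProd ω)⁻¹ * w0) s := by
      rw [left_iff, mul_inv_rev, inv_inv, rep_mul_apply]
      have h4 := (pos_rep_sr_iff cs).2 h2
      refine ⟨neg_ne_zero.2 (rep_ne_zero cs _ h4.1), fun b => ?_⟩
      rw [Finsupp.neg_apply]
      have := key _ h4.2 b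
      linarith
    rw [cs.isLeftDescent_iff] at h3
    rw [cs.not_isRightDescent_iff] at h2
    unfold PL at *
    rw [mul_inv_rev, cs.inv_simple, mul_assoc]
    omega

/-- **W2**: the longest element -/
theorem w2 [Finite W] : ∃ w0 : W, ∀ w, PL cs w w0 := by
  obtain ⟨w0, h0⟩ := Finite.exists_max cs.length
  refine ⟨w0, pl_of_all cs fun s => ?_⟩
  by_contra h
  rw [cs.not_isLeftDescent_iff] at h
  have := h0 (cs.simple s * w0)
  omega

/-- joins below a given element -/
theorem exists_join_aux : ∀ (n : ℕ) (w : W), cs.length w = n → ∀ u v : W, PL cs u w → PL cs v w →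
    ∃ j, PL cs j w ∧ PL cs u j ∧ PL cs v j ∧ ∀ w', PL cs u w' → PL cs v w' → PL cs j w' := by
  intro n
  induction n using Nat.strong_induction_on with
  | _ n ih =>
  intro w hw u v hu hv
  -- a common first letter
  have same : ∀ (a : S) (u v : W), cs.IsLeftDescent u a → cs.IsLeftDescent v a → PL cs u w →
      PL cs v w → ∃ j, PL cs j w ∧ PL cs u j ∧ PL cs v j ∧
        ∀ w', PL cs u w' → PL cs v w' → PL cs j w' := by
    intro a u v hua hva hu hv
    have hwa := hu.descent cs hua
    obtain ⟨j, h1, h2, h3, h4⟩ := ih (cs.length (cs.simple a * w)) (by rw [← hw]; exact hwa)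
      (cs.simple a * w) rfl (cs.simple a * u) (cs.simple a * v) (hu.cancel_left cs hua)
      (hv.cancel_left cs hva)
    have hja : ¬ cs.IsLeftDescent j a := fun h => not_left_mul cs hwa (h1.descent cs h)
    have e : ∀ z : W, cs.simple a * (cs.simple a * z) = z := fun z =>
      cs.simple_mul_simple_cancel_left a
    refine ⟨cs.simple a * j, ?_, ?_, ?_, ?_⟩
    · have := h1.mul_left cs (not_left_mul cs hwa)
      rwa [e] at this
    · have := h2.mul_left cs hja
      rwa [e] at this
    · have := h3.mul_left cs hja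
      rwa [e] at this
    · intro w' hu' hv'
      have hwa' := hu'.descent cs hua
      have := (h4 (cs.simple a * w') (hu'.cancel_left cs hua) (hv'.cancel_left cs hva)).mul_left cs
        (not_left_mul cs hwa')
      rwa [e] at this
  by_cases hu1 : u = 1
  · subst hu1
    exact ⟨v, hv, PL.one cs v, PL.refl cs v, fun w' _ h => h⟩
  by_cases hv1 : v = 1
  · subst hv1
    exact ⟨u, hu, PL.refl cs u, PL.one cs u, fun w' h _ => h⟩
  obtain ⟨a, ha⟩ := cs.exists_leftDescent_of_ne_one hu1
  obtain ⟨b, hb⟩ := cs.exists_leftDescent_of_ne_one hv1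
  by_cases hab : a = b
  · subst hab
    exact same a u v ha hb hu hv
  obtain ⟨hm, hd⟩ := w1 cs w a b hab (hu.descent cs ha) (hv.descent cs hb)
  set d := cs.wordProd (alt a b (M a b)) with hdd
  have hda : cs.IsLeftDescent d a := by
    obtain ⟨m, hm'⟩ : ∃ m, M a b = m + 1 := ⟨M a b - 1, by omega⟩
    rw [hdd, cs.isLeftDescent_iff, w1' cs a b _ hab (Or.inr le_rfl), hm', alt_succ,
      cs.wordProd_cons, cs.simple_mul_simple_cancel_left,
      w1' cs b a m (Ne.symm hab) (Or.inr (by rw [M.symmetric b a]; omega))]
  have hdb : cs.IsLeftDescent d b := by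
    obtain ⟨m, hm'⟩ : ∃ m, M a b = m + 1 := ⟨M a b - 1, by omega⟩
    rw [hdd, cs.isLeftDescent_iff, w1' cs a b _ hab (Or.inr le_rfl), wordProd_alt_comm, hm',
      alt_succ, cs.wordProd_cons, cs.simple_mul_simple_cancel_left,
      w1' cs a b m hab (Or.inr (by omega))]
  obtain ⟨j1, h1, h2, h3, h4⟩ := same a u d ha hda hu hd
  obtain ⟨j, k1, k2, k3, k4⟩ := same b j1 v (h3.descent cs hdb) hb h1 hv
  refine ⟨j, k1, h2.trans cs k2, k3, fun w' hu' hv' => ?_⟩
  have hd' := (w1 cs w' a b hab (hu'.descent cs ha) (hv'.descent cs hb)).2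
  exact k4 w' (h4 w' hu' hd') hv'

/-- joins of two elements with a common upper bound -/
theorem exists_join {u v w : W} (hu : PL cs u w) (hv : PL cs v w) :
    ∃ j, PL cs j w ∧ PL cs u j ∧ PL cs v j ∧ ∀ w', PL cs u w' → PL cs v w' → PL cs j w' :=
  exists_join_aux cs _ w rfl u v hu hv

/-- **W3** -/
theorem w3 [Finite W] (u v : W) : ∃ j, PL cs u j ∧ PL cs v j ∧
    ∀ w, PL cs u w → PL cs v w → PL cs j w := by
  obtain ⟨w0, h0⟩ := w2 cs
  obtain ⟨j, _, h2, h3, h4⟩ := exists_join cs (h0 u) (h0 v)
  exact ⟨j, h2, h3, h4⟩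

/-- **W10**: the order of `s t` is `M s t`. -/
theorem w10 (s t : S) : orderOf (cs.simple s * cs.simple t) = M s t := by
  by_cases hst : s = t
  · subst hst
    rw [cs.simple_mul_simple_self, orderOf_one]
    exact (M.diagonal s).symm
  have key : ∀ (n : ℕ), 0 < n → (M s t = 0 ∨ n < M s t) →
      (cs.simple s * cs.simple t) ^ n ≠ 1 := by
    intro n hn h he
    have rec1 : ∀ k : ℕ, (cs.simple s * cs.simple t) ^ k = cs.wordProd (alt s t (2 * k)) := by
      intro k
      induction k with
      | zero => simp
      | succ k ih =>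
        rw [show 2 * (k + 1) = 2 * k + 1 + 1 by ring, alt_succ, alt_succ, cs.wordProd_cons,
          cs.wordProd_cons, ← ih, pow_succ', mul_assoc]
    have gen : ∀ k : ℕ, 0 < k → (M s t = 0 ∨ 2 * k ≤ M s t) →
        (cs.simple s * cs.simple t) ^ k ≠ 1 := by
      intro k hk hk2 he
      have h1 := w1' cs s t (2 * k) hst hk2
      rw [← rec1, he, cs.length_one] at h1
      omega
    by_cases h2 : M s t = 0 ∨ 2 * n ≤ M s t
    · exact gen n hn h2 he
    · push Not at h2
      have h3 : (cs.simple s * cs.simple t) ^ (M s t - n) = 1 := by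
        have h4 := cs.simple_mul_simple_pow s t
        have h5 : M s t = n + (M s t - n) := by omega
        rw [h5, pow_add, he, one_mul] at h4
        exact h4
      exact gen (M s t - n) (by omega) (by omega) h3
  rcases Nat.eq_zero_or_pos (M s t) with h0 | h0
  · rw [h0, orderOf_eq_zero_iff']
    intro n hn
    exact key n hn (Or.inl h0)
  · rw [orderOf_eq_iff h0]
    refine ⟨cs.simple_mul_simple_pow s t, fun m hm hm' => key m hm' (Or.inr hm)⟩

end finiteW

/-! ### the leaves of `DW_145` -/

section leaves

variable {S W : Type} [Group W] {M : CoxeterMatrix S} (cs : CoxeterSystem M W)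

theorem W1 : DW_145.W1 cs := fun w i j h hi hj => w1 cs w i j h hi hj
theorem W1' : DW_145.W1' cs := fun i j k h hk => w1' cs i j k h hk
theorem W2 : DW_145.W2 cs := fun _ => w2 cs
theorem W3 : DW_145.W3 cs := fun _ u v => w3 cs u v
theorem W4 : DW_145.W4 cs := fun _ _ f hf => w4 cs f hf
theorem W5 : DW_145.W5 cs := fun X w => w5 cs X w
theorem W5' : DW_145.W5' cs := fun X p q hp hq => w5' cs X p q hp hq
theorem W6 : DW_145.W6 cs := fun X q s hq => w6 cs X q s hq
theorem W7 : DW_145.W7 cs := fun X ω h hp => w7 cs X ω h hp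
theorem W8 : DW_145.W8 cs := fun X w p hw hp h => w8 cs X w p hw hp h
theorem W9 : DW_145.W9 cs := fun X p q p' q' hp hq hp' hq' h => w9 cs X p q p' q' hp hq hp' hq' h
theorem W10 : DW_145.W10 cs := fun s t => w10 cs s t

end leaves

end Crest.Agent.R175.DWa_880
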