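import Crest.Agent.R175.PTD_4

/-!
Row 175 (S0263), block (D), all labels (helper180, over helper4's PTD_4): the abstract end game for
weighted FAMILIES `(X_i)_{i ∈ I}` of objects.

For labels `> 3` the proportionality along the fibres holds only for the doubly weighted
dimensions `dW X t = ∑ i, ω i * dim H_t(X_i)`; the action moves all members at once.
`DomF.exists_zero_H`: every family can be moved to one with `H = 0`.
-/

open Module

set_option autoImplicit false
set_option linter.unusedSectionVars false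

namespace Crest.Agent.R175.DomF_180

open Crest.Agent.R175.PTA (MG)
open Crest.Agent.R175.PTD1_175 Crest.Agent.R175.PTQ_4

universe u v

variable {T : Type u} [Fintype T] {G : MG T} {k : Type v} [Field k]

variable {S W A Ob I : Type*} [Group W] [Group A] [MulAction A Ob] [Fintype I]
  {M : CoxeterMatrix S}

/-- weighted dimension of a family -/
noncomputable def dW (ω : I → ℝ) (X : I → QM G k) (t : T) : ℝ :=
  ∑ i, ω i * (finrank k ((X i).H t) : ℝ)

/-- weighted number of frames of a family -/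
noncomputable def lW (ω : I → ℝ) (X : I → QM G k) (t : T) : ℝ :=
  ∑ i, ω i * (finrank k ((X i).W t) : ℝ)

/-- weighted `D_t - 2 d_t` -/
noncomputable def muW (ω : I → ℝ) (X : I → QM G k) (t : T) : ℝ :=
  ∑ i, ω i * (muv (X i) t : ℝ)

theorem muW_eq (ω : I → ℝ) (X : I → QM G k) (t : T) :
    muW ω X t = ∑ u, (Fintype.card (G.E t u) : ℝ) * dW ω X u + lW ω X t - 2 * dW ω X t := by
  unfold muW dW lW muv PTQ_4.nb
  have h1 : ∀ i, ω i * (((((∑ u, Fintype.card (G.E t u) * finrank k ((X i).H u)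
      + finrank k ((X i).W t) : ℕ) : ℤ) - 2 * (finrank k ((X i).H t) : ℤ) : ℤ)) : ℝ)
      = (∑ u, (Fintype.card (G.E t u) : ℝ) * (ω i * (finrank k ((X i).H u) : ℝ)))
        + ω i * (finrank k ((X i).W t) : ℝ) - 2 * (ω i * (finrank k ((X i).H t) : ℝ)) := by
    intro i
    push_cast
    have h2 : ∑ u, (Fintype.card (G.E t u) : ℝ) * (ω i * (finrank k ((X i).H u) : ℝ))
        = ω i * ∑ u, (Fintype.card (G.E t u) : ℝ) * (finrank k ((X i).H u) : ℝ) := by
      rw [Finset.mul_sum]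
      exact Finset.sum_congr rfl fun u _ => by ring
    rw [h2]
    ring
  rw [Finset.sum_congr rfl fun i _ => h1 i, Finset.sum_sub_distrib, Finset.sum_add_distrib,
    Finset.sum_comm, ← Finset.mul_sum]
  simp only [Finset.mul_sum]

variable (G k) in
/-- The input of the end game for families. -/
structure DomF (g : S → A) (Ob I : Type*) [MulAction A Ob] [Fintype I] where
  ω : I → ℝ
  ω_pos : ∀ i, 0 < ω i
  qm : Ob → I → QM G k
  π : T → S
  wt : T → ℝ
  wt_pos : ∀ t, 0 < wt t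
  ht : k → ℤ
  ht_add : ∀ μ, ht (μ + 1) = ht μ + 1
  ht_zero : ht 0 = 0
  /-- `g s` acts as the twist at the fibre of `s`, on every member -/
  td : ∀ X s i, Nonempty (TD {t | π t = s} (qm X i) (qm (g s • X) i))
  /-- (K) -/
  K : ∀ X i i' t (a b : ℤ), a ≤ 0 → 0 ≤ b → (∀ i, lo ht (qm X i) a) → (∀ i, hi ht (qm X i) b) →
    cb ht (qm X i) t b → ¬ ka ht (qm X i') t a
  /-- stability along the fibres -/
  fib : ∀ X t t' n i, π t = π t' → cb ht (qm X i) t n → ∃ i', cb ht (qm X i') t' n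
  /-- proportionality along the fibres -/
  pf : ∀ X t t', π t = π t' → wt t' * muW ω (qm X) t = wt t * muW ω (qm X) t'
  /-- Euler characteristic of a rigid family -/
  euler : ∀ X, ∑ t, dW ω (qm X) t * (muW ω (qm X) t + lW ω (qm X) t) ≤ 0
  /-- positive definiteness -/
  pd : ∀ n : T → ℝ, (∀ t, 0 ≤ n t) →
    ∑ t, n t * (2 * n t - ∑ u, (Fintype.card (G.E t u) : ℝ) * n u) ≤ 0 → ∀ t, n t = 0

namespace DomF

variable {g : S → A} (D : DomF G k g Ob I)

include D in
theorem hC (n : T → ℕ) (h : ∀ s, 2 * n s ≤ ∑ t, Fintype.card (G.E s t) * n t) : n = 0 := by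
  have h0 := D.pd (fun t => (n t : ℝ)) (fun t => Nat.cast_nonneg _) (by
    refine Finset.sum_nonpos fun t _ => ?_
    have h1 := h t
    have h2 : (2 * (n t : ℝ) - ∑ u, (Fintype.card (G.E t u) : ℝ) * n u) ≤ 0 := by
      have : (2 * (n t : ℝ)) ≤ ∑ u, (Fintype.card (G.E t u) : ℝ) * n u := by exact_mod_cast h1
      linarith
    exact mul_nonpos_of_nonneg_of_nonpos (Nat.cast_nonneg _) h2)
  funext t
  have := h0 t
  exact_mod_cast this

/-- positions of the inverse twist -/
theorem td_inv (X : Ob) (s : S) (i : I) :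
    Nonempty (TD {t | D.π t = s} (D.qm ((g s)⁻¹ • X) i) (D.qm X i)) := by
  have h := D.td ((g s)⁻¹ • X) s i
  rw [smul_inv_smul] at h
  exact h

theorem ht_sub (μ : k) : D.ht (μ - 1) = D.ht μ - 1 := by
  have h := D.ht_add (μ - 1)
  rw [sub_add_cancel] at h
  omega

/-- bounds for the positions of all members -/
theorem exists_bd (X : Ob) : ∃ n : ℕ, (∀ i, lo D.ht (D.qm X i) (-n)) ∧
    (∀ i, hi D.ht (D.qm X i) n) := by
  classical
  have h1 : ∀ i, ∃ n : ℕ, lo D.ht (D.qm X i) (-n) ∧ hi D.ht (D.qm X i) n :=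
    fun i => exists_lo_hi D.ht (D.qm X i)
  choose n hn using h1
  have h2 : ∀ i, n i ≤ ∑ i, n i := fun i =>
    Finset.single_le_sum (fun _ _ => Nat.zero_le _) (Finset.mem_univ i)
  refine ⟨∑ i, n i, fun i s μ v hv he => ?_, fun i s μ v hv he => ?_⟩
  · have h3 := (hn i).1 s μ v hv he
    have h4 : (n i : ℤ) ≤ ((∑ i, n i : ℕ) : ℤ) := by exact_mod_cast h2 i
    linarith
  · have h3 := (hn i).2 s μ v hv he
    have h4 : (n i : ℤ) ≤ ((∑ i, n i : ℕ) : ℤ) := by exact_mod_cast h2 i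
    linarith

/-- `Amp` of helper175 for the inverse twists. -/
theorem amp : Amp (Ob := Ob) (fun s => (g s)⁻¹) (fun n X => ∀ i, lo D.ht (D.qm X i) n)
    (fun n X => ∀ i, hi D.ht (D.qm X i) n)
    (fun s n X => ∃ t i, D.π t = s ∧ cb D.ht (D.qm X i) t n)
    (fun s n X => ∃ t i, D.π t = s ∧ ka D.ht (D.qm X i) t n) (fun _ => True) where
  rig_gen _ _ h := h
  rig_inv _ _ h := h
  exists_lo X := by
    obtain ⟨n, h, _⟩ := D.exists_bd X
    exact ⟨n, h⟩
  exists_hi X := by
    obtain ⟨n, _, h⟩ := D.exists_bd X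
    exact ⟨n, h⟩
  K X s a b ha hb _ hlo hhi hcb hka := by
    obtain ⟨t, i, rfl, hcb⟩ := hcb
    obtain ⟨t', i', ht', hka⟩ := hka
    obtain ⟨i'', hcb'⟩ := D.fib X t t' b i ht'.symm hcb
    exact D.K X i'' i' t' a b ha hb hlo hhi hcb' hka
  Nb X b hb h1 h2 := by
    push Not at h2
    obtain ⟨i, h2⟩ := h2
    obtain ⟨t, h⟩ := Nb D.ht_zero D.hC hb (h1 i) h2
    exact ⟨D.π t, t, i, rfl, h⟩
  Na X a ha h1 h2 := by
    push Not at h2
    obtain ⟨i, h2⟩ := h2
    obtain ⟨t, h⟩ := Na D.ht_zero D.hC ha (h1 i) h2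
    exact ⟨D.π t, t, i, rfl, h⟩
  P1 X s b hb h i := by
    obtain ⟨r⟩ := D.td_inv X s i
    exact IsU.P1 D.ht_add D.ht_zero r.toIsU hb (h i)
  P2 X s a ha h h' i := by
    obtain ⟨r⟩ := D.td_inv X s i
    exact IsU.P2 D.ht_add D.ht_zero r.toIsU ha (h i) fun t ht hka => h' ⟨t, i, ht, hka⟩
  P3 X s b hb h := by
    rintro ⟨t, i, ht, hcb⟩
    obtain ⟨r⟩ := D.td_inv X s i
    exact IsU.P3 D.ht_add r.toIsU (h i) ht hcb
  M1 X s a ha h i := by
    rw [inv_inv]
    obtain ⟨r⟩ := D.td X s i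
    exact IsT.M1 D.ht_sub D.ht_zero r.toIsT ha (h i)
  M2 X s b hb h h' i := by
    rw [inv_inv]
    obtain ⟨r⟩ := D.td X s i
    exact IsT.M2 D.ht_sub D.ht_zero r.toIsT hb (h i) fun t ht hcb => h' ⟨t, i, ht, hcb⟩
  M3 X s a ha h := by
    rw [inv_inv]
    rintro ⟨t, i, ht, hka⟩
    obtain ⟨r⟩ := D.td X s i
    exact IsT.M3 D.ht_sub r.toIsT (h i) ht hka

/-- the weighted total dimension -/
noncomputable def tot (X : Ob) : ℝ := ∑ t, D.wt t * dW D.ω (D.qm X) t

open Classical in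
/-- the weighted sum of the `D - 2 d` over the fibre -/
noncomputable def mu (s : S) (X : Ob) : ℝ :=
  ∑ t, if D.π t = s then D.wt t * muW D.ω (D.qm X) t else 0

theorem tot_step {X Y : Ob} {s : S}
    (h1 : ∀ i t, D.π t ≠ s → finrank k ((D.qm Y i).H t) = finrank k ((D.qm X i).H t))
    (h2 : ∀ i t, D.π t = s →
      (finrank k ((D.qm Y i).H t) : ℤ) + finrank k ((D.qm X i).H t) = PTQ_4.nb (D.qm X i) t) :
    D.tot Y = D.tot X + D.mu s X := by
  classical
  unfold tot mu
  rw [← Finset.sum_add_distrib]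
  refine Finset.sum_congr rfl fun t _ => ?_
  by_cases ht : D.π t = s
  · rw [if_pos ht, ← mul_add]
    congr 1
    unfold dW muW
    rw [← Finset.sum_add_distrib]
    refine Finset.sum_congr rfl fun i _ => ?_
    have h3 : (finrank k ((D.qm Y i).H t) : ℝ) + finrank k ((D.qm X i).H t)
        = (PTQ_4.nb (D.qm X i) t : ℝ) := by
      exact_mod_cast h2 i t ht
    have h4 : (muv (D.qm X i) t : ℝ)
        = (PTQ_4.nb (D.qm X i) t : ℝ) - 2 * finrank k ((D.qm X i).H t) := by
      unfold muv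
      push_cast
      ring
    rw [h4, ← h3]
    ring
  · rw [if_neg ht, add_zero]
    congr 1
    unfold dW
    exact Finset.sum_congr rfl fun i _ => by rw [h1 i t ht]

/-- well-foundedness of the weighted dimension -/
theorem exists_min (P : Ob → Prop) (hP : ∃ X, P X) :
    ∃ X, P X ∧ ∀ Y, P Y → D.tot X ≤ D.tot Y := by
  have h0 : ∀ X, D.tot X = ∑ x : T × I, (D.wt x.1 * D.ω x.2)
      * (finrank k ((D.qm X x.2).H x.1) : ℝ) := by
    intro X
    unfold tot dW
    rw [Fintype.sum_prod_type]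
    refine Finset.sum_congr rfl fun t _ => ?_
    rw [Finset.mul_sum]
    exact Finset.sum_congr rfl fun i _ => by ring
  obtain ⟨X, hX, hmin⟩ := exists_min_weighted (fun x : T × I => D.wt x.1 * D.ω x.2)
    (fun x => mul_pos (D.wt_pos _) (D.ω_pos _))
    (fun x X => finrank k ((D.qm X x.2).H x.1)) P hP
  refine ⟨X, hX, fun Y hY => ?_⟩
  rw [h0, h0]
  exact hmin Y hY

theorem exists_dom [IsAlgClosed k] [Finite W] {cs : CoxeterSystem M W} (σ : Sec cs g)
    (σ' : Sec cs (fun s => (g s)⁻¹)) (X : Ob) :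
    ∃ r : A, (∀ i, lo D.ht (D.qm (r • X) i) 0) ∧ (∀ i, hi D.ht (D.qm (r • X) i) 0) ∧
      ∀ s, 0 ≤ D.mu s (r • X) := by
  have hσ : Sec cs (fun s => ((fun s => (g s)⁻¹) s)⁻¹) := by
    simp only [inv_inv]
    exact σ
  obtain ⟨r, _, h1, h2, h3⟩ := D.amp.exists_dominant σ' hσ D.tot D.mu
    (fun P hP => D.exists_min P hP)
    (fun X s _ hlo hhi hka hmu => by
      have hk : ∀ i t, D.π t = s → ¬ ka D.ht (D.qm X i) t 0 := fun i t ht h => hka ⟨t, i, ht, h⟩
      have hR : ∀ i, Nonempty (TD {t | D.π t = s} (D.qm ((g s)⁻¹ • X) i) (D.qm X i)) :=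
        D.td_inv X s
      refine ⟨fun i => ?_, fun i => ?_, ?_⟩
      · obtain ⟨R⟩ := hR i
        exact IsU.P1 D.ht_add D.ht_zero R.toIsU le_rfl (hhi i)
      · obtain ⟨R⟩ := hR i
        exact IsU.P2 D.ht_add D.ht_zero R.toIsU le_rfl (hlo i) (hk i)
      · rw [D.tot_step (X := X) (s := s) (fun i t ht => by
          obtain ⟨R⟩ := hR i
          exact (R.finrank_eq ht).symm) (fun i t ht => by
          obtain ⟨R⟩ := hR i
          have h := R.finrank_add_of_bot (s := t) ht (kerA_eq_bot (hlo i) (hhi i) (hk i t ht))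
          exact_mod_cast h)]
        linarith)
    (fun X s _ hlo hhi hcb hmu => by
      rw [inv_inv]
      have hk : ∀ i t, D.π t = s → ¬ cb D.ht (D.qm X i) t 0 := fun i t ht h => hcb ⟨t, i, ht, h⟩
      refine ⟨fun i => ?_, fun i => ?_, ?_⟩
      · obtain ⟨R⟩ := D.td X s i
        exact IsT.M2 D.ht_sub D.ht_zero R.toIsT le_rfl (hhi i) (hk i)
      · obtain ⟨R⟩ := D.td X s i
        exact IsT.M1 D.ht_sub D.ht_zero R.toIsT le_rfl (hlo i)
      · rw [D.tot_step (X := X) (s := s) (fun i t ht => by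
          obtain ⟨R⟩ := D.td X s i
          exact R.finrank_eq ht) (fun i t ht => by
          obtain ⟨R⟩ := D.td X s i
          have h := R.finrank_add_of_top (s := t) ht (imB_eq_top (hlo i) (hhi i) (hk i t ht))
          exact_mod_cast h)]
        linarith)
    (X := X) trivial
  exact ⟨r, h1, h2, h3⟩

theorem dW_nonneg (X : Ob) (t : T) : 0 ≤ dW D.ω (D.qm X) t :=
  Finset.sum_nonneg fun i _ => mul_nonneg (D.ω_pos i).le (Nat.cast_nonneg _)

theorem lW_nonneg (X : Ob) (t : T) : 0 ≤ lW D.ω (D.qm X) t :=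
  Finset.sum_nonneg fun i _ => mul_nonneg (D.ω_pos i).le (Nat.cast_nonneg _)

/-- **(D), all labels**: every family can be moved to one with `H = 0`. -/
theorem exists_zero_H [IsAlgClosed k] [Finite W] {cs : CoxeterSystem M W} (σ : Sec cs g)
    (σ' : Sec cs (fun s => (g s)⁻¹)) (X : Ob) :
    ∃ r : A, ∀ i t, finrank k ((D.qm (r • X) i).H t) = 0 := by
  classical
  obtain ⟨r, _, _, h3⟩ := D.exists_dom σ σ' X
  refine ⟨r, ?_⟩
  set Y := r • X with hY
  -- every `D - 2 d` is nonnegative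
  have h4 : ∀ t, 0 ≤ muW D.ω (D.qm Y) t := by
    intro t
    by_contra hneg
    rw [not_le] at hneg
    have h5 : ∀ t', D.π t' = D.π t → muW D.ω (D.qm Y) t' ≤ 0 := by
      intro t' ht'
      have h6 := D.pf Y t' t ht'
      have h8 := D.wt_pos t
      have h9 := D.wt_pos t'
      by_contra hcon
      rw [not_le] at hcon
      have h10 : 0 < D.wt t * muW D.ω (D.qm Y) t' := mul_pos h8 hcon
      have h11 : D.wt t' * muW D.ω (D.qm Y) t < 0 := mul_neg_of_pos_of_neg h9 hneg
      linarith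
    have h6 : D.mu (D.π t) Y < 0 := by
      unfold mu
      have h7 : ∑ t' : T, (if D.π t' = D.π t then D.wt t' * muW D.ω (D.qm Y) t' else 0) <
          ∑ t' : T, (0 : ℝ) := by
        refine Finset.sum_lt_sum (fun t' _ => ?_) ⟨t, Finset.mem_univ t, ?_⟩
        · by_cases ht' : D.π t' = D.π t
          · rw [if_pos ht']
            exact mul_nonpos_of_nonneg_of_nonpos (D.wt_pos t').le (h5 t' ht')
          · rw [if_neg ht']
        · rw [if_pos rfl]
          exact mul_neg_of_pos_of_neg (D.wt_pos t) hneg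
      simpa using h7
    exact absurd (h3 (D.π t)) (not_le.2 h6)
  have h5 : ∀ t, (0 : ℝ) ≤ dW D.ω (D.qm Y) t * (muW D.ω (D.qm Y) t + lW D.ω (D.qm Y) t) :=
    fun t => mul_nonneg (D.dW_nonneg Y t) (add_nonneg (h4 t) (D.lW_nonneg Y t))
  have h6 := D.euler Y
  have h7 : ∀ t, dW D.ω (D.qm Y) t * (muW D.ω (D.qm Y) t + lW D.ω (D.qm Y) t) = 0 := by
    intro t
    refine le_antisymm ?_ (h5 t)
    exact (Finset.single_le_sum (fun t _ => h5 t) (Finset.mem_univ t)).trans h6
  have h8 := D.pd (fun t => dW D.ω (D.qm Y) t) (D.dW_nonneg Y) (by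
    refine le_of_eq (Finset.sum_eq_zero fun t _ => ?_)
    have h9 := h7 t
    rcases mul_eq_zero.1 h9 with h | h
    · simp only [h, zero_mul]
    · have h10 := h4 t
      have h11 := D.lW_nonneg Y t
      have h12 : muW D.ω (D.qm Y) t = 0 := by linarith
      have h13 : lW D.ω (D.qm Y) t = 0 := by linarith
      rw [muW_eq, h13] at h12
      have h14 : 2 * dW D.ω (D.qm Y) t -
          ∑ u, (Fintype.card (G.E t u) : ℝ) * dW D.ω (D.qm Y) u = 0 := by linarith
      simp only [h14, mul_zero])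
  intro i t
  have h9 := h8 t
  have h10 : ∀ j, D.ω j * (finrank k ((D.qm Y j).H t) : ℝ) = 0 := by
    intro j
    refine le_antisymm ?_ (mul_nonneg (D.ω_pos j).le (Nat.cast_nonneg _))
    rw [← h9]
    exact Finset.single_le_sum (f := fun j => D.ω j * (finrank k ((D.qm Y j).H t) : ℝ))
      (fun j _ => mul_nonneg (D.ω_pos j).le (Nat.cast_nonneg _)) (Finset.mem_univ j)
  have h11 := h10 i
  rcases mul_eq_zero.1 h11 with h | h
  · exact absurd h (D.ω_pos i).ne'
  · exact_mod_cast h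

end DomF

end Crest.Agent.R175.DomF_180
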