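import Crest.Agent.R175.PTA_534

/-!
Row 175 (S0263): the homology functor `X ↦ H(V_t, d₀)` and the position operator of a rigid
T-framed object (helper175, form agreed with helper4, #2949).

`L` is the length derivation; `Eul X p` : `p ∈ Cs`, `bar p = p`, `D p = L d - d`.  A rigid object
(`hT X X = 0`) has such a `p`, unique up to homotopy; it acts on `Hv X t` by `A = Hp`.
-/

set_option autoImplicit false
set_option linter.unusedSectionVars false
set_option linter.unusedSimpArgs false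

open CategoryTheory Crest.Agent.R175.PTA

namespace Crest.Agent.R175.PTH

universe u v

variable {T : Type u} {k : Type v} [Field k] [Fintype T] {G : MG T}

/-! ### The length derivation -/

/-- `L f = (0, 0, f₁, f_i, f_j, 2 f₂)`. -/
def L {X Y : Gob G k} : (X ⟶ Y) →ₗ[k] (X ⟶ Y) where
  toFun f := mkH (fun _ => 0) (fun _ => 0) (fun _ _ a => c1 f a) (ci f) (cj f)
    (fun t => (2 : k) • c2 f t)
  map_add' f g := by apply hm_ext <;> intros <;> simp
  map_smul' c f := by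
    apply hm_ext <;> intros <;> simp [smul_comm c (2 : k)]

section Ll
variable {X Y : Gob G k} (f : X ⟶ Y)
@[simp] theorem c0_L (t : T) : c0 (L f) t = 0 := rfl
@[simp] theorem cW_L (t : T) : cW (L f) t = 0 := rfl
@[simp] theorem c1_L {s t : T} (a : G.E s t) : c1 (L f) a = c1 f a := rfl
@[simp] theorem ci_L (t : T) : ci (L f) t = ci f t := rfl
@[simp] theorem cj_L (t : T) : cj (L f) t = cj f t := rfl
@[simp] theorem c2_L (t : T) : c2 (L f) t = (2 : k) • c2 f t := rfl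
end Ll

theorem L_comp {X Y Z : Gob G k} (f : X ⟶ Y) (g : Y ⟶ Z) :
    L (f ≫ g) = L f ≫ g + f ≫ L g := by
  apply hm_ext
  · intro t; simp
  · intro t; simp
  · intro s t a; simp [add_comm]
  · intro t; simp [add_comm]
  · intro t; simp [add_comm]
  · intro t
    simp only [c2_L, c2_comp, c2_add, c0_L, c1_L, ci_L, cj_L, LinearMap.comp_zero,
      LinearMap.zero_comp, zero_add, add_zero, two_smul, LinearMap.comp_add, LinearMap.add_comp]
    abel

@[simp] theorem bar_L {X Y : Gob G k} (f : X ⟶ Y) : bar (L f) = L (bar f) := by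
  apply hm_ext
  · intro t; simp
  · intro t; simp
  · intro s t a; simp
  · intro t; simp
  · intro t; simp
  · intro t
    simp [LinearMap.comp_smul, LinearMap.smul_comp]

theorem D_L {X Y : TOb G k} (f : X.X ⟶ Y.X) :
    D X Y (L f) = L (D X Y f) - f ≫ L Y.d + L X.d ≫ bar f := by
  simp only [D_apply, map_sub, L_comp, bar_L]
  abel

/-! ### The equations `d ≫ d = 0` in components -/

section dd
variable (X : TOb G k)

theorem dd0 (t : T) (x : X.X.V t) : c0 X.d t (c0 X.d t x) = 0 := by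
  have h : c0 (X.d ≫ X.d) t = c0 (0 : X.X ⟶ X.X) t := by rw [X.dd]
  have := LinearMap.congr_fun h x
  simpa only [c0_comp, c0_zero, LinearMap.comp_apply, LinearMap.zero_apply] using this

theorem dd1 {s t : T} (a : G.E s t) (x : X.X.V s) :
    c1 X.d a (c0 X.d s x) + c0 X.d t (c1 X.d a x) = 0 := by
  have h : c1 (X.d ≫ X.d) a = c1 (0 : X.X ⟶ X.X) a := by rw [X.dd]
  have := LinearMap.congr_fun h x
  simpa only [c1_comp, c1_zero, LinearMap.comp_apply, LinearMap.zero_apply,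
    LinearMap.add_apply] using this

theorem ddi (t : T) (w : X.X.W t) : c0 X.d t (ci X.d t w) = 0 := by
  have h : ci (X.d ≫ X.d) t = ci (0 : X.X ⟶ X.X) t := by rw [X.dd]
  have := LinearMap.congr_fun h w
  simpa only [ci_comp, ci_zero, LinearMap.comp_apply, LinearMap.zero_apply, X.dW, map_zero,
    LinearMap.add_apply, zero_add] using this

theorem ddj (t : T) (x : X.X.V t) : cj X.d t (c0 X.d t x) = 0 := by
  have h : cj (X.d ≫ X.d) t = cj (0 : X.X ⟶ X.X) t := by rw [X.dd]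
  have := LinearMap.congr_fun h x
  simpa only [cj_comp, cj_zero, LinearMap.comp_apply, LinearMap.zero_apply, X.dW, map_zero,
    LinearMap.add_apply, add_zero] using this

theorem dd2 (t : T) (x : X.X.V t) :
    c2 X.d t (c0 X.d t x) + c0 X.d t (c2 X.d t x) +
      (∑ s, ∑ a : G.E t s, c1 X.d (G.rev a) (c1 X.d a x)) + ci X.d t (cj X.d t x) = 0 := by
  have h : c2 (X.d ≫ X.d) t = c2 (0 : X.X ⟶ X.X) t := by rw [X.dd]
  have := LinearMap.congr_fun h x
  simpa only [c2_comp, c2_zero, LinearMap.comp_apply, LinearMap.zero_apply,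
    LinearMap.add_apply, LinearMap.sum_apply] using this

end dd

/-! ### The homology of `(V_t, d₀)` -/

/-- boundaries inside cycles -/
def bdr (X : TOb G k) (t : T) : Submodule k (LinearMap.ker (c0 X.d t)) :=
  (LinearMap.range (c0 X.d t)).comap (LinearMap.ker (c0 X.d t)).subtype

/-- `H(V_t, d₀)` -/
def Hv (X : TOb G k) (t : T) : Type v := LinearMap.ker (c0 X.d t) ⧸ bdr X t

instance (X : TOb G k) (t : T) : AddCommGroup (Hv X t) :=
  inferInstanceAs (AddCommGroup (LinearMap.ker (c0 X.d t) ⧸ bdr X t))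
instance (X : TOb G k) (t : T) : Module k (Hv X t) :=
  inferInstanceAs (Module k (LinearMap.ker (c0 X.d t) ⧸ bdr X t))
instance (X : TOb G k) (t : T) : FiniteDimensional k (Hv X t) :=
  inferInstanceAs (FiniteDimensional k (LinearMap.ker (c0 X.d t) ⧸ bdr X t))

/-- the class of a cycle, as a linear map -/
def mkL (X : TOb G k) (t : T) : LinearMap.ker (c0 X.d t) →ₗ[k] Hv X t := Submodule.mkQ _

/-- the class of a cycle -/
def mk (X : TOb G k) (t : T) (x : X.X.V t) (hx : c0 X.d t x = 0) : Hv X t := mkL X t ⟨x, hx⟩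

section mkl
variable (X : TOb G k) {t : T}

theorem mkL_eq (x : LinearMap.ker (c0 X.d t)) : mkL X t x = mk X t x.1 x.2 := rfl

theorem mk_eq_zero {x : X.X.V t} (hx : c0 X.d t x = 0) :
    mk X t x hx = 0 ↔ ∃ y, c0 X.d t y = x := by
  change Submodule.Quotient.mk (p := bdr X t) ⟨x, hx⟩ = 0 ↔ _
  rw [Submodule.Quotient.mk_eq_zero]
  exact Iff.rfl

theorem mk_surj (ξ : Hv X t) : ∃ x, ∃ hx : c0 X.d t x = 0, mk X t x hx = ξ := by
  obtain ⟨⟨x, hx⟩, h⟩ := Submodule.mkQ_surjective (bdr X t) ξ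
  exact ⟨x, hx, h⟩

theorem mk_add {x y : X.X.V t} (hx : c0 X.d t x = 0) (hy : c0 X.d t y = 0) :
    mk X t x hx + mk X t y hy = mk X t (x + y) (by rw [map_add, hx, hy, add_zero]) := rfl

theorem mk_sub {x y : X.X.V t} (hx : c0 X.d t x = 0) (hy : c0 X.d t y = 0) :
    mk X t x hx - mk X t y hy = mk X t (x - y) (by rw [map_sub, hx, hy, sub_zero]) := rfl

theorem mk_smul {x : X.X.V t} (hx : c0 X.d t x = 0) (c : k) :
    c • mk X t x hx = mk X t (c • x) (by rw [map_smul, hx, smul_zero]) := rfl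

theorem mk_eq_iff {x y : X.X.V t} (hx : c0 X.d t x = 0) (hy : c0 X.d t y = 0) :
    mk X t x hx = mk X t y hy ↔ ∃ z, c0 X.d t z = x - y := by
  rw [← sub_eq_zero, mk_sub, mk_eq_zero]

theorem mk_congr {x y : X.X.V t} (hx : c0 X.d t x = 0) (h : x = y) :
    mk X t x hx = mk X t y (h ▸ hx) := by subst h; rfl

end mkl

/-- map induced on homology by a linear map compatible with `d₀` -/
def mapG {X Y : TOb G k} {s t : T} (f : X.X.V s →ₗ[k] Y.X.V t)
    (h1 : ∀ x, c0 X.d s x = 0 → c0 Y.d t (f x) = 0)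
    (h2 : ∀ y, ∃ z, c0 Y.d t z = f (c0 X.d s y)) : Hv X s →ₗ[k] Hv Y t :=
  Submodule.mapQ _ _ ((f ∘ₗ (LinearMap.ker (c0 X.d s)).subtype).codRestrict
    (LinearMap.ker (c0 Y.d t)) (fun x => h1 x.1 x.2)) (by
      rintro ⟨x, hx⟩ ⟨y, hy⟩
      obtain ⟨z, hz⟩ := h2 y
      exact ⟨z, by rw [hz, hy]; rfl⟩)

@[simp] theorem mapG_mk {X Y : TOb G k} {s t : T} (f : X.X.V s →ₗ[k] Y.X.V t)
    (h1 : ∀ x, c0 X.d s x = 0 → c0 Y.d t (f x) = 0)
    (h2 : ∀ y, ∃ z, c0 Y.d t z = f (c0 X.d s y)) (x : X.X.V s) (hx : c0 X.d s x = 0) :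
    mapG f h1 h2 (mk X s x hx) = mk Y t (f x) (h1 x hx) := rfl

/-! ### Structure maps on homology -/

section struct
variable (X : TOb G k)

/-- `B_a` on homology -/
def HB {s t : T} (a : G.E s t) : Hv X s →ₗ[k] Hv X t :=
  mapG (c1 X.d a) (fun x hx => by
      have := dd1 X a x
      rw [hx, map_zero, zero_add] at this
      exact this)
    (fun y => ⟨-c1 X.d a y, by
      rw [map_neg, neg_eq_iff_add_eq_zero, add_comm]; exact dd1 X a y⟩)

/-- `i` on homology -/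
def Hi (t : T) : X.X.W t →ₗ[k] Hv X t :=
  (mkL X t) ∘ₗ (ci X.d t).codRestrict (LinearMap.ker (c0 X.d t)) (ddi X t)

/-- `j` on homology -/
def Hj (t : T) : Hv X t →ₗ[k] X.X.W t :=
  Submodule.liftQ _ (cj X.d t ∘ₗ (LinearMap.ker (c0 X.d t)).subtype) (by
    rintro ⟨x, hx⟩ ⟨y, hy⟩
    rw [LinearMap.mem_ker]
    change cj X.d t x = 0
    rw [← show c0 X.d t y = x from hy]
    exact ddj X t y)

@[simp] theorem HB_mk {s t : T} (a : G.E s t) (x : X.X.V s) (hx : c0 X.d s x = 0) :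
    HB X a (mk X s x hx) = mk X t (c1 X.d a x) (by
      have := dd1 X a x
      rw [hx, map_zero, zero_add] at this
      exact this) := rfl

theorem Hi_apply (t : T) (w : X.X.W t) : Hi X t w = mk X t (ci X.d t w) (ddi X t w) := rfl

@[simp] theorem Hj_mk (t : T) (x : X.X.V t) (hx : c0 X.d t x = 0) :
    Hj X t (mk X t x hx) = cj X.d t x := rfl

theorem Hmc (t : T) (ξ : Hv X t) :
    (∑ s, ∑ a : G.E t s, HB X (G.rev a) (HB X a ξ)) + Hi X t (Hj X t ξ) = 0 := by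
  obtain ⟨x, hx, rfl⟩ := mk_surj X ξ
  have h0 : ∀ s (a : G.E t s), c0 X.d t (c1 X.d (G.rev a) (c1 X.d a x)) = 0 := by
    intro s a
    have h1 := dd1 X (G.rev a) (c1 X.d a x)
    have h2 := dd1 X a x
    rw [hx, map_zero, zero_add] at h2
    rw [h2, map_zero, zero_add] at h1
    exact h1
  let z : LinearMap.ker (c0 X.d t) := (∑ s, ∑ a : G.E t s,
    (⟨c1 X.d (G.rev a) (c1 X.d a x), LinearMap.mem_ker.2 (h0 s a)⟩ :
        LinearMap.ker (c0 X.d t))) + ⟨ci X.d t (cj X.d t x), LinearMap.mem_ker.2 (ddi X t _)⟩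
  have h3 : (∑ s, ∑ a : G.E t s, HB X (G.rev a) (HB X a (mk X t x hx))) +
      Hi X t (Hj X t (mk X t x hx)) = mkL X t z := by
    rw [map_add, map_sum]
    simp only [map_sum]
    rfl
  have hz : (z : X.X.V t) = (∑ s, ∑ a : G.E t s, c1 X.d (G.rev a) (c1 X.d a x)) +
      ci X.d t (cj X.d t x) := by
    simp only [z, Submodule.coe_add, Submodule.coe_sum]
  rw [h3, mkL_eq]
  refine (mk_eq_zero X _).2 ⟨-c2 X.d t x, ?_⟩
  have h4 := dd2 X t x
  rw [hx, map_zero, zero_add] at h4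
  rw [map_neg, hz, neg_eq_iff_add_eq_zero, ← add_assoc]
  exact h4

end struct

/-! ### Functoriality -/

section functor
variable {X Y Z : TOb G k}

theorem closed0 {f : X.X ⟶ Y.X} (hf : D X Y f = 0) (t : T) (x : X.X.V t) :
    c0 Y.d t (c0 f t x) = c0 (bar f) t (c0 X.d t x) := by
  have h : c0 (D X Y f) t = c0 (0 : X.X ⟶ Y.X) t := by rw [hf]
  have := LinearMap.congr_fun h x
  simp only [D_apply, c0_sub, c0_comp, c0_zero, LinearMap.sub_apply, LinearMap.zero_apply,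
    LinearMap.comp_apply] at this
  exact sub_eq_zero.1 this

theorem closed_bar {f : X.X ⟶ Y.X} (hf : D X Y f = 0) : D X Y (bar f) = 0 := by
  have := bar_D f
  rw [hf, bar_zero, eq_comm, neg_eq_zero] at this
  exact this

/-- the map induced by a closed morphism -/
def Hmap (f : X.X ⟶ Y.X) (hf : D X Y f = 0) (t : T) : Hv X t →ₗ[k] Hv Y t :=
  mapG (c0 f t) (fun x hx => by rw [closed0 hf, hx, map_zero])
    (fun y => ⟨c0 (bar f) t y, by
      have := closed0 (closed_bar hf) t y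
      rw [bar_bar] at this
      exact this⟩)

@[simp] theorem Hmap_mk (f : X.X ⟶ Y.X) (hf : D X Y f = 0) (t : T) (x : X.X.V t)
    (hx : c0 X.d t x = 0) : Hmap f hf t (mk X t x hx) = mk Y t (c0 f t x)
      (by rw [closed0 hf, hx, map_zero]) := rfl

theorem Hmap_id (t : T) (ξ : Hv X t) : Hmap (𝟙 X.X) D_id t ξ = ξ := by
  obtain ⟨x, hx, rfl⟩ := mk_surj X ξ
  rfl

theorem closed_comp {f : X.X ⟶ Y.X} (hf : D X Y f = 0) {g : Y.X ⟶ Z.X} (hg : D Y Z g = 0) :
    D X Z (f ≫ g) = 0 := by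
  rw [D_comp, hf, hg]; simp

theorem Hmap_comp (f : X.X ⟶ Y.X) (hf : D X Y f = 0) (g : Y.X ⟶ Z.X) (hg : D Y Z g = 0)
    (t : T) (ξ : Hv X t) :
    Hmap (f ≫ g) (closed_comp hf hg) t ξ = Hmap g hg t (Hmap f hf t ξ) := by
  obtain ⟨x, hx, rfl⟩ := mk_surj X ξ
  rfl

/-- homotopic maps agree on homology -/
theorem Hmap_eq {f g : X.X ⟶ Y.X} (hf : D X Y f = 0) (hg : D X Y g = 0) {K : X.X ⟶ Y.X}
    (h : f - g = D X Y K) (t : T) (ξ : Hv X t) : Hmap f hf t ξ = Hmap g hg t ξ := by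
  obtain ⟨x, hx, rfl⟩ := mk_surj X ξ
  rw [Hmap_mk, Hmap_mk, mk_eq_iff]
  refine ⟨c0 K t x, ?_⟩
  have h1 : c0 (f - g) t = c0 (D X Y K) t := by rw [h]
  have h2 := LinearMap.congr_fun h1 x
  simp only [D_apply, c0_sub, c0_comp, LinearMap.sub_apply, LinearMap.comp_apply] at h2
  rw [hx, map_zero, sub_zero] at h2
  exact h2.symm

theorem HB_Hmap {f : X.X ⟶ Y.X} (hf : D X Y f = 0) (hb : bar f = f) {s t : T} (a : G.E s t)
    (ξ : Hv X s) : HB Y a (Hmap f hf s ξ) = Hmap f hf t (HB X a ξ) := by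
  obtain ⟨x, hx, rfl⟩ := mk_surj X ξ
  rw [Hmap_mk, HB_mk, HB_mk, Hmap_mk, mk_eq_iff]
  refine ⟨-c1 f a x, ?_⟩
  have h1 : c1 (D X Y f) a = c1 (0 : X.X ⟶ Y.X) a := by rw [hf]
  have h2 := LinearMap.congr_fun h1 x
  simp only [D_apply, hb, c1_sub, c1_comp, c1_zero, LinearMap.sub_apply, LinearMap.add_apply,
    LinearMap.comp_apply, LinearMap.zero_apply] at h2
  rw [hx, map_zero, zero_add] at h2
  rw [map_neg, ← sub_eq_zero, ← neg_eq_zero, ← h2]
  abel

theorem Hmap_Hi {f : X.X ⟶ Y.X} (hf : D X Y f = 0) (hb : bar f = f) (t : T)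
    (w : X.X.W t) : Hmap f hf t (Hi X t w) = Hi Y t (cW f t w) := by
  rw [Hi_apply, Hi_apply, Hmap_mk, mk_eq_iff]
  refine ⟨ci f t w, ?_⟩
  have h1 : ci (D X Y f) t = ci (0 : X.X ⟶ Y.X) t := by rw [hf]
  have h2 := LinearMap.congr_fun h1 w
  simp only [D_apply, hb, ci_sub, ci_comp, ci_zero, LinearMap.sub_apply, LinearMap.add_apply,
    LinearMap.comp_apply, LinearMap.zero_apply, X.dW, map_zero, zero_add] at h2
  rw [← sub_eq_zero, ← h2]
  abel

theorem Hj_Hmap {f : X.X ⟶ Y.X} (hf : D X Y f = 0) (hb : bar f = f) (t : T)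
    (ξ : Hv X t) : Hj Y t (Hmap f hf t ξ) = cW f t (Hj X t ξ) := by
  obtain ⟨x, hx, rfl⟩ := mk_surj X ξ
  rw [Hmap_mk, Hj_mk, Hj_mk]
  have h1 : cj (D X Y f) t = cj (0 : X.X ⟶ Y.X) t := by rw [hf]
  have h2 := LinearMap.congr_fun h1 x
  simp only [D_apply, hb, cj_sub, cj_comp, cj_zero, LinearMap.sub_apply, LinearMap.add_apply,
    LinearMap.comp_apply, LinearMap.zero_apply, Y.dW, add_zero] at h2
  rw [hx, map_zero, zero_add] at h2
  exact sub_eq_zero.1 h2

end functor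

/-! ### Rigid objects and the position operator -/

/-- cocycles are coboundaries if `hT X Y = 0` -/
theorem exact_of_hT {X Y : TOb G k} (h : hT X Y = 0) {f : X.X ⟶ Y.X} (hf : f ∈ Cs X.X Y.X)
    (hD : D X Y f = 0) : ∃ K ∈ Cs X.X Y.X, D X Y K = f := by
  have h1 := hd_add_range (D := DC X Y) DC_DC
  have h2 : hd (DC X Y) = 0 := h
  have h3 : LinearMap.range (DC X Y) = LinearMap.ker (DC X Y) :=
    Submodule.eq_of_le_of_finrank_eq (range_le_ker DC_DC) (by omega)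
  have h4 : (⟨f, hf⟩ : Cs X.X Y.X) ∈ LinearMap.ker (DC X Y) := Subtype.ext hD
  rw [← h3] at h4
  obtain ⟨K, hK⟩ := h4
  exact ⟨K.1, K.2, congrArg Subtype.val hK⟩

/-- `p` is a position operator of `X`. -/
structure Eul (X : TOb G k) (p : X.X ⟶ X.X) : Prop where
  mem : p ∈ Cs X.X X.X
  bar : bar p = p
  D : D X X p = L X.d - X.d

theorem exists_eul (h2 : (2 : k) ≠ 0) (X : TOb G k) (h : hT X X = 0) : ∃ p, Eul X p := by
  have hmem : L X.d - X.d ∈ Cs X.X X.X := by intro t; simp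
  have hbar : bar (L X.d - X.d) = -(L X.d - X.d) := by simp; abel
  have hcl : D X X (L X.d - X.d) = 0 := by
    have h1 : L X.d ≫ X.d + X.d ≫ L X.d = 0 := by rw [← L_comp, X.dd, map_zero]
    rw [D_apply, hbar]
    simp only [Preadditive.sub_comp, Preadditive.comp_neg, Preadditive.comp_sub, X.dd, sub_zero]
    rw [sub_neg_eq_add]
    exact h1
  obtain ⟨K, hK, hDK⟩ := exact_of_hT h hmem hcl
  refine ⟨(2 : k)⁻¹ • (K + bar K), ?_, ?_, ?_⟩
  · exact Submodule.smul_mem _ _ (Submodule.add_mem _ hK (bar_mem_Cs hK))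
  · rw [bar_smul, bar_add, bar_bar, add_comm]
  · have h3 : D X X (bar K) = L X.d - X.d := by
      have := bar_D (X := X) (Y := X) K
      rw [hDK, hbar, neg_inj] at this
      exact this.symm
    rw [map_smul, map_add, hDK, h3, ← two_smul k, smul_smul, inv_mul_cancel₀ h2, one_smul]

section eulc
variable {X : TOb G k} {p : X.X ⟶ X.X} (hp : Eul X p)
include hp

theorem Eul.c0 (t : T) (x : X.X.V t) :
    c0 X.d t (c0 p t x) = c0 p t (c0 X.d t x) - c0 X.d t x := by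
  have h1 : PTA.c0 (PTA.D X X p) t = PTA.c0 (L X.d - X.d) t := by rw [hp.D]
  have h2 := LinearMap.congr_fun h1 x
  simp only [D_apply, hp.bar, c0_sub, c0_comp, c0_L, LinearMap.sub_apply, LinearMap.comp_apply,
    LinearMap.zero_apply] at h2
  rw [sub_eq_iff_eq_add] at h2
  rw [h2]; abel

theorem Eul.c1 {s t : T} (a : G.E s t) (x : X.X.V s) :
    c1 X.d a (PTA.c0 p s x) + PTA.c0 X.d t (PTA.c1 p a x) =
      PTA.c1 p a (PTA.c0 X.d s x) + PTA.c0 p t (PTA.c1 X.d a x) := by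
  have h1 : PTA.c1 (PTA.D X X p) a = PTA.c1 (L X.d - X.d) a := by rw [hp.D]
  have h2 := LinearMap.congr_fun h1 x
  simp only [D_apply, hp.bar, c1_sub, c1_comp, c1_L, LinearMap.sub_apply, LinearMap.add_apply,
    LinearMap.comp_apply, sub_self] at h2
  exact sub_eq_zero.1 h2

theorem Eul.ci (t : T) (w : X.X.W t) :
    PTA.c0 X.d t (PTA.ci p t w) = PTA.c0 p t (PTA.ci X.d t w) := by
  have h1 : PTA.ci (PTA.D X X p) t = PTA.ci (L X.d - X.d) t := by rw [hp.D]
  have h2 := LinearMap.congr_fun h1 w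
  have h3 : PTA.cW p t = 0 := hp.mem t
  simp only [D_apply, hp.bar, ci_sub, ci_comp, ci_L, LinearMap.sub_apply, LinearMap.add_apply,
    LinearMap.comp_apply, sub_self, X.dW, h3, LinearMap.zero_apply, map_zero, zero_add] at h2
  exact sub_eq_zero.1 h2

theorem Eul.cj (t : T) (x : X.X.V t) :
    PTA.cj X.d t (PTA.c0 p t x) = PTA.cj p t (PTA.c0 X.d t x) := by
  have h1 : PTA.cj (PTA.D X X p) t = PTA.cj (L X.d - X.d) t := by rw [hp.D]
  have h2 := LinearMap.congr_fun h1 x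
  have h3 : PTA.cW p t = 0 := hp.mem t
  simp only [D_apply, hp.bar, cj_sub, cj_comp, cj_L, LinearMap.sub_apply, LinearMap.add_apply,
    LinearMap.comp_apply, sub_self, X.dW, h3, LinearMap.zero_apply, map_zero, add_zero] at h2
  exact sub_eq_zero.1 h2

theorem Eul.c2 (t : T) (x : X.X.V t) :
    PTA.c2 X.d t (PTA.c0 p t x) + PTA.c0 X.d t (PTA.c2 p t x) +
      (∑ s, ∑ a : G.E t s, PTA.c1 X.d (G.rev a) (PTA.c1 p a x)) + PTA.ci X.d t (PTA.cj p t x) =
    PTA.c2 p t (PTA.c0 X.d t x) + PTA.c0 p t (PTA.c2 X.d t x) +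
      (∑ s, ∑ a : G.E t s, PTA.c1 p (G.rev a) (PTA.c1 X.d a x)) + PTA.ci p t (PTA.cj X.d t x) +
      PTA.c2 X.d t x := by
  have h1 : PTA.c2 (PTA.D X X p) t = PTA.c2 (L X.d - X.d) t := by rw [hp.D]
  have h2 := LinearMap.congr_fun h1 x
  simp only [D_apply, hp.bar, c2_sub, c2_comp, c2_L, LinearMap.sub_apply, LinearMap.add_apply,
    LinearMap.comp_apply, LinearMap.sum_apply, two_smul, add_sub_cancel_right] at h2
  rw [sub_eq_iff_eq_add] at h2
  rw [h2]; abel

/-- the position operator on homology -/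
def Hp (t : T) : Hv X t →ₗ[k] Hv X t :=
  mapG (PTA.c0 p t) (fun x hx => by rw [hp.c0, hx, map_zero, sub_zero])
    (fun y => ⟨PTA.c0 p t y + y, by rw [map_add, hp.c0]; abel⟩)

@[simp] theorem Hp_mk (t : T) (x : X.X.V t) (hx : PTA.c0 X.d t x = 0) :
    Hp hp t (mk X t x hx) = mk X t (PTA.c0 p t x)
      (by rw [hp.c0, hx, map_zero, sub_zero]) := rfl

theorem Hp_HB {s t : T} (a : G.E s t) (ξ : Hv X s) :
    Hp hp t (HB X a ξ) = HB X a (Hp hp s ξ) := by
  obtain ⟨x, hx, rfl⟩ := mk_surj X ξ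
  rw [HB_mk, Hp_mk, Hp_mk, HB_mk, mk_eq_iff]
  refine ⟨PTA.c1 p a x, ?_⟩
  have h := hp.c1 a x
  rw [hx, map_zero, zero_add] at h
  rw [← h]; abel

theorem Hp_Hi (t : T) (w : X.X.W t) : Hp hp t (Hi X t w) = 0 := by
  rw [Hi_apply, Hp_mk, mk_eq_zero]
  exact ⟨_, hp.ci t w⟩

theorem Hj_Hp (t : T) (ξ : Hv X t) : Hj X t (Hp hp t ξ) = 0 := by
  obtain ⟨x, hx, rfl⟩ := mk_surj X ξ
  rw [Hp_mk, Hj_mk, hp.cj, hx, map_zero]

end eulc

/-- **Naturality** of the position operator (hence uniqueness and invariance). -/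
theorem eul_nat {X Y : TOb G k} {p : X.X ⟶ X.X} {q : Y.X ⟶ Y.X} (hp : Eul X p) (hq : Eul Y q)
    (h : hT X Y = 0) {f : X.X ⟶ Y.X} (hf : D X Y f = 0) (hb : bar f = f) (t : T)
    (ξ : Hv X t) : Hmap f hf t (Hp hp t ξ) = Hp hq t (Hmap f hf t ξ) := by
  have hmem : p ≫ f - f ≫ q - L f ∈ Cs X.X Y.X := by
    refine Submodule.sub_mem _ (Submodule.sub_mem _ (Cs_comp_right hp.mem f)
      (Cs_comp_left f hq.mem)) ?_
    intro t; simp
  have hcl : D X Y (p ≫ f - f ≫ q - L f) = 0 := by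
    have e1 : D X Y f = f ≫ Y.d - X.d ≫ f := by rw [D_apply, hb]
    have e2 : f ≫ Y.d - X.d ≫ f = 0 := by rw [← e1, hf]
    rw [map_sub, map_sub, D_comp, D_comp, D_L, hf, hb, hp.D, hq.D]
    simp only [map_zero, Limits.comp_zero, Limits.zero_comp, zero_add, add_zero, zero_sub,
      Preadditive.comp_sub, Preadditive.sub_comp]
    rw [← e2]
    abel
  obtain ⟨K, -, hK⟩ := exact_of_hT h hmem hcl
  obtain ⟨x, hx, rfl⟩ := mk_surj X ξ
  rw [Hp_mk, Hmap_mk, Hmap_mk, Hp_mk, mk_eq_iff]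
  refine ⟨c0 K t x, ?_⟩
  have h1 : c0 (D X Y K) t = c0 (p ≫ f - f ≫ q - L f) t := by rw [hK]
  have h2 := LinearMap.congr_fun h1 x
  simp only [D_apply, c0_sub, c0_comp, c0_L, LinearMap.sub_apply, LinearMap.comp_apply,
    LinearMap.zero_apply, sub_zero] at h2
  rw [hx, map_zero, sub_zero] at h2
  exact h2

theorem eul_unique {X : TOb G k} {p q : X.X ⟶ X.X} (hp : Eul X p) (hq : Eul X q)
    (h : hT X X = 0) (t : T) (ξ : Hv X t) : Hp hp t ξ = Hp hq t ξ := by
  have := eul_nat hp hq h (f := 𝟙 X.X) D_id bar_id t ξ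
  rwa [Hmap_id, Hmap_id] at this

end Crest.Agent.R175.PTH
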