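import Crest.Agent.R175.PTM_450
import Crest.Agent.R175.PTH_175
import Crest.Agent.R175.FrmHd_988

/-!
Row 175 (S0263), task 512 (helper184): the Euler inequality, without parity and without positions.

For all T-framed objects `X Y`, with `d_t = dim H(V_t, d₀)` and `λ_t = dim W_t`,

  `∑_{s,t} #E(s,t) d_s(X) d_t(Y) + ∑_t λ_t(X) d_t(Y) + ∑_t d_t(X) λ_t(Y)`
    `≤ hT X Y + 2 ∑_t d_t(X) d_t(Y)`.

Proof: pass to minimal models; there the differential raises the length, so its rank is at most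
`dim (length 0) + dim (length 2)`.
-/

set_option autoImplicit false
set_option linter.unusedSectionVars false

open CategoryTheory Crest.Agent.R175.PTA Crest.Agent.R175.PTH

namespace Crest.Agent.R175.Euler_184

universe u v

variable {T : Type u} {k : Type v} [Field k] [Fintype T] {G : MG T}

/-! ### Minimal objects -/

/-- the length 0 part, as a linear map -/
def P0 (X Y : Gob G k) : Cp X Y →ₗ[k] (∀ t, X.V t →ₗ[k] Y.V t) where
  toFun f := Cp.f0 f
  map_add' _ _ := rfl
  map_smul' _ _ := rfl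

/-- the length 2 part, as a linear map -/
def P2 (X Y : Gob G k) : Cp X Y →ₗ[k] (∀ t, X.V t →ₗ[k] Y.V t) where
  toFun f := Cp.f2 f
  map_add' _ _ := rfl
  map_smul' _ _ := rfl

theorem ker_le (X Y : FObj G k) :
    LinearMap.ker ((P0 X.X Y.X).prod (P2 X.X Y.X ∘ₗ FD X Y)) ≤ LinearMap.ker (FD X Y) := by
  intro f hf
  obtain ⟨h0, h2⟩ : P0 X.X Y.X f = 0 ∧ P2 X.X Y.X (FD X Y f) = 0 :=
    Prod.mk_eq_zero.1 (LinearMap.mem_ker.1 hf)
  have h0' : ∀ t, Cp.f0 f t = 0 := fun t => congrFun h0 t
  have h2' : ∀ t, Cp.f2 (FD X Y f) t = 0 := fun t => congrFun h2 t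
  rw [LinearMap.mem_ker]
  apply Cp.ext'
  · intro t; rw [f0_FD]; rfl
  · intro s t a; rw [f1_FD, h0', h0']; simp
  · intro t; rw [fi_FD, h0']; simp
  · intro t; rw [fj_FD, h0']; simp
  · intro t; rw [h2']; rfl

theorem finrank_lin (X Y : Gob G k) : Module.finrank k (∀ t, X.V t →ₗ[k] Y.V t) =
    ∑ t, Module.finrank k (X.V t) * Module.finrank k (Y.V t) := by
  rw [Module.finrank_pi_fintype]
  exact Finset.sum_congr rfl fun t _ => Module.finrank_linearMap k k _ _

theorem finrank_Cp (X Y : Gob G k) : Module.finrank k (Cp X Y) =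
    2 * (∑ t, Module.finrank k (X.V t) * Module.finrank k (Y.V t)) +
    ((∑ s, ∑ t, Fintype.card (G.E s t) * (Module.finrank k (X.V s) * Module.finrank k (Y.V t))) +
      (∑ t, Module.finrank k (X.W t) * Module.finrank k (Y.V t)) +
      ∑ t, Module.finrank k (X.V t) * Module.finrank k (Y.W t)) := by
  have e : Module.finrank k (Cp X Y) = Module.finrank k
    ((∀ t, X.V t →ₗ[k] Y.V t) × (∀ s t, G.E s t → (X.V s →ₗ[k] Y.V t)) ×
      (∀ t, X.W t →ₗ[k] Y.V t) × (∀ t, X.V t →ₗ[k] Y.W t) × (∀ t, X.V t →ₗ[k] Y.V t)) := rfl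
  have h1 : Module.finrank k (∀ s t, G.E s t → (X.V s →ₗ[k] Y.V t)) =
      ∑ s, ∑ t, Fintype.card (G.E s t) *
        (Module.finrank k (X.V s) * Module.finrank k (Y.V t)) := by
    rw [Module.finrank_pi_fintype]
    refine Finset.sum_congr rfl fun s _ => ?_
    rw [Module.finrank_pi_fintype]
    refine Finset.sum_congr rfl fun t _ => ?_
    rw [Module.finrank_pi_fintype, Finset.sum_const, Finset.card_univ, smul_eq_mul,
      Module.finrank_linearMap]
  have h2 : Module.finrank k (∀ t, X.W t →ₗ[k] Y.V t) =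
      ∑ t, Module.finrank k (X.W t) * Module.finrank k (Y.V t) := by
    rw [Module.finrank_pi_fintype]
    exact Finset.sum_congr rfl fun t _ => Module.finrank_linearMap k k _ _
  have h3 : Module.finrank k (∀ t, X.V t →ₗ[k] Y.W t) =
      ∑ t, Module.finrank k (X.V t) * Module.finrank k (Y.W t) := by
    rw [Module.finrank_pi_fintype]
    exact Finset.sum_congr rfl fun t _ => Module.finrank_linearMap k k _ _
  rw [e, Module.finrank_prod, Module.finrank_prod, Module.finrank_prod, Module.finrank_prod,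
    h1, h2, h3, finrank_lin]
  omega

/-- the Euler inequality for minimal objects -/
theorem eulerF (X Y : FObj G k) :
    (∑ s, ∑ t, Fintype.card (G.E s t) *
        (Module.finrank k (X.X.V s) * Module.finrank k (Y.X.V t))) +
      (∑ t, Module.finrank k (X.X.W t) * Module.finrank k (Y.X.V t)) +
      (∑ t, Module.finrank k (X.X.V t) * Module.finrank k (Y.X.W t)) ≤
    hT X.toTOb Y.toTOb +
      2 * ∑ t, Module.finrank k (X.X.V t) * Module.finrank k (Y.X.V t) := by
  rw [hT_eq_FD]
  have h1 := hd_add_two_range (D := FD X Y) (FD_FD X Y)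
  have h2 := LinearMap.finrank_range_add_finrank_ker (FD X Y)
  have h3 := LinearMap.finrank_range_add_finrank_ker
    ((P0 X.X Y.X).prod (P2 X.X Y.X ∘ₗ FD X Y))
  have h4 := Submodule.finrank_mono (ker_le X Y)
  have h5 := Submodule.finrank_le (LinearMap.range ((P0 X.X Y.X).prod (P2 X.X Y.X ∘ₗ FD X Y)))
  rw [Module.finrank_prod, finrank_lin] at h5
  have h6 := finrank_Cp X.X Y.X
  omega

/-! ### All objects -/

theorem finrank_Hv (X : TOb G k) (t : T) : Module.finrank k (Hv X t) = hd (c0 X.d t) := by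
  have h1 : Module.finrank k (Hv X t) = Module.finrank k (LinearMap.ker (c0 X.d t) ⧸ bdr X t) :=
    rfl
  have h2 := Submodule.finrank_quotient_add_finrank (bdr X t)
  have h3 : LinearMap.range (c0 X.d t) ≤ LinearMap.ker (c0 X.d t) :=
    range_le_ker fun x => dd0 X t x
  have h4 : Module.finrank k (bdr X t) = Module.finrank k (LinearMap.range (c0 X.d t)) :=
    (Submodule.comapSubtypeEquivOfLe h3).finrank_eq
  rw [h1, hd]
  omega

/-- `dim H(V_t, d₀)` is the multiplicity `dT X t`. -/
theorem finrank_Hv_dT [DecidableEq T] (X : TOb G k) (t : T) :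
    Module.finrank k (Hv X t) = dT X t := by
  rw [finrank_Hv, Res_988.dT_hd]

theorem finrank_Hv_F (F : FObj G k) (t : T) :
    Module.finrank k (Hv F.toTOb t) = Module.finrank k (F.X.V t) := by
  rw [finrank_Hv, FObj.c0_dm, hd_zero]

theorem finrank_Hv_iso {X Y : TOb G k} (h : HIso X Y) (t : T) :
    Module.finrank k (Hv X t) = Module.finrank k (Hv Y t) := by
  classical
  rw [finrank_Hv_dT, finrank_Hv_dT, h.dT_eq t]

/-- **Euler inequality** for all T-framed objects. -/
theorem euler (h2 : (2 : k) ≠ 0) (X Y : TOb G k) :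
    (∑ s, ∑ t, Fintype.card (G.E s t) *
        (Module.finrank k (Hv X s) * Module.finrank k (Hv Y t))) +
      (∑ t, lam X t * Module.finrank k (Hv Y t)) +
      (∑ t, Module.finrank k (Hv X t) * lam Y t) ≤
    hT X Y + 2 * ∑ t, Module.finrank k (Hv X t) * Module.finrank k (Hv Y t) := by
  obtain ⟨F, hF⟩ := exists_min h2 X
  obtain ⟨F', hF'⟩ := exists_min h2 Y
  have e := eulerF F F'
  rw [← hF.hT_left, ← hF'.hT_right] at e
  simp only [finrank_Hv_iso hF, finrank_Hv_iso hF', finrank_Hv_F, hF.lam_eq, hF'.lam_eq]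
  exact e

/-- helper4's form: a rigid object satisfies `∑_t d_t (∑_u #E(t,u) d_u + 2 λ_t - 2 d_t) ≤ 0`. -/
theorem euler_rigid (h2 : (2 : k) ≠ 0) (X : TOb G k) (h : hT X X = 0) :
    ∑ t, (Module.finrank k (Hv X t) : ℤ) *
      ((∑ u, (Fintype.card (G.E t u) : ℤ) * (Module.finrank k (Hv X u) : ℤ)) +
        2 * (lam X t : ℤ) - 2 * (Module.finrank k (Hv X t) : ℤ)) ≤ 0 := by
  have e := euler h2 X X
  rw [h, zero_add] at e
  have e' : ((∑ s, ∑ t, Fintype.card (G.E s t) *
        (Module.finrank k (Hv X s) * Module.finrank k (Hv X t))) : ℤ) +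
      (∑ t, lam X t * Module.finrank k (Hv X t)) +
      (∑ t, Module.finrank k (Hv X t) * lam X t) ≤
    2 * ∑ t, (Module.finrank k (Hv X t) : ℤ) * Module.finrank k (Hv X t) := by
    exact_mod_cast e
  have e3 : ∑ t, (Module.finrank k (Hv X t) : ℤ) *
      ((∑ u, (Fintype.card (G.E t u) : ℤ) * (Module.finrank k (Hv X u) : ℤ)) +
        2 * (lam X t : ℤ) - 2 * (Module.finrank k (Hv X t) : ℤ)) =
      ((∑ s, ∑ t, Fintype.card (G.E s t) *
        (Module.finrank k (Hv X s) * Module.finrank k (Hv X t))) : ℤ) +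
      (∑ t, (lam X t : ℤ) * Module.finrank k (Hv X t)) +
      (∑ t, (Module.finrank k (Hv X t) : ℤ) * lam X t) -
      2 * ∑ t, (Module.finrank k (Hv X t) : ℤ) * Module.finrank k (Hv X t) := by
    rw [Finset.mul_sum, ← Finset.sum_add_distrib, ← Finset.sum_add_distrib,
      ← Finset.sum_sub_distrib]
    refine Finset.sum_congr rfl fun t _ => ?_
    rw [mul_sub, mul_add, Finset.mul_sum]
    have : ∑ u, (Module.finrank k (Hv X t) : ℤ) *
        ((Fintype.card (G.E t u) : ℤ) * (Module.finrank k (Hv X u) : ℤ)) =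
        ∑ u, (Fintype.card (G.E t u) : ℤ) *
        ((Module.finrank k (Hv X t) : ℤ) * (Module.finrank k (Hv X u) : ℤ)) :=
      Finset.sum_congr rfl fun u _ => by ring
    rw [this]
    ring
  rw [e3]
  linarith

end Crest.Agent.R175.Euler_184
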