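import Crest.Agent.R175.TUhT_988
import Crest.Agent.R175.FrmHd_988

/-!
Row 175: frames and `dT` outside of `U` under the twists `TU`, `TV` of `TU_788`.
-/

set_option autoImplicit false
set_option linter.unusedSectionVars false

open CategoryTheory

namespace Crest.Agent.R175.TUh_988

open Crest.Agent.R175.PTA Crest.Agent.R175.TwG_253 Crest.Agent.R175.TU_788
open Crest.Agent.R175.TwA_253 (Tw Sum2 Sph Tm Tm')

universe v

noncomputable section

variable {T : Type v} {G : MG T} {k : Type v} [Field k] [Fintype T]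

theorem zero_gen (F : Sph (Gob G k)) (X : TOb G k) (S : Sum2 (F.Q (toTw X).X) (toTw X).X)
    (h : 𝟙 (F.Q X.X) = 0) : TwA_253.HEq (TwA_253.T F (toTw X) S) (toTw X) :=
  (TwS_83.ofZero (F := F) (X := toTw X) S h).heq

theorem zero_gen' (F : Sph (Gob G k)) (X : TOb G k) (S : Sum2 (toTw X).X (F.Q (toTw X).X))
    (h : 𝟙 (F.Q X.X) = 0) : TwA_253.HEq (TwA_253.T' F (toTw X) S) (toTw X) :=
  (TwS_83.ofZero' (F := F) (X := toTw X) S h).heq

variable (U : T → Prop) (hU : ∀ s t, U s → U t → IsEmpty (G.E s t))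

/-- `TU X ≅ X` if `Q_U X = 0` -/
theorem TU_of_zero (X : TOb G k) (h : 𝟙 (QG U X.X) = 0) : HIso (TU U hU X) X :=
  hiso_of_heq' ((heq_TU U hU X).trans (zero_gen (sphG U hU) X _ h))

/-- `TV X ≅ X` if `Q_U X = 0` -/
theorem TV_of_zero (X : TOb G k) (h : 𝟙 (QG U X.X) = 0) : HIso (TV U hU X) X :=
  hiso_of_heq' ((heq_TV U hU X).trans (zero_gen' (sphG U hU) X _ h))

section frm

variable [DecidableEq T] {t : T} (ht : ¬ U t)

include ht

/-- **`TU (frm t) ≅ frm t`** for `t` outside of `U` -/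
theorem TU_frm : HIso (TU U hU (frm G k t)) (frm G k t) :=
  TU_of_zero U hU _ (TwV_83.Qfrm_zero ht)

/-- **`TV (frm t) ≅ frm t`** for `t` outside of `U` -/
theorem TV_frm : HIso (TV U hU (frm G k t)) (frm G k t) :=
  TV_of_zero U hU _ (TwV_83.Qfrm_zero ht)

/-- **`dT (TU X) t = dT X t`** for `t` outside of `U` -/
theorem dT_TU (X : TOb G k) : dT (TU U hU X) t = dT X t := by
  rw [dT, dT, ← hT_TU U hU X (frm G k t)]
  exact ((TU_frm U hU ht).hT_right _).symm

/-- **`dT (TV X) t = dT X t`** for `t` outside of `U` -/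
theorem dT_TV (X : TOb G k) : dT (TV U hU X) t = dT X t := by
  rw [dT, dT, ← hT_TV U hU X (frm G k t)]
  exact ((TV_frm U hU ht).hT_right _).symm

end frm

end

end Crest.Agent.R175.TUh_988
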