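import Crest.Agent.R175.TwQ_250
import Crest.Agent.R175.TwV_83
import Crest.Agent.R175.TUadd_61
import Crest.Agent.R175.TUhF_988
import Crest.Agent.R175.Act2_732
import Crest.Agent.R175.Cls_133

/-!
helper250: `T_{U₁ ⊔ U₂} ≅ T_{U₂} T_{U₁}` for `TU` on `TOb`, and the product over a fibre.
-/

set_option autoImplicit false
set_option linter.unusedSectionVars false

open CategoryTheory

namespace Crest.Agent.R175.TwQ_250

section abs
open TwA_253 TwS_83 TwD_250 TwB_250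
universe v u

variable {C : Type u} [Category.{v} C] [Preadditive C] [BP C]

theorem split_isT {F F₁ F₂ : Sph C} (P : Split F F₁ F₂) {X Y Y₁ Y₂ : Tw C}
    (h : 𝟙 (F₂.Q (F₁.Q X.X)) = 0)
    (g : IsT F X Y) (h₁ : IsT F₁ X Y₁) (h₂ : IsT F₂ Y₁ Y₂) : TwA_253.HEq Y Y₂ := by
  obtain ⟨i⟩ := h₂.tq (h₁.tq ⟨SI.refl X⟩)
  obtain ⟨j⟩ := g.tq ⟨SI.refl X⟩
  exact j.heq.trans ((P.T_split (s2 _ _) (s2 _ _) (s2 _ _) h).heq.trans i.heq.symm)

end abs

open PTA TwG_253 TU_788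
open TwA_253 (Tw Sum2 Sph)
open TwS_83 (SI)

universe v

noncomputable section

variable {T : Type v} {G : MG T} {k : Type v} [Field k] [Fintype T]

/-- `T_{U₁ ⊔ U₂} = T_{U₂} T_{U₁}` -/
theorem TU_split {U U₁ U₂ : T → Prop} (hU : ∀ s t, U s → U t → IsEmpty (G.E s t))
    (hU₁ : ∀ s t, U₁ s → U₁ t → IsEmpty (G.E s t)) (hU₂ : ∀ s t, U₂ s → U₂ t → IsEmpty (G.E s t))
    (h : ∀ t, U t ↔ U₁ t ∨ U₂ t) (hd : ∀ t, U₁ t → ¬ U₂ t) (X : TOb G k) :
    HIso (TU U hU X) (TU U₂ hU₂ (TU U₁ hU₁ X)) := by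
  have hz : 𝟙 (QG U₂ (QG U₁ X.X)) = 0 :=
    TwV_83.QQ_zero (fun t h2 h1 => hd t h1 h2)
      (fun t s h2 h1 => hU t s ((h t).2 (Or.inr h2)) ((h s).2 (Or.inl h1)))
  have hz' : 𝟙 ((sphG U₂ hU₂).Q ((sphG U₁ hU₁).Q (toTw X).X)) = 0 := by
    dsimp only [sphG]
    exact hz
  have P : TwS_83.Split (sphG (k := k) U hU) (sphG U₁ hU₁) (sphG U₂ hU₂) :=
    TwV_83.splitG h hd _ _ _ rfl rfl rfl (fun _ => HEq.rfl) (fun _ => HEq.rfl)
      (fun _ => HEq.rfl) (fun _ => HEq.rfl) (fun _ => HEq.rfl) (fun _ => HEq.rfl)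
  exact hiso_of_heq (split_isT P hz' (isT_TU U hU X) (isT_TU U₁ hU₁ X) (isT_TU U₂ hU₂ _))

/-! ### the product over a fibre of the unfolded graph -/

section fibre

open Crest.GroupTheory Crest.Agent.R175.Cls_133 Crest.Agent.R175.UG_27
open Crest.Agent.R175.Unf_109 Crest.Agent.R175.Act2_732

variable {S : Type} [Fintype S] {M : CoxeterMatrix S} {Λ : Finset ℕ} {k : Type} [Field k]

/-- part of a fibre -/
def fib (s : S) (l : List (J Λ)) : S × J Λ → Prop := fun a => a.1 = s ∧ a.2 ∈ l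

theorem fib_ok (s : S) (l : List (J Λ)) (a b : S × J Λ) (ha : fib s l a) (hb : fib s l b) :
    IsEmpty ((UG M Λ).E a b) := isEmpty_fibre (ha.1.trans hb.1.symm)

theorem TU_list (P : Twc (UG M Λ) (Cls (UG M Λ) k))
    (hP : ∀ v X, P.p v (⟦X⟧ : Cls (UG M Λ) k) = ⟦TU (fun r => r = v) TwM_250.sing X⟧)
    (s : S) (l : List (J Λ)) (hl : l.Nodup) (X : TOb (UG M Λ) k) :
    l.foldr (fun i y => P.p (s, i) y) (⟦X⟧ : Cls (UG M Λ) k) =
      ⟦TU (fib s l) (fib_ok s l) X⟧ := by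
  induction l with
  | nil =>
    rw [List.foldr_nil]
    refine (mk_eq.2 ?_).symm
    apply TUh_988.TU_of_zero
    exact TwV_83.QG_zero fun t h => absurd h.2 (List.not_mem_nil)
  | cons i l ih =>
    rw [List.foldr_cons, ih (List.nodup_cons.1 hl).2, hP]
    refine (mk_eq.2 ?_).symm
    refine TU_split _ _ _ (fun t => ?_) (fun t h1 h2 => ?_) X
    · constructor
      · rintro ⟨h1, h2⟩
        rcases List.mem_cons.1 h2 with h | h
        · exact Or.inr (Prod.ext h1 h)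
        · exact Or.inl ⟨h1, h⟩
      · rintro (⟨h1, h2⟩ | h)
        · exact ⟨h1, List.mem_cons_of_mem _ h2⟩
        · exact ⟨congrArg Prod.fst h, List.mem_cons.2 (Or.inl (congrArg Prod.snd h))⟩
    · apply (List.nodup_cons.1 hl).1
      rw [h2] at h1
      exact h1.2

theorem TU_congr {U V : S × J Λ → Prop} (h : U = V) (hU : ∀ a b, U a → U b → IsEmpty ((UG M Λ).E a b))
    (hV : ∀ a b, V a → V b → IsEmpty ((UG M Λ).E a b)) (X : TOb (UG M Λ) k) :
    TU U hU X = TU V hV X := by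
  subst h; rfl

/-- **the generator `s` of `ArtinGroup M` acts by the twist along the whole fibre** -/
theorem unf_mk (P : Twc (UG M Λ) (Cls (UG M Λ) k))
    (hP : ∀ v X, P.p v (⟦X⟧ : Cls (UG M Λ) k) = ⟦TU (fun r => r = v) TwM_250.sing X⟧)
    (hΛ : Good M Λ) (s : S) (hU : ∀ a b : S × J Λ, a.1 = s → b.1 = s → IsEmpty ((UG M Λ).E a b))
    (X : TOb (UG M Λ) k) :
    P.unf hΛ (artinGen M s) (⟦X⟧ : Cls (UG M Λ) k) = ⟦TU (fun a => a.1 = s) hU X⟧ := by
  rw [P.unf_gen_apply hΛ s Finset.univ.toList (Finset.nodup_toList _) (fun i => by simp),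
    TU_list P hP s _ (Finset.nodup_toList _)]
  congr 1
  apply TU_congr
  funext a
  simp [fib]

end fibre

end

end Crest.Agent.R175.TwQ_250
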