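import Crest.Agent.R175.FTU_131
import Crest.Agent.R175.ActC_788
import Crest.Agent.R175.TwR_250

/-!
Row 175: the field `hF` of `ActC_788.actI`.
-/

set_option autoImplicit false
set_option linter.unusedSectionVars false
set_option linter.unusedVariables false

open CategoryTheory
open scoped Classical

namespace Crest.Agent.R175.FTU_131

open Crest.GroupTheory Crest.Agent.R175.PTA Crest.Agent.R175.Cls_133 Crest.Agent.R175.UG_27
open Crest.Agent.R175.Unf_109 Crest.Agent.R175.FmCls_303 Crest.Agent.R175.LevC_788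
open Crest.Agent.R175.TU_788 Crest.Agent.R175.ActC_788 Crest.Agent.R175.Fm_27
open Crest.Agent.R175.Lev_788 Crest.Agent.R175.Act2_732

variable {S : Type} [Fintype S] {M : CoxeterMatrix S} {Λ : Finset ℕ}

/-- `F_m (T_s X) ≅ T_s (F_m X)` on classes -/
theorem FmC_TF (h4 : ∀ m ∈ Λ, 4 ≤ m) {m : ℕ} (hm : m ∈ Λ) (s : S) (X : TOb (UG M Λ) ℂ) :
    FmC M h4 hm (⟦TF M Λ s X⟧ : Cls (UG M Λ) ℂ) =
      ⟦TF M Λ s ((Fm M (algebraMap ℝ ℂ) hm ((by norm_num : 2 ≤ 4).trans (h4 m hm))).toFDat.tob X)⟧ :=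
  Quotient.sound (tob_TU (Fm M (algebraMap ℝ ℂ) hm ((by norm_num : 2 ≤ 4).trans (h4 m hm)))
    (fun a : S × J Λ => a.1 = s) (fib_hU M Λ s)
    (fun a b (h : NF Λ m a b) ha => h.1.symm.trans ha) X)

/-- **the field `hF`** -/
theorem hF (hΛ : Good M Λ) (P : Twc (UG M Λ) (Cls (UG M Λ) ℂ))
    (gen : ∀ (s : S) (X : TOb (UG M Λ) ℂ),
      P.unf hΛ (artinGen M s) (⟦X⟧ : Cls (UG M Λ) ℂ) = ⟦TF M Λ s X⟧)
    (m : ℕ) (hm : m ∈ Λ) (s : S) (X : TOb (UG M Λ) ℂ) :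
    FmC M hΛ.four hm (⟦TF M Λ s X⟧ : Cls (UG M Λ) ℂ)
      = P.unf hΛ (artinGen M s) (FmC M hΛ.four hm (⟦X⟧ : Cls (UG M Λ) ℂ)) :=
  (FmC_TF hΛ.four hm s X).trans (gen s _).symm

end Crest.Agent.R175.FTU_131
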