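import Crest.Agent.R175.TUh_988
import Crest.Agent.R175.FmU_83

/-!
Row 175: the matrix functors `Φ : ADat G k` commute with the twists `TU_788.TU U hU` on objects, for a
set `U` which is stable under `N`.
-/

set_option autoImplicit false
set_option linter.unusedSectionVars false

open CategoryTheory

namespace Crest.Agent.R175.FTU_131

open Crest.Agent.R175.PTA Crest.Agent.R175.TwG_253 Crest.Agent.R175.TU_788
open Crest.Agent.R175.TUh_988 Crest.Agent.R175.Fm_27
open Crest.Agent.R175.TwA_253 (Tw Sum2 Sph)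
open Crest.Agent.R175.TwS_83 (SI)

noncomputable section

variable {T : Type} {G : MG T} {k : Type} [Field k] [Fintype T]

/-- `Φ` on the abstract object of `X` -/
theorem toTw_tob (Φ : ADat G k) (X : TOb G k) :
    toTw (Φ.toFDat.tob X) = (FmU_83.addF Φ).tw (toTw X) := by
  have h : Φ.hom (gam X.X) = gam (Φ.toFDat.ob X.X) := Φ.toFDat.hom_gam X.X
  unfold toTw FmT_83.AddF.tw
  congr 1
  exact h.symm

/-- general step -/
theorem gen5 (F : Sph (Gob G k)) (Φ : FmT_83.AddF (Gob G k) (Gob G k))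
    (P : FmT_83.TwComm Φ F F) (A : Tw (Gob G k)) (S : Sum2 (F.Q A.X) A.X)
    (B : Tw (Gob G k)) (hB : B = Φ.tw A) (R : Sum2 (F.Q B.X) B.X)
    (C : Tw (Gob G k)) (hC : TwA_253.HEq C (TwA_253.T F A S)) :
    TwA_253.HEq (Φ.tw C) (TwA_253.T F B R) := by
  subst hB
  exact (Φ.heq hC).trans (P.si S R).heq

/-- **`Φ (T_U X) ≅ T_U (Φ X)`** -/
theorem tob_TU (Φ : ADat G k) (U : T → Prop) (hU : ∀ s t, U s → U t → IsEmpty (G.E s t))
    (hN : ∀ a b, Φ.N a b → U a → U b) (X : TOb G k) :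
    HIso (Φ.toFDat.tob (TU U hU X)) (TU U hU (Φ.toFDat.tob X)) := by
  have h1 : TwA_253.HEq (toTw (Φ.toFDat.tob (TU U hU X)))
      ((FmU_83.addF Φ).tw (toTw (TU U hU X))) := by
    rw [toTw_tob]
    exact TwA_253.HEq.refl _
  have h2 := gen5 (sphG U hU) (FmU_83.addF Φ) (FmU_83.twComm Φ U hU hN) (toTw X) (sm _ _)
    (toTw (Φ.toFDat.tob X)) (toTw_tob Φ X) (sm _ _) (toTw (TU U hU X)) (heq_TU U hU X)
  exact hiso_of_heq' (h1.trans (h2.trans (heq_TU U hU (Φ.toFDat.tob X)).symm))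

end

end Crest.Agent.R175.FTU_131
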