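import Crest.Agent.R175.TwDI_774
import Crest.Agent.R175.TUc_61

/-!
# `TwD` over `TUc_61.P` (row 175, helper774)

`twDP M Λ : TwD M Λ` with `(twDP M Λ).P = TUc_61.P (UG M Λ) ℂ`; `stb_P` : block (E).
-/

set_option autoImplicit false
set_option linter.unusedSectionVars false
set_option linter.unusedVariables false

open CategoryTheory
open scoped Classical

namespace Crest.Agent.R175.TwDI_774

open Crest.GroupTheory Crest.Agent.R175.PTA Crest.Agent.R175.Cls_133 Crest.Agent.R175.UG_27
open Crest.Agent.R175.Unf_109 Crest.Agent.R175.TU_788 Crest.Agent.R175.TwcI_774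
open Crest.Agent.R175.StabF_393 Crest.Agent.R175.StbC_774 Crest.Agent.R175.Act2_732
open Crest.Agent.R175.Lev_788 Crest.Agent.R175.LevC_788 Crest.Agent.R175.Pos_418

theorem P_fr {T : Type} {G : MG T} {k : Type} [Field k] [Fintype T] [DecidableEq T] {v w : T}
    (h : v ≠ w) : (TUc_61.P G k).p v (frC G k w) = frC G k w := by
  rw [frC_def, TUc_61.P_mk]
  exact Quotient.sound (TUh_988.TU_frm _ _ (fun e => h e.symm))

/-- **the instance over 61's `P`** -/
noncomputable def twDP {S : Type} [Fintype S] (M : CoxeterMatrix S) (Λ : Finset ℕ) : TwD M Λ where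
  tw := fun v X => TU (fun r => r = v) TwM_250.sing X
  tws := twS
  P := TUc_61.P (UG M Λ) ℂ
  p_mk := fun v X => TUc_61.P_mk v X
  ev := fun v X => evT_TU_iff _ _ X
  h_p := fun v x y => TUc_61.hC_P v x y
  lam_p := fun v x a => TUc_61.lamC_P v x a
  fr := fun v w h => P_fr h

/-- **block (E)** for the action through `TUc_61.P` -/
theorem stb_P {S : Type} [Fintype S] {M : CoxeterMatrix S} {Λ : Finset ℕ} (hΛ : Good M Λ)
    (hM : PDm (Cr M)) (A : ActI M hΛ.four)
    (hA : ∀ (r : ArtinGroup M) (x : Cls (UG M Λ) ℂ),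
      A.act.smul r x = (TUc_61.P (UG M Λ) ℂ).unf hΛ r x) : (lev A).Stb :=
  (twDP M Λ).stb_lev hΛ hM A hA

end Crest.Agent.R175.TwDI_774
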