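import Crest.Agent.R175.ResTU2_131
import Crest.Agent.R175.CatI_788
import Crest.Agent.R175.TwDP_774
import Crest.Agent.R175.ActP_180

/-!
Row 175 (S0263): the four last inputs of `CatI_788.Inp`.
-/

set_option autoImplicit false
set_option linter.unusedSectionVars false
set_option linter.unusedVariables false

open CategoryTheory
open scoped Classical

namespace Crest.Agent.R175.FinS_131

open Crest.GroupTheory Crest.Agent.R175.CatI_788 Crest.Agent.R175.ActU_131
open Crest.Agent.R175.VdL_527 Crest.Agent.R175.PdT_788 Crest.Agent.R175.Unf_109 Crest.Agent.R175.Lev_788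

/-- **the inputs** -/
noncomputable def inp (Λ : Finset ℕ) : Inp Λ where
  A := fun M hΛ => act M hΛ
  hact := fun M hΛ T _ t x => ResTU_131.hact hΛ T (good_res hΛ T) t x
  orb := fun M hΛ hM =>
    GlueD_180.orb_cls hΛ hM (act M hΛ) (ActP_180.actP_of (act M hΛ) (fun s X => gen M hΛ s X))
  stb := fun M hΛ hM => TwDI_774.stb_P hΛ hM (act M hΛ) (fun r x => rfl)

/-- **S0263** -/
theorem s0263 (S : Type*) [Finite S] (M : CoxeterMatrix S)
    (P Q : Subgroup (ArtinGroup M)) (hP : IsParabolic M P) (hQ : IsParabolic M Q) :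
    IsParabolic M (P ⊓ Q) :=
  s0263_of_inp inp S M P Q hP hQ

end Crest.Agent.R175.FinS_131
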