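import Crest.Agent.R175.GlueData_445
import Crest.Agent.R175.FmD_180

/-!
# R175: members of an orthogonal family of minimisers: `F_m X_j ∈ add (X_{j'} : j' ~ j)`
-/

set_option autoImplicit false
set_option linter.unusedSectionVars false
set_option linter.unusedVariables false

open scoped Classical
open CategoryTheory Module LinearMap

namespace Crest.Agent.R175.GlueAdd_445

open Crest.Agent.R175.PTA Crest.Agent.R175.GlB_445 Crest.Agent.R175.GluePT_445
open Crest.Agent.R175.FmD_180
open Crest.Agent.R175.KS_303 (Dec)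
open Crest.Agent.R175.KSb_303 (Z0 IsZ Ind Sm SumD)

universe u v

variable {T : Type u} {G : MG T} {k : Type v} [Field k] [Fintype T]

theorem cl_of_z0 {X Y : TOb G k} {f : X.X ⟶ Y.X} (h : f ∈ Z0 X Y) : Cl X Y (1 : k) f :=
  ⟨by ring, by rw [h.1, one_smul], h.2⟩

theorem add_of_isZ {P : TOb G k → Prop} {X : TOb G k} (h : IsZ X) : Add P X := by
  refine ⟨{
    ι := Empty
    fin := inferInstance
    X := fun x => x.elim
    f := fun x => x.elim
    g := fun x => x.elim
    ε := fun x => x.elim
    s := 0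
    hP := fun x => x.elim
    hf := fun x => x.elim
    hg := fun x => x.elim
    eq := ?_ }⟩
  have h' : 𝟙 X.X = 0 := h
  simp [h']

theorem add_of_sm {P : TOb G k → Prop} {X A B : TOb G k} (h : Sm X A B) (hA : Add P A)
    (hB : Add P B) : Add P X := by
  obtain ⟨S⟩ := h
  obtain ⟨a⟩ := hA
  obtain ⟨b⟩ := hB
  refine Add.trans (P := fun W => W = A ∨ W = B) ⟨{
    ι := Bool
    fin := inferInstance
    X := fun x => match x with
      | true => A
      | false => B
    f := fun x => match x with
      | true => S.p1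
      | false => S.p2
    g := fun x => match x with
      | true => S.i1
      | false => S.i2
    ε := fun _ => 1
    s := 0
    hP := fun x => match x with
      | true => Or.inl rfl
      | false => Or.inr rfl
    hf := fun x => match x with
      | true => cl_of_z0 S.hp1
      | false => cl_of_z0 S.hp2
    hg := fun x => match x with
      | true => cl_of_z0 S.hi1
      | false => cl_of_z0 S.hi2
    eq := ?_ }⟩ ?_
  · rw [Fintype.sum_bool, map_zero, add_zero]
    exact S.sum
  · rintro W (rfl | rfl)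
    · exact ⟨a⟩
    · exact ⟨b⟩

theorem add_of_dec {X : TOb G k} {l : List (TOb G k)} (h : Dec IsZ Ind Sm X l) :
    ∀ P : TOb G k → Prop, (∀ Y ∈ l, P Y) → Add P X := by
  induction h with
  | zero h => intro P _; exact add_of_isZ h
  | @ind X h => intro P hP; exact Add.of (hP X (List.mem_singleton.2 rfl))
  | @sum X A B l m h h1 h2 ih1 ih2 =>
    intro P hP
    exact add_of_sm h (ih1 P fun Y hY => hP Y (List.mem_append.2 (Or.inl hY)))
      (ih2 P fun Y hY => hP Y (List.mem_append.2 (Or.inr hY)))

theorem add_of_isSum {X : TOb G k} {l : List (TOb G k)} (h : IsSum X l) (P : TOb G k → Prop)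
    (hP : ∀ Y ∈ l, P Y) : Add P X := by
  obtain ⟨X', h1, h2, h3⟩ := h
  exact Add.hiso (add_of_dec h2 P hP) h1

/-- a shift of `X` is in `add X` -/
theorem add_sh (X : TOb G k) : Add (fun W => W = X) (Shift_936.sh X) := by
  refine ⟨{
    ι := Unit
    fin := inferInstance
    X := fun _ => X
    f := fun _ => Shift_936.th' X
    g := fun _ => Shift_936.th X
    ε := fun _ => -1
    s := 0
    hP := fun _ => rfl
    hf := fun _ => ?_
    hg := fun _ => ?_
    eq := ?_ }⟩
  · exact ⟨by ring, by rw [Shift_936.bar_th']; simp, Shift_936.D_th' X⟩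
  · exact ⟨by ring, by rw [Shift_936.bar_th]; simp, Shift_936.D_th X⟩
  · simp

theorem add_of_sim {X Y : TOb G k} (h : Sim X Y) : Add (fun W => W = Y) X := by
  rcases h with h | h
  · exact Add.of_hiso h rfl
  · exact Add.hiso (add_sh Y) h

section unf

open Crest.Agent.R175.Unf_109 Crest.Agent.R175.UG_27 Crest.Agent.R175.GlueData_445

variable {S : Type} [Fintype S] {M : CoxeterMatrix S} {Λ : Finset ℕ}

/-- **`F_m X_j` is a homotopy retract of a sum of shifts of the neighbours** -/
theorem OFam.add {hΛ : ∀ m ∈ Λ, 4 ≤ m} {φ : ℝ →+* k} {s : S} {X : J Λ → TOb (UG M Λ) k}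
    (h : OFam hΛ φ s X) (m : Λ) (j : J Λ) :
    Add (fun W => ∃ j', nb Λ m j j' ∧ W = X j') (FF M φ hΛ m (X j)) := by
  obtain ⟨l, h1, h2, h3⟩ := h.sum m j
  refine Add.trans (P := fun W => ∃ j', nb Λ m j j' ∧ Sim W (X j')) (add_of_isSum h1 _ ?_) ?_
  · intro Z hZ
    obtain ⟨j', h4, -, -, h5⟩ := h2 Z hZ
    exact ⟨j', h4, h5⟩
  · rintro W ⟨j', h4, h5⟩
    exact Add.mono (add_of_sim h5) fun V hV => ⟨j', h4, hV⟩

end unf

end Crest.Agent.R175.GlueAdd_445
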