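import Crest.Agent.R175.LevF_788

/-!
Row 175 (S0263), block (D) = `Lev.PT` (helper505): last step of the hypothesis `hD`: an object
whose translate by some `r ∈ A_M` behaves like the frame at `(s, j)` satisfies the inequality.
-/

set_option autoImplicit false
set_option linter.unusedSectionVars false

namespace Crest.Agent.R175.GlueE_505

open Crest.GroupTheory Crest.Agent.R175.Num_774 Crest.Agent.R175.CatNum_427
open Crest.Agent.R175.Unf_109 Crest.Agent.R175.Lev_788

universe v

variable {Λ : Finset ℕ} {S : Type} {M : CoxeterMatrix S}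

/-- induction over the generators of the whole group -/
theorem gen_ind [Fintype S] (p : ArtinGroup M → Prop) (h1 : p 1)
    (hm : ∀ s r, p r → p (r * artinGen M s))
    (hi : ∀ s r, p r → p (r * (artinGen M s)⁻¹)) (r : ArtinGroup M) : p r := by
  have hr : r ∈ A M (Set.univ : Set S) := by
    have h : (A M (Set.univ : Set S)) = ⊤ := by
      unfold A stdParabolic
      rw [Set.image_univ]
      exact PresentedGroup.closure_range_of _
    rw [h]; trivial
  exact CatD.act_ind p h1 (fun s _ => hm s) (fun s _ => hi s) hr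

theorem h_act_all [Fintype S] (L : Lev.{v} Λ M) (r : ArtinGroup M) (X Y : L.Ob) :
    L.h (r • X) (r • Y) = L.h X Y := by
  revert X Y
  refine gen_ind (fun r => ∀ X Y, L.h (r • X) (r • Y) = L.h X Y) (by simp) ?_ ?_ r
  · intro s r ih X Y
    rw [mul_smul, mul_smul, ih, L.h_act]
  · intro s r ih X Y
    rw [mul_smul, mul_smul, ih]
    have := L.h_act s ((artinGen M s)⁻¹ • X) ((artinGen M s)⁻¹ • Y)
    rw [smul_inv_smul, smul_inv_smul] at this
    exact this.symm

theorem fam_act_all [Fintype S] (L : Lev.{v} Λ M) (r : ArtinGroup M) {Y : J Λ → L.Ob}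
    (hY : L.IsFam Y) : L.IsFam (fun j => r • Y j) := by
  revert Y
  refine gen_ind (fun r => ∀ {Y : J Λ → L.Ob}, L.IsFam Y → L.IsFam (fun j => r • Y j))
    (by intro Y hY; simpa using hY) ?_ ?_ r
  · intro s r ih Y hY
    simp only [mul_smul]
    exact ih (L.fam_act hY s)
  · intro s r ih Y hY
    simp only [mul_smul]
    exact ih (L.fam_act' hY s)

/-- **last step of (D)** -/
theorem last [Fintype S] (L : Lev.{v} Λ M) (h4 : ∀ m ∈ Λ, 4 ≤ m) {Y : J Λ → L.Ob}
    (hY : L.IsFam Y) {h : S → ℝ}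
    (hd : ∀ r : ArtinGroup M, ∀ s, h s ≤ ∑ i, wt Λ i * (L.d (r • Y i) s (jz h4) : ℝ))
    (x : L.Ob) (r : ArtinGroup M) (s : S) (j : J Λ) (hx : ∀ z, L.h (r • x) z = L.d z s j) :
    wt Λ j * h s ≤ ∑ i, wt Λ i * (L.h x (Y i) : ℝ) := by
  have h1 : ∀ i, (L.h x (Y i) : ℝ) = (L.d (r • Y i) s j : ℝ) := by
    intro i
    rw [← hx, h_act_all]
  simp only [h1]
  rw [L.pfd h4 (pfs h4) (fam_act_all L r hY) s j]
  exact mul_le_mul_of_nonneg_left (hd r s) (wt_pos Λ j).le

end Crest.Agent.R175.GlueE_505
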