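import Crest.Agent.R175.GlueAdd_445
import Crest.Agent.R175.FmS_303
import Crest.Agent.R175.FrmHd_988

/-!
# R175: an object with one frame and no projectives is the frame, up to a shift
-/

set_option autoImplicit false
set_option linter.unusedSectionVars false
set_option linter.unusedVariables false

open CategoryTheory Module LinearMap

namespace Crest.Agent.R175.GlueE_445

open Crest.Agent.R175.PTA Crest.Agent.R175.GlB_445 Crest.Agent.R175.GluePT_445

universe u v

variable {T : Type u} {G : MG T} {k : Type v} [Field k] [Fintype T] [DecidableEq T]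

theorem sim_frm_of_dT (h2 : (2 : k) ≠ 0) {X : TOb G k} {a : T} (hd : ∀ t, dT X t = 0)
    (hl : lam X = Pi.single a 1) : Sim X (frm G k a) := by
  obtain ⟨F, hF⟩ := PTA.exists_min h2 X
  have hV : ∀ t, Subsingleton (F.X.V t) := by
    intro t
    have h1 : dT F.toTOb t = 0 := by
      rw [← hd t]
      exact (hF.hT_left _).symm
    rw [Unfr_988.dT_eq] at h1
    exact finrank_zero_iff.1 h1
  have hlF : ∀ t, finrank k (F.X.W t) = (Pi.single a 1 : T → ℕ) t := by
    intro t
    rw [← hl]
    exact (hF.lam_eq t).symm
  have hW : ∀ t, t ≠ a → Subsingleton (F.X.W t) := by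
    intro t ht
    refine (finrank_zero_iff (R := k)).1 ?_
    rw [hlF, Pi.single_eq_of_ne ht]
  have hd0 : F.toTOb.d = 0 := by
    apply hm_ext
    · intro t
      rfl
    · intro t
      exact F.toTOb.dW t
    · intro s t e
      have := hV s
      exact LinearMap.ext fun x => by rw [Subsingleton.elim x 0, map_zero, map_zero]
    · intro t
      have := hV t
      exact LinearMap.ext fun x => Subsingleton.elim _ _
    · intro t
      have := hV t
      exact LinearMap.ext fun x => by rw [Subsingleton.elim x 0, map_zero, map_zero]
    · intro t
      have := hV t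
      exact LinearMap.ext fun x => Subsingleton.elim _ _
  have h1 : finrank k (F.X.W a) = 1 := by rw [hlF, Pi.single_eq_same]
  obtain ⟨c, hc⟩ := GlA_445.one_dim_smul h1 (F.X.gW a)
  have hcc : c * c = 1 := by
    obtain ⟨v, hv0, hv⟩ := finrank_eq_one_iff'.1 h1
    have h3 : (F.X.gW a ∘ₗ F.X.gW a) v = v := by rw [F.X.gW_sq]; rfl
    rw [LinearMap.comp_apply, hc, hc, smul_smul] at h3
    have h4 : (c * c - 1) • v = 0 := by rw [sub_smul, one_smul, h3, sub_self]
    rcases smul_eq_zero.1 h4 with h5 | h5
    · exact sub_eq_zero.1 h5
    · exact absurd h5 hv0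
  have hc' : c = 1 ∨ c = -1 := mul_self_eq_one_iff.1 hcc
  rcases hc' with rfl | rfl
  · left
    refine hF.trans (FmS_303.hiso_free_of F.toTOb hd0 ?_ ?_ _ _ ?_ ?_)
    · intro t
      have := hV t
      exact LinearMap.ext fun x => Subsingleton.elim _ _
    · intro t
      by_cases ht : t = a
      · subst ht
        exact LinearMap.ext fun x => by
          have := hc x
          rw [one_smul] at this
          exact this
      · have := hW t ht
        exact LinearMap.ext fun x => Subsingleton.elim _ _
    · intro t
      exact finrank_zero_iff.2 (hV t)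
    · exact hlF
  · right
    have h6 : HIso (Shift_936.sh F.toTOb) (frm G k a) := by
      refine FmS_303.hiso_free_of (Shift_936.sh F.toTOb) ?_ ?_ ?_ _ _ ?_ ?_
      · rw [Shift_936.sh_d, hd0]
        simp
      · intro t
        have := hV t
        exact LinearMap.ext fun x => Subsingleton.elim (α := F.X.V t) _ _
      · intro t
        by_cases ht : t = a
        · subst ht
          refine LinearMap.ext fun x => ?_
          have := hc x
          change -(F.X.gW t x) = x
          rw [this, neg_one_smul, neg_neg]
        · have := hW t ht
          exact LinearMap.ext fun x => Subsingleton.elim (α := F.X.W t) _ _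
      · intro t
        exact finrank_zero_iff.2 (hV t)
      · exact hlF
    exact hF.trans ((Shift_936.HIso_sh_sh _).symm.trans (Shift_936.HIso_sh h6))

end Crest.Agent.R175.GlueE_445
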