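import Crest.Agent.R175.PTC_505
import Crest.Agent.R175.GlueE_445

/-!
# R175: `Orb` (PTC_505) from the vanishing of all multiplicities at some point of the orbit
-/

set_option autoImplicit false
set_option linter.unusedSectionVars false
set_option linter.unusedVariables false

open scoped Classical
open CategoryTheory Module

namespace Crest.Agent.R175.GlueH_445

open Crest.GroupTheory Crest.Agent.R175.Num_774 Crest.Agent.R175.CatNum_427
open Crest.Agent.R175.Unf_109 Crest.Agent.R175.Lev_788 Crest.Agent.R175.UG_27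
open Crest.Agent.R175.PTA Crest.Agent.R175.GluePT_445 Crest.Agent.R175.GlB_445
open Crest.Agent.R175.Fm_27 Crest.Agent.R175.Pos_418 Crest.Agent.R175.FmC_180
open Crest.Agent.R175.GlueData_445 Crest.Agent.R175.PTC_505

universe v w

variable {S : Type} [Fintype S] {M : CoxeterMatrix S} {Λ : Finset ℕ} {k : Type v} [Field k]

/-- the two shifts -/
theorem hiso_sh_sh {T : Type*} [Fintype T] {G : MG T} (X : TOb G k) :
    HIso (Shift_936.sh X) (PTA.sh X) := by
  refine ⟨{
    p := Shift_936.th' X ≫ toSh X.X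
    q := ofSh X.X ≫ Shift_936.th X
    s := 0
    r := 0
    bp := ?_
    bq := ?_
    Dp := ?_
    Dq := ?_
    pq := ?_
    qp := ?_ }⟩
  · rw [bar_comp, Shift_936.bar_th', bar_toSh, Preadditive.neg_comp, Preadditive.comp_neg, neg_neg]
  · rw [bar_comp, Shift_936.bar_th, bar_ofSh, Preadditive.neg_comp, Preadditive.comp_neg, neg_neg]
  · rw [D_comp, Shift_936.D_th', D_toSh, Limits.comp_zero, Limits.zero_comp, add_zero]
  · rw [D_comp, Shift_936.D_th, D_ofSh, Limits.comp_zero, Limits.zero_comp, add_zero]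
  · rw [map_zero, add_zero, Category.assoc, toSh_ofSh_assoc, Shift_936.th'_th]
  · rw [map_zero, add_zero, Category.assoc, Shift_936.th_th'_assoc, ofSh_toSh]

theorem lam_act_all (L : Lev.{w} Λ M) (r : ArtinGroup M) (x : L.Ob) : L.lam (r • x) = L.lam x := by
  revert x
  refine GlueE_505.gen_ind (fun r => ∀ x : L.Ob, L.lam (r • x) = L.lam x) (by simp) ?_ ?_ r
  · intro s r ih x
    rw [mul_smul, ih, L.lam_act]
  · intro s r ih x
    rw [mul_smul, ih]
    have := L.lam_act s ((artinGen M s)⁻¹ • x)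
    rw [smul_inv_smul] at this
    exact this.symm

/-- **`Orb` from `H = 0`** -/
theorem orb_of_zero {hΛ : ∀ m ∈ Λ, 4 ≤ m} {φ : ℝ →+* k} {L : Lev.{w} Λ M} (R : Rep hΛ φ L)
    (hq : ∀ X Y, HIso X Y → R.q X = R.q Y)
    (HD : ∀ (s : S) (X : J Λ → TOb (UG M Λ) k), OFam hΛ φ s X →
      ∃ (r : ArtinGroup M) (j : J Λ), ∀ t i, L.d (r • R.q (X j)) t i = 0) : Orb R := by
  intro s X hX
  obtain ⟨r, j, h1⟩ := HD s X hX
  refine ⟨r, j, ?_⟩
  obtain ⟨Z, hZ⟩ := R.surj (r • R.q (X j))
  have h2 : (2 : k) ≠ 0 := by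
    rw [← map_ofNat φ 2, Ne, map_eq_zero]
    norm_num
  have hd : ∀ a, dT Z a = 0 := by
    rintro ⟨t, i⟩
    have h3 := h1 t i
    rw [← hZ] at h3
    unfold Lev.d at h3
    rw [R.fr, L.h_symm, R.h] at h3
    unfold dT
    convert h3 using 2
  have hl : PTA.lam Z = Pi.single (s, j) 1 := by
    rw [← hX.lam_eq j]
    funext ⟨t, i⟩
    rw [← R.lam Z t i, hZ, lam_act_all, R.lam]
  have h4 := GlueE_445.sim_frm_of_dT h2 hd (a := (s, j)) (by convert hl)
  rw [← hZ]
  rcases h4 with h4 | h4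
  · left
    exact hq _ _ (by convert h4)
  · right
    refine hq _ _ ((?_ : HIso Z (Shift_936.sh (frm (UG M Λ) k (s, j)))).trans (hiso_sh_sh _))
    convert h4

end Crest.Agent.R175.GlueH_445
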