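import Crest.Agent.R175.PTU_4
import Crest.Agent.R175.PTB_534

/-!
Row 175 (S0263), block (D): invariance of the relation `TD` under isomorphisms of the homotopy
category (`tdIso`, `TD.isoR`, `TD.isoL`).
-/

set_option autoImplicit false
set_option linter.unusedSectionVars false

open CategoryTheory Crest.Agent.R175.PTA Crest.Agent.R175.PTH Crest.Agent.R175.TwG_253

universe u v

namespace Crest.Agent.R175.PTQ_4

variable {T : Type u} [Fintype T] {G : MG T} {k : Type v} [Field k]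

namespace TD

variable {F : Set T} {X0 X X' X'' : QM G k}

section iso

variable (e : TD ∅ X X')

include e in
theorem ebij (t : T) : Function.Bijective (e.κ t) := e.bij t (Set.notMem_empty t)

theorem eB {s t : T} (a : G.E s t) (v : X.H s) : X'.B s t a (e.κ s v) = e.κ t (X.B s t a v) :=
  e.Bκ s t (Set.notMem_empty s) (Set.notMem_empty t) a v

theorem ei {t : T} (w : X.W t) : X'.i t (e.ω t w) = e.κ t (X.i t w) :=
  e.iω t (Set.notMem_empty t) w

theorem ej {t : T} (v : X.H t) : X'.j t (e.κ t v) = e.ω t (X.j t v) :=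
  e.jκ t (Set.notMem_empty t) v

theorem eA {t : T} (v : X.H t) : X'.A t (e.κ t v) = e.κ t (X.A t v) :=
  e.Aκ t (Set.notMem_empty t) v

theorem e_eq_zero {t : T} {v : X.H t} : e.κ t v = 0 ↔ v = 0 := by
  constructor
  · intro h
    exact (e.ebij t).1 (h.trans (map_zero _).symm)
  · rintro rfl
    exact map_zero _

theorem e_mem_kerA {s : T} {v : X.H s} : e.κ s v ∈ X'.kerA s ↔ v ∈ X.kerA s := by
  rw [QM.mem_kerA, QM.mem_kerA]
  refine and_congr (forall_congr' fun t => forall_congr' fun a => ?_) ?_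
  · rw [e.eB, e.e_eq_zero]
  · rw [e.ej, LinearEquiv.map_eq_zero_iff]

theorem e_imB (s : T) : X'.imB s = (X.imB s).map (e.κ s) := by
  apply le_antisymm
  · rw [QM.imB_le]
    refine ⟨fun t a v => ?_, fun w => ?_⟩
    · obtain ⟨v, rfl⟩ := (e.ebij t).2 v
      rw [e.eB]
      exact Submodule.mem_map_of_mem (QM.B_mem_imB a v)
    · obtain ⟨w, rfl⟩ := (e.ω s).surjective w
      rw [e.ei]
      exact Submodule.mem_map_of_mem (QM.i_mem_imB w)
  · rw [Submodule.map_le_iff_le_comap, QM.imB_le]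
    refine ⟨fun t a v => ?_, fun w => ?_⟩
    · rw [Submodule.mem_comap, ← e.eB]
      exact QM.B_mem_imB a _
    · rw [Submodule.mem_comap, ← e.ei]
      exact QM.i_mem_imB _

theorem e_mem_imB {s : T} {v : X.H s} : e.κ s v ∈ X'.imB s ↔ v ∈ X.imB s := by
  rw [e.e_imB]
  constructor
  · rintro ⟨v', hv', h⟩
    rw [← (e.ebij s).1 h]
    exact hv'
  · exact Submodule.mem_map_of_mem

theorem e_sum {s : T} (m : ∀ t, G.E s t → X.H t) (w : X.W s) :
    ∑ t, ∑ a : G.E s t, X'.B t s (G.rev a) (e.κ t (m t a)) + X'.i s (e.ω s w) =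
      e.κ s (∑ t, ∑ a : G.E s t, X.B t s (G.rev a) (m t a) + X.i s w) := by
  rw [map_add, map_sum]
  simp only [map_sum, e.eB, e.ei]

end iso

/-- composition with an isomorphism of the twist -/
noncomputable def isoR (h : TD F X X') (e : TD ∅ X' X'') : TD F X X'' where
  κ t := e.κ t ∘ₗ h.κ t
  ω t := (h.ω t).trans (e.ω t)
  bij t ht := (e.ebij t).comp (h.bij t ht)
  nadj := h.nadj
  Aκ t ht v := by
    rw [LinearMap.comp_apply, LinearMap.comp_apply, e.eA, h.Aκ t ht]
  Aκ' t ht v := by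
    rw [LinearMap.comp_apply, LinearMap.comp_apply, e.eA, h.Aκ' t ht, map_add]
  Bκ s t hs ht a v := by
    rw [LinearMap.comp_apply, LinearMap.comp_apply, e.eB, h.Bκ s t hs ht]
  iω t ht w := by
    rw [LinearMap.comp_apply, LinearEquiv.trans_apply, e.ei, h.iω t ht]
  jκ t ht v := by
    rw [LinearMap.comp_apply, LinearEquiv.trans_apply, e.ej, h.jκ t ht]
  ker s hs v := by
    rw [LinearMap.comp_apply, e.e_eq_zero, h.ker s hs]
  range s hs v'' hv'' := by
    obtain ⟨v', rfl⟩ := (e.ebij s).2 v''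
    obtain ⟨v, rfl⟩ := h.range s hs v' (e.e_mem_kerA.1 hv'')
    exact ⟨v, rfl⟩
  range' s hs v := e.e_mem_kerA.2 (h.range' s hs v)
  ba s hs v'' m w h1 h2 := by
    obtain ⟨v', rfl⟩ := (e.ebij s).2 v''
    refine h.ba s hs v' m w (fun t a => ?_) ?_
    · apply (e.ebij t).1
      rw [← e.eB]
      exact h1 t a
    · apply (e.ω s).injective
      rw [← e.ej]
      exact h2
  ex s hs m w h1 := by
    obtain ⟨v', h2, h3⟩ := h.ex s hs m w h1
    refine ⟨e.κ s v', fun t a => ?_, ?_⟩
    · rw [e.eB, h2]; rfl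
    · rw [e.ej, h3]; rfl
  aBB s hs t t' a b v := by
    rw [LinearMap.comp_apply, LinearMap.comp_apply, e.eB, e.eB, h.aBB s hs]
  ajB s hs t a v := by
    rw [LinearMap.comp_apply, LinearEquiv.trans_apply, e.eB, e.ej, h.ajB s hs]
  aBi s hs t' b w := by
    rw [LinearMap.comp_apply, LinearEquiv.trans_apply, e.ei, e.eB, h.aBi s hs]
  aji s hs w := by
    rw [LinearEquiv.trans_apply, LinearEquiv.trans_apply, e.ei, e.ej, h.aji s hs]

/-- composition with an isomorphism of the source -/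
noncomputable def isoL (e : TD ∅ X0 X) (h : TD F X X') : TD F X0 X' where
  κ t := h.κ t ∘ₗ e.κ t
  ω t := (e.ω t).trans (h.ω t)
  bij t ht := (h.bij t ht).comp (e.ebij t)
  nadj := h.nadj
  Aκ t ht v := by
    rw [LinearMap.comp_apply, LinearMap.comp_apply, h.Aκ t ht, e.eA]
  Aκ' t ht v := by
    rw [LinearMap.comp_apply, LinearMap.comp_apply, h.Aκ' t ht, e.eA]
  Bκ s t hs ht a v := by
    rw [LinearMap.comp_apply, LinearMap.comp_apply, h.Bκ s t hs ht, e.eB]
  iω t ht w := by
    rw [LinearMap.comp_apply, LinearEquiv.trans_apply, h.iω t ht, e.ei]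
  jκ t ht v := by
    rw [LinearMap.comp_apply, LinearEquiv.trans_apply, h.jκ t ht, e.ej]
  ker s hs v := by
    rw [LinearMap.comp_apply, h.ker s hs, e.e_mem_imB]
  range s hs v' hv' := by
    obtain ⟨v, rfl⟩ := h.range s hs v' hv'
    obtain ⟨v0, rfl⟩ := (e.ebij s).2 v
    exact ⟨v0, rfl⟩
  range' s hs v := h.range' s hs _
  ba s hs v' m w h1 h2 := by
    have h3 := h.ba s hs v' (fun t a => e.κ t (m t a)) (e.ω s w) h1 h2
    rw [e.e_sum] at h3
    exact e.e_eq_zero.1 h3
  ex s hs m w h1 := by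
    obtain ⟨v', h2, h3⟩ := h.ex s hs (fun t a => e.κ t (m t a)) (e.ω s w) (by
      rw [e.e_sum, h1, map_zero])
    exact ⟨v', h2, h3⟩
  aBB s hs t t' a b v := by
    rw [LinearMap.comp_apply, LinearMap.comp_apply, h.aBB s hs, e.eB, e.eB]
  ajB s hs t a v := by
    rw [LinearMap.comp_apply, LinearEquiv.trans_apply, h.ajB s hs, e.eB, e.ej]
  aBi s hs t' b w := by
    rw [LinearMap.comp_apply, LinearEquiv.trans_apply, h.aBi s hs, e.ei, e.eB]
  aji s hs w := by
    rw [LinearEquiv.trans_apply, LinearEquiv.trans_apply, h.aji s hs, e.ei, e.ej]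

end TD

end Crest.Agent.R175.PTQ_4

namespace Crest.Agent.R175.PTT_4

open Crest.Agent.R175.PTQ_4

noncomputable section

variable {T : Type u} {G : MG T} {k : Type v} [Field k] [Fintype T] {X Y : TOb G k}

theorem Hmap_left_inv (e : HEquiv X Y) (t : T) (ξ : Hv X t) :
    Hmap e.q e.Dq t (Hmap e.p e.Dp t ξ) = ξ := by
  rw [← Hmap_comp]
  have h : e.p ≫ e.q - 𝟙 X.X = D X X e.s := by rw [e.pq]; abel
  rw [Hmap_eq (closed_comp e.Dp e.Dq) D_id h, Hmap_id]

/-- a homotopy equivalence induces an isomorphism of the cohomology data -/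
def tdIso (e : HEquiv X Y) {p : X.X ⟶ X.X} {q : Y.X ⟶ Y.X} (hp : Eul X p) (hq : Eul Y q)
    (h0 : hT X Y = 0) : TD ∅ (QMof X hp) (QMof Y hq) where
  κ t := Hmap e.p e.Dp t
  ω t := LinearEquiv.ofLinearMap (cW e.p t) (cW e.q t) (e.symm.cW_pq t) (e.cW_pq t)
  bij t _ := by
    constructor
    · exact Function.LeftInverse.injective (Hmap_left_inv e t)
    · exact Function.RightInverse.surjective (Hmap_left_inv e.symm t)
  nadj s hs := (Set.notMem_empty s hs).elim
  Aκ t _ v := (eul_nat hp hq h0 e.Dp e.bp t v).symm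
  Aκ' s hs := (Set.notMem_empty s hs).elim
  Bκ s t _ _ a v := HB_Hmap e.Dp e.bp a v
  iω t _ w := (Hmap_Hi e.Dp e.bp t w).symm
  jκ t _ v := Hj_Hmap e.Dp e.bp t v
  ker s hs := (Set.notMem_empty s hs).elim
  range s hs := (Set.notMem_empty s hs).elim
  range' s hs := (Set.notMem_empty s hs).elim
  ba s hs := (Set.notMem_empty s hs).elim
  ex s hs := (Set.notMem_empty s hs).elim
  aBB s hs := (Set.notMem_empty s hs).elim
  ajB s hs := (Set.notMem_empty s hs).elim
  aBi s hs := (Set.notMem_empty s hs).elim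
  aji s hs := (Set.notMem_empty s hs).elim

end

end Crest.Agent.R175.PTT_4
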