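import Crest.Agent.R175.PTV_4
import Crest.Agent.R175.PTW_4

/-!
Row 175 (S0263), block (D): the relation `TD` between rigid objects `X0` and `Y0 ≃ cone (Q_U X → X)`,
`X ≃ X0`, for arbitrary position operators.
-/

set_option autoImplicit false
set_option linter.unusedSectionVars false

open CategoryTheory Crest.Agent.R175.PTA Crest.Agent.R175.PTH Crest.Agent.R175.TwG_253
open Crest.Agent.R175.PTQ_4

namespace Crest.Agent.R175.PTT_4

universe u v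

noncomputable section

variable {T : Type v} {G : MG T} {k : Type v} [Field k] [Fintype T] {U : T → Prop}
  {X0 X Y Y0 : TOb G k}

theorem td_of (C : ConeOf U X Y) (hU : ∀ s t, U s → U t → IsEmpty (G.E s t))
    (h2 : (2 : k) ≠ 0) (eX : HIso X0 X) (eY : HIso Y Y0) {p0 : X0.X ⟶ X0.X} {q0 : Y0.X ⟶ Y0.X}
    (hp0 : Eul X0 p0) (hq0 : Eul Y0 q0) (h0 : hT X0 X0 = 0) (hY0 : hT Y0 Y0 = 0) :
    Nonempty (TD {t | U t} (QMof X0 hp0) (QMof Y0 hq0)) := by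
  obtain ⟨e⟩ := eX
  obtain ⟨e'⟩ := eY
  have h1 : hT X0 X = 0 := by
    rw [← HIso.hT_right ⟨e⟩ X0]; exact h0
  have h3 : hT X X = 0 := by
    rw [← HIso.hT_left ⟨e⟩ X]; exact h1
  have h4 : hT Y Y0 = 0 := by
    rw [HIso.hT_left ⟨e'⟩ Y0]; exact hY0
  obtain ⟨p, hp⟩ := exists_eul h2 X h3
  exact ⟨TD.isoL (tdIso e hp0 hp h1) (TD.isoR (C.td hp hU) (tdIso e' (C.eul hp) hq0 h4))⟩

/-- same with `X0 = X` -/
theorem td_of' (C : ConeOf U X Y) (hU : ∀ s t, U s → U t → IsEmpty (G.E s t))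
    (eY : HIso Y Y0) {p : X.X ⟶ X.X} {q0 : Y0.X ⟶ Y0.X}
    (hp : Eul X p) (hq0 : Eul Y0 q0) (hY0 : hT Y0 Y0 = 0) :
    Nonempty (TD {t | U t} (QMof X hp) (QMof Y0 hq0)) := by
  obtain ⟨e'⟩ := eY
  have h4 : hT Y Y0 = 0 := by
    rw [HIso.hT_left ⟨e'⟩ Y0]; exact hY0
  exact ⟨TD.isoR (C.td hp hU) (tdIso e' (C.eul hp) hq0 h4)⟩

end

end Crest.Agent.R175.PTT_4
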