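import Mathlib

/-!
# R175, block (6) "grading by scaling", bare linear algebra part (helper936)

`Crest.Agent.R175.GrB_936`

* `exists_level`: for `c` not a root of unity a function `χ : k → ℤ` with `χ (c μ) = χ μ - 1`
  (`μ ≠ 0`) and `χ 1 = 0`.
* `exists_pos`: a finite family of invertible endomorphisms `φ i` of finite dimensional spaces has a
  polynomial `P` such that every `pos i := P (φ i)` is diagonalisable with integer eigenvalues,
  `P (c φ i) = pos i - 1`, and `P (1) = 0`.
* `aeval_mul_sub`: in an algebra, `c φ e - e φ ∈ J` (`J` stable under `φ`) gives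
  `P (c φ) e - e P (φ) ∈ J`.
* `exists_correction`: `pos` semisimple, `J` stable under `pos`, `[pos, e] - e ∈ J` gives `e'` with
  `e - e' ∈ J` and `[pos, e'] = e'`.
-/

namespace Crest.Agent.R175.GrB_936

open Module Polynomial

/-! ### the level function -/

theorem exists_level {k : Type*} [Field k] (c : k) (hc0 : c ≠ 0)
    (hc : ∀ n : ℕ, 0 < n → c ^ n ≠ 1) :
    ∃ χ : k → ℤ, χ 1 = 0 ∧ ∀ μ : k, μ ≠ 0 → χ (c * μ) = χ μ - 1 := by
  classical
  let u : kˣ := Units.mk0 c hc0
  have hu : ∀ n : ℤ, u ^ n = 1 → n = 0 := by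
    have key : ∀ n : ℕ, 0 < n → u ^ n ≠ 1 := by
      intro n hn h
      apply hc n hn
      have := congrArg Units.val h
      simpa [u] using this
    intro n hn
    by_contra hne
    rcases lt_or_gt_of_ne hne with h | h
    · have h1 : u ^ (n.natAbs) = 1 := by
        have h2 : u ^ ((n.natAbs : ℕ) : ℤ) = 1 := by
          rw [Int.ofNat_natAbs_of_nonpos h.le, zpow_neg, hn, inv_one]
        simpa using h2
      exact key _ (Int.natAbs_pos.mpr hne) h1
    · have h1 : u ^ (n.natAbs) = 1 := by
        have h2 : u ^ ((n.natAbs : ℕ) : ℤ) = 1 := by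
          rw [Int.natAbs_of_nonneg h.le, hn]
        simpa using h2
      exact key _ (Int.natAbs_pos.mpr hne) h1
  have hinj : ∀ m n : ℤ, u ^ m = u ^ n → m = n := by
    intro m n h
    have : u ^ (m - n) = 1 := by rw [zpow_sub, h]; simp
    have := hu _ this
    omega
  let H : Subgroup kˣ := Subgroup.zpowers u
  let r : kˣ → kˣ := fun μ => (Quotient.out (QuotientGroup.mk μ : kˣ ⧸ H))
  have hr : ∀ μ : kˣ, ∃ n : ℤ, μ = r μ * u ^ n := by
    intro μ
    have h1 : (QuotientGroup.mk (r μ) : kˣ ⧸ H) = QuotientGroup.mk μ := Quotient.out_eq _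
    have h2 := QuotientGroup.eq.mp h1
    obtain ⟨n, hn⟩ := Subgroup.mem_zpowers_iff.mp h2
    refine ⟨n, ?_⟩
    rw [hn]; simp
  have hrc : ∀ μ : kˣ, r (u * μ) = r μ := by
    intro μ
    have : (QuotientGroup.mk (u * μ) : kˣ ⧸ H) = QuotientGroup.mk μ := by
      apply QuotientGroup.eq.mpr
      have : (u * μ)⁻¹ * μ = u⁻¹ := by
        rw [mul_inv_rev, mul_comm μ⁻¹ u⁻¹, mul_assoc, inv_mul_cancel, mul_one]
      rw [this]
      exact H.inv_mem (Subgroup.mem_zpowers u)
    show Quotient.out _ = Quotient.out _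
    rw [this]
  choose n hn using hr
  have hnc : ∀ μ : kˣ, n (u * μ) = n μ + 1 := by
    intro μ
    have h1 := hn (u * μ)
    rw [hrc] at h1
    have h2 := hn μ
    have h3 : u ^ (n (u * μ)) = u ^ (n μ + 1) := by
      have : r μ * u ^ (n (u * μ)) = r μ * u ^ (n μ + 1) := by
        rw [← h1, zpow_add, ← mul_assoc, ← h2, zpow_one, mul_comm]
      exact mul_left_cancel this
    exact hinj _ _ h3
  refine ⟨fun μ => if h : μ = 0 then 0 else n 1 - n (Units.mk0 μ h), ?_, ?_⟩
  · have : Units.mk0 (1 : k) one_ne_zero = 1 := by ext; simp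
    simp [this]
  · intro μ hμ
    have hcm : c * μ ≠ 0 := mul_ne_zero hc0 hμ
    have : Units.mk0 (c * μ) hcm = u * Units.mk0 μ hμ := by ext; simp [u]
    show (if h : c * μ = 0 then 0 else n 1 - n (Units.mk0 (c * μ) h))
      = (if h : μ = 0 then 0 else n 1 - n (Units.mk0 μ h)) - 1
    rw [dif_neg hcm, dif_neg hμ, this, hnc]
    ring

/-! ### the position polynomial -/

section pos
variable {k : Type*} [Field k]

/-- A polynomial with prescribed constant values to order `N` at finitely many points. -/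
theorem exists_interp (Λ : Finset k) (N : ℕ) (χ : k → k) :
    ∃ P : k[X], ∀ μ ∈ Λ, (X - C μ) ^ N ∣ P - C (χ μ) := by
  classical
  let I : Λ → Ideal k[X] := fun μ => Ideal.span {(X - C (μ : k)) ^ N}
  have hI : Pairwise (Function.onFun IsCoprime I) := by
    intro μ ν hne
    have hne' : (μ : k) ≠ ν := fun h => hne (Subtype.ext h)
    show IsCoprime (Ideal.span {(X - C (μ : k)) ^ N}) (Ideal.span {(X - C (ν : k)) ^ N})
    rw [Ideal.isCoprime_span_singleton_iff]
    apply IsCoprime.pow
    apply Polynomial.isCoprime_X_sub_C_of_isUnit_sub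
    exact (sub_ne_zero.mpr hne').isUnit
  obtain ⟨P, hP⟩ := Ideal.exists_forall_sub_mem_ideal hI (fun μ => C (χ μ))
  refine ⟨P, fun μ hμ => ?_⟩
  exact Ideal.mem_span_singleton.mp (hP ⟨μ, hμ⟩)

variable {U : Type*} [AddCommGroup U] [Module k U]

theorem aeval_apply_of_dvd (φ : Module.End k U) (μ : k) (N : ℕ) (P : k[X]) (a : k)
    (h : (X - C μ) ^ N ∣ P - C a) (v : U)
    (hv : ((φ - algebraMap k (Module.End k U) μ) ^ N) v = 0) :
    aeval φ P v = a • v := by
  obtain ⟨Q, hQ⟩ := h
  have h1 : P = (X - C μ) ^ N * Q + C a := by rw [← hQ]; ring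
  rw [h1, mul_comm]
  simp only [map_add, map_mul, map_pow, map_sub, aeval_X, aeval_C, LinearMap.add_apply,
    Module.End.mul_apply, hv, map_zero, zero_add, Module.algebraMap_end_apply]

theorem aeval_smul_apply_of_dvd (φ : Module.End k U) (c μ : k) (N : ℕ) (P : k[X]) (a : k)
    (h : (X - C (c * μ)) ^ N ∣ P - C a) (v : U)
    (hv : ((φ - algebraMap k (Module.End k U) μ) ^ N) v = 0) :
    aeval (c • φ) P v = a • v := by
  apply aeval_apply_of_dvd (c • φ) (c * μ) N P a h
  have : (c • φ - algebraMap k (Module.End k U) (c * μ))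
      = c • (φ - algebraMap k (Module.End k U) μ) := by
    rw [smul_sub, Algebra.algebraMap_eq_smul_one, Algebra.algebraMap_eq_smul_one, smul_smul]
  rw [this, _root_.smul_pow, LinearMap.smul_apply, hv, smul_zero]

end pos

theorem exists_pos {k : Type*} [Field k] [IsAlgClosed k] {ι : Type*} [Finite ι]
    (U : ι → Type*) [∀ i, AddCommGroup (U i)] [∀ i, Module k (U i)]
    [∀ i, FiniteDimensional k (U i)] (φ : ∀ i, Module.End k (U i))
    (hφ : ∀ i, Function.Injective (φ i)) (c : k) (hc0 : c ≠ 0)
    (hc : ∀ n : ℕ, 0 < n → c ^ n ≠ 1) :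
    ∃ P : k[X], P.eval 1 = 0 ∧ ∀ i, aeval (c • φ i) P = aeval (φ i) P - 1 ∧
      (⨆ n : ℤ, Module.End.eigenspace (aeval (φ i) P) (n : k)) = ⊤ := by
  classical
  cases nonempty_fintype ι
  obtain ⟨χ, hχ1, hχ⟩ := exists_level c hc0 hc
  let N : ℕ := (∑ i, finrank k (U i)) + 1
  have hN : ∀ i, finrank k (U i) ≤ N := by
    intro i
    have := Finset.single_le_sum (f := fun i => finrank k (U i)) (fun _ _ => Nat.zero_le _)
      (Finset.mem_univ i)
    show _ ≤ (∑ i, finrank k (U i)) + 1
    omega
  have hfin : ∀ i, (Set.Finite {μ : k | (φ i).HasEigenvalue μ}) := fun i =>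
    Module.End.finite_hasEigenvalue (φ i)
  let Λ : Finset k := insert 1 (Finset.univ.biUnion fun i => (hfin i).toFinset)
  have hΛ : ∀ i μ, (φ i).HasEigenvalue μ → μ ∈ Λ := by
    intro i μ h
    apply Finset.mem_insert_of_mem
    apply Finset.mem_biUnion.mpr
    exact ⟨i, Finset.mem_univ _, by simpa using h⟩
  obtain ⟨P, hP⟩ := exists_interp (Λ ∪ Λ.image (fun μ => c * μ)) N (fun μ => (χ μ : k))
  have hgen : ∀ i μ v, v ∈ (φ i).maxGenEigenspace μ →
      ((φ i - algebraMap k (Module.End k (U i)) μ) ^ N) v = 0 := by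
    intro i μ v hv
    rw [Module.End.maxGenEigenspace_eq_genEigenspace_finrank] at hv
    have h1 : v ∈ (φ i).genEigenspace μ N :=
      (Module.End.genEigenspace (φ i) μ).monotone (by exact_mod_cast hN i) hv
    rw [Module.End.mem_genEigenspace_nat, LinearMap.mem_ker] at h1
    rw [Algebra.algebraMap_eq_smul_one]
    exact h1
  have hnz : ∀ i μ, (φ i).HasEigenvalue μ → μ ≠ 0 := by
    rintro i μ hμ rfl
    obtain ⟨v, hv⟩ := hμ.exists_hasEigenvector
    apply hv.2
    apply hφ i
    have := hv.apply_eq_smul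
    rw [this, zero_smul, map_zero]
  have hbot : ∀ i μ, ¬ (φ i).HasEigenvalue μ → (φ i).maxGenEigenspace μ = ⊥ := by
    intro i μ h
    by_contra hne
    exact h ((Module.End.hasUnifEigenvalue_iff_hasUnifEigenvalue_one (k := ⊤)
      (by simp)).mp hne)
  have hA : ∀ i μ v, v ∈ (φ i).maxGenEigenspace μ → aeval (φ i) P v = (χ μ : k) • v := by
    intro i μ v hv
    by_cases h : (φ i).HasEigenvalue μ
    · exact aeval_apply_of_dvd _ μ N P _
        (hP μ (Finset.mem_union_left _ (hΛ i μ h))) v (hgen i μ v hv)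
    · rw [hbot i μ h, Submodule.mem_bot] at hv
      subst hv; simp
  have hB : ∀ i μ v, v ∈ (φ i).maxGenEigenspace μ →
      aeval (c • φ i) P v = (χ μ : k) • v - v := by
    intro i μ v hv
    by_cases h : (φ i).HasEigenvalue μ
    · rw [aeval_smul_apply_of_dvd (φ i) c μ N P _
        (hP (c * μ) (Finset.mem_union_right _ (Finset.mem_image_of_mem _ (hΛ i μ h)))) v
        (hgen i μ v hv), hχ μ (hnz i μ h)]
      push_cast
      rw [sub_smul, one_smul]
    · rw [hbot i μ h, Submodule.mem_bot] at hv
      subst hv; simp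
  refine ⟨P, ?_, fun i => ⟨?_, ?_⟩⟩
  · have h1 := hP 1 (Finset.mem_union_left _ (Finset.mem_insert_self _ _))
    obtain ⟨Q, hQ⟩ := h1
    have h2 := congrArg (Polynomial.eval 1) hQ
    simp only [hχ1, eval_sub, eval_C, eval_mul, eval_pow, eval_X, sub_self] at h2
    rw [zero_pow (by show N ≠ 0; exact Nat.succ_ne_zero _), zero_mul] at h2
    simpa using h2
  · have hle : ∀ μ, (φ i).maxGenEigenspace μ ≤
        LinearMap.eqLocus (aeval (c • φ i) P) (aeval (φ i) P - 1) := by
      intro μ v hv
      rw [LinearMap.mem_eqLocus, hB i μ v hv, LinearMap.sub_apply, hA i μ v hv,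
        Module.End.one_apply]
    have htop : (⊤ : Submodule k (U i)) ≤
        LinearMap.eqLocus (aeval (c • φ i) P) (aeval (φ i) P - 1) := by
      rw [← Module.End.iSup_maxGenEigenspace_eq_top (φ i)]
      exact iSup_le hle
    ext v
    exact htop (Submodule.mem_top (x := v))
  · rw [eq_top_iff, ← Module.End.iSup_maxGenEigenspace_eq_top (φ i)]
    refine iSup_le fun μ => ?_
    refine le_trans ?_ (le_iSup _ (χ μ))
    intro v hv
    rw [Module.End.mem_eigenspace_iff]
    exact hA i μ v hv

/-! ### from `c φ e = e φ` to `[pos, e] = e` modulo `J` -/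

theorem pow_mul_sub_mem {k A : Type*} [Field k] [Ring A] [Algebra k A] (J : Submodule k A)
    (c : k) (φ e : A) (hL : ∀ x ∈ J, φ * x ∈ J) (hR : ∀ x ∈ J, x * φ ∈ J)
    (h : (c • φ) * e - e * φ ∈ J) (n : ℕ) : (c • φ) ^ n * e - e * φ ^ n ∈ J := by
  induction n with
  | zero => simp
  | succ n ih =>
    have h1 : (c • φ) ^ (n + 1) * e - e * φ ^ (n + 1)
        = c • (φ * ((c • φ) ^ n * e - e * φ ^ n)) + ((c • φ) * e - e * φ) * φ ^ n := by
      rw [pow_succ' (c • φ), pow_succ' φ]
      simp only [mul_sub, sub_mul, smul_sub, smul_mul_assoc, mul_assoc]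
      abel
    rw [h1]
    refine J.add_mem (J.smul_mem _ (hL _ ih)) ?_
    have : ∀ m : ℕ, ∀ x ∈ J, x * φ ^ m ∈ J := by
      intro m
      induction m with
      | zero => intro x hx; simpa using hx
      | succ m ihm => intro x hx; rw [pow_succ, ← mul_assoc]; exact hR _ (ihm x hx)
    exact this n _ h

theorem aeval_mul_sub_mem {k A : Type*} [Field k] [Ring A] [Algebra k A] (J : Submodule k A)
    (c : k) (φ e : A) (hL : ∀ x ∈ J, φ * x ∈ J) (hR : ∀ x ∈ J, x * φ ∈ J)
    (h : (c • φ) * e - e * φ ∈ J) (P : k[X]) :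
    aeval (c • φ) P * e - e * aeval φ P ∈ J := by
  induction P using Polynomial.induction_on' with
  | add p q hp hq =>
    have : aeval (c • φ) (p + q) * e - e * aeval φ (p + q)
        = (aeval (c • φ) p * e - e * aeval φ p) + (aeval (c • φ) q * e - e * aeval φ q) := by
      simp only [map_add, add_mul, mul_add]; abel
    rw [this]; exact J.add_mem hp hq
  | monomial n a =>
    have : aeval (c • φ) (monomial n a) * e - e * aeval φ (monomial n a)
        = a • ((c • φ) ^ n * e - e * φ ^ n) := by
      rw [aeval_monomial, aeval_monomial, ← Algebra.smul_def, ← Algebra.smul_def, smul_sub,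
        smul_mul_assoc, mul_smul_comm]
    rw [this]; exact J.smul_mem _ (pow_mul_sub_mem J c φ e hL hR h n)

/-! ### correcting `e` -/

/-- `[a, ·]` is semisimple on a finite dimensional algebra if `a` is killed by a squarefree
polynomial. -/
theorem ad_isSemisimple {k A : Type*} [Field k] [PerfectField k] [Ring A] [Algebra k A]
    [FiniteDimensional k A] (a : A) (p : k[X]) (hp : Squarefree p) (hpa : aeval a p = 0) :
    Module.End.IsSemisimple (LinearMap.mulLeft k a - LinearMap.mulRight k a) := by
  have hl : Module.End.IsSemisimple (LinearMap.mulLeft k a) := by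
    apply Module.End.isSemisimple_of_squarefree_aeval_eq_zero hp
    have : Polynomial.aeval (Algebra.lmul k A a) p = 0 := by
      rw [Polynomial.aeval_algHom_apply, hpa, map_zero]
    simpa using! this
  have hr : Module.End.IsSemisimple (LinearMap.mulRight k a) := by
    apply Module.End.isSemisimple_of_squarefree_aeval_eq_zero hp
    have hrw : LinearMap.mulRight k a = (Algebra.lsmul (A := Aᵐᵒᵖ) k k A) (.op a) := by
      ext; simp [Algebra.lsmul]
    rw [hrw, Polynomial.aeval_algHom_apply, Polynomial.aeval_op_apply, hpa,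
      MulOpposite.op_zero, map_zero]
  exact hl.sub_of_commute (LinearMap.commute_mulLeft_right a a) hr

theorem exists_correction {k A : Type*} [Field k] [PerfectField k] [Ring A] [Algebra k A]
    [FiniteDimensional k A] (a : A) (p : k[X]) (hp : Squarefree p) (hpa : aeval a p = 0)
    (J : Submodule k A) (hL : ∀ x ∈ J, a * x ∈ J) (hR : ∀ x ∈ J, x * a ∈ J) (e : A)
    (he : a * e - e * a - e ∈ J) :
    ∃ e' : A, e - e' ∈ J ∧ a * e' - e' * a = e' := by
  set T : Module.End k A := LinearMap.mulLeft k a - LinearMap.mulRight k a - 1 with hT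
  have hTa : ∀ x, T x = a * x - x * a - x := fun x => by
    simp [hT]
  have hss : Module.End.IsSemisimple T := by
    have h1 := ad_isSemisimple (k := k) a p hp hpa
    have h2 := Module.End.IsSemisimple.aeval h1 (X - 1)
    simpa [hT] using h2
  have hJ : J ∈ T.invtSubmodule := by
    rw [Module.End.mem_invtSubmodule]
    intro x hx
    rw [Submodule.mem_comap, hTa]
    exact J.sub_mem (J.sub_mem (hL x hx) (hR x hx)) hx
  obtain ⟨J', hJ', hcompl⟩ := (Module.End.isSemisimple_iff.mp hss) J hJ
  have hsup : e ∈ J ⊔ J' := by rw [hcompl.sup_eq_top]; trivial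
  obtain ⟨j, hj, e', he', hje⟩ := Submodule.mem_sup.mp hsup
  refine ⟨e', ?_, ?_⟩
  · have : e - e' = j := by rw [← hje]; abel
    rw [this]; exact hj
  · have h1 : T e' ∈ J' := hJ' he'
    have h2 : T e' ∈ J := by
      have : T e' = T e - T j := by rw [← hje, map_add]; abel
      rw [this]
      refine J.sub_mem ?_ (hJ hj)
      rw [hTa]; exact he
    have h3 : T e' = 0 := by
      have := hcompl.disjoint.le_bot (show T e' ∈ J ⊓ J' from ⟨h2, h1⟩)
      simpa using this
    rw [hTa] at h3
    exact sub_eq_zero.mp h3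

/-! ### the additive (infinitesimal) version: LEMMA 175-131-1, steps (2), (3) -/

theorem exists_level_add {k : Type*} [Field k] [CharZero k] :
    ∃ χ : k → ℤ, χ 0 = 0 ∧ ∀ μ : k, χ (μ + 1) = χ μ + 1 := by
  classical
  have hinj : ∀ m n : ℤ, (m : k) = n → m = n := fun m n h => by exact_mod_cast h
  let H : AddSubgroup k := AddSubgroup.zmultiples (1 : k)
  let r : k → k := fun μ => (Quotient.out (QuotientAddGroup.mk μ : k ⧸ H))
  have hr : ∀ μ : k, ∃ n : ℤ, μ = r μ + n := by
    intro μ
    have h1 : (QuotientAddGroup.mk (r μ) : k ⧸ H) = QuotientAddGroup.mk μ := Quotient.out_eq _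
    have h2 := QuotientAddGroup.eq.mp h1
    obtain ⟨n, hn⟩ := AddSubgroup.mem_zmultiples_iff.mp h2
    refine ⟨n, ?_⟩
    have : (n : k) = -r μ + μ := by rw [← hn]; simp
    rw [this]; ring
  have hrc : ∀ μ : k, r (μ + 1) = r μ := by
    intro μ
    have : (QuotientAddGroup.mk (μ + 1) : k ⧸ H) = QuotientAddGroup.mk μ := by
      apply QuotientAddGroup.eq.mpr
      have : -(μ + 1) + μ = -1 := by ring
      rw [this]
      exact H.neg_mem (AddSubgroup.mem_zmultiples 1)
    show Quotient.out _ = Quotient.out _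
    rw [this]
  choose n hn using hr
  have hnc : ∀ μ : k, n (μ + 1) = n μ + 1 := by
    intro μ
    have h1 := hn (μ + 1)
    rw [hrc] at h1
    have h2 := hn μ
    apply hinj
    push_cast
    have : r μ + (n (μ + 1) : k) = r μ + (n μ + 1) := by
      rw [← h1, ← add_assoc, ← h2]
    exact add_left_cancel this
  refine ⟨fun μ => n μ - n 0, by simp, fun μ => ?_⟩
  show n (μ + 1) - n 0 = n μ - n 0 + 1
  rw [hnc]; ring

theorem exists_pos_add {k : Type*} [Field k] [IsAlgClosed k] [CharZero k] {ι : Type*} [Finite ι]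
    (V : ι → Type*) [∀ i, AddCommGroup (V i)] [∀ i, Module k (V i)]
    [∀ i, FiniteDimensional k (V i)] (F : ∀ i, Module.End k (V i)) :
    ∃ P : k[X], P.eval 0 = 0 ∧ (∀ i, aeval (F i + 1) P = aeval (F i) P + 1) ∧
      (∀ i, (⨆ n : ℤ, Module.End.eigenspace (aeval (F i) P) (n : k)) = ⊤) := by
  classical
  cases nonempty_fintype ι
  obtain ⟨χ, hχ1, hχ⟩ := exists_level_add (k := k)
  let N : ℕ := (∑ i, finrank k (V i)) + 1
  have hN : ∀ i, finrank k (V i) ≤ N := by
    intro i
    have := Finset.single_le_sum (f := fun i => finrank k (V i)) (fun _ _ => Nat.zero_le _)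
      (Finset.mem_univ i)
    show _ ≤ (∑ i, finrank k (V i)) + 1
    omega
  have hfin : ∀ i, (Set.Finite {μ : k | (F i).HasEigenvalue μ}) := fun i =>
    Module.End.finite_hasEigenvalue (F i)
  let Λ : Finset k := insert 0 (Finset.univ.biUnion fun i => (hfin i).toFinset)
  have hΛ : ∀ i μ, (F i).HasEigenvalue μ → μ ∈ Λ := by
    intro i μ h
    apply Finset.mem_insert_of_mem
    apply Finset.mem_biUnion.mpr
    exact ⟨i, Finset.mem_univ _, by simpa using h⟩
  obtain ⟨P, hP⟩ := exists_interp (Λ ∪ Λ.image (fun μ => μ + 1)) N (fun μ => (χ μ : k))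
  have hgen : ∀ i μ v, v ∈ (F i).maxGenEigenspace μ →
      ((F i - algebraMap k (Module.End k (V i)) μ) ^ N) v = 0 := by
    intro i μ v hv
    rw [Module.End.maxGenEigenspace_eq_genEigenspace_finrank] at hv
    have h1 : v ∈ (F i).genEigenspace μ N :=
      (Module.End.genEigenspace (F i) μ).monotone (by exact_mod_cast hN i) hv
    rw [Module.End.mem_genEigenspace_nat, LinearMap.mem_ker] at h1
    rw [Algebra.algebraMap_eq_smul_one]
    exact h1
  have hbot : ∀ i μ, ¬ (F i).HasEigenvalue μ → (F i).maxGenEigenspace μ = ⊥ := by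
    intro i μ h
    by_contra hne
    exact h ((Module.End.hasUnifEigenvalue_iff_hasUnifEigenvalue_one (k := ⊤)
      (by simp)).mp hne)
  have hA : ∀ i μ v, v ∈ (F i).maxGenEigenspace μ → aeval (F i) P v = (χ μ : k) • v := by
    intro i μ v hv
    by_cases h : (F i).HasEigenvalue μ
    · exact aeval_apply_of_dvd _ μ N P _
        (hP μ (Finset.mem_union_left _ (hΛ i μ h))) v (hgen i μ v hv)
    · rw [hbot i μ h, Submodule.mem_bot] at hv
      subst hv; simp
  have hB : ∀ i μ v, v ∈ (F i).maxGenEigenspace μ →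
      aeval (F i + 1) P v = (χ μ : k) • v + v := by
    intro i μ v hv
    by_cases h : (F i).HasEigenvalue μ
    · have h1 := aeval_apply_of_dvd (F i + 1) (μ + 1) N P _
        (hP (μ + 1) (Finset.mem_union_right _ (Finset.mem_image_of_mem _ (hΛ i μ h)))) v (by
          have : F i + 1 - algebraMap k (Module.End k (V i)) (μ + 1)
              = F i - algebraMap k (Module.End k (V i)) μ := by
            rw [map_add, map_one]; abel
          rw [this]; exact hgen i μ v hv)
      rw [h1, hχ μ]
      push_cast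
      rw [add_smul, one_smul]
    · rw [hbot i μ h, Submodule.mem_bot] at hv
      subst hv; simp
  refine ⟨P, ?_, fun i => ?_, fun i => ?_⟩
  · have h1 := hP 0 (Finset.mem_union_left _ (Finset.mem_insert_self _ _))
    obtain ⟨Q, hQ⟩ := h1
    have h2 := congrArg (Polynomial.eval 0) hQ
    simp only [hχ1, eval_sub, eval_C, eval_mul, eval_pow, eval_X, sub_self] at h2
    rw [zero_pow (by show N ≠ 0; exact Nat.succ_ne_zero _), zero_mul] at h2
    simpa using h2
  · have hle : ∀ μ, (F i).maxGenEigenspace μ ≤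
        LinearMap.eqLocus (aeval (F i + 1) P) (aeval (F i) P + 1) := by
      intro μ v hv
      rw [LinearMap.mem_eqLocus, hB i μ v hv, LinearMap.add_apply, hA i μ v hv,
        Module.End.one_apply]
    have htop : (⊤ : Submodule k (V i)) ≤
        LinearMap.eqLocus (aeval (F i + 1) P) (aeval (F i) P + 1) := by
      rw [← Module.End.iSup_maxGenEigenspace_eq_top (F i)]
      exact iSup_le hle
    ext v
    exact htop (Submodule.mem_top (x := v))
  · rw [eq_top_iff, ← Module.End.iSup_maxGenEigenspace_eq_top (F i)]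
    refine iSup_le fun μ => ?_
    refine le_trans ?_ (le_iSup _ (χ μ))
    intro v hv
    rw [Module.End.mem_eigenspace_iff]
    exact hA i μ v hv

theorem pow_mul_sub_mem_add {k A : Type*} [Field k] [Ring A] [Algebra k A] (J : Submodule k A)
    (F e : A) (hL : ∀ x ∈ J, F * x ∈ J) (hR : ∀ x ∈ J, x * F ∈ J)
    (h : F * e - e * F - e ∈ J) (n : ℕ) : F ^ n * e - e * (F + 1) ^ n ∈ J := by
  induction n with
  | zero => simp
  | succ n ih =>
    have h1 : F ^ (n + 1) * e - e * (F + 1) ^ (n + 1)
        = F * (F ^ n * e - e * (F + 1) ^ n) + (F * e - e * F - e) * (F + 1) ^ n := by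
      rw [pow_succ' F, pow_succ' (F + 1)]
      noncomm_ring
    rw [h1]
    refine J.add_mem (hL _ ih) ?_
    have : ∀ m : ℕ, ∀ x ∈ J, x * (F + 1) ^ m ∈ J := by
      intro m
      induction m with
      | zero => intro x hx; simpa using hx
      | succ m ihm =>
        intro x hx
        rw [pow_succ, ← mul_assoc, mul_add, mul_one]
        exact J.add_mem (hR _ (ihm x hx)) (ihm x hx)
    exact this n _ h

theorem aeval_mul_sub_mem_add {k A : Type*} [Field k] [Ring A] [Algebra k A] (J : Submodule k A)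
    (F e : A) (hL : ∀ x ∈ J, F * x ∈ J) (hR : ∀ x ∈ J, x * F ∈ J)
    (h : F * e - e * F - e ∈ J) (P : k[X]) :
    aeval F P * e - e * aeval (F + 1) P ∈ J := by
  induction P using Polynomial.induction_on' with
  | add p q hp hq =>
    have : aeval F (p + q) * e - e * aeval (F + 1) (p + q)
        = (aeval F p * e - e * aeval (F + 1) p) + (aeval F q * e - e * aeval (F + 1) q) := by
      simp only [map_add, add_mul, mul_add]; abel
    rw [this]; exact J.add_mem hp hq
  | monomial n a =>
    have : aeval F (monomial n a) * e - e * aeval (F + 1) (monomial n a)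
        = a • (F ^ n * e - e * (F + 1) ^ n) := by
      rw [aeval_monomial, aeval_monomial, ← Algebra.smul_def, ← Algebra.smul_def, smul_sub,
        smul_mul_assoc, mul_smul_comm]
    rw [this]; exact J.smul_mem _ (pow_mul_sub_mem_add J F e hL hR h n)

theorem aeval_mem_left {k A : Type*} [Field k] [Ring A] [Algebra k A] (J : Submodule k A)
    (F : A) (hL : ∀ x ∈ J, F * x ∈ J) (P : k[X]) : ∀ x ∈ J, aeval F P * x ∈ J := by
  intro x hx
  induction P using Polynomial.induction_on' with
  | add p q hp hq => rw [map_add, add_mul]; exact J.add_mem hp hq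
  | monomial n a =>
    rw [aeval_monomial, ← Algebra.smul_def, smul_mul_assoc]
    refine J.smul_mem _ ?_
    induction n with
    | zero => simpa using hx
    | succ n ih => rw [pow_succ', mul_assoc]; exact hL _ ih

theorem aeval_mem_right {k A : Type*} [Field k] [Ring A] [Algebra k A] (J : Submodule k A)
    (F : A) (hR : ∀ x ∈ J, x * F ∈ J) (P : k[X]) : ∀ x ∈ J, x * aeval F P ∈ J := by
  intro x hx
  induction P using Polynomial.induction_on' with
  | add p q hp hq => rw [map_add, mul_add]; exact J.add_mem hp hq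
  | monomial n a =>
    rw [aeval_monomial, ← Algebra.smul_def, mul_smul_comm]
    refine J.smul_mem _ ?_
    induction n with
    | zero => simpa using hx
    | succ n ih => rw [pow_succ, ← mul_assoc]; exact hR _ ih

theorem aeval_pi_apply {k : Type*} [Field k] {ι : Type*} (B : ι → Type*) [∀ i, Ring (B i)]
    [∀ i, Algebra k (B i)] (F : ∀ i, B i) (P : k[X]) (i : ι) : aeval F P i = aeval (F i) P := by
  have := Polynomial.aeval_algHom_apply (Pi.evalAlgHom k B i) F P
  simpa using this.symm

/-- Integer eigenvalues in a window: `∏_{n ∈ [-m, m]} (pos - n) = 0`. -/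
theorem exists_window {k : Type*} [Field k] [CharZero k] {ι : Type*} [Finite ι]
    (V : ι → Type*) [∀ i, AddCommGroup (V i)] [∀ i, Module k (V i)]
    [∀ i, FiniteDimensional k (V i)] (pos : ∀ i, Module.End k (V i))
    (h : ∀ i, (⨆ n : ℤ, Module.End.eigenspace (pos i) (n : k)) = ⊤) :
    ∃ m : ℕ, ∀ i, aeval (pos i) (∏ n ∈ Finset.Icc (-(m : ℤ)) m, (X - C (n : k))) = 0 := by
  classical
  cases nonempty_fintype ι
  have hfin : ∀ i, (Set.Finite {n : ℤ | (pos i).HasEigenvalue (n : k)}) := fun i =>
    Set.Finite.preimage (Set.injOn_of_injective Int.cast_injective)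
      (Module.End.finite_hasEigenvalue (pos i))
  let E : Finset ℤ := Finset.univ.biUnion fun i => (hfin i).toFinset
  let m : ℕ := ∑ n ∈ E, n.natAbs
  refine ⟨m, fun i => ?_⟩
  have htop : (⊤ : Submodule k (V i)) ≤
      LinearMap.ker (aeval (pos i) (∏ n ∈ Finset.Icc (-(m : ℤ)) m, (X - C (n : k)))) := by
    rw [← h i]
    refine iSup_le fun n v hv => ?_
    rw [LinearMap.mem_ker]
    by_cases hn : (pos i).HasEigenvalue (n : k)
    · have hnE : n ∈ E := Finset.mem_biUnion.mpr ⟨i, Finset.mem_univ _, by simpa using hn⟩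
      have hle : n.natAbs ≤ m :=
        Finset.single_le_sum (f := fun n : ℤ => n.natAbs) (fun _ _ => Nat.zero_le _) hnE
      have hmem : n ∈ Finset.Icc (-(m : ℤ)) m := by
        rw [Finset.mem_Icc]; omega
      rw [← Finset.prod_erase_mul _ _ hmem, map_mul, Module.End.mul_apply]
      have : aeval (pos i) (X - C (n : k)) v = 0 := by
        rw [Module.End.mem_eigenspace_iff] at hv
        rw [map_sub, aeval_X, aeval_C, LinearMap.sub_apply, Module.algebraMap_end_apply, hv,
          sub_self]
      rw [this, map_zero]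
    · have : v = 0 := by
        by_contra hv0
        exact hn (Module.End.hasEigenvalue_of_hasEigenvector ⟨hv, hv0⟩)
      rw [this, map_zero]
  ext v
  exact LinearMap.mem_ker.mp (htop (Submodule.mem_top (x := v)))

theorem squarefree_window {k : Type*} [Field k] [CharZero k] (S : Finset ℤ) :
    Squarefree (∏ n ∈ S, (X - C (n : k))) := by
  apply Polynomial.Separable.squarefree
  apply Polynomial.separable_prod_X_sub_C_iff'.mpr
  intro x _ y _ hxy
  exact_mod_cast hxy

/-- **Steps (2), (3) of LEMMA 175-131-1, bare linear algebra.**  `F e - e F ≡ e` modulo a subspace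
`S` stable under left and right multiplication by `F`.  Then for a polynomial `P` with `P 0 = 0`
the operators `pos = P (F)` are diagonalisable with integer eigenvalues and `e ≡ e'` modulo `S`
with `[pos, e'] = e'`. -/
theorem exists_grading {k : Type*} [Field k] [IsAlgClosed k] [CharZero k] {ι : Type*} [Finite ι]
    (V : ι → Type*) [∀ i, AddCommGroup (V i)] [∀ i, Module k (V i)]
    [∀ i, FiniteDimensional k (V i)] (F e : ∀ i, Module.End k (V i))
    (S : Submodule k (∀ i, Module.End k (V i)))
    (hL : ∀ x ∈ S, F * x ∈ S) (hR : ∀ x ∈ S, x * F ∈ S) (h : F * e - e * F - e ∈ S) :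
    ∃ P : k[X], P.eval 0 = 0 ∧
      (∀ i, (⨆ n : ℤ, Module.End.eigenspace (aeval (F i) P) (n : k)) = ⊤) ∧
      (∃ m : ℕ, ∀ i,
        aeval (aeval (F i) P) (∏ n ∈ Finset.Icc (-(m : ℤ)) m, (X - C (n : k))) = 0) ∧
      ∃ e' : ∀ i, Module.End k (V i), e - e' ∈ S ∧
        ∀ i, aeval (F i) P * e' i - e' i * aeval (F i) P = e' i := by
  classical
  cases nonempty_fintype ι
  obtain ⟨P, hP0, hP1, hP2⟩ := exists_pos_add V F
  obtain ⟨m, hm⟩ := exists_window V (fun i => aeval (F i) P) hP2
  refine ⟨P, hP0, hP2, ⟨m, hm⟩, ?_⟩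
  have hposL := aeval_mem_left S F hL P
  have hposR := aeval_mem_right S F hR P
  have hmem := aeval_mul_sub_mem_add S F e hL hR h P
  have hF1 : aeval (F + 1) P = aeval F P + 1 := by
    funext i
    have h1 := aeval_pi_apply (fun i => Module.End k (V i)) (F + 1) P i
    have h2 := aeval_pi_apply (fun i => Module.End k (V i)) F P i
    rw [h1, Pi.add_apply, Pi.add_apply, Pi.one_apply, h2]
    exact hP1 i
  have he : aeval F P * e - e * aeval F P - e ∈ S := by
    rw [hF1, mul_add, mul_one] at hmem
    have : aeval F P * e - e * aeval F P - e = aeval F P * e - (e * aeval F P + e) := by abel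
    rw [this]; exact hmem
  have hann : aeval (aeval F P) (∏ n ∈ Finset.Icc (-(m : ℤ)) m, (X - C (n : k))) = 0 := by
    funext i
    have h1 := aeval_pi_apply (fun i => Module.End k (V i)) (aeval F P)
      (∏ n ∈ Finset.Icc (-(m : ℤ)) m, (X - C (n : k))) i
    have h2 := aeval_pi_apply (fun i => Module.End k (V i)) F P i
    rw [h1, h2]
    exact hm i
  obtain ⟨e', he1, he2⟩ := exists_correction (k := k) (aeval F P) _ (squarefree_window _) hann S
    hposL hposR e he
  refine ⟨e', he1, fun i => ?_⟩
  have h2 := aeval_pi_apply (fun i => Module.End k (V i)) F P i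
  have := congrFun he2 i
  rw [Pi.sub_apply, Pi.mul_apply, Pi.mul_apply, h2] at this
  exact this

/-- Same, with an involution `bar` (conjugation by the parity operators): `F` even, `e` odd, `S`
stable: `e'` may be chosen odd. -/
theorem exists_grading_bar {k : Type*} [Field k] [IsAlgClosed k] [CharZero k] {ι : Type*}
    [Finite ι] (V : ι → Type*) [∀ i, AddCommGroup (V i)] [∀ i, Module k (V i)]
    [∀ i, FiniteDimensional k (V i)] (F e : ∀ i, Module.End k (V i))
    (S : Submodule k (∀ i, Module.End k (V i)))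
    (hL : ∀ x ∈ S, F * x ∈ S) (hR : ∀ x ∈ S, x * F ∈ S) (h : F * e - e * F - e ∈ S)
    (g : ∀ i, Module.End k (V i)) (hg : g * g = 1) (hgF : g * F = F * g)
    (hge : g * e = - (e * g)) (hgS : ∀ x ∈ S, g * x * g ∈ S) :
    ∃ P : k[X], P.eval 0 = 0 ∧
      (∀ i, (⨆ n : ℤ, Module.End.eigenspace (aeval (F i) P) (n : k)) = ⊤) ∧
      (∃ m : ℕ, ∀ i,
        aeval (aeval (F i) P) (∏ n ∈ Finset.Icc (-(m : ℤ)) m, (X - C (n : k))) = 0) ∧
      ∃ e' : ∀ i, Module.End k (V i), e - e' ∈ S ∧ g * e' = - (e' * g) ∧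
        ∀ i, aeval (F i) P * e' i - e' i * aeval (F i) P = e' i := by
  classical
  obtain ⟨P, hP0, hP2, hm, e', he1, he2⟩ := exists_grading V F e S hL hR h
  refine ⟨P, hP0, hP2, hm, (2⁻¹ : k) • (e' - g * e' * g), ?_, ?_, ?_⟩
  · have h1 : g * e * g = - e := by rw [hge, neg_mul, mul_assoc, hg, mul_one]
    have h2 : e - (2⁻¹ : k) • (e' - g * e' * g)
        = (2⁻¹ : k) • ((e - e') - g * (e - e') * g) := by
      have : (e - e') - g * (e - e') * g = (2 : k) • e - (e' - g * e' * g) := by
        rw [mul_sub, sub_mul, h1, two_smul]; abel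
      rw [this, smul_sub (2⁻¹ : k) ((2 : k) • e), smul_smul,
        inv_mul_cancel₀ (two_ne_zero), one_smul]
    rw [h2]
    exact S.smul_mem _ (S.sub_mem he1 (hgS _ he1))
  · have h3 : g * (g * e' * g) = e' * g := by
      rw [mul_assoc g e' g, ← mul_assoc g g, hg, one_mul]
    have h4 : g * e' * g * g = g * e' := by rw [mul_assoc, hg, mul_one]
    rw [mul_smul_comm, smul_mul_assoc, mul_sub, sub_mul, h3, h4, ← smul_neg, neg_sub]
  · intro i
    have hcomm : g i * aeval (F i) P = aeval (F i) P * g i := by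
      have h5 : Commute (g i) (F i) := congrFun hgF i
      have h8 : Commute (g i) (aeval (F i) P) := by
        apply Algebra.commute_of_mem_adjoin_singleton_of_commute (R := k) _ h5
        exact Polynomial.aeval_mem_adjoin_singleton _ _
      exact h8
    have h6 := he2 i
    have h7 : aeval (F i) P * (g i * e' i * g i) - (g i * e' i * g i) * aeval (F i) P
        = g i * e' i * g i := by
      have : aeval (F i) P * (g i * e' i * g i) - (g i * e' i * g i) * aeval (F i) P
          = g i * (aeval (F i) P * e' i - e' i * aeval (F i) P) * g i := by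
        rw [mul_sub, sub_mul]
        congr 1
        · rw [← mul_assoc, ← mul_assoc, ← hcomm]
          simp only [mul_assoc]
        · rw [mul_assoc (g i * e' i) (g i), hcomm]
          simp only [mul_assoc]
      rw [this, h6]
    show aeval (F i) P * ((2⁻¹ : k) • (e' i - g i * e' i * g i))
        - ((2⁻¹ : k) • (e' i - g i * e' i * g i)) * aeval (F i) P
      = (2⁻¹ : k) • (e' i - g i * e' i * g i)
    rw [mul_smul_comm, smul_mul_assoc, ← smul_sub, mul_sub, sub_mul]
    congr 1
    calc _ = (aeval (F i) P * e' i - e' i * aeval (F i) P)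
          - (aeval (F i) P * (g i * e' i * g i) - (g i * e' i * g i) * aeval (F i) P) := by abel
      _ = _ := by rw [h6, h7]

end Crest.Agent.R175.GrB_936
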