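import Crest.Agent.R175.PTD1_175
import Crest.Agent.R175.WB_527
import Crest.Agent.R175.GMon_145
import Crest.Agent.R175.GrB_936

/-!
Row 175 (S0263), helper180: positive sections of a finite Coxeter group from Matsumoto's theorem, for
the generators of the Artin group and for their inverses.
-/

set_option autoImplicit false

namespace Crest.Agent.R175.SecA_180

open Crest.GroupTheory Crest.Agent.R175.DDef_145 Crest.Agent.R175.PTD1_175 CoxeterSystem

variable {S W : Type*} [Group W] {M : CoxeterMatrix S} {cs : CoxeterSystem M W}

theorem prod_inv_eq {G : Type*} [Group G] (f : S → G) (l : List S) :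
    (l.map fun s => (f s)⁻¹).prod = ((l.reverse.map f).prod)⁻¹ := by
  induction l with
  | nil => simp
  | cons a l ih => simp [ih]

theorem braid_inv {G : Type*} [Group G] {f : S → G} (h : Braid M f) :
    Braid M (fun s => (f s)⁻¹) := by
  intro s t hst
  have h1 := h s t hst
  rw [prod_inv_eq, prod_inv_eq, GMon_145.reverse_alt, GMon_145.reverse_alt]
  split_ifs
  · rw [h1]
  · rw [h1]

/-- the section defined by reduced words -/
noncomputable def secOf (cs : CoxeterSystem M W) {A : Type*} [Group A] {f : S → A}
    (h : Braid M f) : Sec cs f where
  pos w := ((cs.exists_isReduced w).choose.map f).prod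
  pos_one := by
    have h1 := (cs.exists_isReduced 1).choose_spec
    have h2 : (cs.exists_isReduced 1).choose = [] := by
      rw [← List.length_eq_zero_iff, ← h1.1.eq, ← h1.2, cs.length_one]
    rw [h2]
    simp
  pos_mul s w hl := by
    have h1 := (cs.exists_isReduced w).choose_spec
    have h2 := (cs.exists_isReduced (cs.simple s * w)).choose_spec
    have h3 : cs.IsReduced (s :: (cs.exists_isReduced w).choose) := by
      rw [CoxeterSystem.IsReduced, cs.wordProd_cons, ← h1.2, hl, List.length_cons, ← h1.1.eq,
        ← h1.2]
    rw [← List.prod_cons, ← List.map_cons]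
    refine WB_527.w4 h _ _ h2.1 h3 ?_
    rw [cs.wordProd_cons, ← h1.2, ← h2.2]

/-- the section of the Artin group -/
noncomputable def secG (cs : CoxeterSystem M W) : Sec cs (artinGen M) := secOf cs (braid_artinGen M)

/-- the section for the inverses -/
noncomputable def secI (cs : CoxeterSystem M W) : Sec cs (fun s => (artinGen M s)⁻¹) :=
  secOf cs (braid_inv (braid_artinGen M))

end Crest.Agent.R175.SecA_180
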