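import Crest.Agent.R175.GlueD1_180
import Crest.Agent.R175.SecA_180
import Crest.Agent.R175.GlueAdd_445
import Crest.Agent.R175.GlueE_505
import Crest.Agent.R175.GlueH_445
import Crest.Agent.R175.PTC2_505
import Crest.Agent.R175.LevC_788
import Crest.Agent.R175.PTX_4
import Crest.Agent.R175.AddF_61

/-!
Row 175 (S0263), block (D) for all labels (helper180): the instance of `DomF` over the classes.

`ActD A`: the action `A : ActI M h4` commutes with the parity shift and its generators act by exact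
triangles (`TD`).  `zero_of_fam`: every orthogonal `F`-stable family of classes `x` with
`lam (x j) = e_(s,j)` has a translate with `H = 0`.
-/

set_option autoImplicit false
set_option linter.unusedSectionVars false
set_option linter.unusedVariables false

open scoped Classical
open CategoryTheory

namespace Crest.Agent.R175.GlueD_180

open Crest.GroupTheory Crest.Agent.R175.PTA Crest.Agent.R175.Cls_133 Crest.Agent.R175.UG_27
open Crest.Agent.R175.Unf_109 Crest.Agent.R175.Fm_27 Crest.Agent.R175.FmCls_303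
open Crest.Agent.R175.Lev_788 Crest.Agent.R175.LevC_788 Crest.Agent.R175.FmC_180
open Crest.Agent.R175.FmD_180 (Add Ex ex_of_hT)
open Crest.Agent.R175.FmE_180 Crest.Agent.R175.GlueD1_180 Crest.Agent.R175.DomF_180
open Crest.Agent.R175.PTQ_4 Crest.Agent.R175.PTD1_175 Crest.Agent.R175.SecA_180
open Crest.Agent.R175.GlueData_445 Crest.Agent.R175.GluePT_445 Crest.Agent.R175.GlueAdd_445
open Crest.Agent.R175.Pos_418
open Crest.Agent.R175.KS_303 (Dec)
open Crest.Agent.R175.KSb_303 (IsZ Ind Sm SumD)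

/-! ### classes and additive closures -/

section cls

universe u v

variable {T : Type u} {G : MG T} {k : Type v} [Field k] [Fintype T]

/-- the class of a direct sum -/
theorem cls_sm {X Y Z : TOb G k} (h : Sm X Y Z) : (⟦X⟧ : Cls G k) = ⟦Y⟧ + ⟦Z⟧ := by
  obtain ⟨S⟩ := h
  refine Quotient.sound (AddF_61.hiso_dsum S.i1 S.i2 S.p1 S.p2 S.hi1.1 S.hi2.1 S.hp1.1 S.hp2.1
    S.hi1.2 S.hi2.2 S.hp1.2 S.hp2.2 S.i1p1 ?_ ?_ S.i2p2 S.sum)
  · have h1 := congrArg (fun f => S.i1 ≫ f ≫ S.p2) S.sum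
    simp only [Preadditive.add_comp, Preadditive.comp_add, Category.assoc, Category.id_comp,
      S.i2p2, Category.comp_id] at h1
    rw [← Category.assoc, S.i1p1, Category.id_comp] at h1
    exact add_eq_left.1 h1
  · have h1 := congrArg (fun f => S.i2 ≫ f ≫ S.p1) S.sum
    simp only [Preadditive.add_comp, Preadditive.comp_add, Category.assoc, Category.id_comp,
      S.i1p1, Category.comp_id] at h1
    have h2 : S.i2 ≫ S.p2 ≫ S.i2 ≫ S.p1 = S.i2 ≫ S.p1 := by
      rw [← Category.assoc, S.i2p2, Category.id_comp]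
    rw [h2] at h1
    exact add_eq_left.1 h1

theorem cls_isZ {X : TOb G k} (h : IsZ X) : (⟦X⟧ : Cls G k) = 0 :=
  Quotient.sound (AddF_61.hiso_zero h AddF_61.id_free_zero)

/-- the class of a sum of a list -/
theorem cls_isSum [DecidableEq T] {X : TOb G k} {l : List (TOb G k)} (h : IsSum X l) :
    (⟦X⟧ : Cls G k) = (l.map fun Y => (⟦Y⟧ : Cls G k)).sum := by
  obtain ⟨X', h1, h2, -⟩ := h
  rw [show (⟦X⟧ : Cls G k) = ⟦X'⟧ from Quotient.sound h1]
  exact h2.map_sum (fun Y => (⟦Y⟧ : Cls G k)) (fun _ hz => cls_isZ hz) (fun _ _ _ hs => cls_sm hs)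

/-- additive closure from classes -/
theorem add_of_cls {P : TOb G k → Prop} : ∀ (l : List (Cls G k)) (Z : TOb G k),
    (⟦Z⟧ : Cls G k) = l.sum → (∀ z ∈ l, ∃ W : TOb G k, (⟦W⟧ : Cls G k) = z ∧ Add P W) → Add P Z
  | [], Z, h, _ => by
    have h1 : HIso Z (free G k 0 0) := Quotient.exact h
    exact Add.hiso (add_of_isZ AddF_61.id_free_zero) h1
  | z :: l, Z, h, hl => by
    obtain ⟨W, hW, hPW⟩ := hl z (List.mem_cons_self ..)
    obtain ⟨W', hW'⟩ := Quotient.exists_rep l.sum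
    have h1 : Add P W' := add_of_cls l W' hW' fun z' hz' => hl z' (List.mem_cons_of_mem _ hz')
    have h2 : HIso Z (dsum W W') := by
      refine Quotient.exact (h.trans ?_)
      rw [List.sum_cons, ← hW, ← hW']
      rfl
    refine Add.hiso (add_of_sm (A := W) (B := W') ⟨?_⟩ hPW h1) h2
    exact
      { i1 := inl W.X W'.X
        p1 := fst W.X W'.X
        i2 := inr W.X W'.X
        p2 := snd W.X W'.X
        hi1 := ⟨bar_inl _ _, AddF_61.D_inl W W'⟩
        hp1 := ⟨bar_fst _ _, AddF_61.D_fst W W'⟩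
        hi2 := ⟨bar_inr _ _, AddF_61.D_inr W W'⟩
        hp2 := ⟨bar_snd _ _, AddF_61.D_snd W W'⟩
        i1p1 := inl_fst _ _
        i2p2 := inr_snd _ _
        sum := sum_one _ _ }

end cls

/-! ### families of classes -/

section fam

variable {S : Type} [Fintype S] {M : CoxeterMatrix S} {Λ : Finset ℕ} {h4 : ∀ m ∈ Λ, 4 ≤ m}
  [DistribMulAction (ArtinGroup M) (Cls (UG M Λ) ℂ)]

variable (M) in
/-- properties of the action of the generators -/
structure ActP {Λ : Finset ℕ} (h4 : ∀ m ∈ Λ, 4 ≤ m)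
    [DistribMulAction (ArtinGroup M) (Cls (UG M Λ) ℂ)] : Prop where
  h_act : ∀ (s : S) (x y : Cls (UG M Λ) ℂ), hC (artinGen M s • x) (artinGen M s • y) = hC x y
  lam_act : ∀ (s : S) (x : Cls (UG M Λ) ℂ) (a), lamC (artinGen M s • x) a = lamC x a
  F_act : ∀ (m : ℕ) (hm : m ∈ Λ) (s : S) (x : Cls (UG M Λ) ℂ),
    FmC M h4 hm (artinGen M s • x) = artinGen M s • FmC M h4 hm x
  sh_act : ∀ (s : S) (x : Cls (UG M Λ) ℂ), shC (artinGen M s • x) = artinGen M s • shC x
  td : ∀ (s : S) (X Y : TOb (UG M Λ) ℂ) (p : X.X ⟶ X.X) (q : Y.X ⟶ Y.X) (hp : PTH.Eul X p)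
    (hq : PTH.Eul Y q), hT X X = 0 → (⟦Y⟧ : Cls (UG M Λ) ℂ) = artinGen M s • ⟦X⟧ →
    Nonempty (TD {a : S × J Λ | a.1 = s} (qmOf X hp) (qmOf Y hq))

theorem ActP.h_all (hA : ActP M h4) (r : ArtinGroup M) (x y : Cls (UG M Λ) ℂ) :
    hC (r • x) (r • y) = hC x y := by
  revert x y
  refine GlueE_505.gen_ind (fun r => ∀ x y : Cls (UG M Λ) ℂ, hC (r • x) (r • y) = hC x y)
    (by simp) ?_ ?_ r
  · intro s r ih x y
    rw [mul_smul, mul_smul, ih, hA.h_act]
  · intro s r ih x y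
    rw [mul_smul, mul_smul, ih]
    have := hA.h_act s ((artinGen M s)⁻¹ • x) ((artinGen M s)⁻¹ • y)
    rw [smul_inv_smul, smul_inv_smul] at this
    exact this.symm

theorem ActP.lam_all (hA : ActP M h4) (r : ArtinGroup M) (x : Cls (UG M Λ) ℂ) (a : S × J Λ) :
    lamC (r • x) a = lamC x a := by
  revert x
  refine GlueE_505.gen_ind (fun r => ∀ x : Cls (UG M Λ) ℂ, lamC (r • x) a = lamC x a)
    (by simp) ?_ ?_ r
  · intro s r ih x
    rw [mul_smul, ih, hA.lam_act]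
  · intro s r ih x
    rw [mul_smul, ih]
    have := hA.lam_act s ((artinGen M s)⁻¹ • x) a
    rw [smul_inv_smul] at this
    exact this.symm

theorem ActP.F_all (hA : ActP M h4) {m : ℕ} (hm : m ∈ Λ) (r : ArtinGroup M)
    (x : Cls (UG M Λ) ℂ) : FmC M h4 hm (r • x) = r • FmC M h4 hm x := by
  revert x
  refine GlueE_505.gen_ind (fun r => ∀ x : Cls (UG M Λ) ℂ,
    FmC M h4 hm (r • x) = r • FmC M h4 hm x) (by simp) ?_ ?_ r
  · intro s r ih x
    rw [mul_smul, ih, hA.F_act, mul_smul]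
  · intro s r ih x
    rw [mul_smul, ih, mul_smul]
    congr 1
    have := hA.F_act m hm s ((artinGen M s)⁻¹ • x)
    rw [smul_inv_smul] at this
    rw [this, inv_smul_smul]

theorem ActP.sh_all (hA : ActP M h4) (r : ArtinGroup M)
    (x : Cls (UG M Λ) ℂ) : shC (r • x) = r • shC x := by
  revert x
  refine GlueE_505.gen_ind (fun r => ∀ x : Cls (UG M Λ) ℂ, shC (r • x) = r • shC x)
    (by simp) ?_ ?_ r
  · intro s r ih x
    rw [mul_smul, ih, hA.sh_act, mul_smul]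
  · intro s r ih x
    rw [mul_smul, ih, mul_smul]
    congr 1
    have := hA.sh_act s ((artinGen M s)⁻¹ • x)
    rw [smul_inv_smul] at this
    rw [this, inv_smul_smul]

variable (M) in
/-- an orthogonal `F`-stable family of single-framed classes -/
structure CFam {Λ : Finset ℕ} (h4 : ∀ m ∈ Λ, 4 ≤ m) (s0 : S) (x : J Λ → Cls (UG M Λ) ℂ) :
    Prop where
  lam : ∀ j a, lamC (x j) a = if a = (s0, j) then 1 else 0
  orth : ∀ i j, hC (x i) (x j) = 0
  F : ∀ m (hm : m ∈ Λ) i, ∃ l : List (Cls (UG M Λ) ℂ), FmC M h4 hm (x i) = l.sum ∧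
    ∀ z ∈ l, ∃ j, z = x j ∨ z = shC (x j)
  num : ∀ m (hm : m ∈ Λ) i y, hC (FmC M h4 hm (x i)) y = ∑ j ∈ nbs Λ m i, hC (x j) y

theorem CFam.smul (hA : ActP M h4) {s0 : S} {x : J Λ → Cls (UG M Λ) ℂ} (hx : CFam M h4 s0 x)
    (r : ArtinGroup M) : CFam M h4 s0 (fun i => r • x i) where
  lam j a := by rw [hA.lam_all, hx.lam]
  orth i j := by rw [hA.h_all, hx.orth]
  F m hm i := by
    obtain ⟨l, h1, h2⟩ := hx.F m hm i
    refine ⟨l.map fun z => r • z, ?_, ?_⟩
    · rw [hA.F_all, h1, List.smul_sum]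
    · intro z hz
      obtain ⟨w, hw, rfl⟩ := List.mem_map.1 hz
      obtain ⟨j, h3 | h3⟩ := h2 w hw
      · exact ⟨j, Or.inl (by rw [h3])⟩
      · exact ⟨j, Or.inr (by rw [h3, hA.sh_all])⟩
  num m hm i y := by
    rw [hA.F_all]
    have h1 : y = r • (r⁻¹ • y) := by rw [smul_inv_smul]
    rw [h1, hA.h_all, hx.num]
    exact Finset.sum_congr rfl fun j _ => by rw [hA.h_all]

theorem FmC_fr {m : ℕ} (hm : m ∈ Λ) (s : S) (j : J Λ) :
    FmC M h4 hm (frC (UG M Λ) ℂ (s, j)) = ∑ j' ∈ nbs Λ m j, frC (UG M Λ) ℂ (s, j') := by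
  unfold FmC
  rw [FC_fr_of _ (s, j) (nb2 Λ m s j) (fun b => by rw [mem_nb2]; rfl), sum_nb2]

theorem hT_out (x y : Cls (UG M Λ) ℂ) : hT x.out y.out = hC x y := by
  conv_rhs => rw [← Quotient.out_eq x, ← Quotient.out_eq y]
  rfl

theorem lam_out (x : Cls (UG M Λ) ℂ) (a : S × J Λ) : PTA.lam x.out a = lamC x a := by
  conv_rhs => rw [← Quotient.out_eq x]
  rfl

theorem fin_out (x : Cls (UG M Λ) ℂ) (a : S × J Λ) :
    Module.finrank ℂ (PTH.Hv x.out a) = hC x (frC (UG M Λ) ℂ a) := by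
  rw [Euler_184.finrank_Hv_dT]
  conv_rhs => rw [← Quotient.out_eq x]
  rfl

/-! ### the members of a family -/

section mem

variable {s0 : S} {x : J Λ → Cls (UG M Λ) ℂ} (hx : CFam M h4 s0 x)
  {p : ∀ i, (x i).out.X ⟶ (x i).out.X} (hp : ∀ i, PTH.Eul (x i).out (p i))

include hx in
theorem CFam.hT_out (i j : J Λ) : hT (x i).out (x j).out = 0 := by
  rw [GlueD_180.hT_out, hx.orth]

include hx in
theorem CFam.dW_eq (s : S) (j : J Λ) :
    dW (wt Λ) (fun i => qmOf (x i).out (hp i)) (s, j)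
      = wt Λ j * dW (wt Λ) (fun i => qmOf (x i).out (hp i)) (s, j0 h4) := by
  have h1 : ∀ j, dW (wt Λ) (fun i => qmOf (x i).out (hp i)) (s, j)
      = ∑ i, wt Λ i * (hC (x i) (frC (UG M Λ) ℂ (s, j)) : ℝ) := by
    intro j
    refine Finset.sum_congr rfl fun i _ => ?_
    rw [← fin_out]
    rfl
  rw [h1, h1]
  refine pf h4 (fun j i => (hC (x i) (frC (UG M Λ) ℂ (s, j)) : ℝ)) (fun m hm j i => ?_) j
  rw [nsum_eq_nbs, nsum_eq_nbs]
  have h2 : ∑ j' ∈ nbs Λ m j, hC (x i) (frC (UG M Λ) ℂ (s, j'))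
      = ∑ i' ∈ nbs Λ m i, hC (x i') (frC (UG M Λ) ℂ (s, j)) := by
    rw [← hC_sum_right, ← FmC_fr (h4 := h4) hm, ← hx.num m hm]
    unfold FmC
    exact (hC_FC _ _ _).symm
  exact_mod_cast h2

include hx in
theorem CFam.lW_eq (a : S × J Λ) :
    lW (wt Λ) (fun i => qmOf (x i).out (hp i)) a = (if a.1 = s0 then 1 else 0) * wt Λ a.2 := by
  have h1 : lW (wt Λ) (fun i => qmOf (x i).out (hp i)) a
      = ∑ i, wt Λ i * (lamC (x i) a : ℝ) := by
    refine Finset.sum_congr rfl fun i _ => ?_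
    rw [← lam_out]
    rfl
  rw [h1]
  simp only [hx.lam]
  rw [Finset.sum_eq_single a.2]
  · by_cases h : a.1 = s0
    · have : a = (s0, a.2) := Prod.ext h rfl
      rw [if_pos h, if_pos this]; simp
    · have : ¬ a = (s0, a.2) := fun h' => h (by rw [h'])
      rw [if_neg h, if_neg this]; simp
  · intro i _ hi
    have : ¬ a = (s0, i) := fun h' => hi (by rw [h'])
    rw [if_neg this]; simp
  · intro h; exact absurd (Finset.mem_univ _) h

include hx in
theorem CFam.muW_eq' (hΛ : Good M Λ) (a : S × J Λ) :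
    muW (wt Λ) (fun i => qmOf (x i).out (hp i)) a = ((if a.1 = s0 then 1 else 0)
      - mv (Cr M) (fun s => dW (wt Λ) (fun i => qmOf (x i).out (hp i)) (s, j0 h4)) a.1)
        * wt Λ a.2 := by
  have h1 := GlU_505.mv_hwt hΛ
    (fun s => dW (wt Λ) (fun i => qmOf (x i).out (hp i)) (s, j0 h4)) a
  have h2 : ∀ b : S × J Λ, dW (wt Λ) (fun i => qmOf (x i).out (hp i)) b
      = dW (wt Λ) (fun i => qmOf (x i).out (hp i)) (b.1, j0 h4) * wt Λ b.2 := by
    intro b
    rw [mul_comm]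
    exact hx.dW_eq hp b.1 b.2
  rw [muW_eq, hx.lW_eq hp, sub_mul, ← h1, h2 a]
  have h3 : ∑ u, (Fintype.card ((UG M Λ).E a u) : ℝ)
        * dW (wt Λ) (fun i => qmOf (x i).out (hp i)) u
      = ∑ u, (Fintype.card ((UG M Λ).E a u) : ℝ) *
        (dW (wt Λ) (fun i => qmOf (x i).out (hp i)) (u.1, j0 h4) * wt Λ u.2) :=
    Finset.sum_congr rfl fun u _ => by rw [← h2 u]
  rw [h3]
  ring

include hx in
theorem CFam.add {m : ℕ} (hm : m ∈ Λ) (i : J Λ) :
    Add (fun Z => ∃ j, Z = (x j).out)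
      ((Fm M (algebraMap ℝ ℂ) hm ((by norm_num : 2 ≤ 4).trans (h4 m hm))).toFDat.tob
        (x i).out) := by
  obtain ⟨l, h1, h2⟩ := hx.F m hm i
  refine add_of_cls l _ ?_ ?_
  · rw [← h1]
    conv_rhs => rw [← Quotient.out_eq (x i)]
    rfl
  · intro z hz
    obtain ⟨j, h3 | h3⟩ := h2 z hz
    · exact ⟨(x j).out, by rw [Quotient.out_eq, h3], Add.of ⟨j, rfl⟩⟩
    · refine ⟨Shift_936.sh (x j).out, ?_, Add.mono (add_sh _) fun V hV => ⟨j, hV⟩⟩
      rw [h3]
      conv_rhs => rw [← Quotient.out_eq (x j)]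
      exact Quotient.sound (GlueH_445.hiso_sh_sh _)

end mem

/-! ### the instance -/

section inst

variable {s0 : S} {x : J Λ → Cls (UG M Λ) ℂ}

/-- **the instance of `DomF`** -/
noncomputable def domF (hΛ : Good M Λ) (hM : PDm (Cr M)) (hA : ActP M hΛ.four)
    (hx : CFam M hΛ.four s0 x)
    (p : ∀ (r : ArtinGroup M) (i : J Λ), (r • x i).out.X ⟶ (r • x i).out.X)
    (hp : ∀ r i, PTH.Eul ((r • x i).out) (p r i)) (ht : ℂ → ℤ) (h0 : ht 0 = 0)
    (h1 : ∀ μ, ht (μ + 1) = ht μ + 1) :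
    DomF (UG M Λ) ℂ (artinGen M) (ArtinGroup M) (J Λ) where
  ω := wt Λ
  ω_pos := wt_pos Λ
  qm r i := qmOf ((r • x i).out) (hp r i)
  π a := a.1
  wt a := wt Λ a.2
  wt_pos a := wt_pos Λ _
  ht := ht
  ht_add := h1
  ht_zero := h0
  td r s i := by
    refine hA.td s _ _ _ _ (hp r i) (hp _ i) ((hx.smul hA r).hT_out i i) ?_
    rw [Quotient.out_eq, Quotient.out_eq, smul_eq_mul, mul_smul]
  K r i i' t a b _ _ hlo hhi hc :=
    K_pair (hp r i) (hp r i') ((hx.smul hA r).hT_out i i') h1 (hlo i') (hhi i) hc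
  fib r t t' n i htt hc := by
    obtain ⟨s, j⟩ := t
    obtain ⟨s', j'⟩ := t'
    obtain rfl : s = s' := htt
    obtain ⟨μ, rfl, hc'⟩ := Cb_of_cb (hp r i) hc
    obtain ⟨i', hi'⟩ := cb_fibre (S := S) hΛ.four
      (fun m hm => (Fm M (algebraMap ℝ ℂ) hm ((by norm_num : 2 ≤ 4).trans (hΛ.four m hm))).toFDat)
      (fun m hm s i j h => ⟨rfl, h⟩) (X := fun i => (r • x i).out) (p := p r)
      (fun i => eul_of (hp r i)) (fun i i' => ex_of_hT ((hx.smul hA r).hT_out i i'))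
      (fun m hm i => (hx.smul hA r).add hm i) hc' j'
    exact ⟨i', cb_of_Cb (hp r i') hi'⟩
  pf r t t' htt := by
    have htt' : t.1 = t'.1 := htt
    rw [(hx.smul hA r).muW_eq' (hp r) hΛ, (hx.smul hA r).muW_eq' (hp r) hΛ, htt']
    ring
  euler r := euler_fam (by norm_num) (wt_pos Λ) _ _ (hp r) (hx.smul hA r).hT_out
  pd n hn h t := by
    by_contra hne
    have hn0 : n ≠ 0 := fun h => hne (congrFun h t)
    have h2 := cu_pd hΛ hM n hn0
    rw [qf_eq] at h2
    simp only [← GlU_505.mv_card] at h2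
    exact absurd h (not_le.2 h2)

/-- every orthogonal `F`-stable family of classes has a translate with `H = 0` -/
theorem zero_of_fam (hΛ : Good M Λ) (hM : PDm (Cr M)) (hA : ActP M hΛ.four)
    (hx : CFam M hΛ.four s0 x) :
    ∃ r : ArtinGroup M, ∀ i a, hC (r • x i) (frC (UG M Λ) ℂ a) = 0 := by
  have h2 : (2 : ℂ) ≠ 0 := by norm_num
  have he : ∀ (r : ArtinGroup M) (i : J Λ), ∃ p, PTH.Eul ((r • x i).out) p := fun r i =>
    PTH.exists_eul h2 _ ((hx.smul hA r).hT_out i i)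
  choose p hp using he
  obtain ⟨ht, h0, h1⟩ := GrB_936.exists_level_add (k := ℂ)
  haveI : Finite M.Group := finite_of_cr hM
  obtain ⟨r, hr⟩ := (domF hΛ hM hA hx p hp ht h0 h1).exists_zero_H
    (secG M.toCoxeterSystem) (secI M.toCoxeterSystem) 1
  refine ⟨r • (1 : ArtinGroup M), fun i a => ?_⟩
  rw [← fin_out]
  exact hr i a

/-- an orthogonal `F`-stable family of minimisers gives a family of classes -/
theorem cfam_of_ofam (h4 : ∀ m ∈ Λ, 4 ≤ m) {X : J Λ → TOb (UG M Λ) ℂ}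
    (hX : OFam h4 (algebraMap ℝ ℂ) s0 X) : CFam M h4 s0 (fun j => (⟦X j⟧ : Cls (UG M Λ) ℂ)) where
  lam j a := by
    rw [lamC_mk, hX.lam_eq, Pi.single_apply]
  orth i j := hX.orth i j
  F m hm i := by
    obtain ⟨l, h1, h2, -⟩ := hX.sum ⟨m, hm⟩ i
    refine ⟨l.map fun Y => (⟦Y⟧ : Cls (UG M Λ) ℂ), ?_, ?_⟩
    · rw [← cls_isSum h1]
      rfl
    · intro z hz
      obtain ⟨Z, hZ, rfl⟩ := List.mem_map.1 hz
      obtain ⟨j, -, -, -, h3 | h3⟩ := h2 Z hZ
      · exact ⟨j, Or.inl (Quotient.sound h3)⟩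
      · exact ⟨j, Or.inr (Quotient.sound (h3.trans (GlueH_445.hiso_sh_sh _)))⟩
  num m hm i y := by
    obtain ⟨l, h1, h2, h3⟩ := hX.sum ⟨m, hm⟩ i
    obtain ⟨Y, rfl⟩ := Quotient.exists_rep y
    have h4' : hC (FmC M h4 hm (⟦X i⟧ : Cls (UG M Λ) ℂ)) ⟦Y⟧
        = hT (FF M (algebraMap ℝ ℂ) h4 ⟨m, hm⟩ (X i)) Y := rfl
    rw [h4', h1.hT_left]
    have h5 : ∀ Z ∈ l, hT Z Y = ∑ j, PTA.lam Z (s0, j) * hT (X j) Y := by
      intro Z hZ
      obtain ⟨j, -, h6, -, h7⟩ := h2 Z hZ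
      have h8 : hT Z Y = hT (X j) Y := by
        rcases h7 with h7 | h7
        · exact h7.hT_left Y
        · rw [h7.hT_left Y, Shift_936.hT_sh_left]
      rw [h8, Finset.sum_eq_single j]
      · rw [h6, Pi.single_eq_same, one_mul]
      · intro j' _ hj'
        rw [h6, Pi.single_eq_of_ne, zero_mul]
        intro h; exact hj' (Prod.ext_iff.1 h).2
      · intro h; exact absurd (Finset.mem_univ _) h
    have h6 : ∀ l' : List (TOb (UG M Λ) ℂ), (∀ Z ∈ l', Z ∈ l) →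
        (l'.map fun Z => hT Z Y).sum = ∑ j, (l'.map PTA.lam).sum (s0, j) * hT (X j) Y := by
      intro l'
      induction l' with
      | nil => intro _; simp
      | cons Z l' ih =>
        intro hl'
        simp only [List.map_cons, List.sum_cons, Pi.add_apply, add_mul, Finset.sum_add_distrib]
        rw [← ih fun Z' hZ' => hl' Z' (List.mem_cons_of_mem _ hZ'),
          ← h5 Z (hl' Z (List.mem_cons_self ..))]
    rw [h6 l fun _ h => h]
    simp only [h3]
    unfold nbs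
    rw [Finset.sum_filter]
    refine Finset.sum_congr rfl fun j _ => ?_
    split_ifs
    · rw [one_mul]; rfl
    · rw [zero_mul]

end inst

end fam

/-! ### the result -/

section final

variable {S : Type} [Fintype S] {M : CoxeterMatrix S} {Λ : Finset ℕ}

/-- **block (D)**: for every orthogonal `F`-stable family of minimisers there is `r` with
`H (r • X_j) = 0` for all `j` -/
theorem orbit_zero (hΛ : Good M Λ) (hM : PDm (Cr M)) (A : ActI M hΛ.four)
    (hA : letI := A.act; ActP M hΛ.four) (s : S) (X : J Λ → TOb (UG M Λ) ℂ)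
    (hX : OFam hΛ.four (algebraMap ℝ ℂ) s X) :
    letI := A.act
    ∃ r : ArtinGroup M, ∀ j a, hC (r • (⟦X j⟧ : Cls (UG M Λ) ℂ)) (frC (UG M Λ) ℂ a) = 0 := by
  letI := A.act
  exact zero_of_fam hΛ hM hA (cfam_of_ofam hΛ.four hX)

/-- field `orb` of `CatI_788.Inp` -/
theorem orb_cls (hΛ : Good M Λ) (hM : PDm (Cr M)) (A : ActI M hΛ.four)
    (hA : letI := A.act; ActP M hΛ.four) :
    letI := A.act
    ∀ (s : S) (X : J Λ → TOb (UG M Λ) ℂ), OFam hΛ.four (algebraMap ℝ ℂ) s X →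
      ∃ (r : ArtinGroup M) (j : J Λ), r • (⟦X j⟧ : Cls (UG M Λ) ℂ) = frC (UG M Λ) ℂ (s, j) ∨
        r • (⟦X j⟧ : Cls (UG M Λ) ℂ) = shC (frC (UG M Λ) ℂ (s, j)) := by
  refine GlueH_445.orb_of_zero (PTC_505.repC A) (fun X Y h => Quotient.sound h) ?_
  intro s X hX
  obtain ⟨r, hr⟩ := orbit_zero hΛ hM A hA s X hX
  refine ⟨r, j0 hΛ.four, fun t i => ?_⟩
  have h1 := hr (j0 hΛ.four) (t, i)
  rw [hC_symm] at h1
  exact h1

/-- **(P_T) of the concrete level** -/
theorem pt_lev (hΛ : Good M Λ) (hM : PDm (Cr M)) (A : ActI M hΛ.four)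
    (hA : letI := A.act; ActP M hΛ.four) : (lev A).PT hΛ.four := by
  refine PTC_505.pt_of_orb hΛ hM (PTC_505.repC A)
    (GlueH_445.orb_of_zero (PTC_505.repC A) (fun X Y h => Quotient.sound h) ?_)
  intro s X hX
  obtain ⟨r, hr⟩ := orbit_zero hΛ hM A hA s X hX
  refine ⟨r, j0 hΛ.four, fun t i => ?_⟩
  have h1 := hr (j0 hΛ.four) (t, i)
  rw [hC_symm] at h1
  exact h1

end final

end Crest.Agent.R175.GlueD_180
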