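import Crest.Agent.R175.Res4_428
import Crest.Agent.R175.TUh_988
import Crest.Agent.R175.ResC_774
import Crest.Agent.R175.TwcI_774

/-!
Row 175 (S0263), helper788: restriction commutes with the twists `TU`, on `TOb` and on classes.
-/

set_option autoImplicit false
set_option linter.unusedSectionVars false
set_option linter.unusedVariables false

open CategoryTheory

namespace Crest.Agent.R175.ResTU_788

open Crest.Agent.R175.PTA Crest.Agent.R175.ResI_663 Crest.Agent.R175.Res_428
open Crest.Agent.R175.TwG_253 Crest.Agent.R175.TU_788 Crest.Agent.R175.TUh_988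
open Crest.Agent.R175.TwA_253 (Tw Sph Sum2)
open Crest.Agent.R175.TwS_83 Crest.Agent.R175.Res3_428 Crest.Agent.R175.Res4_428
open Crest.Agent.R175.Cls_133 Crest.Agent.R175.ResC_774 Crest.Agent.R175.TwcI_774

universe v u v' u'

section abs

variable {C : Type u} [Category.{v} C] [Preadditive C]
variable {C' : Type u'} [Category.{v'} C'] [Preadditive C']

theorem gen6 {F : Sph C} {F' : Sph C'} (R : C ⥤ C') [R.Additive] (P : Cmp R F F') (A : Tw C)
    (S : Sum2 (F.Q A.X) A.X) (B : Tw C') (hB : B = mapTw R A) (S' : Sum2 (F'.Q B.X) B.X)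
    (D : Tw C) (hD : TwA_253.HEq D (TwA_253.T F A S)) :
    TwA_253.HEq (mapTw R D) (TwA_253.T F' B S') := by
  subst hB
  exact (mapTw_heq R hD).trans (P.siT A S S').heq

end abs

noncomputable section

variable {T T' : Type} {k : Type} [Field k] [Fintype T] [Fintype T'] {G : MG T}
  {ι : T' → T} (hι : Function.Injective ι) {U : T → Prop} {U' : T' → Prop}

theorem toTw_resT (X : TOb G k) (h : Ok ι X) :
    toTw (resT hι X h) = mapTw (Res k G hι) (toTw X) := by
  have h : gam (resG ι X.X) = resH ι (gam X.X) := (resH_gam ι).symm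
  unfold toTw mapTw
  congr 1

theorem ok_TU (h : Fit ι U U') (hU : ∀ s t, U s → U t → IsEmpty (G.E s t)) {X : TOb G k}
    (hX : Ok ι X) : Ok ι (TU U hU X) := by
  intro u
  have h0 : ∀ x y : (QG U X.X).V u.1, x = y :=
    fun x y => (q_zero (h.out u) x).trans (q_zero (h.out u) y).symm
  have h1 : c0 (mG U X.d) u.1 = 0 := LinearMap.ext fun x => h0 _ _
  have h2 : c0 (epsG U X.X) u.1 = 0 := LinearMap.ext fun x => by
    rw [h0 x 0, map_zero, map_zero]
  have h3 : c0 X.d u.1 = 0 := hX u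
  change c0 (-(fst (QG U X.X) X.X ≫ mG U X.d ≫ inl (QG U X.X) X.X)
    + fst (QG U X.X) X.X ≫ epsG U X.X ≫ inr (QG U X.X) X.X
    + snd (QG U X.X) X.X ≫ X.d ≫ inr (QG U X.X) X.X) u.1 = 0
  simp only [c0_add, c0_neg, c0_comp, h1, h2, h3, LinearMap.comp_zero, LinearMap.zero_comp,
    neg_zero, add_zero]

/-- **`Res (T_U X) ≅ T_U' (Res X)`** -/
theorem resT_TU (h : Fit ι U U') (hU : ∀ s t, U s → U t → IsEmpty (G.E s t))
    (hU' : ∀ s t, U' s → U' t → IsEmpty ((comap G ι).E s t)) (X : TOb G k) (hX : Ok ι X) :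
    HIso (resT hι (TU U hU X) (ok_TU h hU hX)) (TU U' hU' (resT hι X hX)) := by
  have h1 : TwA_253.HEq (toTw (resT hι (TU U hU X) (ok_TU h hU hX)))
      (mapTw (Res k G hι) (toTw (TU U hU X))) := by
    rw [toTw_resT]
    exact TwA_253.HEq.refl _
  have h2 := gen6 (F := sphG U hU) (F' := sphG U' hU') (Res k G hι) (cmp hι h hU hU') (toTw X)
    (sm _ _) (toTw (resT hι X hX)) (toTw_resT hι X hX) (sm _ _) (toTw (TU U hU X)) (heq_TU U hU X)
  exact hiso_of_heq' (h1.trans (h2.trans (heq_TU U' hU' (resT hι X hX)).symm))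

/-- on classes -/
theorem rC_pU [NeZero (2 : k)] (h : Fit ι U U') (hU : ∀ s t, U s → U t → IsEmpty (G.E s t))
    (hU' : ∀ s t, U' s → U' t → IsEmpty ((comap G ι).E s t)) (x : Cls G k) :
    rC hι (pU U hU x) = pU U' hU' (rC hι x) := by
  obtain ⟨X, hX, rfl⟩ := exists_ok (ι := ι) x
  rw [pU_mk, rC_mk hι X hX, rC_mk hι (TU U hU X) (ok_TU h hU hX), pU_mk]
  exact Quotient.sound (resT_TU hι h hU hU' X hX)

end

end Crest.Agent.R175.ResTU_788
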