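import Crest.Agent.R175.StabM_901
import Crest.Agent.R175.Unf2_109

/-!
Row 175 (S0263), block STAB (helper901): the stabiliser of the frames, last combinatorial page.

`M` of finite type, `σ (s, i)` the unfolded letters (`Unf_109.Unf`) in a group `A` acting on `Ω`,
`Pc` the positive classes: the conditions (i), (ii) for the letters and the values at the frames
give `r ∈ A_{S - t}` for every `r` whose image fixes all frames `fr t j`.
-/

set_option autoImplicit false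
set_option linter.unusedSectionVars false

namespace Crest.Agent.R175.StabN_901

open Crest.GroupTheory
open Crest.Agent.R175.StabZ_680 Crest.Agent.R175.StabM_901
open Crest.Agent.R175.Lcm_109 Crest.Agent.R175.Unf_109

section act

variable {A Ω I : Type*} [Group A] [MulAction A Ω]

theorem fix_of_closure {x : I → A} {y : Ω} (h : ∀ i, x i • y = y) {g : A}
    (hg : g ∈ Submonoid.closure (Set.range x)) : g • y = y := by
  induction hg using Submonoid.closure_induction with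
  | mem z hz => obtain ⟨i, rfl⟩ := hz; exact h i
  | one => exact one_smul _ _
  | mul a b _ _ ha hb => rw [mul_smul, hb, ha]

theorem mem_of_closure {x : I → A} {Pc : Set Ω} (h : ∀ i, ∀ y ∈ Pc, x i • y ∈ Pc) {g : A}
    (hg : g ∈ Submonoid.closure (Set.range x)) : ∀ y ∈ Pc, g • y ∈ Pc := by
  induction hg using Submonoid.closure_induction with
  | mem z hz => obtain ⟨i, rfl⟩ := hz; exact h i
  | one => intro y hy; rwa [one_smul]
  | mul a b _ _ ha hb => intro y hy; rw [mul_smul]; exact ha _ (hb _ hy)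

theorem inv_fix {g : A} {y : Ω} (h : g • y = y) : g⁻¹ • y = y := by
  conv_lhs => rw [← h]
  rw [inv_smul_smul]

variable [Fintype I]

/-- the product of a commuting family is one letter times a product of the others. -/
theorem cp_eq (x : I → A) (hx : ∀ i i', Commute (x i) (x i')) (j : I) :
    ∃ P : A, cp x hx = P * x j ∧ Commute P (x j) ∧
      ∀ y : Ω, (∀ i, i ≠ j → x i • y = y) → P • y = y := by
  classical
  refine ⟨(Finset.univ.erase j).noncommProd x (fun i _ i' _ _ => hx i i'), ?_, ?_, ?_⟩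
  · exact (Finset.noncommProd_erase_mul _ (Finset.mem_univ j) x (fun i _ i' _ _ => hx i i')
      (fun i _ i' _ _ => hx i i')).symm
  · exact (Finset.noncommProd_commute _ _ _ _ fun i _ => hx j i).symm
  · intro y hy
    have h1 : (Finset.univ.erase j).noncommProd x (fun i _ i' _ _ => hx i i') ∈
        MulAction.stabilizerSubmonoid A y := by
      refine Submonoid.noncommProd_mem _ _ _ _ fun i hi => ?_
      exact hy i (Finset.ne_of_mem_erase hi)
    exact h1

/-- on a point moved by one letter only, the product acts by that letter (once and twice). -/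
theorem cp_inv (x : I → A) (hx : ∀ i i', Commute (x i) (x i')) (j : I) {y : Ω}
    (hy : ∀ i, i ≠ j → x i • y = y) :
    (cp x hx)⁻¹ • y = (x j)⁻¹ • y ∧ (cp x hx)⁻¹ • (cp x hx)⁻¹ • y = (x j)⁻¹ • (x j)⁻¹ • y := by
  obtain ⟨P, h1, h2, h3⟩ := cp_eq (Ω := Ω) x hx j
  have h4 : P • y = y := h3 y hy
  have h5 : P⁻¹ • y = y := inv_fix h4
  have e1 : (cp x hx)⁻¹ • y = (x j)⁻¹ • y := by rw [h1, mul_inv_rev, mul_smul, h5]
  refine ⟨e1, ?_⟩
  rw [e1, h1, mul_inv_rev, mul_smul, smul_smul P⁻¹, (h2.inv_inv).eq, mul_smul, h5]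

end act

section fin

variable {S : Type*} {M : CoxeterMatrix S} {Λ : Finset ℕ}

/-- the unfolded graph as a relation. -/
theorem unf_nb (hΛ : Good M Λ) :
    StabW_901.Unf M (fun (s : S) (i : J Λ) (t : S) (j : J Λ) => s ≠ t ∧ nb Λ (M s t) i j) where
  self s i i' h := h.1 rfl
  two s t e i i' h := by
    have e' : M s t = 2 := e
    rw [e'] at h
    exact not_nb (hΛ.not_mem (by norm_num)) (by norm_num) (by norm_num) i i' h.2
  path s t h3 := by
    have hst : s ≠ t := by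
      rintro rfl
      simp at h3
    have h3' : 3 ≤ M s t := h3
    rcases Nat.eq_or_lt_of_le h3' with h4 | h4
    · refine Or.inl ⟨h4.symm, fun i i' => ?_⟩
      rw [← h4, nb_three (hΛ.not_mem (by norm_num))]
      exact ⟨fun h => h.2, fun h => ⟨hst, h⟩⟩
    · have hm : M s t ∈ Λ := hΛ.mem s t (by omega)
      refine Or.inr ⟨(k : {k : Λ // k ≠ ⟨M s t, hm⟩}) → Fin (k.1.1 - 1), inferInstance,
        Equiv.piSplitAt (⟨M s t, hm⟩ : Λ) (fun k : Λ => Fin (k.1 - 1)), fun i i' => ?_⟩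
      rw [nb_path hm]
      constructor
      · rintro ⟨-, hn⟩
        refine ⟨?_, hn.2⟩
        funext k
        exact hn.1 k.1 k.2
      · intro hA
        refine ⟨hst, fun k hk => ?_, hA.2⟩
        exact congrFun hA.1 ⟨k, hk⟩

variable {A Ω : Type*} [Group A] [MulAction A Ω]

/-- **STAB, combinatorial form.** -/
theorem stab_unf [Finite S] [Finite M.Group] (hΛ : Good M Λ) {σ : S → J Λ → A}
    (hU : Unf_109.Unf M Λ σ) {Pc : Set Ω}
    (hi : ∀ s i, ∀ x ∈ Pc, σ s i • x ∈ Pc)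
    (h2 : ∀ s i t j, (s ≠ t ∨ i ≠ j) → (s ≠ t → ¬ nb Λ (M s t) i j) → ∀ x,
      (σ s i)⁻¹ • x ∈ Pc → (σ t j)⁻¹ • x ∈ Pc → (σ s i * σ t j)⁻¹ • x ∈ Pc)
    (h3 : ∀ s i t j, s ≠ t → nb Λ (M s t) i j → ∀ x,
      (σ s i)⁻¹ • x ∈ Pc → (σ t j)⁻¹ • x ∈ Pc → (σ s i * σ t j * σ s i)⁻¹ • x ∈ Pc)
    {fr : S → J Λ → Ω} (fx : ∀ s i t j, (s ≠ t ∨ i ≠ j) → σ s i • fr t j = fr t j) (t : S)
    (e1 : ∀ j, (σ t j)⁻¹ • fr t j ∈ Pc) (e2 : ∀ j, (σ t j)⁻¹ • (σ t j)⁻¹ • fr t j ∉ Pc)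
    (r : ArtinGroup M) (hr : ∀ j, (hU.fold hΛ).hom r • fr t j = fr t j) :
    r ∈ stdParabolic M {t}ᶜ := by
  classical
  let D := GSph_145.dat M.toCoxeterSystem
  have h0 : ∀ s u : S, s ≠ u → M s u ≠ 0 := fun s u h => label_ne_zero D h
  have hF : Fold M σ := hU.fold hΛ
  let _ : MulAction (ArtinGroup M) (J Λ → Ω) := MulAction.compHom (J Λ → Ω) hF.hom
  have hsm : ∀ (g : ArtinGroup M) (Y : J Λ → Ω) (j : J Λ), (g • Y) j = hF.hom g • Y j :=
    fun g Y j => rfl
  have hP : ∀ j, fr t j ∈ Pc := fun j => by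
    have := hi t j _ (e1 j)
    rwa [smul_inv_smul] at this
  have hsg : ∀ s, hF.sg s ∈ Submonoid.closure (Set.range (σ s)) := fun s =>
    StabW_901.cp_mem_closure (σ s) (hF.self s)
  have hcp : ∀ j, (hF.sg t)⁻¹ • fr t j = (σ t j)⁻¹ • fr t j ∧
      (hF.sg t)⁻¹ • (hF.sg t)⁻¹ • fr t j = (σ t j)⁻¹ • (σ t j)⁻¹ • fr t j := fun j =>
    cp_inv (σ t) (hF.self t) j fun i hij => fx t i t j (Or.inr hij)
  have hfx : ∀ u, u ≠ t → ∀ j, hF.sg u • fr t j = fr t j := fun u hu j =>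
    fix_of_closure (fun i => fx u i t j (Or.inl hu)) (hsg u)
  have hst := stab_artin (M := M) (Ω := J Λ → Ω) (Pc := {Y | ∀ j, Y j ∈ Pc})
    (E := fun j => fr t j) (t := t) ?_ ?_ ?_ ?_ ?_
  · have h4 : r ∈ MulAction.stabilizer (ArtinGroup M) (fun j => fr t j : J Λ → Ω) := by
      rw [MulAction.mem_stabilizer_iff]
      funext j
      exact hr j
    rw [hst] at h4
    exact h4
  · intro s Y hY j
    rw [hsm, Fold.hom_gen]
    exact mem_of_closure (hi s) (hsg s) _ (hY j)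
  · intro s u hsu Y hs hu j
    rw [hsm, map_inv]
    refine (unf_nb hΛ).close_hom hF hi
      (fun s i t i' hne ha x => h2 s i t i' hne (fun hst hn => ha ⟨hst, hn⟩) x)
      (fun s i t i' ha x => h3 s i t i' ha.1 ha.2 x)
      (fun s i t i' ha => ?_) (fun s i t i' ha => hU.braid s t ha.1 (h0 s t ha.1) i i' ha.2)
      hsu (h0 s u hsu) (Y j) ?_ ?_
    · by_cases hst : s = t
      · subst hst; exact hU.self s i i'
      · exact hU.comm s t hst (h0 s t hst) i i' fun hn => ha ⟨hst, hn⟩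
    · have := hs j
      rwa [hsm, map_inv] at this
    · have := hu j
      rwa [hsm, map_inv] at this
  · intro s j
    rw [hsm, map_inv, Fold.hom_gen]
    by_cases hs : s = t
    · subst hs
      show (hF.sg s)⁻¹ • fr s j ∈ Pc
      rw [(hcp j).1]
      exact e1 j
    · show (hF.sg s)⁻¹ • fr t j ∈ Pc
      rw [inv_fix (hfx s hs j)]
      exact hP j
  · intro u hu
    funext j
    rw [hsm, Fold.hom_gen]
    exact hfx u hu j
  · intro h
    have hj : ∀ m : Λ, 0 < m.1 - 1 := fun m => by have := hΛ.four m.1 m.2; omega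
    have h5 := h (fun m => ⟨0, hj m⟩)
    rw [hsm, map_inv, hsm, map_inv, Fold.hom_gen] at h5
    have h6 := (hcp (fun m => ⟨0, hj m⟩)).2
    apply e2 (fun m => ⟨0, hj m⟩)
    rw [← h6]
    exact h5

/-- the same for 109's unfolding homomorphism `unfHom`. -/
theorem stab_unfHom [Finite S] [Finite M.Group] (hΛ : Good M Λ)
    (φ : ArtinGroup (Mu M Λ) →* A) {Pc : Set Ω}
    (hi : ∀ a, ∀ x ∈ Pc, φ (artinGen (Mu M Λ) a) • x ∈ Pc)
    (h2 : ∀ a b : S × J Λ, a ≠ b → (a.1 ≠ b.1 → ¬ nb Λ (M a.1 b.1) a.2 b.2) → ∀ x,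
      (φ (artinGen (Mu M Λ) a))⁻¹ • x ∈ Pc → (φ (artinGen (Mu M Λ) b))⁻¹ • x ∈ Pc →
      (φ (artinGen (Mu M Λ) a) * φ (artinGen (Mu M Λ) b))⁻¹ • x ∈ Pc)
    (h3 : ∀ a b : S × J Λ, a.1 ≠ b.1 → nb Λ (M a.1 b.1) a.2 b.2 → ∀ x,
      (φ (artinGen (Mu M Λ) a))⁻¹ • x ∈ Pc → (φ (artinGen (Mu M Λ) b))⁻¹ • x ∈ Pc →
      (φ (artinGen (Mu M Λ) a) * φ (artinGen (Mu M Λ) b) * φ (artinGen (Mu M Λ) a))⁻¹ • x ∈ Pc)
    {fr : S × J Λ → Ω} (fx : ∀ a b, a ≠ b → φ (artinGen (Mu M Λ) a) • fr b = fr b) (t : S)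
    (e1 : ∀ j, (φ (artinGen (Mu M Λ) (t, j)))⁻¹ • fr (t, j) ∈ Pc)
    (e2 : ∀ j, (φ (artinGen (Mu M Λ) (t, j)))⁻¹ •
      (φ (artinGen (Mu M Λ) (t, j)))⁻¹ • fr (t, j) ∉ Pc)
    (r : ArtinGroup M) (hr : ∀ j, unfHom hΛ φ r • fr (t, j) = fr (t, j)) :
    r ∈ stdParabolic M {t}ᶜ :=
  stab_unf hΛ (unf_of_hom φ) (fun s i => hi (s, i))
    (fun s i t j hne => h2 (s, i) (t, j) (fun h => by
      rw [Prod.mk.injEq] at h
      rcases hne with h1 | h1
      · exact h1 h.1
      · exact h1 h.2))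
    (fun s i t j => h3 (s, i) (t, j)) (fr := fun s i => fr (s, i))
    (fun s i t j hne => fx (s, i) (t, j) (fun h => by
      rw [Prod.mk.injEq] at h
      rcases hne with h1 | h1
      · exact h1 h.1
      · exact h1 h.2)) t e1 e2 r hr

end fin

end Crest.Agent.R175.StabN_901
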