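import Crest.Agent.R175.StabU_393
import Crest.Agent.R175.StabN_901
import Crest.Agent.R175.Act2_732
import Crest.Agent.R175.EvW_788
import Crest.Agent.R175.LevC_788
import Crest.Agent.R175.PosFin_497

/-!
Row 175 (S0263), helper774: block (E), `Lev.Stb` of the concrete level.

`TwD M Λ` : twists `tw v : TOb → TOb`, the permutations `P.p v` of the classes, and what is used of
them;  `stb_fin`: `M` of finite type ⟹ an `r` with `d_(t,i) (r • fr (t,j)) = 0` is in `A_{S-t}`;
`stb_lev : PDm (Cr M) → (lev A).Stb`.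
-/

set_option autoImplicit false
set_option linter.unusedSectionVars false
set_option linter.unusedVariables false

open CategoryTheory
open scoped Classical

namespace Crest.Agent.R175.StbC_774

open Crest.GroupTheory Crest.Agent.R175.PTA Crest.Agent.R175.Cls_133 Crest.Agent.R175.UG_27
open Crest.Agent.R175.Unf_109 Crest.Agent.R175.Lev_788 Crest.Agent.R175.LevC_788
open Crest.Agent.R175.Act_732 Crest.Agent.R175.Act2_732 Crest.Agent.R175.EvW_788
open Crest.Agent.R175.StabF_393 Crest.Agent.R175.StabU_393 Crest.Agent.R175.Pos_418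
open Crest.Agent.R175.Num_774 (A)

variable {S : Type} [Fintype S] {M : CoxeterMatrix S} {Λ : Finset ℕ}

/-- the twists over the unfolded graph, on objects and on classes -/
structure TwD (M : CoxeterMatrix S) (Λ : Finset ℕ) where
  /-- the twists of objects -/
  tw : S × J Λ → TOb (UG M Λ) ℂ → TOb (UG M Λ) ℂ
  tws : TwS tw
  /-- the twists of classes -/
  P : Twc (UG M Λ) (Cls (UG M Λ) ℂ)
  p_mk : ∀ v X, P.p v (⟦X⟧ : Cls (UG M Λ) ℂ) = ⟦tw v X⟧
  ev : ∀ v X, EvT (tw v X) ↔ EvT X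
  h_p : ∀ v x y, hC (P.p v x) (P.p v y) = hC x y
  lam_p : ∀ v x a, lamC (P.p v x) a = lamC x a
  fr : ∀ v w, v ≠ w → P.p v (frC (UG M Λ) ℂ w) = frC (UG M Λ) ℂ w

namespace TwD

variable (D : TwD M Λ)

/-- 393's `ActS` for the permutations of the classes -/
noncomputable def acts : ActS D.tw (Equiv.Perm (Cls (UG M Λ) ℂ)) (Cls (UG M Λ) ℂ) where
  cl X := ⟦X⟧
  cl_eq X Y h := Quotient.exact h
  cl_surj x := Quotient.exists_rep x
  g := D.P.p
  act v X := D.p_mk v X

/-- the permutations preserving `hC` -/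
def presH : Subgroup (Equiv.Perm (Cls (UG M Λ) ℂ)) where
  carrier := {g | ∀ x y, hC (g x) (g y) = hC x y}
  one_mem' := fun _ _ => rfl
  mul_mem' := by
    intro g g' h h' x y
    rw [Equiv.Perm.mul_apply, Equiv.Perm.mul_apply, h, h']
  inv_mem' := by
    intro g h x y
    have := h (g⁻¹ x) (g⁻¹ y)
    rw [ap_inv, ap_inv] at this
    exact this.symm

/-- the permutations preserving `lamC` and `EvC` -/
def presL : Subgroup (Equiv.Perm (Cls (UG M Λ) ℂ)) where
  carrier := {g | ∀ x, (∀ a, lamC (g x) a = lamC x a) ∧ (EvC (g x) ↔ EvC x)}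
  one_mem' := fun _ => ⟨fun _ => rfl, Iff.rfl⟩
  mul_mem' := by
    intro g g' h h' x
    rw [Equiv.Perm.mul_apply]
    exact ⟨fun a => ((h _).1 a).trans ((h' _).1 a), (h _).2.trans (h' _).2⟩
  inv_mem' := by
    intro g h x
    have := h (g⁻¹ x)
    rw [ap_inv] at this
    exact ⟨fun a => (this.1 a).symm, this.2.symm⟩

theorem p_memH (v : S × J Λ) : D.P.p v ∈ presH (M := M) (Λ := Λ) := D.h_p v

theorem p_memL (v : S × J Λ) : D.P.p v ∈ presL (M := M) (Λ := Λ) := by
  intro x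
  refine ⟨D.lam_p v x, ?_⟩
  induction x using Quotient.inductionOn with
  | h X => rw [D.p_mk, evC_mk, evC_mk, D.ev]

variable (hΛ : Good M Λ)

/-- **a translate of the frames with `d = 0` is the frame** -/
theorem frame_of_d (r : ArtinGroup M) (t : S) (j : J Λ)
    (h : hC (frC (UG M Λ) ℂ (t, j)) (D.P.unf hΛ r (frC (UG M Λ) ℂ (t, j))) = 0) :
    D.P.unf hΛ r (frC (UG M Λ) ℂ (t, j)) = frC (UG M Λ) ℂ (t, j) := by
  have h1 := D.P.unf_mem hΛ presH D.p_memH r
  have h2 := D.P.unf_mem hΛ presL D.p_memL r (frC (UG M Λ) ℂ (t, j))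
  refine z1C (two_ne_zero) (fun s => ?_) (h2.2.2 (evC_frC _)) h ?_
  · rw [h2.1, lamC_fr]
  · rw [h1]
    exact hC_fr _ _

/-- **STAB for the classes**, finite type -/
theorem stab_fin [Finite M.Group] (t : S) (r : ArtinGroup M)
    (hr : ∀ j, D.P.unf hΛ r (frC (UG M Λ) ℂ (t, j)) = frC (UG M Λ) ℂ (t, j)) :
    r ∈ stdParabolic M {t}ᶜ := by
  have h2 : (2 : ℂ) ≠ 0 := two_ne_zero
  have hg : ∀ a : S × J Λ, D.P.hom (cox_mu M Λ) (artinGen (Mu M Λ) a) = D.acts.g a :=
    fun a => D.P.hom_gen _ a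
  have h0 : ∀ s u : S, s ≠ u → M s u ≠ 0 := fun s u h =>
    StabM_901.label_ne_zero (GSph_145.dat M.toCoxeterSystem) h
  refine StabN_901.stab_unfHom hΛ (D.P.hom (cox_mu M Λ)) (Pc := D.acts.Pc) ?_ ?_ ?_
    (fr := fun a => frC (UG M Λ) ℂ a) ?_ t ?_ ?_ r hr
  · intro a x hx
    rw [hg]
    exact ActS.hi D.tws a x hx
  · intro a b hab _ x ha hb
    rw [hg] at ha hb ⊢
    rw [hg]
    exact ActS.h2 D.tws hab.symm x ha hb
  · intro a b hab hn x ha hb
    rw [hg] at ha hb ⊢
    rw [hg]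
    have hmu : Mu M Λ a b = 3 := by
      rw [mu_apply]
      simp [muM, hab, h0 _ _ hab, hn]
    obtain ⟨c, hc⟩ := exists_edge_of_mu hmu
    exact ActS.h3 D.tws (fun e => hab (congrArg Prod.fst e).symm) c hc x ha hb
  · intro a b hab
    rw [hg]
    exact D.fr a b hab
  · intro j
    rw [hg]
    exact inv_frm_mem (S := D.acts) D.tws h2 (t, j)
  · intro j
    rw [hg]
    exact inv_inv_frm_notMem (S := D.acts) D.tws (t, j)

/-- **block (E)** -/
theorem stb_fin [Finite M.Group] (A : ActI M hΛ.four)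
    (hA : ∀ (r : ArtinGroup M) (x : Cls (UG M Λ) ℂ), A.act.smul r x = D.P.unf hΛ r x) :
    (lev A).Stb := by
  intro t r h
  refine D.stab_fin hΛ t r fun j => D.frame_of_d hΛ r t j ?_
  have h1 : hC (frC (UG M Λ) ℂ (t, j)) (A.act.smul r (frC (UG M Λ) ℂ (t, j))) = 0 := h j j
  rwa [hA] at h1

/-- **block (E)**, positive definite form -/
theorem stb_lev (hM : PDm (Cr M)) (A : ActI M hΛ.four)
    (hA : ∀ (r : ArtinGroup M) (x : Cls (UG M Λ) ℂ), A.act.smul r x = D.P.unf hΛ r x) :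
    (lev A).Stb := by
  have hfin : Finite M.Group := PosFin_497.finite_of_posDef M fun x hx => by
    have h1 := hM x hx
    unfold qf Cr at h1
    have h2 : ∑ s, ∑ t, x s * x t * (-2 * Real.cos (Real.pi / (M s t : ℝ)))
        = 2 * ∑ s, ∑ t, x s * x t * (-Real.cos (Real.pi / (M s t : ℝ))) := by
      rw [Finset.mul_sum]
      refine Finset.sum_congr rfl fun s _ => ?_
      rw [Finset.mul_sum]
      exact Finset.sum_congr rfl fun t _ => by ring
    rw [h2] at h1
    linarith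
  exact D.stb_fin hΛ A hA

end TwD

end Crest.Agent.R175.StbC_774
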