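import Crest.Agent.R175.TwcI_774
import Crest.Agent.R175.TUhF_988
import Crest.Agent.R175.StbC_774
import Crest.Agent.R175.PTY_4

/-!
# The instance of `StbC_774.TwD` (row 175, helper774)

`twS : StabF_393.TwS (fun v X => TU {v} X)`, `p1_fr`, `twD M Λ : TwD M Λ`,
`stb_actU` : block (E) for an `ActI` whose action is `(twc ..).actU`.
-/

set_option autoImplicit false
set_option linter.unusedSectionVars false
set_option linter.unusedVariables false

open CategoryTheory
open scoped Classical

namespace Crest.Agent.R175.TwDI_774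

open Crest.GroupTheory Crest.Agent.R175.PTA Crest.Agent.R175.Cls_133 Crest.Agent.R175.UG_27
open Crest.Agent.R175.Unf_109 Crest.Agent.R175.TU_788 Crest.Agent.R175.TwcI_774
open Crest.Agent.R175.StabF_393 Crest.Agent.R175.StbC_774 Crest.Agent.R175.Act2_732
open Crest.Agent.R175.Lev_788 Crest.Agent.R175.LevC_788 Crest.Agent.R175.Pos_418
open Crest.Agent.R175.PTH

section gen

variable {T : Type} {G : MG T} {k : Type} [Field k] [Fintype T]

/-- 393's `TwS` for the twists at one vertex -/
theorem twS : TwS (fun (v : T) (X : TOb G k) => TU (fun r => r = v) TwM_250.sing X) where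
  hT := fun v X => TUh_988.hT_TU _ _ X X
  td := fun v X p hp => by
    obtain ⟨q, hq, ⟨d⟩⟩ := PTT_4.exists_td_TU (fun r => r = v) TwM_250.sing hp
    exact ⟨q, hq, ⟨d⟩⟩

theorem p1_fr [DecidableEq T] {v w : T} (h : v ≠ w) : p1 v (frC G k w) = frC G k w := by
  rw [frC_def, p1_mk]
  exact Quotient.sound (TUh_988.TU_frm _ _ (fun e => h e.symm))

end gen

/-- **the instance** -/
noncomputable def twD {S : Type} [Fintype S] (M : CoxeterMatrix S) (Λ : Finset ℕ) : TwD M Λ where
  tw := fun v X => TU (fun r => r = v) TwM_250.sing X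
  tws := twS
  P := twc (UG M Λ) ℂ
  p_mk := fun v X => rfl
  ev := fun v X => evT_TU_iff _ _ X
  h_p := fun v x y => hC_pU _ _ x y
  lam_p := fun v x a => lamC_pU _ _ x a
  fr := fun v w h => p1_fr h

/-- **block (E)**: `Lev.Stb` -/
theorem stb_twc {S : Type} [Fintype S] {M : CoxeterMatrix S} {Λ : Finset ℕ} (hΛ : Good M Λ)
    (hM : PDm (Cr M)) (A : ActI M hΛ.four)
    (hA : ∀ (r : ArtinGroup M) (x : Cls (UG M Λ) ℂ),
      A.act.smul r x = (twc (UG M Λ) ℂ).unf hΛ r x) : (lev A).Stb :=
  (twD M Λ).stb_lev hΛ hM A hA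

end Crest.Agent.R175.TwDI_774
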