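import Crest.Agent.R175.CatI_788
import Crest.Agent.R175.TwDI_774
import Crest.Agent.R175.TwcI_774
import Crest.Agent.R175.TwR_250
import Crest.Agent.R175.GlueD_180
import Crest.Agent.R175.FTU_131
import Crest.Agent.R175.ActP_180
import Crest.Agent.R175.ResTU_788

/-!
Row 175 (S0263), helper788: the inputs of `CatI_788.Inp`.
-/

set_option autoImplicit false
set_option linter.unusedSectionVars false
set_option linter.unusedVariables false

open CategoryTheory
open scoped Classical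

namespace Crest.Agent.R175.Fin_788

open Crest.GroupTheory Crest.Agent.R175.PTA Crest.Agent.R175.Cls_133 Crest.Agent.R175.UG_27
open Crest.Agent.R175.Unf_109 Crest.Agent.R175.FmCls_303 Crest.Agent.R175.Pos_418
open Crest.Agent.R175.Lev_788 Crest.Agent.R175.LevC_788 Crest.Agent.R175.VdL_527
open Crest.Agent.R175.Num_774 Crest.Agent.R175.PdT_788 Crest.Agent.R175.LResC_774
open Crest.Agent.R175.GlueData_445 Crest.Agent.R175.CatI_788
open Crest.Agent.R175.Act2_732 Crest.Agent.R175.Fm_27 Crest.Agent.R175.TwcI_774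

/-- matrix functors commute with twists, on classes -/
theorem FC_pU {T : Type} {G : MG T} {k : Type} [Field k] [Fintype T] (Φ : ADat G k) (U : T → Prop)
    (hU : ∀ s t, U s → U t → IsEmpty (G.E s t)) (hN : ∀ a b, Φ.N a b → U a → U b) (x : Cls G k) :
    FC Φ.toFDat (pU U hU x) = pU U hU (FC Φ.toFDat x) := by
  induction x using Quotient.inductionOn with
  | h X =>
    rw [pU_mk, FC_mk, FC_mk, pU_mk]
    exact Quotient.sound (FTU_131.tob_TU Φ U hU hN X)

section

variable {S : Type} [Fintype S] (M : CoxeterMatrix S) (Λ : Finset ℕ)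

/-- the fibre is without edges -/
theorem fib_hU (s : S) : ∀ a b : S × J Λ, a.1 = s → b.1 = s → IsEmpty ((UG M Λ).E a b) :=
  fun _ _ h h' => isEmpty_fibre (h.trans h'.symm)

/-- the permutation of the fibre of `s` -/
noncomputable def pF (s : S) : Equiv.Perm (Cls (UG M Λ) ℂ) :=
  pU (fun a : S × J Λ => a.1 = s) (fib_hU M Λ s)

/-- the permutations of the classes -/
noncomputable abbrev Pm : Twc (UG M Λ) (Cls (UG M Λ) ℂ) := TwcI_774.twc (UG M Λ) ℂ

variable {M Λ} (hΛ : Good M Λ)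

theorem pF_mk (s : S) (X : TOb (UG M Λ) ℂ) :
    pF M Λ s (⟦X⟧ : Cls (UG M Λ) ℂ) =
      ⟦TU_788.TU (fun a : S × J Λ => a.1 = s) (fib_hU M Λ s) X⟧ := rfl

/-- the generator acts by the twist of the fibre -/
theorem gen (s : S) (x : Cls (UG M Λ) ℂ) :
    (Pm M Λ).unf hΛ (artinGen M s) x = pF M Λ s x := by
  induction x using Quotient.inductionOn with
  | h X =>
    rw [pF_mk]
    exact TwQ_250.unf_mk (Pm M Λ) (fun v X => TwcI_774.p1_mk v X) hΛ s (fib_hU M Λ s) X

theorem pF_fr (s t : S) (j : J Λ) (h : t ≠ s) :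
    pF M Λ s (frC (UG M Λ) ℂ (t, j)) = frC (UG M Λ) ℂ (t, j) := by
  rw [frC_def, pF_mk]
  exact Quotient.sound (TUh_988.TU_frm _ _ h)

theorem FmC_pF (h4 : ∀ m ∈ Λ, 4 ≤ m) {m : ℕ} (hm : m ∈ Λ) (s : S) (x : Cls (UG M Λ) ℂ) :
    FmC M h4 hm (pF M Λ s x) = pF M Λ s (FmC M h4 hm x) :=
  FC_pU _ _ _ (fun a b (h : NF Λ m a b) ha => h.1.symm.trans ha) x

variable (M) in
/-- **the action** -/
noncomputable def actM : ActI M hΛ.four where
  act := (Pm M Λ).actU hΛ
  h_act := by
    intro s x y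
    change hC ((Pm M Λ).unf hΛ (artinGen M s) x) ((Pm M Λ).unf hΛ (artinGen M s) y) = _
    rw [gen, gen]
    exact hC_pU _ _ x y
  lam_act := by
    intro s x a
    change lamC ((Pm M Λ).unf hΛ (artinGen M s) x) a = _
    rw [gen]
    exact lamC_pU _ _ x a
  fr_act := by
    intro s t j h
    change (Pm M Λ).unf hΛ (artinGen M s) (frC (UG M Λ) ℂ (t, j)) = _
    rw [gen]
    exact pF_fr s t j h
  F_act := by
    intro m hm s x
    change FmC M hΛ.four hm ((Pm M Λ).unf hΛ (artinGen M s) x)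
      = (Pm M Λ).unf hΛ (artinGen M s) (FmC M hΛ.four hm x)
    rw [gen, gen]
    exact FmC_pF hΛ.four hm s x

/-- the generators on classes -/
theorem gen_smul (s : S) (x : Cls (UG M Λ) ℂ) :
    (actM M hΛ).act.smul (artinGen M s) x = pF M Λ s x :=
  gen hΛ s x

/-- **block (E)** -/
theorem stb (hM : PDm (Cr M)) : (lev (actM M hΛ)).Stb :=
  TwDI_774.stb_twc hΛ hM (actM M hΛ) (fun _ _ => rfl)

theorem gen_mk (s : S) (X : TOb (UG M Λ) ℂ) :
    (actM M hΛ).act.smul (artinGen M s) (⟦X⟧ : Cls (UG M Λ) ℂ) =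
      ⟦TU_788.TU (fun a : S × J Λ => a.1 = s) (fib_hU M Λ s) X⟧ :=
  (gen_smul hΛ s _).trans (pF_mk s X)

/-- the fibres fit the inclusion -/
theorem fit_fib (T : Set S) (t : T) :
    Res4_428.Fit (FmResU_663.inc T Λ) (fun a : S × J Λ => a.1 = (t : S))
      (fun a : T × J Λ => a.1 = t) where
  iff a := by
    constructor
    · intro h
      exact Subtype.ext h
    · intro h
      exact congrArg Subtype.val h
  out u := by
    intro h
    exact u.2 ⟨(t, u.1.2), Prod.ext h.symm rfl⟩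

/-- **compatibility with restriction** -/
theorem hact (T : Set S) [Fintype T] (t : T) (x : Cls (UG M Λ) ℂ) :
    rU M Λ T ((actM M hΛ).act.smul (artinGen M (t : S)) x) =
      (actM (res M T) (good_res hΛ T)).act.smul (artinGen (res M T) t) (rU M Λ T x) := by
  rw [gen_smul, gen_smul]
  exact ResTU_788.rC_pU (G := UG M Λ) (FmResU_663.inc_inj T Λ) (fit_fib T t) _ _ x

/-- **block (D)** -/
theorem orb (hM : PDm (Cr M)) :
    letI := (actM M hΛ).act
    ∀ (s : S) (X : J Λ → TOb (UG M Λ) ℂ), OFam hΛ.four (algebraMap ℝ ℂ) s X →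
      ∃ (r : ArtinGroup M) (j : J Λ), r • (⟦X j⟧ : Cls (UG M Λ) ℂ) = frC (UG M Λ) ℂ (s, j) ∨
        r • (⟦X j⟧ : Cls (UG M Λ) ℂ) = shC (frC (UG M Λ) ℂ (s, j)) :=
  GlueD_180.orb_cls hΛ hM (actM M hΛ) (ActP_180.actP_of (actM M hΛ) (gen_mk hΛ))

end

/-- **the inputs** -/
noncomputable def inp (Λ : Finset ℕ) : Inp Λ where
  A := fun M hΛ => actM M hΛ
  hact := fun M hΛ T _ t x => hact hΛ T t x
  orb := fun M hΛ hM => orb hΛ hM
  stb := fun M hΛ hM => stb hΛ hM

end Crest.Agent.R175.Fin_788
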