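import Crest.Agent.R175.TopI_774

/-!
Row 175 (S0263): the spherical case is transported from the finite Coxeter groups (D2), and the
statement about parabolic subgroups.
-/

set_option autoImplicit false
set_option linter.unusedSectionVars false

namespace Crest.Agent.R175.TopF_774

open Crest.GroupTheory Crest.Agent.R175.Num_774 Crest.Agent.R175.Top5_774
  Crest.Agent.R175.TopI_774 Crest.Agent.R175.VdL_527

universe u

/-- the spherical intersection theorem -/
def D2 : Prop :=
  ∀ (S : Type u) [Finite S] (M : CoxeterMatrix S), Finite M.Group → ∀ (X Y : Set S)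
    (g : ArtinGroup M), ∃ h ∈ stdParabolic M X, ∃ Z ⊆ X,
      ∀ x, (x ∈ stdParabolic M X ∧ g⁻¹ * x * g ∈ stdParabolic M Y) ↔
        h⁻¹ * x * h ∈ stdParabolic M Z

variable {S : Type u} [Fintype S] {M : CoxeterMatrix S}

theorem sum_ext (T : Set S) [Fintype T] (F : S → ℝ) (hF : ∀ s, s ∉ T → F s = 0) :
    ∑ s, F s = ∑ s : T, F s := by
  classical
  rw [← Finset.sum_subtype (Finset.univ.filter (· ∈ T)) (by simp) F]
  symm
  apply Finset.sum_subset (Finset.subset_univ _)
  intro s _ hs
  apply hF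
  simpa using hs

theorem finite_of_PD {T : Set S} (h : PD M T) : Finite (res M T).Group := by
  classical
  haveI : Fintype T := Fintype.ofFinite T
  apply Pos_418.finite_group_of_posDef
  intro x hx
  let y : S → ℝ := fun s => if hs : s ∈ T then x ⟨s, hs⟩ else 0
  have hy : ∀ s : T, y s = x s := by
    intro s
    simp [y]
  have hy0 : ∀ s, s ∉ T → y s = 0 := by
    intro s hs
    simp [y, hs]
  have hne : y ≠ 0 := by
    intro h0
    apply hx
    funext s
    rw [← hy s, h0]
    rfl
  have h1 := h y hy0 hne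
  rw [sum_ext T _ (fun s hs => by simp [hy0 s hs])] at h1
  have h2 : ∑ s : T, ∑ t, C M s t * y s * y t
      = 2 * ∑ s : T, ∑ t : T, x s * x t * (-Real.cos (Real.pi / (res M T s t : ℝ))) := by
    rw [Finset.mul_sum]
    apply Finset.sum_congr rfl
    intro s _
    rw [sum_ext T _ (fun t ht => by simp [hy0 t ht]), Finset.mul_sum]
    apply Finset.sum_congr rfl
    intro t _
    rw [hy, hy, C, res_apply]
    ring
  rw [h2] at h1
  linarith

theorem mem_incl {T X : Set S} (hX : X ⊆ T) (y : ArtinGroup (res M T)) :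
    incl M T y ∈ A M X ↔ y ∈ stdParabolic (res M T) {x | (x : S) ∈ X} := by
  have h1 : A M X = (stdParabolic (res M T) {x : T | (x : S) ∈ X}).map (incl M T) := by
    rw [map_incl_std]
    congr 1
    ext s
    constructor
    · intro hs
      exact ⟨⟨s, hX hs⟩, hs, rfl⟩
    · rintro ⟨s, hs, rfl⟩
      exact hs
  rw [h1]
  constructor
  · rintro ⟨z, hz, he⟩
    rw [← incl_injective M T he]
    exact hz
  · intro h
    exact ⟨y, h, rfl⟩

theorem int_of_D2 (hD : D2.{u}) {T : Set S} (h : PD M T) : IntT M T := by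
  intro X hX Y hY g hg
  have hg' : g ∈ (incl M T).range := by rw [range_incl]; exact hg
  obtain ⟨g', rfl⟩ := hg'
  obtain ⟨a, ha, Z, hZ, H⟩ := hD T (res M T) (finite_of_PD h) {x | (x : S) ∈ X}
    {x | (x : S) ∈ Y} g'
  have hZX : Subtype.val '' Z ⊆ X := by
    rintro _ ⟨z, hz, rfl⟩
    exact hZ hz
  have hZ' : {x : T | (x : S) ∈ (Subtype.val '' Z : Set S)} = Z := by
    ext x
    constructor
    · rintro ⟨z, hz, he⟩
      rwa [← Subtype.ext he]
    · intro hx
      exact ⟨x, hx, rfl⟩
  refine ⟨incl M T a, (mem_incl hX a).2 ha, Subtype.val '' Z, hZX, fun x => ?_⟩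
  have main : ∀ y : ArtinGroup (res M T),
      (incl M T y ∈ A M X ∧ (incl M T g')⁻¹ * incl M T y * incl M T g' ∈ A M Y) ↔
        (incl M T a)⁻¹ * incl M T y * incl M T a ∈ A M (Subtype.val '' Z) := by
    intro y
    rw [← map_inv, ← map_mul, ← map_mul, ← map_inv, ← map_mul, ← map_mul, mem_incl hX,
      mem_incl hY, mem_incl (hZX.trans hX), hZ', ← H y]
  have hr : ∀ z, z ∈ A M T → ∃ y, incl M T y = z := by
    intro z hz
    have : z ∈ (incl M T).range := by rw [range_incl]; exact hz
    exact this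
  constructor
  · rintro ⟨h1, h2⟩
    obtain ⟨y, rfl⟩ := hr x (A_mono M hX h1)
    exact (main y).1 ⟨h1, h2⟩
  · intro h1
    have h2 : (incl M T a)⁻¹ * x * incl M T a ∈ A M T := A_mono M (hZX.trans hX) h1
    obtain ⟨z, hz⟩ := hr _ h2
    have h3 : x = incl M T (a * z * a⁻¹) := by
      rw [map_mul, map_mul, map_inv, hz]
      group
    rw [h3] at h1 ⊢
    exact (main _).2 h1

/-- the intersection theorem in terms of parabolic subgroups -/
theorem par_of_int (h : IntT M Set.univ) {P Q : Subgroup (ArtinGroup M)} (hP : IsParabolic M P)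
    (hQ : IsParabolic M Q) : IsParabolic M (P ⊓ Q) := by
  obtain ⟨X, p, rfl⟩ := hP
  obtain ⟨Y, q, rfl⟩ := hQ
  have huniv : ∀ z : ArtinGroup M, z ∈ A M Set.univ := by
    intro z
    have h1 : (⊤ : Subgroup (ArtinGroup M)) = Subgroup.closure (Set.range (artinGen M)) := by
      have : Set.range (artinGen M) =
        Set.range (PresentedGroup.of (rels := artinRelators M)) := rfl
      rw [this, PresentedGroup.closure_range_of]
    unfold A stdParabolic
    rw [Set.image_univ, ← h1]
    exact Subgroup.mem_top z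
  obtain ⟨a, ha, Z, hZ, H⟩ := h X (Set.subset_univ _) Y (Set.subset_univ _) (p⁻¹ * q) (huniv _)
  refine ⟨Z, p * a, ?_⟩
  have hm : ∀ (X : Set S) (p x : ArtinGroup M),
      x ∈ (stdParabolic M X).map (MulAut.conj p).toMonoidHom ↔ p⁻¹ * x * p ∈ A M X := by
    intro X p x
    constructor
    · rintro ⟨y, hy, rfl⟩
      simpa [mul_assoc] using hy
    · intro hx
      exact ⟨_, hx, by simp [mul_assoc]⟩
  ext x
  rw [Subgroup.mem_inf, hm, hm, hm]
  have h1 := H (p⁻¹ * x * p)
  have h2 : (p⁻¹ * q)⁻¹ * (p⁻¹ * x * p) * (p⁻¹ * q) = q⁻¹ * x * q := by group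
  have h3 : a⁻¹ * (p⁻¹ * x * p) * a = (p * a)⁻¹ * x * (p * a) := by group
  rw [h2, h3] at h1
  exact h1

/-- **TOP**: numbers and the spherical theorem give the result -/
theorem top (N : Num M) (hD : D2.{u}) (hUT : ∀ T, UT N T)
    (hR : ∀ T : Set S, Connd M T → T.Nonempty → ¬ PD M T → Reach N T)
    {P Q : Subgroup (ArtinGroup M)} (hP : IsParabolic M P) (hQ : IsParabolic M Q) :
    IsParabolic M (P ⊓ Q) :=
  par_of_int (int_all N (fun _ h => int_of_D2 hD h) hUT hR Set.univ) hP hQ

end Crest.Agent.R175.TopF_774
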