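import Mathlib
import Crest.Prelude.Def_ArtinGroup

/-!
Row 175, S0263: transport along a bijection of the index type (helper921, task 487).

`artinEquiv e M : ArtinGroup M ≃* ArtinGroup (M.reindex e)`, `isParabolic_reindex`, and
`s0263_of_fin`: the statement for `S = Fin n` implies the literal statement for every finite `S : Type*`.
-/

set_option autoImplicit false

namespace Crest.Agent.R175.Tr_921

open Crest.GroupTheory

section altword

variable {S S2 : Type*}

theorem map_altWord (f : S → S2) (s t : S) (m : ℕ) :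
    FreeGroup.map f (artinAltWord s t m) = artinAltWord (f s) (f t) m := by
  induction m generalizing s t with
  | zero => simp [artinAltWord]
  | succ m ih => simp [artinAltWord, ih]

end altword

section hom

variable {S S2 S3 : Type*}

/-- A map of index types which preserves all labels induces a homomorphism of Artin groups. -/
noncomputable def homOf (M : CoxeterMatrix S) (M2 : CoxeterMatrix S2) (f : S → S2)
    (h : ∀ s t, M2.M (f s) (f t) = M.M s t) : ArtinGroup M →* ArtinGroup M2 :=
  PresentedGroup.toGroup (f := fun s => artinGen M2 (f s)) (by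
    rintro r ⟨⟨s, t⟩, rfl⟩
    have hlift : (FreeGroup.lift fun s => artinGen M2 (f s)) =
        (PresentedGroup.mk (artinRelators M2)).comp (FreeGroup.map f) := by
      ext s
      simp only [FreeGroup.lift_apply_of, MonoidHom.comp_apply, FreeGroup.map.of]
      rfl
    rw [hlift, MonoidHom.comp_apply, map_mul, map_inv, map_altWord, map_altWord]
    apply PresentedGroup.one_of_mem
    refine ⟨(f s, f t), ?_⟩
    simp only [h])

@[simp] theorem homOf_gen (M : CoxeterMatrix S) (M2 : CoxeterMatrix S2) (f : S → S2)
    (h : ∀ s t, M2.M (f s) (f t) = M.M s t) (s : S) :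
    homOf M M2 f h (artinGen M s) = artinGen M2 (f s) := by
  unfold homOf artinGen
  exact PresentedGroup.toGroup.of _

theorem hom_ext {G : Type*} [Group G] {M : CoxeterMatrix S} {φ ψ : ArtinGroup M →* G}
    (h : ∀ s, φ (artinGen M s) = ψ (artinGen M s)) : φ = ψ :=
  PresentedGroup.ext h

end hom

section equiv

variable {S S2 : Type*}

theorem lab_fwd (e : S ≃ S2) (M : CoxeterMatrix S) (s t : S) :
    (M.reindex e).M (e s) (e t) = M.M s t := by
  change M.M (e.symm (e s)) (e.symm (e t)) = M.M s t
  rw [Equiv.symm_apply_apply, Equiv.symm_apply_apply]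

theorem lab_bwd (e : S ≃ S2) (M : CoxeterMatrix S) (s t : S2) :
    M.M (e.symm s) (e.symm t) = (M.reindex e).M s t := rfl

/-- The homomorphism `ArtinGroup M → ArtinGroup (M.reindex e)`. -/
noncomputable def fwd (e : S ≃ S2) (M : CoxeterMatrix S) : ArtinGroup M →* ArtinGroup (M.reindex e) :=
  homOf M (M.reindex e) e (lab_fwd e M)

/-- The homomorphism `ArtinGroup (M.reindex e) → ArtinGroup M`. -/
noncomputable def bwd (e : S ≃ S2) (M : CoxeterMatrix S) : ArtinGroup (M.reindex e) →* ArtinGroup M :=
  homOf (M.reindex e) M e.symm (lab_bwd e M)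

@[simp] theorem fwd_gen (e : S ≃ S2) (M : CoxeterMatrix S) (s : S) :
    fwd e M (artinGen M s) = artinGen (M.reindex e) (e s) := homOf_gen _ _ _ _ _

@[simp] theorem bwd_gen (e : S ≃ S2) (M : CoxeterMatrix S) (s : S2) :
    bwd e M (artinGen (M.reindex e) s) = artinGen M (e.symm s) := homOf_gen _ _ _ _ _

/-- A bijection of index types induces an isomorphism of Artin groups. -/
noncomputable def artinEquiv (e : S ≃ S2) (M : CoxeterMatrix S) :
    ArtinGroup M ≃* ArtinGroup (M.reindex e) :=
  MonoidHom.toMulEquiv (fwd e M) (bwd e M)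
    (hom_ext (fun s => by
      rw [MonoidHom.comp_apply, fwd_gen, bwd_gen, Equiv.symm_apply_apply, MonoidHom.id_apply]))
    (hom_ext (fun s => by
      rw [MonoidHom.comp_apply, bwd_gen, fwd_gen, Equiv.apply_symm_apply, MonoidHom.id_apply]))

@[simp] theorem artinEquiv_gen (e : S ≃ S2) (M : CoxeterMatrix S) (s : S) :
    artinEquiv e M (artinGen M s) = artinGen (M.reindex e) (e s) :=
  fwd_gen e M s

@[simp] theorem artinEquiv_symm_gen (e : S ≃ S2) (M : CoxeterMatrix S) (s : S2) :
    (artinEquiv e M).symm (artinGen (M.reindex e) s) = artinGen M (e.symm s) := by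
  rw [MulEquiv.symm_apply_eq]
  simp

/-- A group isomorphism which permutes the generators maps parabolic subgroups to parabolic subgroups. -/
theorem isParabolic_map {M : CoxeterMatrix S} {M2 : CoxeterMatrix S2} (φ : ArtinGroup M ≃* ArtinGroup M2)
    (f : S → S2) (h : ∀ s, φ (artinGen M s) = artinGen M2 (f s)) {P : Subgroup (ArtinGroup M)}
    (hP : IsParabolic M P) : IsParabolic M2 (P.map φ.toMonoidHom) := by
  obtain ⟨X, g, rfl⟩ := hP
  refine ⟨f '' X, φ g, ?_⟩
  have h1 : stdParabolic M2 (f '' X) = (stdParabolic M X).map φ.toMonoidHom := by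
    unfold stdParabolic
    rw [MonoidHom.map_closure]
    congr 1
    ext y
    constructor
    · rintro ⟨_, ⟨x, hx, rfl⟩, rfl⟩
      exact ⟨artinGen M x, ⟨x, hx, rfl⟩, by simp [h]⟩
    · rintro ⟨_, ⟨x, hx, rfl⟩, rfl⟩
      exact ⟨f x, ⟨x, hx, rfl⟩, by simp [h]⟩
  rw [h1, Subgroup.map_map, Subgroup.map_map]
  congr 1
  ext x
  simp

theorem isParabolic_reindex (e : S ≃ S2) (M : CoxeterMatrix S) (P : Subgroup (ArtinGroup M)) :
    IsParabolic (M.reindex e) (P.map (artinEquiv e M).toMonoidHom) ↔ IsParabolic M P := by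
  constructor
  · intro hP
    have h := isParabolic_map (artinEquiv e M).symm e.symm (fun s => by simp) hP
    rw [Subgroup.map_map] at h
    have hid : ((artinEquiv e M).symm.toMonoidHom.comp (artinEquiv e M).toMonoidHom) = MonoidHom.id _ := by
      ext x
      simp
    rwa [hid, Subgroup.map_id] at h
  · intro hP
    exact isParabolic_map (artinEquiv e M) e (fun s => by simp) hP

/-- If intersections of parabolic subgroups are parabolic for one index type then also for every
type in bijection with it. -/
theorem inter_of_equiv (e : S ≃ S2) (M : CoxeterMatrix S)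
    (H : ∀ P Q : Subgroup (ArtinGroup (M.reindex e)), IsParabolic (M.reindex e) P →
      IsParabolic (M.reindex e) Q → IsParabolic (M.reindex e) (P ⊓ Q))
    (P Q : Subgroup (ArtinGroup M)) (hP : IsParabolic M P) (hQ : IsParabolic M Q) :
    IsParabolic M (P ⊓ Q) := by
  rw [← isParabolic_reindex e M]
  have h1 : (P ⊓ Q).map (artinEquiv e M).toMonoidHom =
      P.map (artinEquiv e M).toMonoidHom ⊓ Q.map (artinEquiv e M).toMonoidHom :=
    Subgroup.map_inf _ _ _ (artinEquiv e M).injective
  rw [h1]
  exact H _ _ ((isParabolic_reindex e M P).2 hP) ((isParabolic_reindex e M Q).2 hQ)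

end equiv

/-- **Transport.** It is enough to prove S0263 for the index types `Fin n`. -/
theorem s0263_of_fin
    (H : ∀ (n : ℕ) (M : CoxeterMatrix (Fin n)) (P Q : Subgroup (ArtinGroup M)),
      IsParabolic M P → IsParabolic M Q → IsParabolic M (P ⊓ Q))
    (S : Type*) [Finite S] (M : CoxeterMatrix S)
    (P Q : Subgroup (ArtinGroup M)) (hP : IsParabolic M P) (hQ : IsParabolic M Q) :
    IsParabolic M (P ⊓ Q) := by
  obtain ⟨n, ⟨e⟩⟩ := Finite.exists_equiv_fin S
  exact inter_of_equiv e M (H n (M.reindex e)) P Q hP hQ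

end Crest.Agent.R175.Tr_921
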