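import Crest.Agent.R175.TopD_224
import Crest.Agent.R175.TopF_774
import Crest.Agent.R175.D2_774
import Crest.Agent.R175.Tr_921

/-!
Row 175 (S0263): the top edge. The numbers `Num M` for every Coxeter matrix on `Fin n` give S0263.
-/

set_option autoImplicit false

namespace Crest.Agent.R175.Final_131

open Crest.GroupTheory Crest.Agent.R175.Num_774 Crest.Agent.R175.Top5_774

/-- one Coxeter matrix -/
theorem inf_of_num {S : Type} [Fintype S] {M : CoxeterMatrix S} (N : Num M)
    {P Q : Subgroup (ArtinGroup M)} (hP : IsParabolic M P) (hQ : IsParabolic M Q) :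
    IsParabolic M (P ⊓ Q) := by
  refine TopF_774.top N D2_774.d2 (fun T => TopD_224.ut N T) ?_ hP hQ
  intro T hc _ hn X hX h hcl hpos B
  obtain ⟨h', h1, h2⟩ := TopD_224.reach_num (fun s _ => N.lam_nonneg X hX s)
    (fun s g => N.d_nonneg X hX s g) hc hn hcl hpos (B + 1)
  exact ⟨h', h1, fun t ht => lt_of_lt_of_le (by linarith) (h2 t ht)⟩

/-- **the top edge of S0263** -/
theorem final (H : ∀ (n : ℕ) (M : CoxeterMatrix (Fin n)), Nonempty (Num M))
    (S : Type*) [Finite S] (M : CoxeterMatrix S)
    (P Q : Subgroup (ArtinGroup M)) (hP : IsParabolic M P) (hQ : IsParabolic M Q) :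
    IsParabolic M (P ⊓ Q) :=
  Tr_921.s0263_of_fin (fun n M P Q hP hQ => inf_of_num (H n M).some hP hQ) S M P Q hP hQ

end Crest.Agent.R175.Final_131
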