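import Crest.Agent.R175.A2t_83

/-!
# R175 (S0264), vertex: fixed points of `S1` on `F3`

`F3 = FreeGroup B ⋊ B`, `B = ⟨y, v⟩`; `S1 ^ 2` permutes the basis of `FreeGroup B` by right
translation by `y`, which has no fixed point.
-/

set_option autoImplicit false

namespace Crest.Agent.R175.Fix_974

open A2t_83

theorem eq_one_of_map_eq {α : Type*} (f : α → α) (hf : Function.Injective f)
    (hx : ∀ a, f a ≠ a) (n : FreeGroup α) (h : FreeGroup.map f n = n) : n = 1 := by
  classical
  have h1 : (FreeGroup.map f n).toWord = n.toWord.map (fun p => (f p.1, p.2)) := by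
    conv_lhs => rw [← FreeGroup.mk_toWord (x := n)]
    rw [FreeGroup.map.mk, FreeGroup.toWord_mk]
    apply FreeGroup.IsReduced.reduce_eq
    have h2 : FreeGroup.IsReduced n.toWord := FreeGroup.isReduced_toWord
    unfold FreeGroup.IsReduced at h2 ⊢
    rw [List.isChain_map]
    refine h2.imp ?_
    intro a b hab h3
    exact hab (hf h3)
  rw [h] at h1
  rcases hw : n.toWord with _ | ⟨p, tl⟩
  · exact FreeGroup.toWord_eq_nil_iff.1 hw
  · rw [hw] at h1
    simp only [List.map_cons, List.cons.injEq] at h1
    exact absurd (congrArg Prod.fst h1.1).symm (hx p.1)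

/-- the free group on `y, v` -/
abbrev BB : Type := FreeGroup Bool

/-- left translations of the basis -/
def act : BB →* MulAut (FreeGroup BB) where
  toFun b := FreeGroup.freeGroupCongr (Equiv.mulLeft b)
  map_one' := by
    ext x
    show FreeGroup.map (fun y => 1 * y) x = x
    simp
  map_mul' b c := by
    ext x
    show FreeGroup.map (fun y => b * c * y) x =
      FreeGroup.map (fun y => b * y) (FreeGroup.map (fun y => c * y) x)
    rw [FreeGroup.map.comp]
    congr 2
    funext y
    simp [mul_assoc]

theorem act_apply (b : BB) (x : FreeGroup BB) : act b x = FreeGroup.map (fun y => b * y) x := rfl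

/-- `B → F3` -/
def emb : BB →* F3 := FreeGroup.lift fun b => cond b gv gy

theorem emb_mem (b : BB) : emb b ∈ Subgroup.closure {gy, gv} := by
  have : (emb).range ≤ Subgroup.closure {gy, gv} := by
    apply FreeGroup.range_lift_le
    rintro _ ⟨b, rfl⟩
    cases b
    · exact Subgroup.subset_closure (by simp)
    · exact Subgroup.subset_closure (by simp)
  exact this ⟨b, rfl⟩

/-- the semidirect product -/
abbrev SD : Type := FreeGroup BB ⋊[act] BB

/-- `F3 → FreeGroup B ⋊ B` -/
def Th : F3 →* SD :=
  hF (SemidirectProduct.inl (FreeGroup.of 1)) (SemidirectProduct.inr (FreeGroup.of false))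
    (SemidirectProduct.inr (FreeGroup.of true))

/-- `FreeGroup B ⋊ B → F3` -/
def La : SD →* F3 :=
  SemidirectProduct.lift (FreeGroup.lift fun b => emb b * gx * (emb b)⁻¹) emb (by
    intro g
    apply FreeGroup.ext_hom
    intro b
    simp only [MonoidHom.comp_apply, MulEquiv.coe_toMonoidHom, act_apply, FreeGroup.map.of,
      FreeGroup.lift_apply_of, map_mul, MulAut.conj_apply]
    group)

theorem La_Th (w : F3) : La (Th w) = w := by
  have : La.comp Th = MonoidHom.id F3 := by
    apply F3_ext
    · simp [La, Th]
    · simp [La, Th, emb]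
    · simp [La, Th, emb]
  exact DFunLike.congr_fun this w

/-- right translation by `y` -/
def Rm : SD →* SD :=
  SemidirectProduct.map (FreeGroup.map fun b => b * FreeGroup.of false) (MonoidHom.id _) (by
    intro g
    apply FreeGroup.ext_hom
    intro b
    simp only [MonoidHom.comp_apply, MulEquiv.coe_toMonoidHom, act_apply, FreeGroup.map.of,
      MonoidHom.id_apply, mul_assoc])

theorem Th_S (w : F3) : Th (S1 (S1 w)) = Rm (Th w) := by
  have : (Th.comp (S1.toMonoidHom.comp S1.toMonoidHom)) = Rm.comp Th := by
    apply F3_ext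
    · simp only [MonoidHom.comp_apply, MulEquiv.coe_toMonoidHom, S1_x, map_mul, map_inv, S1_y]
      simp only [Th, hF_x, hF_y, Rm, SemidirectProduct.map_inl, FreeGroup.map.of, one_mul]
      rw [mul_inv_rev, inv_inv, ← mul_assoc, ← map_inv, ← SemidirectProduct.inl_aut, act_apply,
        FreeGroup.map.of, mul_one]
    · simp only [MonoidHom.comp_apply, MulEquiv.coe_toMonoidHom, S1_y]
      simp [Th, Rm]
    · simp only [MonoidHom.comp_apply, MulEquiv.coe_toMonoidHom, S1_v]
      simp [Th, Rm]
  exact DFunLike.congr_fun this w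

/-- **fixed points of `S1`.** -/
theorem fix_S1 {w : F3} (h : S1 w = w) : w ∈ Subgroup.closure {gy, gv} := by
  have h1 : Rm (Th w) = Th w := by rw [← Th_S, h, h]
  have h2 : (Th w).left = 1 := by
    apply eq_one_of_map_eq (fun b : BB => b * FreeGroup.of false)
    · intro a b hab
      exact mul_right_cancel hab
    · intro a ha
      have h3 : FreeGroup.of false = (1 : BB) := mul_left_cancel (ha.trans (mul_one a).symm)
      exact FreeGroup.of_ne_one _ h3
    · exact congrArg SemidirectProduct.left h1
  have h4 : Th w = SemidirectProduct.inr (Th w).right := by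
    rw [← SemidirectProduct.inl_left_mul_inr_right (Th w), h2]
    simp
  rw [← La_Th w, h4, La, SemidirectProduct.lift_inr]
  exact emb_mem _

end Crest.Agent.R175.Fix_974
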