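import Mathlib

/-!
# Row 175, block F_m, part 1: quantum integers at a root of unity (real form)

`q m i = sin (i π / m) / sin (π / m)`, `i = 0 .. m`.
-/

namespace Crest.Agent.R175.Fm1_27

open Real

/-- quantum integer `[i]` at level `m` -/
noncomputable def q (m i : ℕ) : ℝ := Real.sin (i * (π / m)) / Real.sin (π / m)

theorem sin_pos_of {m i : ℕ} (hi : 0 < i) (him : i < m) : 0 < Real.sin (i * (π / m)) := by
  have hm : (0 : ℝ) < m := by exact_mod_cast (lt_trans hi him)
  have hi' : (0 : ℝ) < i := by exact_mod_cast hi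
  have him' : (i : ℝ) < m := by exact_mod_cast him
  apply Real.sin_pos_of_pos_of_lt_pi
  · positivity
  · have : (i : ℝ) * (π / m) = (i / m) * π := by ring
    rw [this]
    have h1 : (i : ℝ) / m < 1 := (div_lt_one hm).2 him'
    nlinarith [Real.pi_pos]

theorem sin_one_pos {m : ℕ} (hm : 2 ≤ m) : 0 < Real.sin (π / m) := by
  have := sin_pos_of (m := m) (i := 1) one_pos (by omega)
  simpa using this

theorem q_zero (m : ℕ) : q m 0 = 0 := by simp [q]

theorem q_one {m : ℕ} (hm : 2 ≤ m) : q m 1 = 1 := by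
  have := (sin_one_pos hm).ne'
  simp [q, this]

theorem q_self {m : ℕ} (hm : 2 ≤ m) : q m m = 0 := by
  have hm0 : (m : ℝ) ≠ 0 := by positivity
  have : (m : ℝ) * (π / m) = π := by field_simp
  simp [q, this]

theorem q_pos {m i : ℕ} (hi : 0 < i) (him : i < m) : 0 < q m i :=
  div_pos (sin_pos_of hi him) (sin_one_pos (by omega))

theorem q_ne_zero {m i : ℕ} (hi : 0 < i) (him : i < m) : q m i ≠ 0 := (q_pos hi him).ne'

theorem q_nonneg {m i : ℕ} (him : i ≤ m) : 0 ≤ q m i := by
  rcases Nat.eq_zero_or_pos i with rfl | hi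
  · simp [q_zero]
  · rcases him.lt_or_eq with h | rfl
    · exact (q_pos hi h).le
    · rcases Nat.lt_or_ge i 2 with h2 | h2
      · have : i = 1 := by omega
        subst this
        simp [q]
      · exact (q_self h2).ge

/-- `[i+1]^2 = [i][i+2] + 1` -/
theorem q_sq {m : ℕ} (hm : 2 ≤ m) (i : ℕ) : q m (i + 1) ^ 2 = q m i * q m (i + 2) + 1 := by
  have h0 := (sin_one_pos hm).ne'
  unfold q
  set a := π / (m : ℝ) with ha
  have e1 : Real.sin (((i + 1 : ℕ) : ℝ) * a) = Real.sin ((i : ℝ) * a + a) := by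
    congr 1; push_cast; ring
  have e2 : Real.sin (((i + 2 : ℕ) : ℝ) * a) = Real.sin (((i : ℝ) * a + a) + a) := by
    congr 1; push_cast; ring
  have e0 : Real.sin ((i : ℝ) * a) = Real.sin (((i : ℝ) * a + a) - a) := by
    congr 1; ring
  rw [e1, e2, e0]
  generalize (i : ℝ) * a + a = b
  rw [Real.sin_add b a, Real.sin_sub b a]
  field_simp
  have h1 := Real.sin_sq_add_cos_sq a
  have h2 := Real.sin_sq_add_cos_sq b
  nlinarith [h1, h2]

/-- `[2][i+1] = [i] + [i+2]` -/
theorem q_two_mul {m : ℕ} (hm : 2 ≤ m) (i : ℕ) : q m 2 * q m (i + 1) = q m i + q m (i + 2) := by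
  have h0 := (sin_one_pos hm).ne'
  unfold q
  set a := π / (m : ℝ) with ha
  have e1 : Real.sin (((i + 1 : ℕ) : ℝ) * a) = Real.sin ((i : ℝ) * a + a) := by
    congr 1; push_cast; ring
  have e2 : Real.sin (((i + 2 : ℕ) : ℝ) * a) = Real.sin (((i : ℝ) * a + a) + a) := by
    congr 1; push_cast; ring
  have e0 : Real.sin ((i : ℝ) * a) = Real.sin (((i : ℝ) * a + a) - a) := by
    congr 1; ring
  have e3 : Real.sin (((2 : ℕ) : ℝ) * a) = 2 * Real.sin a * Real.cos a := by
    push_cast; exact Real.sin_two_mul a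
  rw [e1, e2, e0, e3]
  generalize (i : ℝ) * a + a = b
  rw [Real.sin_add b a, Real.sin_sub b a]
  field_simp
  ring

/-- `[2] = 2 cos (π/m)` -/
theorem q_two {m : ℕ} (hm : 2 ≤ m) : q m 2 = 2 * Real.cos (π / m) := by
  have h0 := (sin_one_pos hm).ne'
  unfold q
  have e3 : Real.sin (((2 : ℕ) : ℝ) * (π / m)) = 2 * Real.sin (π / m) * Real.cos (π / m) := by
    push_cast; exact Real.sin_two_mul _
  rw [e3]
  field_simp

/-- reflection symmetry -/
theorem q_symm {m i : ℕ} (hm : 2 ≤ m) (him : i ≤ m) : q m (m - i) = q m i := by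
  have hm0 : (m : ℝ) ≠ 0 := by positivity
  unfold q
  congr 1
  rw [Nat.cast_sub him]
  have : ((m : ℝ) - i) * (π / m) = π - i * (π / m) := by field_simp
  rw [this, Real.sin_pi_sub]

end Crest.Agent.R175.Fm1_27
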