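import Crest.Agent.R175.Fm1_27

/-!
# Row 175, block F_m, part 2: the connection on the path graph `A_{m-1}`

Vertices `1 .. m-1`; `nbr i j : |i - j| = 1`.
`chi m i i' j j'` is the coefficient of the arrow `i' -> j'` in `F (i -> j)`.
-/

namespace Crest.Agent.R175.Fm2_27

open Crest.Agent.R175.Fm1_27

/-- adjacency of natural numbers -/
def nbr (i j : ℕ) : Prop := i + 1 = j ∨ j + 1 = i

instance (i j : ℕ) : Decidable (nbr i j) := by unfold nbr; infer_instance

theorem nbr_comm {i j : ℕ} : nbr i j ↔ nbr j i := by unfold nbr; tauto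

theorem nbr_symm {i j : ℕ} (h : nbr i j) : nbr j i := nbr_comm.1 h

/-- coefficient of `i' -> j'` in `F (i -> j)` -/
noncomputable def chi (m i i' j j' : ℕ) : ℝ :=
  if i' = j then (if j' = i then (-1) ^ (min i j) / q m i else 1)
  else (if j' = i then q m j / q m i else 0)

/-- sum over the neighbours inside `1..m-1` -/
theorem sum_nbr {M : Type*} [AddCommMonoid M] {m i : ℕ} (hi : 0 < i) (him : i < m)
    (f : ℕ → M) :
    (∑ j ∈ Finset.Ioo 0 m, if nbr i j then f j else 0)
      = (if i + 1 < m then f (i + 1) else 0) + (if 1 < i then f (i - 1) else 0) := by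
  rw [← Finset.sum_filter]
  by_cases h1 : i + 1 < m
  · by_cases h2 : 1 < i
    · have : Finset.filter (fun j => nbr i j) (Finset.Ioo 0 m) = {i + 1, i - 1} := by
        ext j
        simp only [Finset.mem_filter, Finset.mem_Ioo, Finset.mem_insert, Finset.mem_singleton]
        unfold nbr; omega
      rw [this, Finset.sum_pair (by omega)]
      simp [h1, h2]
    · have : Finset.filter (fun j => nbr i j) (Finset.Ioo 0 m) = {i + 1} := by
        ext j
        simp only [Finset.mem_filter, Finset.mem_Ioo, Finset.mem_singleton]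
        unfold nbr; omega
      rw [this, Finset.sum_singleton]
      simp [h1, h2]
  · by_cases h2 : 1 < i
    · have : Finset.filter (fun j => nbr i j) (Finset.Ioo 0 m) = {i - 1} := by
        ext j
        simp only [Finset.mem_filter, Finset.mem_Ioo, Finset.mem_singleton]
        unfold nbr; omega
      rw [this, Finset.sum_singleton]
      simp [h1, h2]
    · have : Finset.filter (fun j => nbr i j) (Finset.Ioo 0 m) = ∅ := by
        ext j
        simp only [Finset.mem_filter, Finset.mem_Ioo, Finset.notMem_empty, iff_false]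
        unfold nbr; omega
      rw [this, Finset.sum_empty]
      simp [h1, h2]

/-- **(★)** backtracking relation for `F`. -/
theorem chi_back {m i i' i2 j : ℕ} (hm : 2 ≤ m)
    (hi : 0 < i) (him : i < m) (hi' : 0 < i') (him' : i' < m)
    (hi2 : 0 < i2) (him2 : i2 < m) (hj : 0 < j) (hjm : j < m)
    (h1 : nbr i i') (h2 : nbr i2 i') (h3 : nbr i j) (h4 : nbr i2 j) :
    (∑ j' ∈ Finset.Ioo 0 m, if nbr i' j' then
        (if nbr j j' then q m j' * (chi m i i' j j' * chi m j j' i2 i') else 0) else 0)
      = if i = i2 then q m j else 0 := by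
  rw [sum_nbr hi' him']
  have qi := q_ne_zero hi him
  have qj := q_ne_zero hj hjm
  have qi' := q_ne_zero hi' him'
  -- cases on the position of `j` relative to `i'`
  have hcase : j = i' ∨ (j ≠ i' ∧ i = i2) := by
    unfold nbr at *; omega
  rcases hcase with rfl | ⟨hne, rfl⟩
  · -- `j = i'`
    have e1 : nbr j (j + 1) := Or.inl rfl
    have e3 : 1 < j → nbr j (j - 1) := fun h => Or.inr (by omega)
    have hA := q_sq hm (j - 1)
    rw [show j - 1 + 1 = j by omega, show j - 1 + 2 = j + 1 by omega] at hA
    -- the term `j' = j+1`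
    have T1 : (if j + 1 < m then (if nbr j (j + 1) then
        q m (j + 1) * (chi m i j j (j + 1) * chi m j (j + 1) i2 j) else 0) else 0)
        = q m (j + 1) * (chi m i j j (j + 1) * chi m j (j + 1) i2 j) := by
      by_cases h : j + 1 < m
      · simp [h, e1]
      · have : j + 1 = m := by omega
        rw [if_neg h, this, q_self hm]; ring
    have T2 : (if 1 < j then (if nbr j (j - 1) then
        q m (j - 1) * (chi m i j j (j - 1) * chi m j (j - 1) i2 j) else 0) else 0)
        = q m (j - 1) * (chi m i j j (j - 1) * chi m j (j - 1) i2 j) := by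
      by_cases h : 1 < j
      · simp [h, e3 h]
      · have : j - 1 = 0 := by omega
        rw [if_neg h, this, q_zero]; ring
    rw [T1, T2]
    have hp : ((-1 : ℝ)) ^ (j - 1) * (-1) ^ (j - 1) = 1 := by
      rw [← mul_pow]; norm_num
    have hp2 : ((-1 : ℝ)) ^ j * (-1) ^ j = 1 := by
      rw [← mul_pow]; norm_num
    have hp3 : ((-1 : ℝ)) ^ j = - (-1) ^ (j - 1) := by
      conv_lhs => rw [show j = (j - 1) + 1 by omega]
      rw [pow_succ]; ring
    rcases h3 with h3 | h3 <;> rcases h4 with h4 | h4
    · -- i = j - 1, i2 = j - 1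
      have a1 : i = j - 1 := by omega
      have a2 : i2 = j - 1 := by omega
      subst a1; subst a2
      have hj1 : j + 1 ≠ j - 1 := by omega
      have hj2 : j - 1 + 1 = j := by omega
      have m1 : min (j - 1) j = j - 1 := by omega
      have m2 : min j (j - 1) = j - 1 := by omega
      simp only [chi, if_true, if_neg hj1, m1, m2]
      field_simp
      have : ((-1 : ℝ)) ^ (j - 1) * (-1) ^ (j - 1) = 1 := hp
      nlinarith [this, hA]
    · -- i = j - 1, i2 = j + 1
      have a1 : i = j - 1 := by omega
      have a2 : i2 = j + 1 := by omega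
      subst a1; subst a2
      have hj1 : j + 1 ≠ j - 1 := by omega
      have hj1' : j - 1 ≠ j + 1 := by omega
      have m1 : min (j - 1) j = j - 1 := by omega
      have m3 : min j (j + 1) = j := by omega
      simp only [chi, if_true, if_neg hj1, if_neg hj1', m1, m3]
      rw [hp3]
      field_simp
      ring
    · -- i = j + 1, i2 = j - 1
      have a1 : i = j + 1 := by omega
      have a2 : i2 = j - 1 := by omega
      subst a1; subst a2
      have hj1 : j + 1 ≠ j - 1 := by omega
      have hj1' : j - 1 ≠ j + 1 := by omega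
      have m1 : min (j + 1) j = j := by omega
      have m3 : min j (j - 1) = j - 1 := by omega
      simp only [chi, if_true, if_neg hj1, if_neg hj1', m1, m3]
      rw [hp3]
      field_simp
      ring
    · -- i = j + 1, i2 = j + 1
      have a1 : i = j + 1 := by omega
      have a2 : i2 = j + 1 := by omega
      subst a1; subst a2
      have hj1' : j - 1 ≠ j + 1 := by omega
      have m1 : min (j + 1) j = j := by omega
      have m3 : min j (j + 1) = j := by omega
      simp only [chi, if_true, if_neg hj1', m1, m3]
      field_simp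
      nlinarith [hp2, hA]
  · -- `j ≠ i'`, the middle point
    simp only [if_true]
    rcases h1 with h1 | h1 <;> rcases h3 with h3 | h3
    · omega
    · -- i' = i + 1, j = i - 1
      have a1 : i' = i + 1 := by omega
      have a2 : j = i - 1 := by omega
      subst a1; subst a2
      have b1 : ¬ nbr (i - 1) (i + 1 + 1) := by unfold nbr; omega
      have b2 : nbr (i - 1) (i + 1 - 1) := by unfold nbr; omega
      have b3 : 1 < i + 1 := by omega
      have b4 : i + 1 - 1 = i := by omega
      rw [if_neg b1, if_pos b3, if_pos b2, b4]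
      have c1 : i + 1 ≠ i - 1 := by omega
      have c2 : i ≠ i + 1 := by omega
      simp only [chi, if_true, if_neg c1]
      simp
      field_simp
    · -- i' = i - 1, j = i + 1
      have a1 : i' = i - 1 := by omega
      have a2 : j = i + 1 := by omega
      subst a1; subst a2
      have b1 : nbr (i + 1) (i - 1 + 1) := by unfold nbr; omega
      have b2 : ¬ nbr (i + 1) (i - 1 - 1) := by unfold nbr; omega
      have b3 : i - 1 + 1 < m := by omega
      have b4 : i - 1 + 1 = i := by omega
      rw [if_neg b2, if_pos b3, if_pos b1, b4]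
      have c1 : i - 1 ≠ i + 1 := by omega
      simp only [chi, if_true, if_neg c1]
      simp
      field_simp
    · omega

/-- powers of `-1` -/
theorem sgn_sq (n : ℕ) : ((-1 : ℝ)) ^ n * (-1) ^ n = 1 := by
  rw [← mul_pow]; norm_num

theorem sgn_pred {j : ℕ} (hj : 0 < j) : ((-1 : ℝ)) ^ j = - (-1) ^ (j - 1) := by
  conv_lhs => rw [show j = (j - 1) + 1 by omega]
  rw [pow_succ]; ring

/-- removing the boundary conditions -/
theorem bd_up {m j : ℕ} (hm : 2 ≤ m) (hjm : j < m) {P : Prop} [Decidable P] (hP : P)
    (X : ℝ) (hX : ∃ Y, X = q m (j + 1) * Y) :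
    (if j + 1 < m then (if P then X else 0) else 0) = X := by
  obtain ⟨Y, rfl⟩ := hX
  by_cases h : j + 1 < m
  · simp [h, hP]
  · have : j + 1 = m := by omega
    rw [if_neg h, this, q_self hm]; ring

theorem bd_down {m j : ℕ} (hj : 0 < j) {P : Prop} [Decidable P] (hP : 1 < j → P)
    (X : ℝ) (hX : ∃ Y, X = q m (j - 1) * Y) :
    (if 1 < j then (if P then X else 0) else 0) = X := by
  obtain ⟨Y, rfl⟩ := hX
  by_cases h : 1 < j
  · simp [h, hP h]
  · have : j - 1 = 0 := by omega
    rw [if_neg h, this, q_zero]; ring

/-- **naturality of the unit** `V_i -> (FFV)_i`, component `(i', i)` with coefficient `q i'`.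
For the arrow `i -> j`, target copy `(j', j'')`. -/
theorem chi_cup {m i j j' j'' : ℕ} (hm : 2 ≤ m)
    (hi : 0 < i) (him : i < m) (hj : 0 < j) (hjm : j < m) (hj' : 0 < j') (hjm' : j' < m)
    (hj'' : 0 < j'') (hjm'' : j'' < m)
    (h1 : nbr i j) (h2 : nbr j j') (h3 : nbr j' j'') (h4 : nbr i j'') :
    (∑ i' ∈ Finset.Ioo 0 m, if nbr i i' then
        (if nbr i' j' then q m i' * (chi m i' i j' j * chi m i i' j'' j') else 0) else 0)
      = if j'' = j then q m j' else 0 := by
  rw [sum_nbr hi him]
  have qi := q_ne_zero hi him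
  have qj := q_ne_zero hj hjm
  have qj' := q_ne_zero hj' hjm'
  have qj'' := q_ne_zero hj'' hjm''
  have hcase : j' = i ∨ (j' ≠ i ∧ j'' = j) := by
    unfold nbr at *; omega
  rcases hcase with rfl | ⟨hne, rfl⟩
  · have e1 : nbr (j' + 1) j' := Or.inr rfl
    have e3 : 1 < j' → nbr (j' - 1) j' := fun h => Or.inl (by omega)
    have hA := q_sq hm (j' - 1)
    rw [show j' - 1 + 1 = j' by omega, show j' - 1 + 2 = j' + 1 by omega] at hA
    rw [bd_up hm hjm' e1 _ ⟨_, rfl⟩, bd_down hj' e3 _ ⟨_, rfl⟩]
    have hp := sgn_sq (j' - 1)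
    have hp2 := sgn_sq j'
    have hp3 := sgn_pred hj'
    have d1 : j' ≠ j' + 1 := by omega
    have d2 : j' + 1 ≠ j' := by omega
    have d3 : j' ≠ j' - 1 := by omega
    have d4 : j' - 1 ≠ j' := by omega
    have d5 : j' + 1 ≠ j' - 1 := by omega
    have d6 : j' - 1 ≠ j' + 1 := by omega
    have m1 : min (j' + 1) j' = j' := by omega
    have m2 : min j' (j' + 1) = j' := by omega
    have m3 : min (j' - 1) j' = j' - 1 := by omega
    have m4 : min j' (j' - 1) = j' - 1 := by omega
    rcases h1 with h1 | h1 <;> rcases h3 with h3 | h3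
    · -- j = j'+1, j'' = j'+1
      subst h1; subst h3
      simp only [chi, if_true, m1, m2, if_neg d5, if_neg d6]
      field_simp
      nlinarith [hp2, hA]
    · -- j = j'+1, j'' = j'-1
      have a : j'' = j' - 1 := by omega
      subst a; subst h1
      simp only [chi, if_true, if_neg d5, if_neg d6, m1, m4]
      rw [hp3]; field_simp; ring
    · -- j = j'-1, j'' = j'+1
      have a : j = j' - 1 := by omega
      subst a; subst h3
      simp only [chi, if_true, if_neg d5, if_neg d6, m2, m3]
      rw [hp3]; field_simp; ring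
    · have a : j = j' - 1 := by omega
      have b : j'' = j' - 1 := by omega
      subst a; subst b
      simp only [chi, if_true, if_neg d5, if_neg d6, m3, m4]
      field_simp
      nlinarith [hp, hA]
  · simp only [if_true]
    rcases h1 with h1 | h1 <;> rcases h2 with h2 | h2
    · -- j'' = i+1, j' = i+2
      have b1 : nbr (i + 1) j' := by unfold nbr; omega
      have b2 : ¬ nbr (i - 1) j' := by unfold nbr; omega
      have b3 : i + 1 < m := by omega
      rw [if_pos b3, if_pos b1, if_neg b2, h1]
      have c1 : j' ≠ i := by omega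
      have c2 : i ≠ j' := by omega
      have c3 : j'' ≠ i := by omega
      simp only [chi, if_true, if_neg c1, if_neg c2]
      simp
      field_simp
    · omega
    · omega
    · have b1 : ¬ nbr (i + 1) j' := by unfold nbr; omega
      have b2 : nbr (i - 1) j' := by unfold nbr; omega
      have b3 : 1 < i := by omega
      have b4 : i - 1 = j'' := by omega
      rw [if_neg b1, if_pos b3, if_pos b2, b4]
      have c1 : j' ≠ i := by omega
      have c2 : i ≠ j' := by omega
      simp only [chi, if_true, if_neg c1, if_neg c2]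
      simp
      field_simp

/-- **naturality of the counit** `(FFV)_i -> V_i`, component `(i', i)` with coefficient `1/q i`.
For the arrow `i -> j`, source copy `(i', i'')`. -/
theorem chi_cap {m i i' i'' j : ℕ} (hm : 2 ≤ m)
    (hi : 0 < i) (him : i < m) (hi' : 0 < i') (him' : i' < m) (hi'' : 0 < i'') (him'' : i'' < m)
    (hj : 0 < j) (hjm : j < m)
    (h1 : nbr i j) (h2 : nbr i i') (h3 : nbr i' i'') (h4 : nbr i'' j) :
    (∑ j' ∈ Finset.Ioo 0 m, if nbr j j' then
        (if nbr i' j' then (q m j)⁻¹ * (chi m i' i j' j * chi m i'' i' j j') else 0) else 0)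
      = if i'' = i then (q m i)⁻¹ else 0 := by
  have qi := q_ne_zero hi him
  have qj := q_ne_zero hj hjm
  have qi' := q_ne_zero hi' him'
  have qi'' := q_ne_zero hi'' him''
  rw [sum_nbr hj hjm]
  have hcase : i' = j ∨ (i' ≠ j ∧ i'' = i) := by
    unfold nbr at *; omega
  rcases hcase with rfl | ⟨hne, rfl⟩
  · have e1 : nbr i' (i' + 1) := Or.inl rfl
    have e3 : 1 < i' → nbr i' (i' - 1) := fun h => Or.inr (by omega)
    have hA := q_sq hm (i' - 1)
    rw [show i' - 1 + 1 = i' by omega, show i' - 1 + 2 = i' + 1 by omega] at hA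
    have hp := sgn_sq (i' - 1)
    have hp2 := sgn_sq i'
    have hp3 := sgn_pred hi'
    have d5 : i' + 1 ≠ i' - 1 := by omega
    have d6 : i' - 1 ≠ i' + 1 := by omega
    have m1 : min (i' + 1) i' = i' := by omega
    have m2 : min i' (i' + 1) = i' := by omega
    have m3 : min (i' - 1) i' = i' - 1 := by omega
    have m4 : min i' (i' - 1) = i' - 1 := by omega
    rcases h1 with h1 | h1
    · -- i = i' - 1
      have a : i = i' - 1 := by omega
      subst a
      have hlt : 1 < i' := by omega
      rw [if_pos hlt, if_pos (e3 hlt)]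
      rw [bd_up hm him' e1 _ ⟨(q m i')⁻¹ * ((q m i')⁻¹ * chi m i'' i' i' (i' + 1)), by
        simp only [chi, if_true, if_neg d6]; ring⟩]
      rcases h4 with h4 | h4
      · have b : i'' = i' - 1 := by omega
        subst b
        simp only [chi, if_true, if_neg d5, if_neg d6, m3, m4]
        field_simp
        nlinarith [hp, hA]
      · have b : i'' = i' + 1 := by omega
        subst b
        simp only [chi, if_true, if_neg d5, if_neg d6, m1, m4]
        rw [hp3]; field_simp; ring
    · -- i = i' + 1
      subst h1
      rw [if_pos him, if_pos e1]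
      rw [bd_down hi' e3 _ ⟨(q m i')⁻¹ * ((q m i')⁻¹ * chi m i'' i' i' (i' - 1)), by
        simp only [chi, if_true, if_neg d5]; ring⟩]
      rcases h4 with h4 | h4
      · have b : i'' = i' - 1 := by omega
        subst b
        simp only [chi, if_true, if_neg d5, if_neg d6, m2, m3]
        rw [hp3]; field_simp; ring
      · have b : i'' = i' + 1 := by omega
        subst b
        simp only [chi, if_true, if_neg d5, if_neg d6, m1, m2]
        field_simp
        nlinarith [hp2, hA]
  · simp only [if_true]
    rcases h1 with h1 | h1 <;> rcases h2 with h2 | h2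
    · omega
    · -- j = i+1, i' = i - 1
      subst h1
      have a : i' = i'' - 1 := by omega
      subst a
      have b1 : ¬ nbr (i'' - 1) (i'' + 1 + 1) := by unfold nbr; omega
      have b2 : nbr (i'' - 1) (i'' + 1 - 1) := by unfold nbr; omega
      have b3 : 1 < i'' + 1 := by omega
      have b4 : i'' + 1 - 1 = i'' := by omega
      rw [if_neg b1, if_pos b3, if_pos b2, b4]
      have c1 : i'' + 1 ≠ i'' - 1 := by omega
      have c2 : i'' - 1 ≠ i'' + 1 := by omega
      simp only [chi, if_true, if_neg c1, if_neg c2]
      simp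
      field_simp
    · -- j = i - 1, i' = i + 1
      subst h2
      have a : j = i'' - 1 := by omega
      subst a
      have b1 : nbr (i'' + 1) (i'' - 1 + 1) := by unfold nbr; omega
      have b2 : ¬ nbr (i'' + 1) (i'' - 1 - 1) := by unfold nbr; omega
      have b3 : i'' - 1 + 1 < m := by omega
      have b4 : i'' - 1 + 1 = i'' := by omega
      rw [if_pos b3, if_pos b1, if_neg b2, b4]
      have c1 : i'' + 1 ≠ i'' - 1 := by omega
      have c2 : i'' - 1 ≠ i'' + 1 := by omega
      simp only [chi, if_true, if_neg c1, if_neg c2]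
      simp
      field_simp
    · omega

end Crest.Agent.R175.Fm2_27
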