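import Crest.Agent.R175.Fm2_27
import Crest.Agent.R175.Unf_109

/-!
# Row 175, block F_m, part 5: coordinates on `J Λ`

`co i = (i m) + 1 ∈ 1..m-1`, `upd i n` changes the `m`-th coordinate, `same i j` : all other
coordinates agree.
-/

set_option autoImplicit false
set_option linter.unusedSectionVars false
set_option linter.unusedVariables false
set_option linter.unusedSimpArgs false

open scoped Classical

namespace Crest.Agent.R175.Fm_27

open Crest.Agent.R175.Unf_109 Crest.Agent.R175.Fm1_27 Crest.Agent.R175.Fm2_27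

variable {Λ : Finset ℕ} {m : ℕ} (hm : m ∈ Λ)

/-- the `m`-th coordinate, in `1 .. m-1` -/
def co (i : J Λ) : ℕ := (i ⟨m, hm⟩).val + 1

/-- all coordinates except the `m`-th agree -/
def same (i j : J Λ) : Prop := ∀ k, k ≠ (⟨m, hm⟩ : Λ) → i k = j k

/-- change the `m`-th coordinate -/
noncomputable def upd (i : J Λ) (n : ℕ) : J Λ :=
  if h : 0 < n ∧ n < m then Function.update i ⟨m, hm⟩ ⟨n - 1, by
    have := h.1; have := h.2; show n - 1 < m - 1; omega⟩ else i

variable {hm}

theorem co_pos (i : J Λ) : 0 < co hm i := Nat.succ_pos _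

theorem co_lt (i : J Λ) : co hm i < m := by
  have h := (i ⟨m, hm⟩).isLt
  have h' : (i ⟨m, hm⟩).val < m - 1 := h
  unfold co; omega

theorem same_refl (i : J Λ) : same hm i i := fun _ _ => rfl
theorem same_symm {i j : J Λ} (h : same hm i j) : same hm j i := fun k hk => (h k hk).symm
theorem same_trans {i j l : J Λ} (h : same hm i j) (h' : same hm j l) : same hm i l :=
  fun k hk => (h k hk).trans (h' k hk)

theorem same_ext {i j : J Λ} (h : same hm i j) (hc : co hm i = co hm j) : i = j := by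
  funext k
  by_cases hk : k = ⟨m, hm⟩
  · subst hk
    apply Fin.ext
    have : (i ⟨m, hm⟩).val + 1 = (j ⟨m, hm⟩).val + 1 := hc
    omega
  · exact h k hk

theorem co_upd (i : J Λ) {n : ℕ} (h0 : 0 < n) (h1 : n < m) : co hm (upd hm i n) = n := by
  unfold co upd
  rw [dif_pos ⟨h0, h1⟩, Function.update_self]
  show n - 1 + 1 = n
  omega

theorem same_upd (i : J Λ) (n : ℕ) : same hm i (upd hm i n) := by
  intro k hk
  unfold upd
  split_ifs with h
  · rw [Function.update_of_ne hk]
  · rfl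

theorem upd_eq {i j : J Λ} (h : same hm i j) : upd hm i (co hm j) = j :=
  same_ext (same_trans (same_symm (same_upd i _)) h) (co_upd i (co_pos j) (co_lt j))

theorem nb_iff (hm : m ∈ Λ) (i j : J Λ) : nb Λ m i j ↔ same hm i j ∧ nbr (co hm i) (co hm j) := by
  rw [nb_path hm]
  unfold same nbr co
  constructor
  · rintro ⟨h1, h2⟩; exact ⟨h1, by omega⟩
  · rintro ⟨h1, h2⟩; exact ⟨h1, by omega⟩

/-- edges with another label do not move the `m`-th coordinate -/
theorem nb_co {l : ℕ} (hl : l ≠ m) {i j : J Λ} (h : nb Λ l i j) : co hm i = co hm j := by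
  rcases h with ⟨h, h1, -⟩ | ⟨-, -, rfl⟩
  · unfold co
    rw [h1 ⟨m, hm⟩]
    intro h'
    exact hl (congrArg Subtype.val h').symm
  · rfl

/-- parallel transport of edges with another label -/
theorem nb_par {l : ℕ} (hl : l ≠ m) {i j i' j' : J Λ} (h : nb Λ l i j) (hi : same hm i i')
    (hj : same hm j j') (hc : co hm i' = co hm j') : nb Λ l i' j' := by
  rcases h with ⟨h, h1, h2⟩ | ⟨h1, h2, rfl⟩
  · have hlm : (⟨l, h⟩ : Λ) ≠ ⟨m, hm⟩ := fun h' => hl (congrArg Subtype.val h')
    refine Or.inl ⟨h, fun k hk => ?_, ?_⟩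
    · by_cases hkm : k = ⟨m, hm⟩
      · subst hkm
        apply Fin.ext
        have : (i' ⟨m, hm⟩).val + 1 = (j' ⟨m, hm⟩).val + 1 := hc
        omega
      · rw [← hi k hkm, ← hj k hkm]; exact h1 k hk
    · rw [← hi _ hlm, ← hj _ hlm]; exact h2
  · exact Or.inr ⟨h1, h2, same_ext (same_trans (same_symm hi) hj) hc⟩

/-- sum over the neighbours in direction `m` -/
theorem sum_nb (hm : m ∈ Λ) {M : Type*} [AddCommMonoid M] (i : J Λ) (f : J Λ → M) :
    (∑ j, if nb Λ m j i then f j else 0)
      = ∑ n ∈ Finset.Ioo 0 m, if nbr (co hm i) n then f (upd hm i n) else 0 := by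
  rw [← Finset.sum_filter, ← Finset.sum_filter]
  refine Finset.sum_bij' (fun j _ => co hm j) (fun n _ => upd hm i n) ?_ ?_ ?_ ?_ ?_
  · intro j hj
    rw [Finset.mem_filter] at hj ⊢
    have h := (nb_iff hm _ _).1 hj.2
    exact ⟨Finset.mem_Ioo.2 ⟨co_pos j, co_lt j⟩, nbr_symm h.2⟩
  · intro n hn
    rw [Finset.mem_filter, Finset.mem_Ioo] at hn
    rw [Finset.mem_filter]
    refine ⟨Finset.mem_univ _, (nb_iff hm _ _).2 ⟨same_symm (same_upd i n), ?_⟩⟩
    rw [co_upd i hn.1.1 hn.1.2]
    exact nbr_symm hn.2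
  · intro j hj
    rw [Finset.mem_filter] at hj
    have h := (nb_iff hm _ _).1 hj.2
    exact upd_eq (same_symm h.1)
  · intro n hn
    rw [Finset.mem_filter, Finset.mem_Ioo] at hn
    exact co_upd i hn.1.1 hn.1.2
  · intro j hj
    rw [Finset.mem_filter] at hj
    have h := (nb_iff hm _ _).1 hj.2
    rw [upd_eq (same_symm h.1)]

end Crest.Agent.R175.Fm_27
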