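import Crest.Agent.R175.Unf2_109

/-!
Row 175 (S0263), labels > 3 (helper180): families over the unfolding and the Perron-Frobenius
eigenvector.  Numbers only, over `J Λ`, `nb`, `wt` of `Unf_109`.

* `nsum Λ m f i = ∑_{j, nb Λ m i j} f j`; `nsum_wt`, `nsum_symm`;
* `eig`  : a joint eigenvector `nsum Λ m v = 2 cos (π / m) v` (`m ∈ Λ`) is `v (j0) • wt`;
* `conn` : a nonempty subset of `J Λ` closed under `nb Λ m`, `m ∈ Λ`, is everything;
* `pf`   : a matrix `h : J × J → ℝ` commuting with all `nsum Λ m` is `wt`-proportional after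
  pairing with `wt`;
* `NN`, `gam_F` : the matrix of `F m` on the types `S × J Λ`;
* `FSys` : objects with `hT`, `lam`, self-adjoint functors `F m`; `Fam` : families
  `F m (Y i) = ⊕_{i' ~ i} Y i'` (numerically); consequences.
-/

set_option autoImplicit false

namespace Crest.Agent.R175.FmC_180

open Crest.Agent.R175.Unf_109 Finset

universe u

variable {Λ : Finset ℕ}

open Classical in
/-- sum over the `m`-neighbours -/
noncomputable def nsum (Λ : Finset ℕ) {A : Type*} [AddCommMonoid A] (m : ℕ) (f : J Λ → A)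
    (i : J Λ) : A := ∑ j, if nb Λ m i j then f j else 0

theorem nsum_wt (hΛ : ∀ m ∈ Λ, 4 ≤ m) {m : ℕ} (hm : m ∈ Λ) (i : J Λ) :
    nsum Λ m (wt Λ) i = 2 * Real.cos (Real.pi / m) * wt Λ i := by
  classical
  rw [← wt_sum hΛ (Or.inl hm) i, nsum]
  refine Finset.sum_congr rfl fun j _ => ?_
  have h0 : m ≠ 0 := by have := hΛ m hm; omega
  unfold mu
  split_ifs <;> simp

theorem nsum_symm (m : ℕ) (f g : J Λ → ℝ) :
    ∑ i, f i * nsum Λ m g i = ∑ i, nsum Λ m f i * g i := by
  classical
  unfold nsum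
  simp only [Finset.mul_sum, Finset.sum_mul]
  rw [Finset.sum_comm]
  refine Finset.sum_congr rfl fun i _ => Finset.sum_congr rfl fun j _ => ?_
  by_cases h : nb Λ m i j
  · rw [if_pos h, if_pos h.symm]
  · rw [if_neg h, if_neg (fun h' => h h'.symm)]
    simp

theorem nsum_sum {ι : Type*} (s : Finset ι) (m : ℕ) (f : ι → J Λ → ℝ) (i : J Λ) :
    nsum Λ m (fun j => ∑ x ∈ s, f x j) i = ∑ x ∈ s, nsum Λ m (f x) i := by
  classical
  unfold nsum
  rw [Finset.sum_comm]
  refine Finset.sum_congr rfl fun j _ => ?_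
  split_ifs <;> simp

theorem nsum_smul (m : ℕ) (c : ℝ) (f : J Λ → ℝ) (i : J Λ) :
    nsum Λ m (fun j => c * f j) i = c * nsum Λ m f i := by
  classical
  unfold nsum
  rw [Finset.mul_sum]
  refine Finset.sum_congr rfl fun j _ => ?_
  split_ifs <;> simp

theorem nsum_sub (m : ℕ) (f g : J Λ → ℝ) (i : J Λ) :
    nsum Λ m (fun j => f j - g j) i = nsum Λ m f i - nsum Λ m g i := by
  classical
  unfold nsum
  rw [← Finset.sum_sub_distrib]
  refine Finset.sum_congr rfl fun j _ => ?_
  split_ifs <;> simp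

theorem nsum_cast (m : ℕ) (f : J Λ → ℕ) (i : J Λ) :
    ((nsum Λ m f i : ℕ) : ℝ) = nsum Λ m (fun j => (f j : ℝ)) i := by
  classical
  unfold nsum
  push_cast
  refine Finset.sum_congr rfl fun j _ => ?_
  split_ifs <;> simp

/-! ### the base point and the order by size -/

/-- the base point -/
def j0 (hΛ : ∀ m ∈ Λ, 4 ≤ m) : J Λ := fun m => ⟨0, by have := hΛ m.1 m.2; omega⟩

/-- size of an index -/
def sz (i : J Λ) : ℕ := ∑ m, (i m).val

theorem wt_j0 (hΛ : ∀ m ∈ Λ, 4 ≤ m) : wt Λ (j0 hΛ) = 1 := by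
  unfold wt
  refine Finset.prod_eq_one fun m _ => ?_
  exact dd_zero (by have := hΛ m.1 m.2; omega)

theorem sz_update (i : J Λ) (m : Λ) (x : Fin (m.1 - 1)) :
    sz (Function.update i m x) + (i m).val = sz i + x.val := by
  classical
  unfold sz
  rw [← Finset.add_sum_erase _ _ (Finset.mem_univ m), ← Finset.add_sum_erase _ (fun m => (i m).val)
    (Finset.mem_univ m)]
  have : ∑ k ∈ Finset.univ.erase m, (Function.update i m x k).val
      = ∑ k ∈ Finset.univ.erase m, (i k).val := by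
    refine Finset.sum_congr rfl fun k hk => ?_
    rw [Function.update_of_ne (Finset.ne_of_mem_erase hk)]
  rw [this]
  simp
  omega

/-- every `i ≠ j0` has a predecessor -/
theorem exists_pred (hΛ : ∀ m ∈ Λ, 4 ≤ m) {i : J Λ} (hi : i ≠ j0 hΛ) :
    ∃ m ∈ Λ, ∃ i', nb Λ m i' i ∧ sz i' < sz i ∧ ∀ j, nb Λ m i' j → j = i ∨ sz j < sz i := by
  classical
  obtain ⟨m, hm⟩ : ∃ m, i m ≠ j0 hΛ m := by
    by_contra h
    push Not at h
    exact hi (funext h)
  have hpos : 0 < (i m).val := by
    rcases Nat.eq_zero_or_pos (i m).val with h | h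
    · exact absurd (Fin.ext h) hm
    · exact h
  have hlt := (i m).isLt
  refine ⟨m.1, m.2, Function.update i m ⟨(i m).val - 1, by omega⟩, ?_, ?_, ?_⟩
  · rw [nb_path m.2]
    refine ⟨fun k hk => ?_, Or.inl ?_⟩
    · rw [Function.update_of_ne hk]
    · change (Function.update i m _ m).val + 1 = _
      rw [Function.update_self]
      change (i m).val - 1 + 1 = (i m).val
      omega
  · have := sz_update i m ⟨(i m).val - 1, by omega⟩
    simp only at this
    omega
  · intro j hj
    rw [nb_path m.2] at hj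
    obtain ⟨h1, h2⟩ := hj
    change (Function.update i m _ m).val + 1 = _ ∨ _ = (Function.update i m _ m).val at h2
    rw [Function.update_self] at h2
    have hju : ∀ k, k ≠ m → j k = i k := fun k hk => by
      have := h1 k hk
      rw [Function.update_of_ne hk] at this
      exact this.symm
    have h3 : j = Function.update i m (j m) := by
      funext k
      by_cases hk : k = m
      · subst hk; simp
      · rw [Function.update_of_ne hk, hju k hk]
    rcases h2 with h2 | h2
    · left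
      rw [h3]
      have : j m = i m := by
        apply Fin.ext
        change (i m).val - 1 + 1 = (j m).val at h2
        omega
      rw [this, Function.update_eq_self]
    · right
      have h4 := sz_update i m (j m)
      rw [← h3] at h4
      change (j m).val + 1 = (i m).val - 1 at h2
      omega

/-- **uniqueness of the joint eigenvector** -/
theorem eig (hΛ : ∀ m ∈ Λ, 4 ≤ m) (v : J Λ → ℝ)
    (hv : ∀ m ∈ Λ, ∀ i, nsum Λ m v i = 2 * Real.cos (Real.pi / m) * v i) (i : J Λ) :
    v i = wt Λ i * v (j0 hΛ) := by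
  classical
  let w : J Λ → ℝ := fun i => v i - v (j0 hΛ) * wt Λ i
  have hw : ∀ m ∈ Λ, ∀ i, nsum Λ m w i = 2 * Real.cos (Real.pi / m) * w i := by
    intro m hm i
    change nsum Λ m (fun j => v j - v (j0 hΛ) * wt Λ j) i = _
    rw [nsum_sub, nsum_smul, hv m hm, nsum_wt hΛ hm]
    ring
  have hw0 : w (j0 hΛ) = 0 := by
    change v (j0 hΛ) - v (j0 hΛ) * wt Λ (j0 hΛ) = 0
    rw [wt_j0]; ring
  have key : ∀ n : ℕ, ∀ i : J Λ, sz i = n → w i = 0 := by
    intro n
    induction n using Nat.strong_induction_on with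
    | _ n ih =>
      intro i hi
      by_cases h0 : i = j0 hΛ
      · rw [h0]; exact hw0
      · obtain ⟨m, hm, i', h1, h2, h3⟩ := exists_pred hΛ h0
        have h4 := hw m hm i'
        rw [ih (sz i') (by omega) i' rfl, mul_zero, nsum] at h4
        rw [Finset.sum_eq_single i] at h4
        · rwa [if_pos h1] at h4
        · intro j _ hj
          by_cases hn : nb Λ m i' j
          · rw [if_pos hn]
            rcases h3 j hn with h | h
            · exact absurd h hj
            · exact ih (sz j) (by omega) j rfl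
          · rw [if_neg hn]
        · intro h
          exact absurd (Finset.mem_univ _) h
  have := key (sz i) i rfl
  change v i - v (j0 hΛ) * wt Λ i = 0 at this
  linarith

/-- **connectedness** -/
theorem conn (hΛ : ∀ m ∈ Λ, 4 ≤ m) (P : J Λ → Prop)
    (hP : ∀ m ∈ Λ, ∀ i j, nb Λ m i j → P i → P j) {i : J Λ} (hi : P i) (j : J Λ) : P j := by
  have key : ∀ n : ℕ, ∀ i : J Λ, sz i = n → (P i ↔ P (j0 hΛ)) := by
    intro n
    induction n using Nat.strong_induction_on with
    | _ n ih =>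
      intro i hi
      by_cases h0 : i = j0 hΛ
      · rw [h0]
      · obtain ⟨m, hm, i', h1, h2, -⟩ := exists_pred hΛ h0
        rw [← ih (sz i') (by omega) i' rfl]
        exact ⟨hP m hm i i' h1.symm, hP m hm i' i h1⟩
  exact (key _ j rfl).2 ((key _ i rfl).1 hi)

/-- **Perron-Frobenius**: `h j i = h(x_j, Y_i)` for two families. -/
theorem pf (hΛ : ∀ m ∈ Λ, 4 ≤ m) (h : J Λ → J Λ → ℝ)
    (hh : ∀ m ∈ Λ, ∀ j i, nsum Λ m (fun j' => h j' i) j = nsum Λ m (fun i' => h j i') i)
    (j : J Λ) : ∑ i, wt Λ i * h j i = wt Λ j * ∑ i, wt Λ i * h (j0 hΛ) i := by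
  refine eig hΛ (fun j => ∑ i, wt Λ i * h j i) (fun m hm j => ?_) j
  rw [nsum_sum]
  simp only [nsum_smul]
  rw [Finset.sum_congr rfl fun i _ => by rw [hh m hm j i], nsum_symm, Finset.mul_sum]
  refine Finset.sum_congr rfl fun i _ => ?_
  rw [nsum_wt hΛ hm]
  ring

/-- the weighted sum over the second variable is an eigenvector -/
theorem sum_wt_nsum (hΛ : ∀ m ∈ Λ, 4 ≤ m) {m : ℕ} (hm : m ∈ Λ) (f : J Λ → ℝ) :
    ∑ i, wt Λ i * nsum Λ m f i = 2 * Real.cos (Real.pi / m) * ∑ i, wt Λ i * f i := by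
  rw [nsum_symm, Finset.mul_sum]
  refine Finset.sum_congr rfl fun i _ => ?_
  rw [nsum_wt hΛ hm]
  ring

/-! ### the matrix on the types `S × J Λ` -/

section types

variable {S : Type*}

open Classical in
/-- matrix of `F m` on the types -/
noncomputable def NN (Λ : Finset ℕ) (S : Type*) (m : ℕ) (a b : S × J Λ) : ℕ :=
  if a.1 = b.1 ∧ nb Λ m a.2 b.2 then 1 else 0

theorem NN_symm (m : ℕ) (a b : S × J Λ) : NN Λ S m a b = NN Λ S m b a := by
  classical
  unfold NN
  have : (a.1 = b.1 ∧ nb Λ m a.2 b.2) ↔ (b.1 = a.1 ∧ nb Λ m b.2 a.2) := by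
    rw [nb_comm (i := a.2)]
    exact ⟨fun h => ⟨h.1.symm, h.2⟩, fun h => ⟨h.1.symm, h.2⟩⟩
  simp only [this]

theorem NN_ne_zero {m : ℕ} {a b : S × J Λ} : NN Λ S m a b ≠ 0 ↔ a.1 = b.1 ∧ nb Λ m a.2 b.2 := by
  classical
  unfold NN
  split_ifs with h <;> simp [h]

theorem sum_NN [Fintype S] (m : ℕ) (f : S × J Λ → ℕ) (a : S × J Λ) :
    ∑ b, NN Λ S m a b * f b = nsum Λ m (fun i => f (a.1, i)) a.2 := by
  classical
  rw [Fintype.sum_prod_type, Finset.sum_eq_single a.1]
  · unfold nsum NN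
    refine Finset.sum_congr rfl fun j _ => ?_
    by_cases h : nb Λ m a.2 j <;> simp [h]
  · intro s _ hs
    refine Finset.sum_eq_zero fun j _ => ?_
    unfold NN
    rw [if_neg (fun h => hs h.1.symm), zero_mul]
  · intro h
    exact absurd (Finset.mem_univ _) h

theorem sum_NN_real [Fintype S] (m : ℕ) (f : S × J Λ → ℝ) (a : S × J Λ) :
    ∑ b, f b * (NN Λ S m b a : ℝ) = nsum Λ m (fun i => f (a.1, i)) a.2 := by
  classical
  rw [Fintype.sum_prod_type, Finset.sum_eq_single a.1]
  · unfold nsum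
    refine Finset.sum_congr rfl fun j _ => ?_
    rw [NN_symm]
    unfold NN
    by_cases h : nb Λ m a.2 j <;> simp [h]
  · intro s _ hs
    refine Finset.sum_eq_zero fun j _ => ?_
    unfold NN
    rw [if_neg (fun h => hs h.1)]
    simp
  · intro h
    exact absurd (Finset.mem_univ _) h

/-- field `gam_F` of `MinF_445.PTMinF` for `gam (s,i) = u s * wt i` -/
theorem gam_F [Fintype S] (hΛ : ∀ m ∈ Λ, 4 ≤ m) {m : ℕ} (hm : m ∈ Λ) (c : S → ℝ) (a : S × J Λ) :
    ∑ b : S × J Λ, (c b.1 * wt Λ b.2) * (NN Λ S m b a : ℝ)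
      = 2 * Real.cos (Real.pi / m) * (c a.1 * wt Λ a.2) := by
  rw [sum_NN_real m (fun b => c b.1 * wt Λ b.2) a]
  have h := nsum_smul m (c a.1) (wt Λ) a.2
  rw [nsum_wt hΛ hm] at h
  change nsum Λ m (fun j => c a.1 * wt Λ j) a.2 = _
  rw [h]
  ring

end types

end Crest.Agent.R175.FmC_180
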