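import Crest.Agent.R175.FmD_180
import Crest.Agent.R175.FmC_180
import Crest.Agent.R175.PTH_175
import Crest.Agent.R175.DomF_180

/-!
Row 175 (S0263), labels > 3 (helper180): bridge between the cochain level predicates of FmD_180
and the cohomology data `QM` of helper4; stability of `cb` along the fibres for families.
-/

set_option autoImplicit false
set_option linter.unusedSectionVars false

open CategoryTheory
open scoped Classical

namespace Crest.Agent.R175.FmE_180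

open Crest.Agent.R175.PTA Crest.Agent.R175.Fm_27 Crest.Agent.R175.FmD_180
open Crest.Agent.R175.PTQ_4

universe u v

section base

variable {T : Type u} {G : MG T} {k : Type v} [Field k] [Fintype T]

/-- helper175's `Eul` is the one of FmD_180 -/
theorem eul_of {X : TOb G k} {p : X.X ⟶ X.X} (h : PTH.Eul X p) : Eul X p :=
  ⟨h.mem, h.bar, h.D⟩

theorem eul_to {X : TOb G k} {p : X.X ⟶ X.X} (h : Eul X p) : PTH.Eul X p :=
  ⟨h.cs, h.even, h.eq⟩

/-- cohomology data of a T-framed object with a position operator -/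
noncomputable def qmOf (X : TOb G k) {p : X.X ⟶ X.X} (h : PTH.Eul X p) : QM G k where
  H := PTH.Hv X
  W := X.X.W
  A t := PTH.Hp h t
  B s t a := PTH.HB X a
  i t := PTH.Hi X t
  j t := PTH.Hj X t
  AB s t a v := PTH.Hp_HB h a v
  Ai s w := PTH.Hp_Hi h s w
  jA s v := PTH.Hj_Hp h s v
  MC s v := PTH.Hmc X s v

theorem cb_of_Cb {X : TOb G k} {p : X.X ⟶ X.X} (h : PTH.Eul X p) {ht : k → ℤ} {t : T} {μ : k}
    (hc : Cb X p t μ) : cb ht (qmOf X h) t (ht μ) := by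
  obtain ⟨η, hη, v, hv, hne⟩ := hc
  let f : LinearMap.ker (c0 X.d t) →ₗ[k] k := η ∘ₗ (LinearMap.ker (c0 X.d t)).subtype
  have hf : PTH.bdr X t ≤ LinearMap.ker f := by
    rintro ⟨x, hx⟩ ⟨y, hy⟩
    rw [LinearMap.mem_ker]
    change η x = 0
    rw [← show c0 X.d t y = x from hy]
    exact hη.bd y
  let F : PTH.Hv X t →ₗ[k] k := Submodule.liftQ (PTH.bdr X t) f hf
  have hF : ∀ (x : X.X.V t) (hx : c0 X.d t x = 0), F (PTH.mk X t x hx) = η x :=
    fun x hx => rfl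
  refine ⟨μ, rfl, F, ?_, ?_, ?_⟩
  · intro h0
    apply hne
    rw [← hF v hv, h0]
    rfl
  · intro ξ
    obtain ⟨x, hx, rfl⟩ := PTH.mk_surj X ξ
    change F (PTH.Hp h t (PTH.mk X t x hx)) = μ * F (PTH.mk X t x hx)
    have e1 := PTH.Hp_mk h t x hx
    have e2 := congrArg F e1
    have e3 := hη.eig x hx
    rw [← hF x hx] at e3
    exact e2.trans ((hF _ _).trans e3)
  · have h1 : (qmOf X h).imB t ≤ LinearMap.ker (show (qmOf X h).H t →ₗ[k] k from F) := by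
      rw [QM.imB_le]
      refine ⟨fun s a ξ => ?_, fun w => ?_⟩
      · obtain ⟨x, hx, rfl⟩ := PTH.mk_surj X ξ
        rw [LinearMap.mem_ker]
        change F (PTH.HB X a (PTH.mk X s x hx)) = 0
        rw [PTH.HB_mk, hF]
        exact hη.B s a x hx
      · rw [LinearMap.mem_ker]
        change F (PTH.Hi X t w) = 0
        rw [PTH.Hi_apply, hF]
        exact hη.i w
    exact fun v hv => h1 hv

theorem Cb_of_cb {X : TOb G k} {p : X.X ⟶ X.X} (h : PTH.Eul X p) {ht : k → ℤ} {t : T} {n : ℤ}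
    (hc : cb ht (qmOf X h) t n) : ∃ μ, ht μ = n ∧ Cb X p t μ := by
  obtain ⟨μ, hμ, F, hF0, hFA, hFB⟩ := hc
  refine ⟨μ, hμ, ?_⟩
  obtain ⟨η, hη⟩ := LinearMap.exists_extend (p := LinearMap.ker (c0 X.d t))
    ((show PTH.Hv X t →ₗ[k] k from F) ∘ₗ PTH.mkL X t)
  have hη' : ∀ (x : X.X.V t) (hx : c0 X.d t x = 0),
      η x = (show PTH.Hv X t →ₗ[k] k from F) (PTH.mk X t x hx) := by
    intro x hx
    have := LinearMap.congr_fun hη ⟨x, hx⟩
    exact this
  refine ⟨η, ⟨fun v => ?_, fun s a x hx => ?_, fun w => ?_, fun x hx => ?_⟩, ?_⟩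
  · rw [hη' _ (PTH.dd0 X t v)]
    have : PTH.mk X t (c0 X.d t v) (PTH.dd0 X t v) = 0 := (PTH.mk_eq_zero X _).2 ⟨v, rfl⟩
    rw [this, map_zero]
  · have hx' : c0 X.d t (c1 X.d a x) = 0 := by
      have := PTH.dd1 X a x
      rwa [hx, map_zero, zero_add] at this
    rw [hη' _ hx']
    exact hFB (PTH.HB X a (PTH.mk X s x hx)) (QM.B_mem_imB (X := qmOf X h) a _)
  · rw [hη' _ (PTH.ddi X t w)]
    exact hFB (PTH.Hi X t w) (QM.i_mem_imB (X := qmOf X h) w)
  · have hx' : c0 X.d t (c0 p t x) = 0 := by rw [h.c0, hx, map_zero, sub_zero]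
    rw [hη' _ hx', hη' _ hx]
    exact hFA (PTH.mk X t x hx)
  · by_contra hcon
    push Not at hcon
    apply hF0
    apply LinearMap.ext
    intro ξ
    obtain ⟨x, hx, hxξ⟩ := PTH.mk_surj X ξ
    have h1 := hcon x hx
    rw [hη' x hx, hxξ] at h1
    exact h1

/-- `Cb` does not depend on the position operator -/
theorem Cb.indep {X : TOb G k} {p q : X.X ⟶ X.X} (hp : Eul X p) (hq : Eul X q) (hX : Ex X X)
    {t : T} {μ : k} (hc : Cb X q t μ) : Cb X p t μ := by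
  obtain ⟨η, hη, v, hv, hne⟩ := hc
  refine ⟨η ∘ₗ c0 (𝟙 X.X) t, CbW.comp (Cl.one X) hp hq hX hη, v, hv, ?_⟩
  simpa using hne

/-- `Cb` is invariant under homotopy equivalences of rigid objects -/
theorem Cb.hiso {X Y : TOb G k} {p : X.X ⟶ X.X} {q : Y.X ⟶ Y.X} (hp : Eul X p) (hq : Eul Y q)
    (h : HIso X Y) (hX : Ex X Y) {t : T} {μ : k} (hc : Cb Y q t μ) : Cb X p t μ := by
  obtain ⟨e⟩ := h
  obtain ⟨η, hη, v, hv, hne⟩ := hc
  have hcl : Cl X Y (1 : k) e.p := ⟨by ring, by rw [e.bp, one_smul], e.Dp⟩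
  have hcl' : Cl Y X (1 : k) e.q := ⟨by ring, by rw [e.bq, one_smul], e.Dq⟩
  refine ⟨η ∘ₗ c0 e.p t, CbW.comp hcl hp hq hX hη, c0 e.q t v, hcl'.cycle hv, ?_⟩
  have h1 := congrArg (fun f => η (c0 f t v)) e.qp
  have h2 : η (c0 (D Y Y e.r) t v) = 0 := by
    rw [D_apply, c0_sub, c0_comp, c0_comp, LinearMap.sub_apply, LinearMap.comp_apply,
      LinearMap.comp_apply, hv, map_zero, sub_zero, hη.bd]
  rw [c0_add, LinearMap.add_apply, map_add, h2, add_zero] at h1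
  rw [LinearMap.comp_apply]
  have h3 : η (c0 e.p t (c0 e.q t v)) = η v := by simpa using h1
  rw [h3]
  exact hne

end base

/-! ### families -/

section fam

variable {T : Type} {G : MG T} {k : Type v} [Field k] [Fintype T] {I : Type*}

/-- one step along the fibre -/
theorem cb_step (Φ : FDat G k) {X : I → TOb G k} {p : ∀ i, (X i).X ⟶ (X i).X}
    (hp : ∀ i, Eul (X i) (p i)) (hX : ∀ i i', Ex (X i) (X i'))
    (hF : ∀ i, Add (fun Z => ∃ i', Z = X i') (Φ.tob (X i))) {a a' : T} (h : Φ.N a a') {μ : k}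
    {i : I} (hc : Cb (X i) (p i) a μ) : ∃ i', Cb (X i') (p i') a' μ := by
  let pp : ∀ Z : TOb G k, Z.X ⟶ Z.X := fun Z =>
    if e : ∃ q, Eul Z q then e.choose else 0
  have hpp : ∀ Z : TOb G k, (∃ i', Z = X i') → Eul Z (pp Z) := by
    rintro Z ⟨i', rfl⟩
    have e : ∃ q, Eul (X i') q := ⟨p i', hp i'⟩
    have : pp (X i') = e.choose := dif_pos e
    rw [this]
    exact e.choose_spec
  obtain ⟨Z, ⟨i', rfl⟩, h1⟩ := Cb.of_add (hF i) ((hp i).hom Φ)
    (fun Z hZ => by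
      obtain ⟨i', rfl⟩ := hZ
      exact Ex.add_right (hF i) (by rintro _ ⟨i'', rfl⟩; exact hX _ _)) (hc.hom Φ h) pp hpp
  exact ⟨i', Cb.indep (hp i') (hpp _ ⟨i', rfl⟩) (hX i' i') h1⟩

end fam

section fibre

open Crest.Agent.R175.Unf_109 Crest.Agent.R175.FmC_180

variable {S : Type} [Fintype S] {Λ : Finset ℕ} {G : MG (S × J Λ)} {k : Type v} [Field k]
  {I : Type*}

/-- **stability of `Cb` along the fibres** -/
theorem cb_fibre (hΛ : ∀ m ∈ Λ, 4 ≤ m) (Φ : ∀ m ∈ Λ, FDat G k)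
    (hN : ∀ m (hm : m ∈ Λ) s i j, nb Λ m i j → (Φ m hm).N (s, i) (s, j))
    {X : I → TOb G k} {p : ∀ i, (X i).X ⟶ (X i).X}
    (hp : ∀ i, Eul (X i) (p i)) (hX : ∀ i i', Ex (X i) (X i'))
    (hF : ∀ m (hm : m ∈ Λ) i, Add (fun Z => ∃ i', Z = X i') ((Φ m hm).tob (X i)))
    {s : S} {j : J Λ} {μ : k} {i : I} (hc : Cb (X i) (p i) (s, j) μ) (j' : J Λ) :
    ∃ i', Cb (X i') (p i') (s, j') μ := by
  refine conn hΛ (fun j => ∃ i, Cb (X i) (p i) (s, j) μ) ?_ ⟨i, hc⟩ j'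
  rintro m hm j1 j2 h ⟨i1, h1⟩
  exact cb_step (Φ m hm) hp hX (hF m hm) (hN m hm s j1 j2 h) h1

end fibre

end Crest.Agent.R175.FmE_180
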