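import Crest.Agent.R175.CatNum_427
import Crest.Agent.R175.Unf2_109

/-!
Row 175 (S0263), helper788: `CatD M` from the classes of objects over the faces `res M T`.

`Lev Λ M` (a "level") = what the category of framed objects over the unfolded graph of `M` delivers,
in terms of isomorphism classes; `LRes L T L'` = restriction of classes from `M` to `res M T`.
`Sys Λ M` = a level for every face, with restrictions; `Sys.catD : Sys Λ M → CatD M`.
-/

set_option autoImplicit false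
set_option linter.unusedSectionVars false
set_option linter.unusedVariables false

namespace Crest.Agent.R175.Lev_788

open Crest.GroupTheory Crest.Agent.R175.Num_774 Crest.Agent.R175.CatNum_427
open Crest.Agent.R175.Unf_109 Crest.Agent.R175.VdL_527 Crest.Agent.R175.Pos_418

universe v

open Classical in
/-- the neighbours of `i` in direction `m` -/
noncomputable def nbs (Λ : Finset ℕ) (m : ℕ) (i : J Λ) : Finset (J Λ) :=
  Finset.univ.filter fun j => nb Λ m i j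

theorem mem_nbs {Λ : Finset ℕ} {m : ℕ} {i j : J Λ} : j ∈ nbs Λ m i ↔ nb Λ m i j := by
  simp [nbs]

theorem mem_nbs_comm {Λ : Finset ℕ} {m : ℕ} {i j : J Λ} : j ∈ nbs Λ m i ↔ i ∈ nbs Λ m j := by
  rw [mem_nbs, mem_nbs, nb_comm]

/-- the base point of `J Λ` -/
def jz {Λ : Finset ℕ} (h4 : ∀ m ∈ Λ, 4 ≤ m) : J Λ := fun m => ⟨0, by have := h4 m.1 m.2; omega⟩

theorem wt_jz {Λ : Finset ℕ} (h4 : ∀ m ∈ Λ, 4 ≤ m) : wt Λ (jz h4) = 1 := by
  unfold wt
  refine Finset.prod_eq_one fun m _ => ?_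
  have := h4 m.1 m.2
  exact dd_zero (by omega)

/-- Perron-Frobenius for `J Λ` -/
def PFs (Λ : Finset ℕ) (h4 : ∀ m ∈ Λ, 4 ≤ m) : Prop :=
  ∀ v : J Λ → ℝ, (∀ m ∈ Λ, ∀ i, ∑ j ∈ nbs Λ m i, v j = 2 * Real.cos (Real.pi / m) * v i) →
    ∀ i, v i = wt Λ i * v (jz h4)

theorem wt_nbs {Λ : Finset ℕ} (h4 : ∀ m ∈ Λ, 4 ≤ m) {m : ℕ} (hm : m ∈ Λ) (i : J Λ) :
    ∑ j ∈ nbs Λ m i, wt Λ j = 2 * Real.cos (Real.pi / m) * wt Λ i := by
  classical
  rw [← wt_sum h4 (Or.inl hm) i]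
  unfold nbs
  rw [Finset.sum_filter]
  refine Finset.sum_congr rfl fun j _ => ?_
  have hm0 : m ≠ 0 := by have := h4 m hm; omega
  unfold mu
  split_ifs with h
  · simp
  · simp

/-- exchange of neighbour sums -/
theorem sum_nbs_comm {Λ : Finset ℕ} {m : ℕ} (f : J Λ → J Λ → ℝ) :
    ∑ i, ∑ j ∈ nbs Λ m i, f i j = ∑ j, ∑ i ∈ nbs Λ m j, f i j := by
  classical
  rw [Finset.sum_comm' (t' := Finset.univ) (s' := fun j => nbs Λ m j)]
  intro i j
  simp [mem_nbs_comm (i := i) (j := j)]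

/-- number of edges of the unfolded graph -/
noncomputable def muS {S : Type} (M : CoxeterMatrix S) (Λ : Finset ℕ) (s : S) (i : J Λ) (t : S)
    (j : J Λ) : ℝ := by
  classical exact if s = t then 0 else mu Λ (M s t) i j

theorem muS_symm {S : Type} (M : CoxeterMatrix S) (Λ : Finset ℕ) (s : S) (i : J Λ) (t : S)
    (j : J Λ) : muS M Λ s i t j = muS M Λ t j s i := by
  unfold muS
  by_cases h : s = t
  · rw [if_pos h, if_pos h.symm]
  · rw [if_neg h, if_neg (Ne.symm h), M.symmetric t s]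
    exact mu_comm _ _ _ _

theorem muS_self {S : Type} (M : CoxeterMatrix S) (Λ : Finset ℕ) (s : S) (i j : J Λ) :
    muS M Λ s i s j = 0 := by
  simp [muS]

theorem muS_wt {S : Type} {M : CoxeterMatrix S} {Λ : Finset ℕ} (hΛ : Good M Λ) (s t : S)
    (i : J Λ) (h : s ≠ t) : ∑ j, muS M Λ s i t j * wt Λ j = - C M s t * wt Λ i := by
  have h1 : ∀ j, muS M Λ s i t j = mu Λ (M s t) i j := fun j => by simp [muS, h]
  simp only [h1]
  rw [wt_sum hΛ.four (hΛ.cases h) i, C]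
  ring

/-- one level: classes of objects over the unfolded graph of `M`. -/
structure Lev (Λ : Finset ℕ) {S : Type} (M : CoxeterMatrix S) where
  /-- isomorphism classes -/
  Ob : Type v
  [acm : AddCommMonoid Ob]
  [act : DistribMulAction (ArtinGroup M) Ob]
  /-- `dim H_T (X, Y)` -/
  h : Ob → Ob → ℕ
  /-- the number of frames -/
  lam : Ob → S → J Λ → ℕ
  /-- the frames -/
  fr : S → J Λ → Ob
  /-- the functors `F_m` -/
  F : ℕ → Ob → Ob
  h_add : ∀ X Y Z, h X (Y + Z) = h X Y + h X Z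
  h_zero : ∀ X, h X 0 = 0
  h_symm : ∀ X Y, h X Y = h Y X
  h_act : ∀ s X Y, h (artinGen M s • X) (artinGen M s • Y) = h X Y
  lam_act : ∀ s X, lam (artinGen M s • X) = lam X
  lam_add : ∀ X Y, lam (X + Y) = lam X + lam Y
  lam_zero : lam 0 = 0
  fr_act : ∀ s t j, t ≠ s → artinGen M s • fr t j = fr t j
  fr_fr : ∀ s i t j, h (fr s i) (fr t j) = 0
  fr_lam : ∀ t i s j, lam (fr t i) s j = open Classical in if s = t ∧ j = i then 1 else 0
  F_act : ∀ m ∈ Λ, ∀ s X, F m (artinGen M s • X) = artinGen M s • F m X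
  F_fr : ∀ m ∈ Λ, ∀ t i, F m (fr t i) = ∑ j ∈ nbs Λ m i, fr t j
  F_adj : ∀ m ∈ Λ, ∀ X Y, h (F m X) Y = h X (F m Y)
  F_lam : ∀ m ∈ Λ, ∀ X t j, lam (F m X) t j = ∑ i ∈ nbs Λ m j, lam X t i

attribute [instance] Lev.acm Lev.act

namespace Lev

variable {Λ : Finset ℕ} {S : Type} {M : CoxeterMatrix S} (L : Lev.{v} Λ M)

/-- `d_(t,j)` -/
def d (X : L.Ob) (t : S) (j : J Λ) : ℕ := L.h (L.fr t j) X

/-- `(Y_j)` is an `F`-family -/
def IsFam (Y : J Λ → L.Ob) : Prop := ∀ m ∈ Λ, ∀ i, L.F m (Y i) = ∑ j ∈ nbs Λ m i, Y j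

/-- **(P_T)** for the whole level -/
def PT [Fintype S] (h4 : ∀ m ∈ Λ, 4 ≤ m) : Prop :=
  ∀ Y : J Λ → L.Ob, L.IsFam Y → ∀ h : S → ℝ, (∀ s, 0 ≤ h s) →
    (∀ s, mv (Cr M) h s ≤ ∑ i, wt Λ i * (L.lam (Y i) s (jz h4) : ℝ)) →
    (∀ r : ArtinGroup M, ∀ s, h s ≤ ∑ i, wt Λ i * (L.d (r • Y i) s (jz h4) : ℝ)) →
    ∀ X, ∑ s, ∑ j, wt Λ j * h s * (L.lam X s j : ℝ) ≤ ∑ i, wt Λ i * (L.h X (Y i) : ℝ)

/-- **STAB** for the whole level -/
def Stb : Prop :=
  ∀ t : S, ∀ r : ArtinGroup M, (∀ i j, L.d (r • L.fr t j) t i = 0) → r ∈ A M ({t}ᶜ : Set S)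

theorem h_sum {ι : Type*} (s : Finset ι) (f : ι → L.Ob) (X : L.Ob) :
    L.h X (∑ i ∈ s, f i) = ∑ i ∈ s, L.h X (f i) := by
  classical
  induction s using Finset.induction_on with
  | empty => simp [L.h_zero]
  | insert a s ha ih => rw [Finset.sum_insert ha, Finset.sum_insert ha, L.h_add, ih]

theorem h_sum_left {ι : Type*} (s : Finset ι) (f : ι → L.Ob) (X : L.Ob) :
    L.h (∑ i ∈ s, f i) X = ∑ i ∈ s, L.h (f i) X := by
  rw [L.h_symm, L.h_sum]
  exact Finset.sum_congr rfl fun i _ => L.h_symm _ _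

theorem lam_sum {ι : Type*} (s : Finset ι) (f : ι → L.Ob) (t : S) (j : J Λ) :
    L.lam (∑ i ∈ s, f i) t j = ∑ i ∈ s, L.lam (f i) t j := by
  classical
  induction s using Finset.induction_on with
  | empty => simp [L.lam_zero]
  | insert a s ha ih =>
    rw [Finset.sum_insert ha, Finset.sum_insert ha, L.lam_add]
    simp [ih]

theorem d_act {s t : S} (hts : t ≠ s) (X : L.Ob) (j : J Λ) :
    L.d (artinGen M s • X) t j = L.d X t j := by
  unfold d
  rw [← L.fr_act s t j hts, L.h_act, L.fr_act s t j hts]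

/-- families are stable under the generators -/
theorem fam_act {Y : J Λ → L.Ob} (hY : L.IsFam Y) (s : S) :
    L.IsFam (fun j => artinGen M s • Y j) := by
  intro m hm i
  rw [L.F_act m hm, hY m hm i, Finset.smul_sum]

theorem F_act' {m : ℕ} (hm : m ∈ Λ) (s : S) (X : L.Ob) :
    L.F m ((artinGen M s)⁻¹ • X) = (artinGen M s)⁻¹ • L.F m X := by
  rw [eq_inv_smul_iff, ← L.F_act m hm, smul_inv_smul]

theorem fam_act' {Y : J Λ → L.Ob} (hY : L.IsFam Y) (s : S) :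
    L.IsFam (fun j => (artinGen M s)⁻¹ • Y j) := by
  intro m hm i
  rw [L.F_act' hm, hY m hm i, Finset.smul_sum]

theorem fam_fr (s : S) : L.IsFam (L.fr s) := fun m hm i => L.F_fr m hm s i

/-- weighted sum of numbers along an `F`-family -/
theorem sum_fam {Y : J Λ → L.Ob} (hY : L.IsFam Y) (h4 : ∀ m ∈ Λ, 4 ≤ m) {m : ℕ} (hm : m ∈ Λ)
    (X : L.Ob) : ∑ i, wt Λ i * (L.h (L.F m X) (Y i) : ℝ)
      = 2 * Real.cos (Real.pi / m) * ∑ i, wt Λ i * (L.h X (Y i) : ℝ) := by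
  have h1 : ∀ i, (L.h (L.F m X) (Y i) : ℝ) = ∑ j ∈ nbs Λ m i, (L.h X (Y j) : ℝ) := by
    intro i
    rw [L.F_adj m hm, hY m hm i, L.h_sum]
    push_cast
    rfl
  simp only [h1, Finset.mul_sum]
  rw [sum_nbs_comm (f := fun i j => wt Λ i * (L.h X (Y j) : ℝ))]
  refine Finset.sum_congr rfl fun j _ => ?_
  rw [← Finset.sum_mul, wt_nbs h4 hm]
  ring

/-- Perron-Frobenius for `d` -/
theorem pfd (h4 : ∀ m ∈ Λ, 4 ≤ m) (hPF : PFs Λ h4) {Y : J Λ → L.Ob} (hY : L.IsFam Y) (s : S)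
    (j : J Λ) : ∑ i, wt Λ i * (L.d (Y i) s j : ℝ)
      = wt Λ j * ∑ i, wt Λ i * (L.d (Y i) s (jz h4) : ℝ) := by
  refine hPF (fun j => ∑ i, wt Λ i * (L.d (Y i) s j : ℝ)) ?_ j
  intro m hm k
  have h1 := L.sum_fam hY h4 hm (L.fr s k)
  rw [L.F_fr m hm] at h1
  simp only [L.h_sum_left] at h1
  push_cast at h1
  unfold d
  rw [← h1, Finset.sum_comm]
  exact Finset.sum_congr rfl fun i _ => by rw [Finset.mul_sum]

/-- Perron-Frobenius for `lam` -/
theorem pfl (h4 : ∀ m ∈ Λ, 4 ≤ m) (hPF : PFs Λ h4) {Y : J Λ → L.Ob} (hY : L.IsFam Y) (s : S)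
    (j : J Λ) : ∑ i, wt Λ i * (L.lam (Y i) s j : ℝ)
      = wt Λ j * ∑ i, wt Λ i * (L.lam (Y i) s (jz h4) : ℝ) := by
  refine hPF (fun j => ∑ i, wt Λ i * (L.lam (Y i) s j : ℝ)) ?_ j
  intro m hm k
  have h1 : ∀ i, ∑ l ∈ nbs Λ m k, (L.lam (Y i) s l : ℝ) = ∑ l ∈ nbs Λ m i, (L.lam (Y l) s k : ℝ) := by
    intro i
    have h2 := L.F_lam m hm (Y i) s k
    rw [hY m hm i, L.lam_sum] at h2
    exact_mod_cast h2.symm
  calc ∑ l ∈ nbs Λ m k, ∑ i, wt Λ i * (L.lam (Y i) s l : ℝ)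
      = ∑ i, wt Λ i * ∑ l ∈ nbs Λ m k, (L.lam (Y i) s l : ℝ) := by
        rw [Finset.sum_comm]
        exact Finset.sum_congr rfl fun i _ => by rw [Finset.mul_sum]
    _ = ∑ i, ∑ l ∈ nbs Λ m i, wt Λ i * (L.lam (Y l) s k : ℝ) := by
        refine Finset.sum_congr rfl fun i _ => ?_
        rw [h1 i, Finset.mul_sum]
    _ = ∑ l, ∑ i ∈ nbs Λ m l, wt Λ i * (L.lam (Y l) s k : ℝ) :=
        sum_nbs_comm (f := fun i l => wt Λ i * (L.lam (Y l) s k : ℝ))
    _ = _ := by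
        rw [Finset.mul_sum]
        refine Finset.sum_congr rfl fun l _ => ?_
        rw [← Finset.sum_mul, wt_nbs h4 hm]
        ring

end Lev

/-- restriction of classes from `M` to the face `T` -/
structure LRes {Λ : Finset ℕ} {S : Type} [Fintype S] {M : CoxeterMatrix S} (L : Lev.{v} Λ M)
    (T : Set S) (L' : Lev.{v} Λ (res M T)) where
  /-- restriction -/
  r : L.Ob →+ L'.Ob
  r_act : ∀ (t : T) (X : L.Ob), r (artinGen M (t : S) • X) = artinGen (res M T) t • r X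
  r_fr : ∀ (t : T) (j : J Λ), r (L.fr t j) = L'.fr t j
  r_d : ∀ (t : T) (j : J Λ) (X : L.Ob), L'.h (L'.fr t j) (r X) = L.h (L.fr t j) X
  r_lam : ∀ (t : T) (j : J Λ) (X : L.Ob), (L'.lam (r X) t j : ℝ)
    = lamT (muS M Λ) (fun X s j => (L.d X s j : ℝ)) (fun X s j => (L.lam X s j : ℝ)) T X t j
  r_F : ∀ m ∈ Λ, ∀ X, r (L.F m X) = L'.F m (r X)

/-- a level for every face -/
structure Sys (Λ : Finset ℕ) {S : Type} [Fintype S] (M : CoxeterMatrix S) (h4 : ∀ m ∈ Λ, 4 ≤ m)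
    where
  L : Lev.{v} Λ M
  LT : ∀ T : Set S, Lev.{v} Λ (res M T)
  R : ∀ T : Set S, LRes L T (LT T)
  MF : ∀ (T : Set S), ∀ t ∈ T, ∀ X Y : L.Ob,
    ((LT (T \ {t})).h ((R _).r X) ((R _).r Y) : ℝ)
      + ∑ j, ((L.d X t j : ℝ) * lamT (muS M Λ) (fun X s j => (L.d X s j : ℝ))
            (fun X s j => (L.lam X s j : ℝ)) T Y t j
          + lamT (muS M Λ) (fun X s j => (L.d X s j : ℝ)) (fun X s j => (L.lam X s j : ℝ)) T X t j
            * (L.d Y t j : ℝ)
          - 2 * ((L.d X t j : ℝ) * (L.d Y t j : ℝ)))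
      ≤ ((LT T).h ((R T).r X) ((R T).r Y) : ℝ)
  PT : ∀ (T : Set S) [Fintype T], PD M T → (LT T).PT h4
  Stb : ∀ (T : Set S), PD M T → (LT T).Stb

namespace Sys

variable {Λ : Finset ℕ} {S : Type} [Fintype S] {M : CoxeterMatrix S} {h4 : ∀ m ∈ Λ, 4 ≤ m}
  (Z : Sys.{v} Λ M h4)

/-- the action of the whole group of a face -/
theorem r_act_incl (T : Set S) (r : ArtinGroup (res M T)) (X : Z.L.Ob) :
    (Z.R T).r (incl M T r • X) = r • (Z.R T).r X := by
  revert X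
  have hr : r ∈ A (res M T) (Set.univ : Set T) := by
    have h : (A (res M T) (Set.univ : Set T)) = ⊤ := by
      unfold A stdParabolic
      rw [Set.image_univ]
      exact PresentedGroup.closure_range_of _
    rw [h]; trivial
  have _i : Fintype T := Fintype.ofFinite T
  refine CatD.act_ind (fun r => ∀ X : Z.L.Ob, (Z.R T).r (incl M T r • X) = r • (Z.R T).r X)
    (by intro X; simp) ?_ ?_ hr
  · intro s _ r ih X
    rw [map_mul, incl_gen, mul_smul, ih, (Z.R T).r_act, mul_smul]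
  · intro s _ r ih X
    rw [map_mul, map_inv, incl_gen, mul_smul, ih, mul_smul]
    congr 1
    rw [eq_inv_smul_iff, ← (Z.R T).r_act, smul_inv_smul]

theorem exists_incl {T : Set S} {r : ArtinGroup M} (hr : r ∈ A M T) :
    ∃ r' : ArtinGroup (res M T), incl M T r' = r := by
  have h1 : r ∈ (incl M T).range := by rw [range_incl]; exact hr
  exact h1

theorem ind_sum {T : Set S} [Fintype T] (f : S → ℝ) : ∑ u, ind T u * f u = ∑ u : T, f u := by
  classical
  have h1 : ∀ u, ind T u * f u = if u ∈ T then f u else 0 := by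
    intro u
    by_cases h : u ∈ T
    · rw [ind_mem h, if_pos h, one_mul]
    · rw [ind_not h, if_neg h, zero_mul]
  simp only [h1]
  rw [← Finset.sum_filter]
  exact Finset.sum_subtype _ (fun x => by simp) _

/-- **the category side of `M`** -/
noncomputable def catD (hΛ : Good M Λ) (hPF : PFs Λ h4) : CatD.{0, v} M where
  J := J Λ
  j0 := jz h4
  th := wt Λ
  th_pos := wt_pos Λ
  th_zero := wt_jz h4
  mu := muS M Λ
  mu_symm := muS_symm M Λ
  mu_th := fun s t i h => muS_wt hΛ s t i h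
  Ob := Z.L.Ob
  d := fun X s j => (Z.L.d X s j : ℝ)
  lam := fun X s j => (Z.L.lam X s j : ℝ)
  fr := Z.L.fr
  hT := fun T X Y => ((Z.LT T).h ((Z.R T).r X) ((Z.R T).r Y) : ℝ)
  d_nonneg := fun X s j => Nat.cast_nonneg _
  lam_nonneg := fun X s j => Nat.cast_nonneg _
  lam_act := fun s X => by rw [Z.L.lam_act]
  d_act := fun s X t h => by
    funext j
    rw [Z.L.d_act h]
  fr_act := Z.L.fr_act
  fr_d := fun t i s j => by
    show ((Z.L.h (Z.L.fr s j) (Z.L.fr t i) : ℕ) : ℝ) = 0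
    rw [Z.L.fr_fr, Nat.cast_zero]
  fr_lam := fun t i s j => by
    rw [Z.L.fr_lam]
    split_ifs <;> simp
  hT_act := fun T s hs X Y => by
    rw [(Z.R T).r_act ⟨s, hs⟩, (Z.R T).r_act ⟨s, hs⟩, (Z.LT T).h_act]
  hT_symm := fun T X Y => by rw [(Z.LT T).h_symm]
  hT_fr := fun T t ht j X => by
    rw [(Z.R T).r_fr ⟨t, ht⟩, (Z.R T).r_d ⟨t, ht⟩]
    rfl
  MF := fun T t ht X Y => Z.MF T t ht X Y
  Fam := {Y | Z.L.IsFam Y}
  fam_fr := Z.L.fam_fr
  fam_act := fun s Y hY => Z.L.fam_act hY s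
  fam_act' := fun s Y hY => Z.L.fam_act' hY s
  PFd := fun Y hY s j => Z.L.pfd h4 hPF hY s j
  PFl := fun Y hY s j => Z.L.pfl h4 hPF hY s j
  PT := by
    intro T hT Y hY h h0 hlam hd X
    let _i : Fintype T := Fintype.ofFinite T
    have hfam : (Z.LT T).IsFam (fun i => (Z.R T).r (Y i)) := by
      intro m hm i
      rw [← (Z.R T).r_F m hm, hY m hm i, map_sum]
    have key := Z.PT T hT (fun i => (Z.R T).r (Y i)) hfam (fun s => h s)
      (fun s => h0 s s.2) ?_ ?_ ((Z.R T).r X)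
    · rw [ind_sum (T := T) (f := fun s => ∑ j, wt Λ j * h s * lamT (muS M Λ)
        (fun X s j => (Z.L.d X s j : ℝ)) (fun X s j => (Z.L.lam X s j : ℝ)) T X s j)]
      refine le_trans (le_of_eq ?_) key
      refine Finset.sum_congr rfl fun s _ => Finset.sum_congr rfl fun j _ => ?_
      rw [(Z.R T).r_lam]
    · intro s
      have h1 := hlam s s.2
      have h2 : CT M T h s = mv (Cr (res M T)) (fun s : T => h s) s := by
        unfold CT mv
        rw [ind_sum (T := T) (f := fun u => C M s u * h u)]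
        rfl
      rw [h2] at h1
      refine h1.trans (le_of_eq ?_)
      refine Finset.sum_congr rfl fun i _ => ?_
      rw [(Z.R T).r_lam]
    · intro r s
      have h1 := hd (incl M T r⁻¹) (by
        have : incl M T r⁻¹ ∈ (incl M T).range := ⟨_, rfl⟩
        rwa [range_incl] at this) s s.2
      refine h1.trans (le_of_eq ?_)
      refine Finset.sum_congr rfl fun i _ => ?_
      unfold Lev.d
      rw [← (Z.R T).r_d, ← map_inv, inv_inv, Z.r_act_incl]
  zst := by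
    intro T hT t ht r hr h
    obtain ⟨r', rfl⟩ := exists_incl hr
    have h1 := Z.Stb T hT ⟨t, ht⟩ r' (fun i j => by
      have h2 := h i j
      have h3 : Z.L.d (incl M T r' • Z.L.fr t j) t i = 0 := by exact_mod_cast h2
      unfold Lev.d at h3 ⊢
      rw [← (Z.R T).r_fr ⟨t, ht⟩ j, ← Z.r_act_incl, (Z.R T).r_d]
      exact h3)
    have h2 := Subgroup.mem_map_of_mem (incl M T) h1
    rw [A, map_incl_std] at h2
    refine A_mono M ?_ h2
    rintro _ ⟨x, hx, rfl⟩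
    refine ⟨x.2, fun hxt => hx ?_⟩
    exact Subtype.ext hxt

end Sys

end Crest.Agent.R175.Lev_788
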