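import Crest.Agent.R175.FmCls_303
import Crest.Agent.R175.Fm7_27
import Crest.Agent.R175.Lev_788

/-!
Row 175 (S0263): the `F` fields of `Lev_788.Lev` over `Cls (UG M Λ) k` (helper303).

* `FI M φ hm h2 : Cls (UG M Λ) k →+ Cls (UG M Λ) k` : `F_m` on classes, `FI_mk` (rfl).
* `F_fr`, `F_adj`, `F_lam`, `d_F`.
* `FN M φ Λ h4 m : Cls →+ Cls` : the total function of `m : ℕ` (zero map for `m ∉ Λ`); `FN_of`,
  `FN_fr`, `FN_adj`, `FN_lam` in the literal form of `Lev`.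
-/

set_option autoImplicit false
set_option linter.unusedSectionVars false

open CategoryTheory

namespace Crest.Agent.R175.FmI_303

open Crest.Agent.R175.PTA Crest.Agent.R175.Cls_133 Crest.Agent.R175.Fm_27
open Crest.Agent.R175.FmS_303 Crest.Agent.R175.FmCls_303 Crest.Agent.R175.UG_27
open Crest.Agent.R175.Unf_109 Crest.Agent.R175.Lev_788

universe v

variable {S : Type} [Fintype S] (M : CoxeterMatrix S) {Λ : Finset ℕ} {m : ℕ}
  {k : Type v} [Field k] (φ : ℝ →+* k) (hm : m ∈ Λ) (h2 : 2 ≤ m)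

/-- `F_m` on classes -/
noncomputable def FI : Cls (UG M Λ) k →+ Cls (UG M Λ) k := FC (Fm M φ hm h2).toFDat

theorem FI_mk (X : TOb (UG M Λ) k) : FI M φ hm h2 ⟦X⟧ = ⟦(Fm M φ hm h2).FT X⟧ := rfl

/-- the neighbours of a vertex as a sum over `J Λ` -/
theorem sum_nb {A : Type*} [AddCommMonoid A] (t : S) (i : J Λ) (f : S × J Λ → A) :
    ∑ b ∈ (nbs Λ m i).map ⟨fun j => (t, j), fun a b h => (Prod.ext_iff.1 h).2⟩, f b
      = ∑ j ∈ nbs Λ m i, f (t, j) := Finset.sum_map _ _ _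

theorem mem_nb (t : S) (i : J Λ) (b : S × J Λ) :
    b ∈ (nbs Λ m i).map ⟨fun j => (t, j), fun a b h => (Prod.ext_iff.1 h).2⟩ ↔
      (Fm M φ hm h2).N (t, i) b := by
  rw [Fm_N, Finset.mem_map]
  constructor
  · rintro ⟨j, hj, rfl⟩
    exact ⟨rfl, mem_nbs.1 hj⟩
  · rintro ⟨h, h'⟩
    exact ⟨b.2, mem_nbs.2 h', Prod.ext h rfl⟩

/-- **`F_fr`** -/
theorem F_fr [DecidableEq (S × J Λ)] (t : S) (i : J Λ) :
    FI M φ hm h2 (frC (UG M Λ) k (t, i)) = ∑ j ∈ nbs Λ m i, frC (UG M Λ) k (t, j) := by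
  rw [← sum_nb (m := m) t i fun b => frC (UG M Λ) k b]
  exact FC_fr_of _ _ _ fun b => mem_nb M φ hm h2 t i b

/-- **`F_adj`** -/
theorem F_adj (x y : Cls (UG M Λ) k) : hC (FI M φ hm h2 x) y = hC x (FI M φ hm h2 y) :=
  hC_FC _ _ _

/-- **`F_lam`** -/
theorem F_lam (x : Cls (UG M Λ) k) (t : S) (j : J Λ) :
    lamC (FI M φ hm h2 x) (t, j) = ∑ i ∈ nbs Λ m j, lamC x (t, i) := by
  rw [← sum_nb (m := m) t j fun b => lamC x b]
  refine lamC_FC_of _ _ _ _ fun b => ?_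
  rw [mem_nb M φ hm h2 t j b]
  exact ⟨fun h => (Fm M φ hm h2).symm h, fun h => (Fm M φ hm h2).symm h⟩

/-- `d_(t,i) (F x) = ∑_{j ~ i} d_(t,j) x` -/
theorem d_F [DecidableEq (S × J Λ)] (x : Cls (UG M Λ) k) (t : S) (i : J Λ) :
    hC (frC (UG M Λ) k (t, i)) (FI M φ hm h2 x)
      = ∑ j ∈ nbs Λ m i, hC (frC (UG M Λ) k (t, j)) x := by
  rw [← F_adj, F_fr, hC_sum_left]

/-- `F` and the parity shift -/
theorem F_shC (x : Cls (UG M Λ) k) : FI M φ hm h2 (shC x) = shC (FI M φ hm h2 x) :=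
  FC_shC _ _

/-! ### the total function of `m` -/

variable (Λ) in
open Classical in
/-- `F_m` on classes for every `m`, zero for `m ∉ Λ` -/
noncomputable def FN (h4 : ∀ m ∈ Λ, 4 ≤ m) (m : ℕ) : Cls (UG M Λ) k →+ Cls (UG M Λ) k :=
  if h : m ∈ Λ then FI M φ h (le_trans (by norm_num) (h4 m h)) else 0

variable (h4 : ∀ m ∈ Λ, 4 ≤ m)

theorem FN_of {m : ℕ} (hm : m ∈ Λ) :
    FN M Λ φ h4 m = FI M φ hm (le_trans (by norm_num) (h4 m hm)) := dif_pos hm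

theorem FN_mk {m : ℕ} (hm : m ∈ Λ) (X : TOb (UG M Λ) k) :
    FN M Λ φ h4 m ⟦X⟧ = ⟦(Fm M φ hm (le_trans (by norm_num) (h4 m hm))).FT X⟧ := by
  rw [FN_of]
  rfl

theorem FN_fr [DecidableEq (S × J Λ)] : ∀ m ∈ Λ, ∀ (t : S) (i : J Λ),
    FN M Λ φ h4 m (frC (UG M Λ) k (t, i)) = ∑ j ∈ nbs Λ m i, frC (UG M Λ) k (t, j) := by
  intro m hm t i
  rw [FN_of M φ h4 hm]
  exact F_fr _ _ _ _ _ _

theorem FN_adj : ∀ m ∈ Λ, ∀ x y : Cls (UG M Λ) k,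
    hC (FN M Λ φ h4 m x) y = hC x (FN M Λ φ h4 m y) := by
  intro m hm x y
  rw [FN_of M φ h4 hm]
  exact F_adj _ _ _ _ _ _

theorem FN_lam : ∀ m ∈ Λ, ∀ (x : Cls (UG M Λ) k) (t : S) (j : J Λ),
    lamC (FN M Λ φ h4 m x) (t, j) = ∑ i ∈ nbs Λ m j, lamC x (t, i) := by
  intro m hm x t j
  rw [FN_of M φ h4 hm]
  exact F_lam _ _ _ _ _ _ _

end Crest.Agent.R175.FmI_303
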