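import Crest.Agent.R175.PTB_534
import Crest.Agent.R175.DS_450

/-!
# T-framed objects (row 175, helper450): homotopy invariance, direct sums, cones, elimination

over `PTA_534`. `Idl G k`: two-sided ideals `J` of the category `Gob G k` (`full`, `CsI`),
`J.h X Y` = dimension of the homology of `(J.I X Y, D)`; `hT = CsI.h`, `hD = full.h`.

* `OEquiv ε X Y`: homotopy equivalence of sign `ε` (`bar p = ε p`); `h_left`, `h_right`.
* `sh X`: parity shift.
* `ElimData`: Gaussian elimination / perturbation lemma; `ElimData.he`.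
* `Ext Y Z X`: extensions split in `Gob` (cones, direct sums); `h_right_le`, `h_left_le`,
  `h_right_lt`, `h_right_eq`, `lift_iff`.
* `sum X Y`, `cone g`.
-/

set_option autoImplicit false
set_option linter.unusedSectionVars false
set_option linter.unusedVariables false
set_option linter.unusedSimpArgs false

open CategoryTheory Module LinearMap

namespace Crest.Agent.R175.PTA

universe u v

variable {T : Type u} {G : MG T} {k : Type v} [Field k] [Fintype T]

@[simp] theorem TOb.bar_d' (X : TOb G k) : bar X.d = -X.d := X.bar_d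

/-- Leibniz for closed right factor of sign `ε` -/
theorem D_comp_rightε {X Y Z : TOb G k} (f : X.X ⟶ Y.X) {g : Y.X ⟶ Z.X} {ε : k}
    (hb : bar g = ε • g) (hg : D Y Z g = 0) :
    D X Z (f ≫ g) = ε • (D X Y f ≫ g) := by
  rw [D_comp, hg, Limits.comp_zero, zero_add, hb, Linear.comp_smul]

theorem D_bar {X Y : TOb G k} (f : X.X ⟶ Y.X) : D X Y (bar f) = -bar (D X Y f) := by
  rw [bar_D, neg_neg]

theorem D_comp_D (X Y : TOb G k) : D X Y ∘ₗ D X Y = 0 := LinearMap.ext D_D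

/-- `DS_450.hd` is `PTA.hd` -/
theorem hd_eq {K : Type*} [AddCommGroup K] [Module k K] (D : K →ₗ[k] K) :
    hd D = DS_450.hd D := rfl

variable (G k) in
/-- two-sided ideals of `Gob` -/
structure Idl where
  /-- the subspaces -/
  I : ∀ X Y : Gob G k, Submodule k (X ⟶ Y)
  comp_right : ∀ {X Y Z : Gob G k} {f : X ⟶ Y} (g : Y ⟶ Z), f ∈ I X Y → f ≫ g ∈ I X Z
  comp_left : ∀ {X Y Z : Gob G k} (f : X ⟶ Y) {g : Y ⟶ Z}, g ∈ I Y Z → f ≫ g ∈ I X Z

namespace Idl

variable (G k) in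
/-- the unit ideal -/
def full : Idl G k where
  I _ _ := ⊤
  comp_right _ _ := trivial
  comp_left _ _ _ := trivial

variable (G k) in
/-- separate frames -/
def CsI : Idl G k where
  I X Y := Cs X Y
  comp_right g hf := Cs_comp_right hf g
  comp_left f _ hg := Cs_comp_left f hg

variable (J : Idl G k)

theorem bar_mem {X Y : Gob G k} {f : X ⟶ Y} (h : f ∈ J.I X Y) : bar f ∈ J.I X Y :=
  J.comp_left _ (J.comp_right _ h)

theorem D_mem {X Y : TOb G k} {f : X.X ⟶ Y.X} (h : f ∈ J.I X.X Y.X) :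
    D X Y f ∈ J.I X.X Y.X :=
  Submodule.sub_mem _ (J.comp_right _ h) (J.comp_left _ (J.bar_mem h))

/-- the differential restricted to the ideal -/
def Dr (X Y : TOb G k) : J.I X.X Y.X →ₗ[k] J.I X.X Y.X :=
  (D X Y).restrict (fun _ h => J.D_mem h)

@[simp] theorem Dr_coe (X Y : TOb G k) (f : J.I X.X Y.X) :
    (J.Dr X Y f : X.X ⟶ Y.X) = D X Y f := rfl

theorem Dr_Dr (X Y : TOb G k) : J.Dr X Y ∘ₗ J.Dr X Y = 0 := by
  apply LinearMap.ext
  intro f
  apply Subtype.ext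
  exact D_D _

/-- total dimension of the homology of the Hom complex (ideal `J`) -/
noncomputable def h (X Y : TOb G k) : ℕ := hd (J.Dr X Y)

theorem hT_eq (X Y : TOb G k) : hT X Y = (CsI G k).h X Y := rfl

theorem hD_eq (X Y : TOb G k) : hD X Y = (full G k).h X Y :=
  (hd_congr ((full G k).Dr X Y) (D X Y) (Submodule.topEquiv) (fun x => rfl)).symm

end Idl

/-! ### homotopy equivalences -/

/-- homotopy equivalence of sign `ε` (`bar p = ε p`, `bar q = ε q`) -/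
structure OEquiv (ε : k) (X Y : TOb G k) where
  p : X.X ⟶ Y.X
  q : Y.X ⟶ X.X
  s : X.X ⟶ X.X
  r : Y.X ⟶ Y.X
  hε : ε * ε = 1
  bp : bar p = ε • p
  bq : bar q = ε • q
  Dp : D X Y p = 0
  Dq : D Y X q = 0
  pq : p ≫ q = 𝟙 X.X + D X X s
  qp : q ≫ p = 𝟙 Y.X + D Y Y r

/-- even homotopy equivalences -/
def HEquiv.toO {X Y : TOb G k} (e : HEquiv X Y) : OEquiv (1 : k) X Y where
  p := e.p
  q := e.q
  s := e.s
  r := e.r
  hε := one_mul 1
  bp := by rw [e.bp, one_smul]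
  bq := by rw [e.bq, one_smul]
  Dp := e.Dp
  Dq := e.Dq
  pq := e.pq
  qp := e.qp

/-- even homotopy equivalences -/
def OEquiv.toH {X Y : TOb G k} (e : OEquiv (1 : k) X Y) : HEquiv X Y where
  p := e.p
  q := e.q
  s := e.s
  r := e.r
  bp := by rw [e.bp, one_smul]
  bq := by rw [e.bq, one_smul]
  Dp := e.Dp
  Dq := e.Dq
  pq := e.pq
  qp := e.qp

namespace OEquiv

/-- identity -/
def refl (X : TOb G k) : OEquiv (1 : k) X X where
  p := 𝟙 _
  q := 𝟙 _
  s := 0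
  r := 0
  hε := one_mul 1
  bp := by simp
  bq := by simp
  Dp := D_id
  Dq := D_id
  pq := by simp
  qp := by simp

/-- inverse -/
def symm {ε : k} {X Y : TOb G k} (e : OEquiv ε X Y) : OEquiv ε Y X where
  p := e.q
  q := e.p
  s := e.r
  r := e.s
  hε := e.hε
  bp := e.bq
  bq := e.bp
  Dp := e.Dq
  Dq := e.Dp
  pq := e.qp
  qp := e.pq

/-- composition -/
def trans {ε ε' : k} {X Y Z : TOb G k} (e : OEquiv ε X Y) (e' : OEquiv ε' Y Z) :
    OEquiv (ε * ε') X Z where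
  p := e.p ≫ e'.p
  q := e'.q ≫ e.q
  s := e.s + ε • (e.p ≫ e'.s ≫ e.q)
  r := e'.r + ε' • (e'.q ≫ e.r ≫ e'.p)
  hε := by
    have h1 := e.hε
    have h2 := e'.hε
    calc ε * ε' * (ε * ε') = (ε * ε) * (ε' * ε') := by ring
      _ = 1 := by rw [h1, h2, one_mul]
  bp := by rw [bar_comp, e.bp, e'.bp, Linear.smul_comp, Linear.comp_smul, smul_smul]
  bq := by
    rw [bar_comp, e.bq, e'.bq, Linear.smul_comp, Linear.comp_smul, smul_smul, mul_comm]
  Dp := by rw [D_comp_left e.Dp, e'.Dp, Limits.comp_zero]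
  Dq := by rw [D_comp_left e'.Dq, e.Dq, Limits.comp_zero]
  pq := by
    rw [map_add, map_smul, D_comp_left e.Dp, D_comp_rightε _ e.bq e.Dq,
      Linear.comp_smul, smul_smul, e.hε, one_smul]
    have h1 : D Y Y e'.s = e'.p ≫ e'.q - 𝟙 _ := by rw [e'.pq]; abel
    have h2 : D X X e.s = e.p ≫ e.q - 𝟙 _ := by rw [e.pq]; abel
    rw [h1, h2]
    simp only [Preadditive.sub_comp, Preadditive.comp_sub, Category.assoc, Category.id_comp]
    abel
  qp := by
    rw [map_add, map_smul, D_comp_left e'.Dq, D_comp_rightε _ e'.bp e'.Dp,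
      Linear.comp_smul, smul_smul, e'.hε, one_smul]
    have h1 : D Z Z e'.r = e'.q ≫ e'.p - 𝟙 _ := by rw [e'.qp]; abel
    have h2 : D Y Y e.r = e.q ≫ e.p - 𝟙 _ := by rw [e.qp]; abel
    rw [h1, h2]
    simp only [Preadditive.sub_comp, Preadditive.comp_sub, Category.assoc, Category.id_comp]
    abel

variable (J : Idl G k)

theorem h_left_le {ε : k} {X Y : TOb G k} (e : OEquiv ε X Y) (Z : TOb G k) :
    J.h X Z ≤ J.h Y Z := by
  unfold Idl.h
  let F : J.I X.X Z.X →ₗ[k] J.I Y.X Z.X :=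
    (Linear.leftComp k Z.X e.q).restrict (fun _ h => J.comp_left _ h)
  have hF : ∀ x, (F x : Y.X ⟶ Z.X) = e.q ≫ (x : X.X ⟶ Z.X) := fun x => rfl
  refine DS_450.hd_le_of_inj (J.Dr_Dr X Z) (J.Dr_Dr Y Z) F ?_ ?_
  · intro x hx
    have hx' : D X Z x = 0 := congrArg Subtype.val hx
    apply Subtype.ext
    rw [J.Dr_coe, hF, D_comp_left e.Dq, hx', Limits.comp_zero]; rfl
  · intro x y hx hxy
    have hx' : D X Z x = 0 := congrArg Subtype.val hx
    have hxy' : e.q ≫ (x : X.X ⟶ Z.X) = D Y Z y := congrArg Subtype.val hxy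
    have hbx : D X Z (bar x.1) = 0 := by rw [D_bar, hx', bar_zero, neg_zero]
    refine ⟨⟨e.p ≫ (y : Y.X ⟶ Z.X) - e.s ≫ bar x.1,
      Submodule.sub_mem _ (J.comp_left _ y.2) (J.comp_left _ (J.bar_mem x.2))⟩, ?_⟩
    apply Subtype.ext
    rw [J.Dr_coe]
    change (x : X.X ⟶ Z.X) = D X Z (e.p ≫ (y : Y.X ⟶ Z.X) - e.s ≫ bar x.1)
    rw [map_sub, D_comp_left e.Dp, D_comp, hbx, Limits.comp_zero, zero_add,
      bar_bar, ← hxy']
    have h1 : 𝟙 X.X = e.p ≫ e.q - D X X e.s := by rw [e.pq]; abel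
    calc (x : X.X ⟶ Z.X) = 𝟙 _ ≫ (x : X.X ⟶ Z.X) := (Category.id_comp _).symm
      _ = (e.p ≫ e.q - D X X e.s) ≫ (x : X.X ⟶ Z.X) := by rw [h1]
      _ = _ := by rw [Preadditive.sub_comp, Category.assoc]

theorem h_left {ε : k} {X Y : TOb G k} (e : OEquiv ε X Y) (Z : TOb G k) :
    J.h X Z = J.h Y Z :=
  le_antisymm (e.h_left_le J Z) (e.symm.h_left_le J Z)

theorem h_right_le {ε : k} {X Y : TOb G k} (e : OEquiv ε X Y) (Z : TOb G k) :
    J.h Z X ≤ J.h Z Y := by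
  unfold Idl.h
  let F : J.I Z.X X.X →ₗ[k] J.I Z.X Y.X :=
    (Linear.rightComp k Z.X e.p).restrict (fun _ h => J.comp_right _ h)
  have hF : ∀ x, (F x : Z.X ⟶ Y.X) = (x : Z.X ⟶ X.X) ≫ e.p := fun x => rfl
  refine DS_450.hd_le_of_inj (J.Dr_Dr Z X) (J.Dr_Dr Z Y) F ?_ ?_
  · intro x hx
    have hx' : D Z X x = 0 := congrArg Subtype.val hx
    apply Subtype.ext
    rw [J.Dr_coe, hF, D_comp_rightε _ e.bp e.Dp, hx', Limits.zero_comp, smul_zero]; rfl
  · intro x y hx hxy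
    have hx' : D Z X x = 0 := congrArg Subtype.val hx
    have hxy' : (x : Z.X ⟶ X.X) ≫ e.p = D Z Y y := congrArg Subtype.val hxy
    refine ⟨⟨ε • ((y : Z.X ⟶ Y.X) ≫ e.q) - (x : Z.X ⟶ X.X) ≫ e.s,
      Submodule.sub_mem _ (Submodule.smul_mem _ _ (J.comp_right _ y.2))
        (J.comp_right _ x.2)⟩, ?_⟩
    apply Subtype.ext
    rw [J.Dr_coe]
    change (x : Z.X ⟶ X.X) = D Z X (ε • ((y : Z.X ⟶ Y.X) ≫ e.q) -
      (x : Z.X ⟶ X.X) ≫ e.s)
    rw [map_sub, map_smul, D_comp_rightε _ e.bq e.Dq, smul_smul, e.hε, one_smul,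
      D_comp_left hx', ← hxy']
    have h1 : 𝟙 X.X = e.p ≫ e.q - D X X e.s := by rw [e.pq]; abel
    calc (x : Z.X ⟶ X.X) = (x : Z.X ⟶ X.X) ≫ 𝟙 _ := (Category.comp_id _).symm
      _ = (x : Z.X ⟶ X.X) ≫ (e.p ≫ e.q - D X X e.s) := by rw [h1]
      _ = _ := by rw [Preadditive.comp_sub, Category.assoc]

theorem h_right {ε : k} {X Y : TOb G k} (e : OEquiv ε X Y) (Z : TOb G k) :
    J.h Z X = J.h Z Y :=
  le_antisymm (e.h_right_le J Z) (e.symm.h_right_le J Z)

theorem hT_left {ε : k} {X Y : TOb G k} (e : OEquiv ε X Y) (Z : TOb G k) :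
    hT X Z = hT Y Z := e.h_left (Idl.CsI G k) Z
theorem hT_right {ε : k} {X Y : TOb G k} (e : OEquiv ε X Y) (Z : TOb G k) :
    hT Z X = hT Z Y := e.h_right (Idl.CsI G k) Z
theorem hD_left {ε : k} {X Y : TOb G k} (e : OEquiv ε X Y) (Z : TOb G k) :
    hD X Z = hD Y Z := by rw [Idl.hD_eq, Idl.hD_eq]; exact e.h_left (Idl.full G k) Z
theorem hD_right {ε : k} {X Y : TOb G k} (e : OEquiv ε X Y) (Z : TOb G k) :
    hD Z X = hD Z Y := by rw [Idl.hD_eq, Idl.hD_eq]; exact e.h_right (Idl.full G k) Z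

end OEquiv

/-- cast of the sign -/
def OEquiv.cast {ε ε' : k} {X Y : TOb G k} (e : OEquiv ε X Y) (h : ε = ε') :
    OEquiv ε' X Y := h ▸ e

/-- strict isomorphisms (even, closed, invertible) give homotopy equivalences -/
theorem HIso.of_iso {X Y : TOb G k} (p : X.X ⟶ Y.X) (q : Y.X ⟶ X.X) (bp : bar p = p)
    (pd : p ≫ Y.d = X.d ≫ p) (pq : p ≫ q = 𝟙 _) (qp : q ≫ p = 𝟙 _) : HIso X Y := by
  have bq : bar q = q := by
    calc bar q = bar q ≫ (p ≫ q) := by rw [pq, Category.comp_id]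
      _ = bar (q ≫ p) ≫ q := by rw [bar_comp, bp, Category.assoc]
      _ = q := by rw [qp, bar_id, Category.id_comp]
  have qd : q ≫ X.d = Y.d ≫ q := by
    calc q ≫ X.d = q ≫ X.d ≫ (p ≫ q) := by rw [pq, Category.comp_id]
      _ = q ≫ (X.d ≫ p) ≫ q := by simp only [Category.assoc]
      _ = (q ≫ p) ≫ Y.d ≫ q := by rw [← pd]; simp only [Category.assoc]
      _ = Y.d ≫ q := by rw [qp, Category.id_comp]
  exact ⟨{
    p := p, q := q, s := 0, r := 0, bp := bp, bq := bq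
    Dp := by rw [D_apply, bp, pd, sub_self]
    Dq := by rw [D_apply, bq, qd, sub_self]
    pq := by rw [pq, map_zero, add_zero]
    qp := by rw [qp, map_zero, add_zero] }⟩

end Crest.Agent.R175.PTA
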