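import Crest.Agent.R175.Fm4_27
import Crest.Agent.R175.Res_428
import Crest.Agent.R175.PTB_450

/-!
# Matrix functors and restriction (row 175)

For `ι : T' → T` injective whose image is `N`-stable: `Φ.res`, the same functor on the smaller graph,
and the natural isomorphism `Res (Φ X) ≅ Φ.res (Res X)` (`theta`).
-/

set_option autoImplicit false
set_option linter.unusedSectionVars false
set_option linter.unusedVariables false
set_option linter.unusedSimpArgs false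

open CategoryTheory
open scoped Classical

namespace Crest.Agent.R175.FmRes_663

open Crest.Agent.R175.PTA Crest.Agent.R175.ResI_663 Crest.Agent.R175.Res_428
  Crest.Agent.R175.Fm_27

universe v

variable {T T' : Type} {G : MG T} {k : Type v} [Field k] [Fintype T] [Fintype T'] {ι : T' → T}

theorem sum_in {M : Type*} [AddCommMonoid M] (hι : Function.Injective ι) (F : T → M)
    (h : ∀ u : Out ι, F u.1 = 0) : ∑ t, F t = ∑ t : T', F (ι t) := by
  rw [sum_split hι F, Finset.sum_eq_zero fun u _ => h u, add_zero]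

/-- stability of the image of `ι` -/
def Stab (Φ : FDat G k) (ι : T' → T) : Prop :=
  ∀ a b : T, Φ.N a b → a ∈ Set.range ι → b ∈ Set.range ι

theorem Stab.out {Φ : FDat G k} (h : Stab Φ ι) {a b : T} (hab : Φ.N a b)
    (ha : a ∉ Set.range ι) : b ∉ Set.range ι := fun hb => ha (h _ _ (Φ.symm hab) hb)

/-- the restricted data -/
def resD (Φ : FDat G k) (hι : Function.Injective ι) (hs : Stab Φ ι) : FDat (comap G ι) k where
  N s t := Φ.N (ι s) (ι t)
  symm h := Φ.symm h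
  r t := Φ.r (ι t)
  r_ne t := Φ.r_ne _
  chi {a b a' b'} e e' := Φ.chi (a := ι a) (b := ι b) (a' := ι a') (b' := ι b') e e'
  back {a b a'} e f h := by
    have h1 := Φ.back (a := ι a) (b := ι b) (a' := ι a') e f h
    rw [sum_in hι] at h1
    · exact h1
    · intro u
      refine Finset.sum_eq_zero fun e' _ => if_neg fun hn => ?_
      exact u.2 (hs _ _ hn ⟨b, rfl⟩)
  back0 {a a₂ b a'} e f h h2 hne := by
    have h1 := Φ.back0 (a := ι a) (a₂ := ι a₂) (b := ι b) (a' := ι a') e f h h2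
      (fun h => hne (hι h))
    rw [sum_in hι] at h1
    · exact h1
    · intro u
      refine Finset.sum_eq_zero fun e' _ => if_neg fun hn => ?_
      exact u.2 (hs _ _ hn ⟨b, rfl⟩)

/-- the restricted data, self-adjoint version -/
def resA (Φ : ADat G k) (hι : Function.Injective ι) (hs : Stab Φ.toFDat ι) :
    ADat (comap G ι) k where
  toFDat := resD Φ.toFDat hι hs
  cup1 {a b b'} e e₂ h := by
    have h1 := Φ.cup1 (a := ι a) (b := ι b) (b' := ι b') e e₂ h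
    rw [sum_in hι] at h1
    · exact h1
    · intro u
      refine Finset.sum_eq_zero fun e' _ => if_neg fun hn => ?_
      exact u.2 (hs _ _ (Φ.symm hn) ⟨a, rfl⟩)
  cup0 {a b b' b''} e e₂ h h2 hne := by
    have h1 := Φ.cup0 (a := ι a) (b := ι b) (b' := ι b') (b'' := ι b'') e e₂ h h2
      (fun h => hne (hι h))
    rw [sum_in hι] at h1
    · exact h1
    · intro u
      refine Finset.sum_eq_zero fun e' _ => if_neg fun hn => ?_
      exact u.2 (hs _ _ (Φ.symm hn) ⟨a, rfl⟩)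
  cap1 {a b a'} e e₂ h := by
    have h1 := Φ.cap1 (a := ι a) (b := ι b) (a' := ι a') e e₂ h
    rw [sum_in hι] at h1
    · exact h1
    · intro u
      refine Finset.sum_eq_zero fun e' _ => if_neg fun hn => ?_
      exact u.2 (hs _ _ (Φ.symm hn) ⟨b, rfl⟩)
  cap0 {a b a' a''} e e₂ h h2 hne := by
    have h1 := Φ.cap0 (a := ι a) (b := ι b) (a' := ι a') (a'' := ι a'') e e₂ h h2
      (fun h => hne (hι h))
    rw [sum_in hι] at h1
    · exact h1
    · intro u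
      refine Finset.sum_eq_zero fun e' _ => if_neg fun hn => ?_
      exact u.2 (hs _ _ (Φ.symm hn) ⟨b, rfl⟩)

theorem swap4 {A C M : Type*} [AddCommMonoid M] [Fintype A] [Fintype C] {B : A → Type*}
    {D : C → Type*} [∀ a, Fintype (B a)] [∀ c, Fintype (D c)]
    (F : ∀ a, B a → ∀ c, D c → M) :
    ∑ a, ∑ b, ∑ c, ∑ d, F a b c d = ∑ c, ∑ d, ∑ a, ∑ b, F a b c d := by
  calc ∑ a, ∑ b, ∑ c, ∑ d, F a b c d = ∑ a, ∑ c, ∑ b, ∑ d, F a b c d :=
        Finset.sum_congr rfl fun a _ => Finset.sum_comm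
    _ = ∑ c, ∑ a, ∑ b, ∑ d, F a b c d := Finset.sum_comm
    _ = ∑ c, ∑ a, ∑ d, ∑ b, F a b c d :=
        Finset.sum_congr rfl fun c _ => Finset.sum_congr rfl fun a _ => Finset.sum_comm
    _ = ∑ c, ∑ d, ∑ a, ∑ b, F a b c d := Finset.sum_congr rfl fun c _ => Finset.sum_comm

/-! ### the matrix of `chi` -/

/-- the backtracking relation in the form of a matrix identity -/
theorem backR (Φ : FDat G k) {t u : T} (p q : Σ a : Φ.Nb t, G.E u a.1) :
    (∑ u' : Φ.Nb u, ∑ e' : G.E u'.1 t, Φ.chi p.2 e' * Φ.chi (G.rev q.2) (G.rev e'))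
      = if q = p then (Φ.r t / Φ.r p.1.1) ^ 2 else 0 := by
  have h0 : (∑ u' : Φ.Nb u, ∑ e' : G.E u'.1 t, Φ.chi p.2 e' * Φ.chi (G.rev q.2) (G.rev e'))
      = ∑ u', ∑ e' : G.E t u', if Φ.N u u' then Φ.chi (G.rev q.2) e' * Φ.chi p.2 (G.rev e')
        else 0 := by
    rw [Φ.sum_Nb u (fun u' => ∑ e' : G.E u' t, Φ.chi p.2 e' * Φ.chi (G.rev q.2) (G.rev e'))]
    refine Finset.sum_congr rfl fun u' _ => ?_
    have hsym : Φ.N u' u ↔ Φ.N u u' := ⟨Φ.symm, Φ.symm⟩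
    rw [← sum_rev (G := G) (fun e' : G.E u' t =>
      Φ.chi p.2 e' * Φ.chi (G.rev q.2) (G.rev e'))]
    by_cases h : Φ.N u u'
    · rw [if_pos (hsym.2 h)]
      refine Finset.sum_congr rfl fun e' _ => ?_
      rw [if_pos h, G.rev_rev, mul_comm]
    · rw [if_neg (fun h' => h (hsym.1 h'))]
      simp [h]
  rw [h0]
  obtain ⟨a, e⟩ := p
  obtain ⟨a₂, f⟩ := q
  by_cases ha : a₂ = a
  · subst ha
    rw [Φ.back (G.rev f) e a₂.2]
    by_cases hf : f = e
    · subst hf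
      simp
    · rw [if_neg, if_neg]
      · intro h
        simp only [Sigma.mk.injEq, heq_eq_eq, true_and] at h
        exact hf h
      · intro h
        rw [G.rev_rev] at h
        exact hf h.symm
  · rw [Φ.back0 (G.rev f) e a₂.2 a.2 (fun h => ha (Subtype.ext h)), if_neg]
    intro h
    exact ha (congrArg Sigma.fst h)

theorem card_le (Φ : FDat G k) (t u : T) :
    Fintype.card (Σ a : Φ.Nb t, G.E u a.1) ≤ Fintype.card (Σ u' : Φ.Nb u, G.E u'.1 t) := by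
  have hs : Function.Surjective (Matrix.toLin' (Matrix.of
      fun (p : Σ a : Φ.Nb t, G.E u a.1) (c : Σ u' : Φ.Nb u, G.E u'.1 t) => Φ.chi p.2 c.2)) := by
    intro y
    refine ⟨fun c => ∑ q : (Σ a : Φ.Nb t, G.E u a.1),
      ((Φ.r t / Φ.r q.1.1) ^ 2)⁻¹ * Φ.chi (G.rev q.2) (G.rev c.2) * y q, ?_⟩
    funext p
    rw [Matrix.toLin'_apply, Matrix.mulVec, dotProduct]
    simp only [Matrix.of_apply, Finset.mul_sum]
    rw [Finset.sum_comm]
    have h1 : ∀ q : (Σ a : Φ.Nb t, G.E u a.1),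
        (∑ c : (Σ u' : Φ.Nb u, G.E u'.1 t), Φ.chi p.2 c.2 *
          (((Φ.r t / Φ.r q.1.1) ^ 2)⁻¹ * Φ.chi (G.rev q.2) (G.rev c.2) * y q)) =
        ((Φ.r t / Φ.r q.1.1) ^ 2)⁻¹ * y q *
          (if q = p then (Φ.r t / Φ.r p.1.1) ^ 2 else 0) := by
      intro q
      rw [← backR Φ p q, Finset.mul_sum, Fintype.sum_sigma]
      refine Finset.sum_congr rfl fun u' _ => ?_
      rw [Finset.mul_sum]
      refine Finset.sum_congr rfl fun e' _ => ?_
      ring
    rw [Finset.sum_congr rfl fun q _ => h1 q, Finset.sum_eq_single p]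
    · rw [if_pos rfl]
      have := pow_ne_zero 2 (div_ne_zero (Φ.r_ne t) (Φ.r_ne p.1.1))
      rw [mul_comm, ← mul_assoc, mul_inv_cancel₀ this, one_mul]
    · intro q _ hq
      rw [if_neg hq, mul_zero]
    · simp
  have h := LinearMap.finrank_le_finrank_of_surjective hs
  simpa using h

theorem card_eq (Φ : FDat G k) (t u : T) :
    Fintype.card (Σ a : Φ.Nb t, G.E u a.1) = Fintype.card (Σ u' : Φ.Nb u, G.E u'.1 t) := by
  refine le_antisymm (card_le Φ t u) ?_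
  have e1 : Fintype.card (Σ u' : Φ.Nb u, G.E u'.1 t) = Fintype.card (Σ a : Φ.Nb u, G.E t a.1) :=
    Fintype.card_congr (Equiv.sigmaCongrRight fun u' => revE G u'.1 t)
  have e2 : Fintype.card (Σ u' : Φ.Nb t, G.E u'.1 u) = Fintype.card (Σ a : Φ.Nb t, G.E u a.1) :=
    Fintype.card_congr (Equiv.sigmaCongrRight fun u' => revE G u'.1 u)
  rw [e1, ← e2]
  exact card_le Φ u t

/-! ### the natural isomorphism -/

section theta

variable (Φ : FDat G k) (hι : Function.Injective ι) (hs : Stab Φ ι)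

theorem ρ_ne (a b : T) : Φ.ρ a b ≠ 0 := div_ne_zero (Φ.r_ne b) (Φ.r_ne a)

/-- source of the base change -/
abbrev SA (X : Gob G k) (t : T') : Type v :=
  ∀ (u' : Out ι) (_ : G.E u'.1 (ι t)), ∀ b : Φ.Nb u'.1, X.V b.1

/-- target of the base change -/
abbrev SB (X : Gob G k) (t : T') : Type v :=
  ∀ (a : (resD Φ hι hs).Nb t) (u : Out ι) (_ : G.E u.1 (ι a.1)), X.V u.1

/-- base change of the new frames -/
noncomputable def thN (X : Gob G k) (t : T') : SA (ι := ι) Φ X t →ₗ[k] SB Φ hι hs X t where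
  toFun z a u e := (Φ.ρ (ι a.1) (ι t))⁻¹ • ∑ u' : Φ.Nb u.1, ∑ e' : G.E u'.1 (ι t),
    Φ.chi e e' • z ⟨u'.1, hs.out (Φ.symm u'.2) u.2⟩ e' ⟨u.1, Φ.symm u'.2⟩
  map_add' z z' := by
    funext a u e
    simp only [Pi.add_apply, smul_add, Finset.sum_add_distrib]
  map_smul' c z := by
    funext a u e
    simp only [Pi.smul_apply, Finset.smul_sum, RingHom.id_apply, smul_smul]
    refine Finset.sum_congr rfl fun _ _ => Finset.sum_congr rfl fun _ _ => ?_
    congr 1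
    ring

theorem thN_apply (X : Gob G k) (t : T') (z : SA (ι := ι) Φ X t) (a : (resD Φ hι hs).Nb t)
    (u : Out ι) (e : G.E u.1 (ι a.1)) :
    thN Φ hι hs X t z a u e = (Φ.ρ (ι a.1) (ι t))⁻¹ • ∑ u' : Φ.Nb u.1, ∑ e' : G.E u'.1 (ι t),
    Φ.chi e e' • z ⟨u'.1, hs.out (Φ.symm u'.2) u.2⟩ e' ⟨u.1, Φ.symm u'.2⟩ := rfl

/-- neighbours in the restricted graph -/
noncomputable def nbE (t : T') : (resD Φ hι hs).Nb t ≃ Φ.Nb (ι t) :=
  Equiv.ofBijective (fun a => ⟨ι a.1, a.2⟩) ⟨fun a b h => Subtype.ext (hι (congrArg Subtype.val h)),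
    fun b => by
      obtain ⟨b, hb⟩ := b
      obtain ⟨b', rfl⟩ := hs _ _ (Φ.symm hb) ⟨t, rfl⟩
      exact ⟨⟨b', hb⟩, rfl⟩⟩

theorem sum_nb {M : Type*} [AddCommMonoid M] (t : T') (F : Φ.Nb (ι t) → M) :
    ∑ a, F a = ∑ a : (resD Φ hι hs).Nb t, F ⟨ι a.1, a.2⟩ :=
  (Fintype.sum_equiv (nbE Φ hι hs t) _ _ fun a => rfl).symm

theorem thN_surj (X : Gob G k) (t : T') : Function.Surjective (thN Φ hι hs X t) := by
  intro y
  refine ⟨fun u' e' b => ∑ a : (resD Φ hι hs).Nb t, ∑ f : G.E b.1 (ι a.1),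
    ((Φ.ρ (ι a.1) (ι t))⁻¹ * Φ.chi (G.rev f) (G.rev e')) •
      y a ⟨b.1, hs.out (Φ.symm b.2) u'.2⟩ f, ?_⟩
  funext a u e
  rw [thN_apply]
  have h1 : (∑ u' : Φ.Nb u.1, ∑ e' : G.E u'.1 (ι t), Φ.chi e e' •
      ∑ a₂ : (resD Φ hι hs).Nb t, ∑ f : G.E u.1 (ι a₂.1),
        ((Φ.ρ (ι a₂.1) (ι t))⁻¹ * Φ.chi (G.rev f) (G.rev e')) • y a₂ u f)
      = ∑ q : (Σ a₂ : (resD Φ hι hs).Nb t, G.E u.1 (ι a₂.1)),
        ((Φ.ρ (ι q.1.1) (ι t))⁻¹ * (∑ u' : Φ.Nb u.1, ∑ e' : G.E u'.1 (ι t),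
          Φ.chi e e' * Φ.chi (G.rev q.2) (G.rev e'))) • y q.1 u q.2 := by
    simp only [Finset.smul_sum, smul_smul, Finset.mul_sum, Finset.sum_smul, Fintype.sum_sigma]
    rw [swap4]
    refine Finset.sum_congr rfl fun _ _ => Finset.sum_congr rfl fun _ _ =>
      Finset.sum_congr rfl fun _ _ => Finset.sum_congr rfl fun _ _ => ?_
    congr 1
    ring
  rw [h1, Finset.sum_eq_single (⟨a, e⟩ : Σ a₂ : (resD Φ hι hs).Nb t, G.E u.1 (ι a₂.1))]
  · have h2 := backR Φ (t := ι t) (u := u.1) ⟨⟨ι a.1, a.2⟩, e⟩ ⟨⟨ι a.1, a.2⟩, e⟩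
    rw [if_pos rfl] at h2
    change _ = (Φ.ρ (ι a.1) (ι t)) ^ 2 at h2
    rw [h2, smul_smul]
    have := ρ_ne Φ (ι a.1) (ι t)
    rw [show (Φ.ρ (ι a.1) (ι t))⁻¹ * ((Φ.ρ (ι a.1) (ι t))⁻¹ * Φ.ρ (ι a.1) (ι t) ^ 2) = 1 by
      field_simp, one_smul]
  · intro q _ hq
    have h2 := backR Φ (t := ι t) (u := u.1) ⟨⟨ι a.1, a.2⟩, e⟩ ⟨⟨ι q.1.1, q.1.2⟩, q.2⟩
    rw [if_neg] at h2
    · rw [h2, mul_zero, zero_smul]
    · intro h
      apply hq
      obtain ⟨⟨q1, hq1⟩, q2⟩ := q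
      obtain ⟨a, ha⟩ := a
      simp only at e h ⊢
      have h3 : ι q1 = ι a := congrArg (fun x => x.1.1) h
      have h4 := hι h3
      subst h4
      simp only [Sigma.mk.injEq, heq_eq_eq, true_and] at h
      rw [h]
  · intro h; exact absurd (Finset.mem_univ _) h

/-- pairs of neighbouring vertices outside the image, swapped -/
def swapOut : (Σ u' : Out ι, Φ.Nb u'.1) ≃ (Σ u : Out ι, Φ.Nb u.1) where
  toFun p := ⟨⟨p.2.1, hs.out (Φ.symm p.2.2) p.1.2⟩, ⟨p.1.1, Φ.symm p.2.2⟩⟩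
  invFun p := ⟨⟨p.2.1, hs.out (Φ.symm p.2.2) p.1.2⟩, ⟨p.1.1, Φ.symm p.2.2⟩⟩
  left_inv p := rfl
  right_inv p := rfl

theorem sum_out {M : Type*} [AddCommMonoid M] (F : ∀ u' : Out ι, Φ.Nb u'.1 → M) :
    ∑ u' : Out ι, ∑ b : Φ.Nb u'.1, F u' b =
      ∑ u : Out ι, ∑ u' : Φ.Nb u.1, F ⟨u'.1, hs.out (Φ.symm u'.2) u.2⟩ ⟨u.1, Φ.symm u'.2⟩ := by
  rw [← Fintype.sum_sigma', ← Fintype.sum_sigma']
  exact Fintype.sum_equiv (swapOut Φ hs) _ _ fun p => rfl

include hs in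
theorem finrank_SA (X : Gob G k) (t : T') : Module.finrank k (SA (ι := ι) Φ X t) =
    ∑ u : Out ι, Fintype.card (Σ u' : Φ.Nb u.1, G.E u'.1 (ι t)) * Module.finrank k (X.V u.1) := by
  have h1 : Module.finrank k (SA (ι := ι) Φ X t) = ∑ u' : Out ι, ∑ b : Φ.Nb u'.1,
      Fintype.card (G.E u'.1 (ι t)) * Module.finrank k (X.V b.1) := by
    rw [Module.finrank_pi_fintype]
    refine Finset.sum_congr rfl fun u' _ => ?_
    rw [Module.finrank_pi_fintype]
    simp only [Module.finrank_pi_fintype, Finset.sum_const, Finset.card_univ, smul_eq_mul,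
      Finset.mul_sum]
  rw [h1, sum_out Φ hs]
  refine Finset.sum_congr rfl fun u _ => ?_
  rw [Fintype.card_sigma, Finset.sum_mul]

theorem finrank_SB (X : Gob G k) (t : T') : Module.finrank k (SB Φ hι hs X t) =
    ∑ u : Out ι, Fintype.card (Σ a : Φ.Nb (ι t), G.E u.1 a.1) * Module.finrank k (X.V u.1) := by
  have h1 : Module.finrank k (SB Φ hι hs X t) = ∑ a : (resD Φ hι hs).Nb t, ∑ u : Out ι,
      Fintype.card (G.E u.1 (ι a.1)) * Module.finrank k (X.V u.1) := by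
    rw [Module.finrank_pi_fintype]
    refine Finset.sum_congr rfl fun a _ => ?_
    rw [Module.finrank_pi_fintype]
    simp only [Module.finrank_pi_fintype, Finset.sum_const, Finset.card_univ, smul_eq_mul]
  rw [h1, Finset.sum_comm]
  refine Finset.sum_congr rfl fun u _ => ?_
  rw [Fintype.card_sigma, sum_nb Φ hι hs t, Finset.sum_mul]

theorem thN_bij (X : Gob G k) (t : T') : Function.Bijective (thN Φ hι hs X t) := by
  have h : Module.finrank k (SA (ι := ι) Φ X t) = Module.finrank k (SB Φ hι hs X t) := by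
    rw [finrank_SA Φ hs, finrank_SB]
    refine Finset.sum_congr rfl fun u _ => ?_
    rw [card_eq]
  exact ⟨(LinearMap.injective_iff_surjective_of_finrank_eq_finrank h).2 (thN_surj Φ hι hs X t),
    thN_surj Φ hι hs X t⟩

/-- relabelling the neighbours -/
noncomputable def relab (A : T → Type v) [∀ a, AddCommGroup (A a)] [∀ a, Module k (A a)]
    (t : T') : (∀ a : Φ.Nb (ι t), A a.1) ≃ₗ[k] (∀ a : (resD Φ hι hs).Nb t, A (ι a.1)) :=
  LinearEquiv.piCongrLeft' k (fun b : Φ.Nb (ι t) => A b.1) (nbE Φ hι hs t).symm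

theorem relab_apply (A : T → Type v) [∀ a, AddCommGroup (A a)] [∀ a, Module k (A a)]
    (t : T') (x : ∀ a : Φ.Nb (ι t), A a.1) (a : (resD Φ hι hs).Nb t) :
    relab Φ hι hs A t x a = x ⟨ι a.1, a.2⟩ := rfl

/-- length 0 part of `theta` on `W` -/
noncomputable def thW (X : Gob G k) (t : T') :
    (resG ι (Φ.ob X)).W t ≃ₗ[k] ((resD Φ hι hs).ob (resG ι X)).W t :=
  (((relab Φ hι hs X.W t).prodCongr
    (LinearEquiv.ofBijective (thN Φ hι hs X t) (thN_bij Φ hι hs X t))).trans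
    ({ toFun := fun z a => (z.1 a, z.2 a)
       invFun := fun z => (fun a => (z a).1, fun a => (z a).2)
       map_add' := fun _ _ => rfl
       map_smul' := fun _ _ => rfl
       left_inv := fun _ => rfl
       right_inv := fun _ => rfl } :
      ((∀ a : (resD Φ hι hs).Nb t, X.W (ι a.1)) × SB Φ hι hs X t) ≃ₗ[k]
        (∀ a : (resD Φ hι hs).Nb t, X.W (ι a.1) × NW ι X (ι a.1))))

theorem thW_apply (X : Gob G k) (t : T') (z : (resG ι (Φ.ob X)).W t)
    (a : (resD Φ hι hs).Nb t) :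
    (thW Φ hι hs X t z : ∀ a : (resD Φ hι hs).Nb t, X.W (ι a.1) × NW ι X (ι a.1)) a =
      (z.1 ⟨ι a.1, a.2⟩, thN Φ hι hs X t z.2 a) := rfl

/-- the natural isomorphism `Res (Φ X) ≅ Φ (Res X)` -/
noncomputable def theta (X : Gob G k) : resG ι (Φ.ob X) ⟶ (resD Φ hι hs).ob (resG ι X) :=
  mkH (X := resG ι (Φ.ob X)) (Y := (resD Φ hι hs).ob (resG ι X))
    (fun t => (relab Φ hι hs X.V t).toLinearMap) (fun t => (thW Φ hι hs X t).toLinearMap)
    (fun _ _ _ => 0) (fun _ => 0) (fun _ => 0) (fun _ => 0)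

/-- its inverse -/
noncomputable def thetaI (X : Gob G k) : (resD Φ hι hs).ob (resG ι X) ⟶ resG ι (Φ.ob X) :=
  mkH (X := (resD Φ hι hs).ob (resG ι X)) (Y := resG ι (Φ.ob X))
    (fun t => (relab Φ hι hs X.V t).symm.toLinearMap)
    (fun t => (thW Φ hι hs X t).symm.toLinearMap)
    (fun _ _ _ => 0) (fun _ => 0) (fun _ => 0) (fun _ => 0)

theorem theta_inv (X : Gob G k) : theta Φ hι hs X ≫ thetaI Φ hι hs X = 𝟙 _ := by
  apply hm_ext
  · intro t; exact LinearMap.ext fun x => (relab Φ hι hs X.V t).symm_apply_apply x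
  · intro t; exact LinearMap.ext fun x => (thW Φ hι hs X t).symm_apply_apply x
  · intro s t a; simp [theta, thetaI]
  · intro t; simp [theta, thetaI]
  · intro t; simp [theta, thetaI]
  · intro t; simp [theta, thetaI]

theorem inv_theta (X : Gob G k) : thetaI Φ hι hs X ≫ theta Φ hι hs X = 𝟙 _ := by
  apply hm_ext
  · intro t; exact LinearMap.ext fun x => (relab Φ hι hs X.V t).apply_symm_apply x
  · intro t; exact LinearMap.ext fun x => (thW Φ hι hs X t).apply_symm_apply x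
  · intro s t a; simp [theta, thetaI]
  · intro t; simp [theta, thetaI]
  · intro t; simp [theta, thetaI]
  · intro t; simp [theta, thetaI]

section lem
variable (X : Gob G k)
theorem c0_theta (t : T') (x : ∀ a : Φ.Nb (ι t), X.V a.1) (a : (resD Φ hι hs).Nb t) :
    (c0 (theta Φ hι hs X) t x : ∀ a : (resD Φ hι hs).Nb t, X.V (ι a.1)) a = x ⟨ι a.1, a.2⟩ := rfl
theorem cW_theta (t : T') (z : (resG ι (Φ.ob X)).W t) (a : (resD Φ hι hs).Nb t) :
    (cW (theta Φ hι hs X) t z : ∀ a : (resD Φ hι hs).Nb t, X.W (ι a.1) × NW ι X (ι a.1)) a =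
      (z.1 ⟨ι a.1, a.2⟩, thN Φ hι hs X t z.2 a) := rfl
@[simp] theorem c1_theta {s t : T'} (a : (comap G ι).E s t) : c1 (theta Φ hι hs X) a = 0 := rfl
@[simp] theorem ci_theta (t : T') : ci (theta Φ hι hs X) t = 0 := rfl
@[simp] theorem cj_theta (t : T') : cj (theta Φ hι hs X) t = 0 := rfl
@[simp] theorem c2_theta (t : T') : c2 (theta Φ hι hs X) t = 0 := rfl
end lem

theorem c1_hom_apply {T : Type} {G : MG T} [Fintype T] (Φ : FDat G k) {X Y : Gob G k}
    (f : X ⟶ Y) {s t : T} (e' : G.E s t) (x : ∀ a : Φ.Nb s, X.V a.1) (b : Φ.Nb t) :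
    (c1 (Φ.hom f) e' x : ∀ a : Φ.Nb t, Y.V a.1) b =
      ∑ a : Φ.Nb s, ∑ e : G.E a.1 b.1, Φ.chi e e' • c1 f e (x a) := by
  rw [FDat.c1_hom, mat_apply]
  refine Finset.sum_congr rfl fun a _ => ?_
  rw [LinearMap.sum_apply]
  rfl

/-- naturality -/
theorem theta_nat {X Y : Gob G k} (f : X ⟶ Y) :
    resH ι (Φ.hom f) ≫ theta Φ hι hs Y = theta Φ hι hs X ≫ (resD Φ hι hs).hom (resH ι f) := by
  apply hm_ext
  · intro t
    rfl
  · intro t
    apply LinearMap.ext; intro z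
    funext a
    apply Prod.ext
    · rfl
    · funext u e
      change thN Φ hι hs Y t (fun u' e' => c0 (Φ.hom f) u'.1 (z.2 u' e')) a u e =
        c0 f u.1 (thN Φ hι hs X t z.2 a u e)
      rw [thN_apply, thN_apply, map_smul, map_sum]
      congr 1
      refine Finset.sum_congr rfl fun u' _ => ?_
      rw [map_sum]
      refine Finset.sum_congr rfl fun e' _ => ?_
      rw [map_smul]
      rfl
  · intro s t e'
    rw [c1_comp, c1_comp, c1_theta, c1_theta, LinearMap.zero_comp, zero_add, LinearMap.comp_zero,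
      add_zero]
    apply LinearMap.ext; intro x
    funext a
    change (c1 (Φ.hom f) (s := ι s) (t := ι t) e' x : ∀ a : Φ.Nb (ι t), Y.V a.1) ⟨ι a.1, a.2⟩ =
      (c1 ((resD Φ hι hs).hom (resH ι f)) e' (fun b => x ⟨ι b.1, b.2⟩) :
        ∀ a : (resD Φ hι hs).Nb t, Y.V (ι a.1)) a
    rw [c1_hom_apply, sum_nb Φ hι hs s]
    exact (c1_hom_apply (resD Φ hι hs) (resH ι f) e' (fun b => x ⟨ι b.1, b.2⟩) a).symm
  · intro t
    rw [ci_comp, ci_comp, ci_theta, ci_theta, LinearMap.zero_comp, zero_add, LinearMap.comp_zero,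
      add_zero]
    apply LinearMap.ext; intro z
    funext a
    change Φ.ρ (ι a.1) (ι t) • ci f (ι a.1) (z.1 ⟨ι a.1, a.2⟩) +
      (∑ u' : Out ι, ∑ e' : G.E u'.1 (ι t), c1 (Φ.hom f) e' (z.2 u' e') :
        ∀ a : Φ.Nb (ι t), Y.V a.1) ⟨ι a.1, a.2⟩ =
      Φ.ρ (ι a.1) (ι t) • (ci f (ι a.1) (z.1 ⟨ι a.1, a.2⟩) +
        ∑ u : Out ι, ∑ e : G.E u.1 (ι a.1), c1 f e (thN Φ hι hs X t z.2 a u e))
    rw [smul_add]
    congr 1
    have hL : (∑ u' : Out ι, ∑ e' : G.E u'.1 (ι t), c1 (Φ.hom f) e' (z.2 u' e') :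
        ∀ a : Φ.Nb (ι t), Y.V a.1) ⟨ι a.1, a.2⟩ = ∑ u' : Out ι, ∑ b : Φ.Nb u'.1,
          ∑ e' : G.E u'.1 (ι t), ∑ e : G.E b.1 (ι a.1), Φ.chi e e' • c1 f e (z.2 u' e' b) := by
      rw [Finset.sum_apply]
      refine Finset.sum_congr rfl fun u' _ => ?_
      rw [Finset.sum_apply, Finset.sum_comm]
      exact Finset.sum_congr rfl fun e' _ => c1_hom_apply Φ f e' (z.2 u' e') ⟨ι a.1, a.2⟩
    rw [hL, sum_out Φ hs, Finset.smul_sum]
    refine Finset.sum_congr rfl fun u _ => ?_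
    have hR : (Φ.ρ (ι a.1) (ι t) • ∑ e : G.E u.1 (ι a.1), c1 f e (thN Φ hι hs X t z.2 a u e)) =
        ∑ e : G.E u.1 (ι a.1), ∑ u' : Φ.Nb u.1, ∑ e' : G.E u'.1 (ι t),
          Φ.chi e e' • c1 f e (z.2 ⟨u'.1, hs.out (Φ.symm u'.2) u.2⟩ e' ⟨u.1, Φ.symm u'.2⟩) := by
      rw [Finset.smul_sum]
      refine Finset.sum_congr rfl fun e _ => ?_
      rw [thN_apply, map_smul, smul_smul, mul_inv_cancel₀ (ρ_ne Φ _ _), one_smul, map_sum]
      refine Finset.sum_congr rfl fun u' _ => ?_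
      rw [map_sum]
      refine Finset.sum_congr rfl fun e' _ => ?_
      rw [map_smul]
    rw [hR, Finset.sum_comm]
    refine Finset.sum_congr rfl fun u' _ => ?_
    rw [Finset.sum_comm]
  · intro t
    rw [cj_comp, cj_comp, cj_theta, cj_theta, LinearMap.zero_comp, zero_add, LinearMap.comp_zero,
      add_zero]
    apply LinearMap.ext; intro z
    funext a
    apply Prod.ext
    · rfl
    · funext u e
      change thN Φ hι hs Y t (fun u' e' => c1 (Φ.hom f) (G.rev e') z) a u e =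
        Φ.ρ (ι a.1) (ι t) • c1 f (G.rev e) (z ⟨ι a.1, a.2⟩)
      rw [thN_apply]
      have h1 : (∑ u' : Φ.Nb u.1, ∑ e' : G.E u'.1 (ι t), Φ.chi e e' •
          (c1 (Φ.hom f) (G.rev e') z : ∀ a : Φ.Nb u'.1, Y.V a.1) ⟨u.1, Φ.symm u'.2⟩)
          = ∑ b : Φ.Nb (ι t), ∑ g : G.E u.1 b.1, (∑ u' : Φ.Nb u.1, ∑ e' : G.E u'.1 (ι t),
            Φ.chi e e' * Φ.chi (G.rev g) (G.rev e')) • c1 f (G.rev g) (z b) := by
        have h2 : ∀ (u' : Φ.Nb u.1) (e' : G.E u'.1 (ι t)), Φ.chi e e' •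
          (c1 (Φ.hom f) (G.rev e') z : ∀ a : Φ.Nb u'.1, Y.V a.1) ⟨u.1, Φ.symm u'.2⟩ =
          ∑ b : Φ.Nb (ι t), ∑ g : G.E u.1 b.1, (Φ.chi e e' * Φ.chi (G.rev g) (G.rev e')) •
            c1 f (G.rev g) (z b) := by
          intro u' e'
          rw [c1_hom_apply, Finset.smul_sum]
          refine Finset.sum_congr rfl fun b _ => ?_
          rw [← sum_rev (G := G) (fun g : G.E b.1 u.1 => Φ.chi g (G.rev e') • c1 f g (z b)),
            Finset.smul_sum]
          refine Finset.sum_congr rfl fun g _ => ?_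
          rw [smul_smul]
        rw [Finset.sum_congr rfl fun u' _ => Finset.sum_congr rfl fun e' _ => h2 u' e', swap4]
        simp only [Finset.sum_smul]
      have h3 := fun q => backR Φ (t := ι t) (u := u.1) ⟨⟨ι a.1, a.2⟩, e⟩ q
      rw [h1, ← Fintype.sum_sigma' (fun (b : Φ.Nb (ι t)) (g : G.E u.1 b.1) =>
        (∑ u' : Φ.Nb u.1, ∑ e' : G.E u'.1 (ι t),
            Φ.chi e e' * Φ.chi (G.rev g) (G.rev e')) • c1 f (G.rev g) (z b)),
        Finset.sum_eq_single (⟨⟨ι a.1, a.2⟩, e⟩ : Σ b : Φ.Nb (ι t), G.E u.1 b.1)]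
      · have h4 := h3 ⟨⟨ι a.1, a.2⟩, e⟩
        rw [if_pos rfl] at h4
        change _ = (Φ.ρ (ι a.1) (ι t)) ^ 2 at h4
        rw [h4, smul_smul]
        congr 1
        have := ρ_ne Φ (ι a.1) (ι t)
        field_simp
      · intro q _ hq
        have h4 := h3 q
        rw [if_neg hq] at h4
        rw [h4, zero_smul]
      · intro h; exact absurd (Finset.mem_univ _) h
  · intro t
    simp only [c2_comp, c2_theta, c1_theta, ci_theta, cj_theta, LinearMap.zero_comp,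
      LinearMap.comp_zero, Finset.sum_const_zero, zero_add, add_zero]
    rfl

theorem gam_theta (X : Gob G k) :
    gam (resG ι (Φ.ob X)) ≫ theta Φ hι hs X = theta Φ hι hs X ≫ gam _ := by
  have h := theta_nat Φ hι hs (gam X)
  rw [Φ.hom_gam, resH_gam, resH_gam, (resD Φ hι hs).hom_gam] at h
  exact h

theorem bar_theta (X : Gob G k) : bar (theta Φ hι hs X) = theta Φ hι hs X := by
  rw [bar, ← gam_theta, ← Category.assoc, gam_gam, Category.id_comp]

end theta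

/-! ### objects -/

section tob

variable (Φ : FDat G k) (hι : Function.Injective ι) (hs : Stab Φ ι)

include hs in
theorem ok_tob {X : TOb G k} (hX : Ok ι X) : Ok ι (Φ.tob X) := by
  intro u
  change dg (fun a : Φ.Nb u.1 => c0 X.d a.1) = 0
  rw [← dg_zero]
  congr 1
  funext a
  exact hX ⟨a.1, hs.out (Φ.symm a.2) u.2⟩

/-- **`Res (Φ X) ~ Φ (Res X)`** -/
theorem res_tob {X : TOb G k} (hX : Ok ι X) :
    HIso (resT hι (Φ.tob X) (ok_tob Φ hs hX)) ((resD Φ hι hs).tob (resT hι X hX)) :=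
  HIso.of_iso (theta Φ hι hs X.X) (thetaI Φ hι hs X.X) (bar_theta Φ hι hs X.X)
    (theta_nat Φ hι hs X.d).symm (theta_inv Φ hι hs X.X) (inv_theta Φ hι hs X.X)

/-- the same with an arbitrary proof of `Ok` -/
theorem res_tob' {X : TOb G k} (hX : Ok ι X) (hX' : Ok ι (Φ.tob X)) :
    HIso (resT hι (Φ.tob X) hX') ((resD Φ hι hs).tob (resT hι X hX)) :=
  res_tob Φ hι hs hX

end tob

section adj

variable (Φ : ADat G k) (hι : Function.Injective ι) (hs : Stab Φ.toFDat ι)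

theorem resA_toFDat : (resA Φ hι hs).toFDat = resD Φ.toFDat hι hs := rfl

/-- `hT Z (Res (Φ Y)) = hT (Φ Z) (Res Y)` -/
theorem hT_res_right {Y : TOb G k} (hY : Ok ι Y) (hY' : Ok ι (Φ.FT Y)) (Z : TOb (comap G ι) k) :
    hT Z (resT hι (Φ.FT Y) hY') = hT ((resA Φ hι hs).FT Z) (resT hι Y hY) := by
  rw [(res_tob' Φ.toFDat hι hs hY hY').hT_right Z, ADat.hT_FT]
  rfl

/-- `hT (Res (Φ X)) Z = hT (Res X) (Φ Z)` -/
theorem hT_res_left {X : TOb G k} (hX : Ok ι X) (hX' : Ok ι (Φ.FT X)) (Z : TOb (comap G ι) k) :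
    hT (resT hι (Φ.FT X) hX') Z = hT (resT hι X hX) ((resA Φ hι hs).FT Z) := by
  rw [(res_tob' Φ.toFDat hι hs hX hX').hT_left Z, ← ADat.hT_FT]
  rfl

end adj

end Crest.Agent.R175.FmRes_663
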