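import Crest.Agent.R175.TUh_988
import Crest.Agent.R175.FmU_83
import Crest.Agent.R175.TwR_250
import Crest.Agent.R175.TUc_61
import Crest.Agent.R175.ActC_788

/-!
# `F_m (TU U X) ≅ TU U (F_m X)` (row 175, item (c) of RULING 10, helper774)

`FT_TU Φ U hU hN X : HIso (Φ.FT (TU U hU X)) (TU U hU (Φ.FT X))`;
`hF_P` : field `hF` of `ActC_788.actI` over `TUc_61.P`; `actP` : the level action.
-/

set_option autoImplicit false
set_option linter.unusedSectionVars false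
set_option linter.unusedVariables false

open CategoryTheory

namespace Crest.Agent.R175.FmTU_774

open Crest.Agent.R175.PTA Crest.Agent.R175.TwG_253 Crest.Agent.R175.Fm_27
open Crest.Agent.R175.TwA_253 (Tw Sum2 Sph)
open Crest.Agent.R175.FmT_83 (TwComm)
open Crest.Agent.R175.TwS_83 (SI)
open Crest.Agent.R175.TU_788 Crest.Agent.R175.TUh_988

section gen

variable {T : Type} {G : MG T} {k : Type} [Field k] [Fintype T] (Φ : ADat G k)

/-- `toTw (F X) ≅ F (toTw X)` by the identity -/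
def siF (X : TOb G k) : SI (toTw (Φ.tob X)) ((FmU_83.addF Φ).tw (toTw X)) where
  f := 𝟙 (Φ.ob X.X)
  g := 𝟙 (Φ.ob X.X)
  fg := Category.id_comp _
  gf := Category.id_comp _
  fe := by
    have h1 : 𝟙 (Φ.ob X.X) ≫ Φ.hom (gam X.X) = gam (Φ.ob X.X) ≫ 𝟙 (Φ.ob X.X) := by
      rw [Category.id_comp, Category.comp_id, Φ.hom_gam]
    exact h1
  fd := by
    have h1 : 𝟙 (Φ.ob X.X) ≫ Φ.hom X.d = Φ.hom X.d ≫ 𝟙 (Φ.ob X.X) := by
      rw [Category.id_comp, Category.comp_id]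
    exact h1

theorem heq_F (X : TOb G k) : TwA_253.HEq (toTw (Φ.tob X)) ((FmU_83.addF Φ).tw (toTw X)) :=
  (siF Φ X).heq

theorem comm_gen (F : Sph (Gob G k)) (P : TwComm (FmU_83.addF Φ) F F) (X Y Z : TOb G k)
    (S : Sum2 (F.Q (toTw X).X) (toTw X).X)
    (S' : Sum2 (F.Q (toTw (Φ.tob X)).X) (toTw (Φ.tob X)).X)
    (hY : TwA_253.HEq (toTw Y) (TwA_253.T F (toTw X) S))
    (hZ : TwA_253.HEq (toTw Z) (TwA_253.T F (toTw (Φ.tob X)) S')) : HIso (Φ.tob Y) Z := by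
  apply hiso_of_heq'
  have h1 := (heq_F Φ Y).trans ((FmU_83.addF Φ).heq hY)
  have h2 := (P.si (X := toTw X) S (sm _ _)).heq
  have h3 := T_heq (F := F) (heq_F Φ X).symm (sm _ _) S'
  exact h1.trans (h2.trans (h3.trans hZ.symm))

variable (U : T → Prop) (hU : ∀ s t, U s → U t → IsEmpty (G.E s t))

/-- **`F (T_U X) ≅ T_U (F X)`** -/
theorem tob_TU (hN : ∀ a b, Φ.N a b → U a → U b) (X : TOb G k) :
    HIso (Φ.tob (TU U hU X)) (TU U hU (Φ.tob X)) :=
  comm_gen Φ (sphG U hU) (FmU_83.twComm Φ U hU hN) X (TU U hU X) (TU U hU (Φ.tob X)) (sm _ _)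
    (sm _ _) (heq_TU U hU X) (heq_TU U hU (Φ.tob X))

end gen

end Crest.Agent.R175.FmTU_774
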