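import Crest.Agent.R175.TwS_83

/-!
# Additive functors and twists, abstract part (row 175, helper83)

`AddF C C'` : additive functor (bare data); `AddF.tw` : its action on differential objects.
`TwComm Φ F F'` : natural isomorphism `κ : Φ Q A ≅ Q' Φ A` compatible with the counits;
**`TwComm.si : SI (Φ.tw (T F X S)) (T F' (Φ.tw X) S')`** (strict isomorphism `Φ T_U X ≅ T_U' Φ X`).
-/

universe v v' u u'

namespace Crest.Agent.R175.FmT_83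

open CategoryTheory Preadditive
open Crest.Agent.R175.TwA_253 Crest.Agent.R175.TwS_83

variable {C : Type u} [Category.{v} C] [Preadditive C]
  {C' : Type u'} [Category.{v'} C'] [Preadditive C']

variable (C C') in
/-- additive functor -/
structure AddF where
  o : C → C'
  h : ∀ {A B : C}, (A ⟶ B) → (o A ⟶ o B)
  h_id : ∀ A : C, h (𝟙 A) = 𝟙 (o A)
  h_comp : ∀ {A B E : C} (f : A ⟶ B) (g : B ⟶ E), h (f ≫ g) = h f ≫ h g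
  h_add : ∀ {A B : C} (f g : A ⟶ B), h (f + g) = h f + h g

namespace AddF

attribute [simp] h_id
attribute [reassoc] h_comp

variable (Φ : AddF C C')

@[simp] theorem h_zero (A B : C) : Φ.h (0 : A ⟶ B) = 0 := by
  have h := Φ.h_add (0 : A ⟶ B) 0
  rw [add_zero] at h
  exact left_eq_add.1 h

theorem h_neg {A B : C} (f : A ⟶ B) : Φ.h (-f) = - Φ.h f := by
  have h := Φ.h_add f (-f)
  rw [add_neg_cancel, Φ.h_zero] at h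
  exact (neg_eq_of_add_eq_zero_right h.symm).symm

theorem h_sub {A B : C} (f g : A ⟶ B) : Φ.h (f - g) = Φ.h f - Φ.h g := by
  rw [sub_eq_add_neg, Φ.h_add, Φ.h_neg, sub_eq_add_neg]

/-- action on differential objects -/
abbrev tw (X : Tw C) : Tw C' where
  X := Φ.o X.X
  e := Φ.h X.e
  d := Φ.h X.d
  ee := by rw [← Φ.h_comp, X.ee, Φ.h_id]
  dd := by rw [← Φ.h_comp, X.dd, Φ.h_zero]
  de := by rw [← Φ.h_comp, ← Φ.h_comp, X.de, Φ.h_neg]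

theorem h_bar {X Y : Tw C} (f : X.X ⟶ Y.X) : Φ.h (bar X Y f) = bar (Φ.tw X) (Φ.tw Y) (Φ.h f) := by
  unfold bar
  rw [Φ.h_comp, Φ.h_comp]

theorem h_D {X Y : Tw C} (f : X.X ⟶ Y.X) : Φ.h (D X Y f) = D (Φ.tw X) (Φ.tw Y) (Φ.h f) := by
  unfold D
  rw [Φ.h_sub, Φ.h_comp, Φ.h_comp, Φ.h_bar]

theorem heq {X Y : Tw C} (H : TwA_253.HEq X Y) : TwA_253.HEq (Φ.tw X) (Φ.tw Y) := by
  obtain ⟨f, g, h, h', a, b, c, d, e, e'⟩ := H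
  refine ⟨Φ.h f, Φ.h g, Φ.h h, Φ.h h', ?_, ?_, ?_, ?_, ?_, ?_⟩
  · rw [← Φ.h_bar, a]
  · rw [← Φ.h_bar, b]
  · rw [← Φ.h_D, c, Φ.h_zero]
  · rw [← Φ.h_D, d, Φ.h_zero]
  · rw [← Φ.h_D]
    change Φ.h f ≫ Φ.h g = 𝟙 (Φ.o X.X) + Φ.h (D X X h)
    rw [← Φ.h_comp, e, Φ.h_add, Φ.h_id]
  · rw [← Φ.h_D]
    change Φ.h g ≫ Φ.h f = 𝟙 (Φ.o Y.X) + Φ.h (D Y Y h')
    rw [← Φ.h_comp, e', Φ.h_add, Φ.h_id]

/-- strict isomorphisms -/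
def si {X Y : Tw C} (s : SI X Y) : SI (Φ.tw X) (Φ.tw Y) where
  f := Φ.h s.f
  g := Φ.h s.g
  fg := by rw [← Φ.h_comp, s.fg, Φ.h_id]
  gf := by rw [← Φ.h_comp, s.gf, Φ.h_id]
  fe := by
    change Φ.h s.f ≫ Φ.h Y.e = Φ.h X.e ≫ Φ.h s.f
    rw [← Φ.h_comp, ← Φ.h_comp, s.fe]
  fd := by
    change Φ.h s.f ≫ Φ.h Y.d = Φ.h X.d ≫ Φ.h s.f
    rw [← Φ.h_comp, ← Φ.h_comp, s.fd]

/-- the image of a direct sum -/
abbrev sum2 {A B : C} (S : Sum2 A B) : Sum2 (Φ.o A) (Φ.o B) where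
  S := Φ.o S.S
  inl := Φ.h S.inl
  inr := Φ.h S.inr
  fst := Φ.h S.fst
  snd := Φ.h S.snd
  inl_fst := by rw [← Φ.h_comp, S.inl_fst, Φ.h_id]
  inl_snd := by rw [← Φ.h_comp, S.inl_snd, Φ.h_zero]
  inr_fst := by rw [← Φ.h_comp, S.inr_fst, Φ.h_zero]
  inr_snd := by rw [← Φ.h_comp, S.inr_snd, Φ.h_id]
  total := by rw [← Φ.h_comp, ← Φ.h_comp, ← Φ.h_add, S.total, Φ.h_id]

end AddF

/-- `Φ` commutes with `Q`, compatibly with the counits -/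
structure TwComm (Φ : AddF C C') (F : Sph C) (F' : Sph C') where
  κ : ∀ A : C, Φ.o (F.Q A) ⟶ F'.Q (Φ.o A)
  l : ∀ A : C, F'.Q (Φ.o A) ⟶ Φ.o (F.Q A)
  κ_l : ∀ A, κ A ≫ l A = 𝟙 _
  l_κ : ∀ A, l A ≫ κ A = 𝟙 _
  κ_nat : ∀ {A B : C} (f : A ⟶ B), Φ.h (F.m f) ≫ κ B = κ A ≫ F'.m (Φ.h f)
  κ_eps : ∀ A, κ A ≫ F'.eps (Φ.o A) = Φ.h (F.eps A)

namespace TwComm

attribute [reassoc (attr := simp)] κ_l l_κ
attribute [reassoc] κ_nat κ_eps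

variable {Φ : AddF C C'} {F : Sph C} {F' : Sph C'} (P : TwComm Φ F F')

variable {X : Tw C} (S : Sum2 (F.Q X.X) X.X) (S' : Sum2 (F'.Q (Φ.tw X).X) (Φ.tw X).X)

/-- `Φ T X → T' Φ X` -/
def cf : (Φ.sum2 S).S ⟶ S'.S :=
  (Φ.sum2 S).fst ≫ P.κ X.X ≫ S'.inl + (Φ.sum2 S).snd ≫ S'.inr

/-- `T' Φ X → Φ T X` -/
def cg : S'.S ⟶ (Φ.sum2 S).S :=
  S'.fst ≫ P.l X.X ≫ (Φ.sum2 S).inl + S'.snd ≫ (Φ.sum2 S).inr

@[reassoc] theorem inl_cf : (Φ.sum2 S).inl ≫ P.cf S S' = P.κ X.X ≫ S'.inl := by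
  unfold cf
  rw [Preadditive.comp_add, (Φ.sum2 S).inl_fst_assoc, (Φ.sum2 S).inl_snd_assoc]
  simp

@[reassoc] theorem inr_cf : (Φ.sum2 S).inr ≫ P.cf S S' = S'.inr := by
  unfold cf
  rw [Preadditive.comp_add, (Φ.sum2 S).inr_fst_assoc, (Φ.sum2 S).inr_snd_assoc]
  simp

@[reassoc] theorem inl_cg : S'.inl ≫ P.cg S S' = P.l X.X ≫ (Φ.sum2 S).inl := by
  unfold cg
  rw [Preadditive.comp_add, S'.inl_fst_assoc, S'.inl_snd_assoc]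
  simp

@[reassoc] theorem inr_cg : S'.inr ≫ P.cg S S' = (Φ.sum2 S).inr := by
  unfold cg
  rw [Preadditive.comp_add, S'.inr_fst_assoc, S'.inr_snd_assoc]
  simp

@[reassoc] theorem tw_e_inl : (Φ.sum2 S).inl ≫ (Φ.tw (T F X S)).e =
    -(Φ.h (F.m X.e) ≫ (Φ.sum2 S).inl) := by
  change Φ.h S.inl ≫ Φ.h (T F X S).e = -(Φ.h (F.m X.e) ≫ Φ.h S.inl)
  rw [← Φ.h_comp, T_e_inl, Φ.h_neg, Φ.h_comp]

@[reassoc] theorem tw_e_inr : (Φ.sum2 S).inr ≫ (Φ.tw (T F X S)).e =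
    Φ.h X.e ≫ (Φ.sum2 S).inr := by
  change Φ.h S.inr ≫ Φ.h (T F X S).e = Φ.h X.e ≫ Φ.h S.inr
  rw [← Φ.h_comp, T_e_inr, Φ.h_comp]

@[reassoc] theorem tw_d_inl : (Φ.sum2 S).inl ≫ (Φ.tw (T F X S)).d =
    -(Φ.h (F.m X.d) ≫ (Φ.sum2 S).inl) + Φ.h (F.eps X.X) ≫ (Φ.sum2 S).inr := by
  change Φ.h S.inl ≫ Φ.h (T F X S).d = -(Φ.h (F.m X.d) ≫ Φ.h S.inl)
    + Φ.h (F.eps X.X) ≫ Φ.h S.inr
  rw [← Φ.h_comp, T_d_inl, Φ.h_add, Φ.h_neg, Φ.h_comp, Φ.h_comp]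

@[reassoc] theorem tw_d_inr : (Φ.sum2 S).inr ≫ (Φ.tw (T F X S)).d =
    Φ.h X.d ≫ (Φ.sum2 S).inr := by
  change Φ.h S.inr ≫ Φ.h (T F X S).d = Φ.h X.d ≫ Φ.h S.inr
  rw [← Φ.h_comp, T_d_inr, Φ.h_comp]

/-- **`Φ T_U X ≅ T_U Φ X`** -/
def si : SI (Φ.tw (T F X S)) (T F' (Φ.tw X) S') where
  f := P.cf S S'
  g := P.cg S S'
  fg := by
    apply (Φ.sum2 S).ext
    · rw [P.inl_cf_assoc, P.inl_cg, P.κ_l_assoc]; exact (Category.comp_id _).symm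
    · rw [P.inr_cf_assoc, P.inr_cg]; exact (Category.comp_id _).symm
  gf := by
    apply S'.ext
    · rw [P.inl_cg_assoc, P.inl_cf, P.l_κ_assoc, Category.comp_id]
    · rw [P.inr_cg_assoc, P.inr_cf, Category.comp_id]
  fe := by
    apply (Φ.sum2 S).ext
    · rw [P.inl_cf_assoc, T_e_inl, tw_e_inl_assoc, Preadditive.neg_comp, Category.assoc,
        P.inl_cf, P.κ_nat_assoc, Preadditive.comp_neg]
    · rw [P.inr_cf_assoc, T_e_inr, tw_e_inr_assoc, P.inr_cf]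
  fd := by
    apply (Φ.sum2 S).ext
    · rw [P.inl_cf_assoc, T_d_inl, tw_d_inl_assoc, Preadditive.add_comp, Preadditive.neg_comp,
        Category.assoc, Category.assoc, P.inl_cf, P.inr_cf, P.κ_nat_assoc,
        Preadditive.comp_add, Preadditive.comp_neg, ← P.κ_eps, Category.assoc]
    · rw [P.inr_cf_assoc, T_d_inr, tw_d_inr_assoc, P.inr_cf]

end TwComm

end Crest.Agent.R175.FmT_83
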