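import Mathlib

/-!
# R175 (S0264) : first letters in a free group

`st w` : the reduced word of `w` starts with a letter `true^{±1}` (expressed through the last letter
of the reduced word of `w⁻¹`).  `finite_bad` : almost invariance under right multiplication.
-/

set_option autoImplicit false

namespace Crest.Agent.R175.Free

open FreeGroup

/-- The reduced word of `w` starts with a letter of type `true`. -/
def st (w : FreeGroup Bool) : Prop := ∃ e : Bool, (w⁻¹).toWord.getLast? = some (true, e)

theorem toWord_letter_mul (x : Bool × Bool) (v : FreeGroup Bool) :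
    (mk [x] * v).toWord = x :: v.toWord ∨
      ∃ tl, v.toWord = (x.1, !x.2) :: tl ∧ (mk [x] * v).toWord = tl := by
  have h1 : (mk [x] * v).toWord = reduce (x :: v.toWord) := by
    have : mk [x] * v = mk (x :: v.toWord) := by
      conv_lhs => rw [← mk_toWord (x := v)]
      rw [mul_mk]; rfl
    rw [this, toWord_mk]
  have h2 : reduce v.toWord = v.toWord := reduce_toWord v
  rw [h1, reduce.cons, h2]
  rcases hv : v.toWord with _ | ⟨y, tl⟩
  · left; rfl
  · simp only
    split_ifs with h
    · right
      refine ⟨tl, ?_, rfl⟩
      obtain ⟨ha, hb⟩ := h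
      have : y = (x.1, !x.2) := by
        ext
        · exact ha.symm
        · rw [hb]; simp
      rw [this]
    · left; rfl

theorem getLast?_letter_mul (x : Bool × Bool) (v : FreeGroup Bool) (hv : 2 ≤ v.toWord.length) :
    (mk [x] * v).toWord.getLast? = v.toWord.getLast? := by
  rcases toWord_letter_mul x v with h | ⟨tl, h1, h2⟩
  · rw [h, List.getLast?_cons]
    rcases hv' : v.toWord.getLast? with _ | y
    · rw [List.getLast?_eq_none_iff] at hv'
      rw [hv'] at hv
      simp at hv
    · simp
  · rw [h2, h1, List.getLast?_cons]
    rw [h1] at hv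
    rcases htl : tl.getLast? with _ | y
    · rw [List.getLast?_eq_none_iff] at htl
      rw [htl] at hv
      simp at hv
    · simp

/-- Words of bounded length form a finite set. -/
theorem finite_short (n : ℕ) : {w : FreeGroup Bool | w.toWord.length ≤ n}.Finite := by
  have h : {l : List (Bool × Bool) | l.length ≤ n}.Finite := List.finite_length_le _ n
  refine Set.Finite.of_finite_image (f := toWord) (h.subset ?_) (toWord_injective.injOn)
  rintro _ ⟨w, hw, rfl⟩
  exact hw

theorem finite_bad (f : FreeGroup Bool) : {w : FreeGroup Bool | st w ∧ ¬ st (w * f)}.Finite := by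
  -- single letters
  have hletter : ∀ x : Bool × Bool, {w : FreeGroup Bool | st w ∧ ¬ st (w * (mk [x])⁻¹)}.Finite := by
    intro x
    have h := (finite_short 1).image (fun w => w⁻¹)
    refine h.subset ?_
    rintro w ⟨⟨e, he⟩, hw2⟩
    refine ⟨w⁻¹, ?_, inv_inv w⟩
    by_contra hlen
    have hlen2 : 2 ≤ (w⁻¹).toWord.length := by
      have : ¬ (w⁻¹).toWord.length ≤ 1 := hlen
      omega
    apply hw2
    refine ⟨e, ?_⟩
    rw [mul_inv_rev, inv_inv, getLast?_letter_mul x _ hlen2, he]
  -- products
  have hmul : ∀ f g : FreeGroup Bool, {w : FreeGroup Bool | st w ∧ ¬ st (w * f)}.Finite →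
      {w : FreeGroup Bool | st w ∧ ¬ st (w * g)}.Finite →
      {w : FreeGroup Bool | st w ∧ ¬ st (w * (f * g))}.Finite := by
    intro f g hf hg
    refine (hf.union (hg.image fun w => w * f⁻¹)).subset ?_
    rintro w ⟨h1, h2⟩
    by_cases h3 : st (w * f)
    · right
      refine ⟨w * f, ⟨h3, ?_⟩, by group⟩
      rwa [mul_assoc]
    · left
      exact ⟨h1, h3⟩
  induction f using FreeGroup.induction_on with
  | C1 =>
    have : {w : FreeGroup Bool | st w ∧ ¬ st (w * 1)} = ∅ := by
      ext w; simp
    rw [this]
    exact Set.finite_empty
  | of x =>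
    have h := hletter (x, false)
    have e : (mk [(x, false)])⁻¹ = of x := by
      rw [inv_mk]; rfl
    rwa [e] at h
  | inv_of x _ =>
    have h := hletter (x, true)
    exact h
  | mul x y hx hy => exact hmul x y hx hy

/-- `of true ^ n` starts with `true`. -/
theorem st_pow {n : ℕ} (hn : 0 < n) : st (of true ^ n) := by
  refine ⟨false, ?_⟩
  rw [toWord_inv, toWord_of_pow]
  unfold invRev
  rw [List.map_replicate, List.reverse_replicate]
  have : n ≠ 0 := hn.ne'
  simp [List.getLast?_replicate, this]

/-- conjugates by `of false` do not start with `true`. -/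
theorem not_st_conj {n : ℕ} (hn : 0 < n) :
    ¬ st (of false * of true ^ n * (of false)⁻¹) := by
  rintro ⟨e, he⟩
  have h1 : of false * of true ^ n * (of false)⁻¹
      = mk ((false, true) :: (List.replicate n (true, true) ++ [(false, false)])) := by
    have e2 : (of true : FreeGroup Bool) ^ n = mk (List.replicate n (true, true)) := by
      have := mk_toWord (x := (of true : FreeGroup Bool) ^ n)
      rw [toWord_of_pow] at this
      exact this.symm
    have e3 : (of false : FreeGroup Bool)⁻¹ = mk [(false, false)] := by
      show (mk [(false, true)])⁻¹ = _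
      rw [inv_mk]; rfl
    rw [e2, e3]
    show mk [(false, true)] * mk _ * mk _ = _
    rw [mul_mk, mul_mk]
    simp
  have hred : FreeGroup.IsReduced ((false, true) :: (List.replicate n (true, true) ++ [(false, false)])) := by
    obtain ⟨m, rfl⟩ : ∃ m, n = m + 1 := ⟨n - 1, by omega⟩
    unfold FreeGroup.IsReduced
    rw [List.isChain_cons, List.isChain_append]
    refine ⟨?_, List.isChain_replicate_of_rel _ (fun _ => rfl), List.isChain_singleton _, ?_⟩
    · intro y hy
      rw [List.replicate_succ] at hy
      simp only [List.cons_append, List.head?_cons, Option.mem_def, Option.some.injEq] at hy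
      rw [← hy]
      simp
    · intro x hx y hy
      rw [List.getLast?_replicate] at hx
      simp at hx hy
      rw [← hx, ← hy]
      simp
  have h2 : (of false * of true ^ n * (of false)⁻¹).toWord
      = (false, true) :: (List.replicate n (true, true) ++ [(false, false)]) := by
    rw [h1, toWord_mk, hred.reduce_eq]
  rw [toWord_inv, h2] at he
  unfold invRev at he
  rw [List.map_cons, List.reverse_cons, List.getLast?_append] at he
  simp at he

end Crest.Agent.R175.Free
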