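import Crest.Agent.R175.GLat_145
import Mathlib.GroupTheory.OreLocalization.Basic

/-!
Row 175, Track D: the Artin monoid of spherical type embeds in the Artin group; the lattice order
of the group (helper145).
-/

set_option autoImplicit false

namespace Crest.Agent.R175.GGrp_145

open Crest.GroupTheory
open Crest.Agent.R175.DDef_145 Crest.Agent.R175.DW_145 Crest.Agent.R175.GPL_145
open Crest.Agent.R175.GMon_145 Crest.Agent.R175.GLat_145

variable {S : Type*} {M : CoxeterMatrix S} {W : Type*} [Group W] {cs : CoxeterSystem M W}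
variable (D : Dat cs)

/-- the natural map from the monoid to the group -/
def toG (M : CoxeterMatrix S) : AM M →* ArtinGroup M := amLift (artinGen M) (braid_artinGen M)

@[simp] theorem toG_at (s : S) : toG M (at' M s) = artinGen M s := amLift_at _ _ _

/-! ### Injectivity -/

@[reducible] noncomputable def oreC : OreLocalization.OreSet (Submonoid.powers (Om D)) where
  ore_right_cancel r₁ r₂ s h := ⟨s, by rw [mul_right_cancel'' D h]⟩
  oreNum r _ := r
  oreDenom _ s := s
  ore_eq r s := by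
    obtain ⟨s, n, rfl⟩ := s
    have h : Commute r (Om D) := Om_central D r
    exact ((h.pow_right n).eq).symm

theorem at_unit [OreLocalization.OreSet (Submonoid.powers (Om D))] (s : S) :
    IsUnit (OreLocalization.numeratorHom (at' M s) :
      OreLocalization (Submonoid.powers (Om D)) (AM M)) := by
  obtain ⟨c, hc⟩ : at' M s ∣ Om D := (at_dvd_Dl D s).trans (Dvd.intro _ rfl)
  have hc' : c * at' M s = Om D := by
    apply mul_left_cancel' D (z := at' M s)
    rw [← mul_assoc, ← hc, Om_central]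
  have hu : IsUnit (OreLocalization.numeratorHom (Om D) :
      OreLocalization (Submonoid.powers (Om D)) (AM M)) :=
    OreLocalization.numerator_isUnit (S := Submonoid.powers (Om D)) ⟨Om D, Submonoid.mem_powers _⟩
  obtain ⟨u, hu⟩ := hu
  rw [isUnit_iff_exists_and_exists]
  constructor
  · refine ⟨OreLocalization.numeratorHom c *
      ((u⁻¹ : (OreLocalization (Submonoid.powers (Om D)) (AM M))ˣ) :
        OreLocalization (Submonoid.powers (Om D)) (AM M)), ?_⟩
    rw [← mul_assoc, ← map_mul, ← hc, ← hu, Units.mul_inv]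
  · refine ⟨((u⁻¹ : (OreLocalization (Submonoid.powers (Om D)) (AM M))ˣ) :
        OreLocalization (Submonoid.powers (Om D)) (AM M)) *
        OreLocalization.numeratorHom c, ?_⟩
    rw [mul_assoc, ← map_mul, hc', ← hu, Units.inv_mul]

include D in
theorem toG_injective : Function.Injective (toG M) := by
  letI := oreC D
  let H := OreLocalization (Submonoid.powers (Om D)) (AM M)
  let num : AM M →* H := OreLocalization.numeratorHom
  let f : S → Hˣ := fun s => (at_unit D s).unit
  have hf : ∀ s, ((f s : Hˣ) : H) = num (at' M s) := fun s => (at_unit D s).unit_spec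
  have hb : Braid M f := by
    intro s t h
    apply Units.ext
    have e : ∀ l : List S, (((l.map f).prod : Hˣ) : H) = num ((l.map (at' M)).prod) := by
      intro l
      induction l with
      | nil => simp
      | cons a l ih => simp only [List.map_cons, List.prod_cons, Units.val_mul, map_mul, ih, hf]
    rw [e, e, braid_at s t h]
  have hcomp : ∀ z, ((artinLift M f hb (toG M z) : Hˣ) : H) = num z := by
    intro z
    induction z using induction_left with
    | h1 => simp
    | h2 s z ih =>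
      rw [map_mul, map_mul, Units.val_mul, ih, toG_at, artinLift_gen, hf, map_mul]
  intro x y hxy
  have h1 : num x = num y := by rw [← hcomp x, hxy, hcomp y]
  change OreLocalization.numeratorHom x = OreLocalization.numeratorHom y at h1
  rw [OreLocalization.numeratorHom_apply, OreLocalization.numeratorHom_apply,
    OreLocalization.oreDiv_eq_iff] at h1
  obtain ⟨u, v, h2, h3⟩ := h1
  have h4 : (u : AM M) = v := by simpa using h3
  have h5 : (u : AM M) * y = v * x := h2
  rw [← h4] at h5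
  exact (mul_left_cancel' D h5).symm

/-! ### The order of the group -/

/-- `x ≤ y` iff `x⁻¹ y` is positive -/
def Gle (x y : ArtinGroup M) : Prop := ∃ z : AM M, y = x * toG M z

theorem Gle.refl (x : ArtinGroup M) : Gle x x := ⟨1, by simp⟩

theorem Gle.trans {x y z : ArtinGroup M} (h : Gle x y) (h' : Gle y z) : Gle x z := by
  obtain ⟨a, rfl⟩ := h
  obtain ⟨b, rfl⟩ := h'
  exact ⟨a * b, by rw [map_mul, mul_assoc]⟩

theorem Gle_mul_left {c x y : ArtinGroup M} : Gle (c * x) (c * y) ↔ Gle x y := by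
  constructor
  · rintro ⟨z, hz⟩
    exact ⟨z, mul_left_cancel (by rw [hz, mul_assoc])⟩
  · rintro ⟨z, rfl⟩
    exact ⟨z, by rw [mul_assoc]⟩

include D in
theorem toG_Gle_iff {x y : AM M} : Gle (toG M x) (toG M y) ↔ x ∣ y := by
  constructor
  · rintro ⟨z, hz⟩
    rw [← map_mul] at hz
    exact ⟨z, toG_injective D hz⟩
  · rintro ⟨z, rfl⟩
    exact ⟨z, map_mul _ _ _⟩

include D in
theorem Gle.antisymm {x y : ArtinGroup M} (h : Gle x y) (h' : Gle y x) : x = y := by
  obtain ⟨a, rfl⟩ := h
  obtain ⟨b, hb⟩ := h'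
  rw [mul_assoc, ← map_mul] at hb
  have h1 : toG M (a * b) = toG M 1 := by
    rw [map_one]
    exact mul_left_cancel (a := x) (by rw [mul_one]; exact hb.symm)
  have h2 := toG_injective D h1
  have h3 : deg (a * b) = 0 := by rw [h2]; simp
  rw [deg_mul] at h3
  rw [eq_one_of_deg (z := a) (by omega)]; simp

/-- the central element of the group -/
noncomputable def OmG : ArtinGroup M := toG M (Om D)

theorem closure_gen : Subgroup.closure (Set.range (artinGen M)) = ⊤ :=
  PresentedGroup.closure_range_of _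

theorem OmG_central (g : ArtinGroup M) : Commute g (OmG D) := by
  have h : g ∈ Subgroup.closure (Set.range (artinGen M)) := by rw [closure_gen]; trivial
  induction h using Subgroup.closure_induction with
  | mem x hx =>
    obtain ⟨s, rfl⟩ := hx
    unfold OmG Commute SemiconjBy
    rw [← toG_at, ← map_mul, ← map_mul, Om_central]
  | one => exact Commute.one_left _
  | mul x y _ _ hx hy => exact hx.mul_left hy
  | inv x _ hx => exact hx.inv_left

theorem OmG_pow_mul (g : ArtinGroup M) (n : ℕ) : OmG D ^ n * g = g * OmG D ^ n :=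
  ((OmG_central D g).pow_right n).eq.symm

/-- every element becomes positive after multiplication by a power of the central element -/
theorem exists_pos (g : ArtinGroup M) : ∃ (n : ℕ) (z : AM M), OmG D ^ n * g = toG M z := by
  have h : g ∈ Subgroup.closure (Set.range (artinGen M)) := by rw [closure_gen]; trivial
  induction h using Subgroup.closure_induction'' with
  | mem x hx =>
    obtain ⟨s, rfl⟩ := hx
    exact ⟨0, at' M s, by simp⟩
  | inv_mem x hx =>
    obtain ⟨s, rfl⟩ := hx
    obtain ⟨c, hc⟩ : at' M s ∣ Om D := (at_dvd_Dl D s).trans (Dvd.intro _ rfl)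
    refine ⟨1, c, ?_⟩
    rw [pow_one, ← (OmG_central D _).eq]
    unfold OmG
    rw [hc, map_mul, toG_at, inv_mul_cancel_left]
  | one => exact ⟨0, 1, by simp⟩
  | mul x y _ _ hx hy =>
    obtain ⟨n, a, ha⟩ := hx
    obtain ⟨m, b, hb⟩ := hy
    refine ⟨n + m, a * b, ?_⟩
    rw [pow_add, map_mul, ← ha, ← hb, mul_assoc, ← mul_assoc (OmG D ^ m) x y,
      OmG_pow_mul D x m]
    simp only [mul_assoc]

/-- simultaneous version with a larger exponent -/
theorem exists_pos_of_le {g : ArtinGroup M} {n : ℕ} {z : AM M} (h : OmG D ^ n * g = toG M z)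
    (m : ℕ) : OmG D ^ (m + n) * g = toG M (Om D ^ m * z) := by
  rw [pow_add, mul_assoc, h, map_mul, map_pow]; rfl

theorem exists_pos₃ (x y e : ArtinGroup M) : ∃ (n : ℕ) (a b c : AM M),
    OmG D ^ n * x = toG M a ∧ OmG D ^ n * y = toG M b ∧ OmG D ^ n * e = toG M c := by
  obtain ⟨n1, a, ha⟩ := exists_pos D x
  obtain ⟨n2, b, hb⟩ := exists_pos D y
  obtain ⟨n3, c, hc⟩ := exists_pos D e
  refine ⟨n1 + n2 + n3, Om D ^ (n2 + n3) * a, Om D ^ (n1 + n3) * b, Om D ^ (n1 + n2) * c,
    ?_, ?_, ?_⟩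
  · rw [← exists_pos_of_le D ha]; congr 2; ring
  · rw [← exists_pos_of_le D hb]; congr 2; ring
  · rw [← exists_pos_of_le D hc]

include D in
/-- greatest lower bounds in the group -/
theorem exists_glb (x y : ArtinGroup M) : ∃ m, Gle m x ∧ Gle m y ∧
    ∀ e, Gle e x → Gle e y → Gle e m := by
  obtain ⟨n, a, b, -, ha, hb, -⟩ := exists_pos₃ D x y 1
  obtain ⟨d, hd1, hd2, hd3⟩ := exists_gcd D a b
  have hx : x = (OmG D ^ n)⁻¹ * toG M a := by rw [← ha]; group
  have hy : y = (OmG D ^ n)⁻¹ * toG M b := by rw [← hb]; group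
  refine ⟨(OmG D ^ n)⁻¹ * toG M d, ?_, ?_, fun e hex hey => ?_⟩
  · rw [hx, Gle_mul_left, toG_Gle_iff D]; exact hd1
  · rw [hy, Gle_mul_left, toG_Gle_iff D]; exact hd2
  · obtain ⟨k, c, hc⟩ := exists_pos D e
    -- exponents `k + n`
    have h1 : OmG D ^ (n + k) * e = toG M (Om D ^ n * c) := exists_pos_of_le D hc n
    have h2 : OmG D ^ (n + k) * x = toG M (Om D ^ k * a) := by
      rw [add_comm]; exact exists_pos_of_le D ha k
    have h3 : OmG D ^ (n + k) * y = toG M (Om D ^ k * b) := by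
      rw [add_comm]; exact exists_pos_of_le D hb k
    have h4 : Om D ^ n * c ∣ Om D ^ k * a := by
      rw [← toG_Gle_iff D, ← h1, ← h2, Gle_mul_left]; exact hex
    have h5 : Om D ^ n * c ∣ Om D ^ k * b := by
      rw [← toG_Gle_iff D, ← h1, ← h3, Gle_mul_left]; exact hey
    have h6 := gcd_mul_left D hd1 hd2 hd3 h4 h5
    rw [← toG_Gle_iff D, ← h1, map_mul, map_pow] at h6
    change Gle (OmG D ^ (n + k) * e) (OmG D ^ k * toG M d) at h6
    rw [← Gle_mul_left (c := OmG D ^ (n + k))]
    have h7 : OmG D ^ (n + k) * ((OmG D ^ n)⁻¹ * toG M d) = OmG D ^ k * toG M d := by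
      rw [add_comm, pow_add]; group
    rw [h7]; exact h6

include D in
/-- least upper bounds in the group -/
theorem exists_lub (x y : ArtinGroup M) : ∃ j, Gle x j ∧ Gle y j ∧
    ∀ e, Gle x e → Gle y e → Gle j e := by
  obtain ⟨n, a, b, -, ha, hb, -⟩ := exists_pos₃ D x y 1
  have hx : x = (OmG D ^ n)⁻¹ * toG M a := by rw [← ha]; group
  have hy : y = (OmG D ^ n)⁻¹ * toG M b := by rw [← hb]; group
  have h1 : a ∣ Dl D ^ (deg a + deg b) :=
    (dvd_Dl_pow D a).trans (Dl_pow_dvd D (Nat.le_add_right _ _))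
  have h2 : b ∣ Dl D ^ (deg a + deg b) :=
    (dvd_Dl_pow D b).trans (Dl_pow_dvd D (Nat.le_add_left _ _))
  obtain ⟨j, hj1, hj2, hj3, -⟩ := exists_lcm D _ a b h1 h2
  refine ⟨(OmG D ^ n)⁻¹ * toG M j, ?_, ?_, fun e hxe hye => ?_⟩
  · rw [hx, Gle_mul_left, toG_Gle_iff D]; exact hj1
  · rw [hy, Gle_mul_left, toG_Gle_iff D]; exact hj2
  · -- `e = x * positive`, so `Ω^n e` is positive
    obtain ⟨z, hz⟩ := hxe
    have h3 : OmG D ^ n * e = toG M (a * z) := by rw [hz, ← mul_assoc, ha, map_mul]
    have h4 : b ∣ a * z := by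
      rw [← toG_Gle_iff D, ← h3, ← hb, Gle_mul_left]; exact hye
    have h5 := hj3 (a * z) (Dvd.intro _ rfl) h4
    rw [← toG_Gle_iff D, ← h3] at h5
    rw [← Gle_mul_left (c := OmG D ^ n), mul_inv_cancel_left]
    exact h5

/-- right multiplication by a power of the Garside element preserves the order -/
theorem Gle_mul_Dl {x y : ArtinGroup M} (h : Gle x y) (r : ℕ) :
    Gle (x * toG M (Dl D ^ r)) (y * toG M (Dl D ^ r)) := by
  obtain ⟨z, rfl⟩ := h
  obtain ⟨z', hz'⟩ := exists_mul_Dl_pow D z r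
  exact ⟨z', by rw [mul_assoc, ← map_mul, hz', map_mul, mul_assoc]⟩

theorem Gle_of_mul_Dl {x y : ArtinGroup M} {r : ℕ}
    (h : Gle (x * toG M (Dl D ^ r)) (y * toG M (Dl D ^ r))) : Gle x y := by
  obtain ⟨z, hz⟩ := h
  obtain ⟨z', hz'⟩ := exists_Dl_pow_mul D z r
  refine ⟨z', ?_⟩
  apply mul_right_cancel (b := toG M (Dl D ^ r))
  rw [hz, mul_assoc, ← map_mul, hz', map_mul, mul_assoc]

/-! ### Standard parabolic subgroups -/

theorem toG_mem_of_PM {X : Set S} {z : AM M} (h : z ∈ PM M X) : toG M z ∈ stdParabolic M X := by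
  induction h using Submonoid.closure_induction with
  | mem x hx =>
    obtain ⟨s, hs, rfl⟩ := hx
    rw [toG_at]
    exact Subgroup.subset_closure ⟨s, hs, rfl⟩
  | one => rw [map_one]; exact Subgroup.one_mem _
  | mul x y _ _ hx hy => rw [map_mul]; exact Subgroup.mul_mem _ hx hy

include D in
/-- common left multiples inside a parabolic submonoid -/
theorem exists_left_mult {X : Set S} {a b : AM M} (ha : a ∈ PM M X) (hb : b ∈ PM M X) :
    ∃ c ∈ PM M X, ∃ d ∈ PM M X, c * a = d * b := by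
  have h1 : rev a ∣ Dl D ^ (deg (rev a) + deg (rev b)) :=
    (dvd_Dl_pow D _).trans (Dl_pow_dvd D (Nat.le_add_right _ _))
  have h2 : rev b ∣ Dl D ^ (deg (rev a) + deg (rev b)) :=
    (dvd_Dl_pow D _).trans (Dl_pow_dvd D (Nat.le_add_left _ _))
  obtain ⟨j, ⟨c, hc⟩, ⟨d, hd⟩, -, hj4⟩ := exists_lcm D _ (rev a) (rev b) h1 h2
  have hj := hj4 X (rev_mem_PM ha) (rev_mem_PM hb)
  have hcX : c ∈ PM M X := by rw [hc] at hj; exact (mul_mem_PM_iff.1 hj).2
  have hdX : d ∈ PM M X := by rw [hd] at hj; exact (mul_mem_PM_iff.1 hj).2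
  refine ⟨rev c, rev_mem_PM hcX, rev d, rev_mem_PM hdX, ?_⟩
  have h3 : rev (rev a * c) = rev (rev b * d) := by rw [← hc, hd]
  simpa using h3

include D in
/-- elements of a standard parabolic subgroup are fractions -/
theorem exists_frac {X : Set S} {g : ArtinGroup M} (h : g ∈ stdParabolic M X) :
    ∃ a ∈ PM M X, ∃ b ∈ PM M X, toG M a * g = toG M b := by
  unfold stdParabolic at h
  induction h using Subgroup.closure_induction'' with
  | mem x hx =>
    obtain ⟨s, hs, rfl⟩ := hx
    exact ⟨1, Submonoid.one_mem _, at' M s, at_mem_PM hs, by simp⟩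
  | inv_mem x hx =>
    obtain ⟨s, hs, rfl⟩ := hx
    exact ⟨at' M s, at_mem_PM hs, 1, Submonoid.one_mem _, by simp⟩
  | one => exact ⟨1, Submonoid.one_mem _, 1, Submonoid.one_mem _, by simp⟩
  | mul x y _ _ hx hy =>
    obtain ⟨a, ha, b, hb, hab⟩ := hx
    obtain ⟨c, hc, d, hd, hcd⟩ := hy
    -- a x = b, c y = d ; choose e b = f c, then (e a) x y = e b y = f c y = f d
    obtain ⟨e, he, f, hf, hef⟩ := exists_left_mult D hb hc
    refine ⟨e * a, Submonoid.mul_mem _ he ha, f * d, Submonoid.mul_mem _ hf hd, ?_⟩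
    calc toG M (e * a) * (x * y) = toG M e * (toG M a * x) * y := by
          rw [map_mul]; simp only [mul_assoc]
      _ = toG M (e * b) * y := by rw [hab, map_mul]
      _ = toG M f * (toG M c * y) := by rw [hef, map_mul, mul_assoc]
      _ = toG M (f * d) := by rw [hcd, map_mul]

include D in
/-- positive elements of a standard parabolic subgroup -/
theorem toG_mem_iff {X : Set S} {z : AM M} : toG M z ∈ stdParabolic M X ↔ z ∈ PM M X := by
  refine ⟨fun h => ?_, toG_mem_of_PM⟩
  obtain ⟨a, ha, b, hb, hab⟩ := exists_frac D h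
  rw [← map_mul] at hab
  have := toG_injective D hab
  rw [← this] at hb
  exact (mul_mem_PM_iff.1 hb).2

include D in
/-- meets of elements of `A_X` are in `A_X` -/
theorem glb_mem {X : Set S} {x y m : ArtinGroup M} (hx : x ∈ stdParabolic M X)
    (hy : y ∈ stdParabolic M X) (hm1 : Gle m x) (hm2 : Gle m y)
    (hm3 : ∀ e, Gle e x → Gle e y → Gle e m) : m ∈ stdParabolic M X := by
  -- common lower bound in `A_X`
  obtain ⟨a, ha, b, hb, hab⟩ := exists_frac D (Subgroup.mul_mem _ (Subgroup.inv_mem _ hx) hy)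
  -- a x⁻¹ y = b, so c := x a⁻¹ is a common lower bound
  have h1 : Gle (x * (toG M a)⁻¹) x := ⟨a, by group⟩
  have h2 : Gle (x * (toG M a)⁻¹) y := ⟨b, by rw [← hab]; group⟩
  obtain ⟨z, hz⟩ := hm3 _ h1 h2
  obtain ⟨z', hz'⟩ := hm1
  have h3 : a = z * z' := by
    apply toG_injective D
    have h4 : x = x * (toG M a)⁻¹ * toG M z * toG M z' := by rw [← hz]; exact hz'
    have h5 : toG M a * x⁻¹ * x = toG M a * x⁻¹ * (x * (toG M a)⁻¹ * toG M z * toG M z') := by
      rw [← h4]
    rw [map_mul]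
    calc toG M a = toG M a * x⁻¹ * x := by group
      _ = _ := h5
      _ = _ := by group
  rw [hz]
  refine Subgroup.mul_mem _ (Subgroup.mul_mem _ hx (Subgroup.inv_mem _ (toG_mem_of_PM ha)))
    (toG_mem_of_PM ?_)
  rw [h3] at ha
  exact (mul_mem_PM_iff.1 ha).1

include D in
/-- joins of elements of `A_X` are in `A_X` -/
theorem lub_mem {X : Set S} {x y j : ArtinGroup M} (hx : x ∈ stdParabolic M X)
    (hy : y ∈ stdParabolic M X) (hj1 : Gle x j) (hj2 : Gle y j)
    (hj3 : ∀ e, Gle x e → Gle y e → Gle j e) : j ∈ stdParabolic M X := by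
  obtain ⟨a, ha, b, hb, hab⟩ := exists_frac D (Subgroup.mul_mem _ (Subgroup.inv_mem _ hx) hy)
  -- x⁻¹ y = a⁻¹ b ; lcm of a and b
  have h1 : a ∣ Dl D ^ (deg a + deg b) :=
    (dvd_Dl_pow D a).trans (Dl_pow_dvd D (Nat.le_add_right _ _))
  have h2 : b ∣ Dl D ^ (deg a + deg b) :=
    (dvd_Dl_pow D b).trans (Dl_pow_dvd D (Nat.le_add_left _ _))
  obtain ⟨l, hl1, hl2, hl3, hl4⟩ := exists_lcm D _ a b h1 h2
  have hl := hl4 X ha hb
  have h3 : Gle x (x * (toG M a)⁻¹ * toG M l) := by
    rw [mul_assoc]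
    nth_rewrite 1 [← mul_one x]
    rw [Gle_mul_left]
    obtain ⟨c, hc⟩ := hl1
    exact ⟨c, by rw [hc, map_mul]; group⟩
  have h4 : Gle y (x * (toG M a)⁻¹ * toG M l) := by
    obtain ⟨c, hc⟩ := hl2
    refine ⟨c, ?_⟩
    rw [hc, map_mul, ← hab]; group
  obtain ⟨z, hz⟩ := hj3 _ h3 h4
  -- `j` divides an element of `A_X`, relative to `x`
  obtain ⟨z', hz'⟩ := hj1
  have h5 : toG M (z' * z) ∈ stdParabolic M X := by
    have : toG M (z' * z) = (toG M a)⁻¹ * toG M l := by
      rw [hz'] at hz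
      have h6 : x * ((toG M a)⁻¹ * toG M l) = x * (toG M z' * toG M z) := by
        rw [← mul_assoc, hz, mul_assoc]
      rw [map_mul]
      exact (mul_left_cancel h6).symm
    rw [this]
    exact Subgroup.mul_mem _ (Subgroup.inv_mem _ (toG_mem_of_PM ha)) (toG_mem_of_PM hl)
  rw [toG_mem_iff D] at h5
  rw [hz']
  exact Subgroup.mul_mem _ hx (toG_mem_of_PM (mul_mem_PM_iff.1 h5).1)

include D in
/-- intersection of standard parabolic subgroups -/
theorem std_inter (X Y : Set S) :
    stdParabolic M X ⊓ stdParabolic M Y = stdParabolic M (X ∩ Y) := by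
  apply le_antisymm
  · rintro g ⟨hX, hY⟩
    obtain ⟨m, hm1, hm2, hm3⟩ := exists_glb D 1 g
    have hmX := glb_mem D (Subgroup.one_mem _) hX hm1 hm2 hm3
    have hmY := glb_mem D (Subgroup.one_mem _) hY hm1 hm2 hm3
    obtain ⟨a, ha⟩ := hm1
    obtain ⟨b, hb⟩ := hm2
    have h1 : m = (toG M a)⁻¹ := eq_inv_of_mul_eq_one_left ha.symm
    have haX : a ∈ PM M X := by
      rw [← toG_mem_iff D, ← inv_inv (toG M a), ← h1]; exact Subgroup.inv_mem _ hmX
    have haY : a ∈ PM M Y := by
      rw [← toG_mem_iff D, ← inv_inv (toG M a), ← h1]; exact Subgroup.inv_mem _ hmY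
    have h2 : toG M b = m⁻¹ * g := by rw [hb]; group
    have hbX : b ∈ PM M X := by
      rw [← toG_mem_iff D, h2]; exact Subgroup.mul_mem _ (Subgroup.inv_mem _ hmX) hX
    have hbY : b ∈ PM M Y := by
      rw [← toG_mem_iff D, h2]; exact Subgroup.mul_mem _ (Subgroup.inv_mem _ hmY) hY
    rw [hb, h1]
    exact Subgroup.mul_mem _ (Subgroup.inv_mem _ (toG_mem_of_PM (PM_inter haX haY)))
      (toG_mem_of_PM (PM_inter hbX hbY))
  · refine le_inf ?_ ?_
    · exact Subgroup.closure_mono (Set.image_mono Set.inter_subset_left)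
    · exact Subgroup.closure_mono (Set.image_mono Set.inter_subset_right)

end Crest.Agent.R175.GGrp_145
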