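import Crest.Agent.R175.GSph_145
import Crest.Agent.R175.VdL_527
import Crest.Agent.R175.Num_774
import Crest.Agent.R175.Pos_418

/-!
Row 175, Track D: the relative intersection property of `A_T`, `T` spherical, read inside `A_S`
(helper145).
-/

set_option autoImplicit false

namespace Crest.Agent.R175.GImg_145

open Crest.GroupTheory
open Crest.Agent.R175.DDef_145 (RelInt cj mem_cj)
open Crest.Agent.R175.VdL_527

universe u

variable {S : Type u} (M : CoxeterMatrix S)

theorem cj_map {G H : Type*} [Group G] [Group H] (f : G →* H) (g : G) (K : Subgroup G) :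
    cj (f g) (K.map f) = (cj g K).map f := by
  ext x
  constructor
  · rintro ⟨_, ⟨y, hy, rfl⟩, rfl⟩
    exact ⟨_, ⟨y, hy, rfl⟩, by simp [MulAut.conj_apply]⟩
  · rintro ⟨_, ⟨y, hy, rfl⟩, rfl⟩
    exact ⟨f y, ⟨y, hy, rfl⟩, by simp [MulAut.conj_apply]⟩

theorem std_eq_map {T Y : Set S} (hY : Y ⊆ T) :
    stdParabolic M Y = (stdParabolic (res M T) (Subtype.val ⁻¹' Y)).map (incl M T) := by
  rw [map_incl_std, Subtype.image_preimage_coe, Set.inter_eq_right.2 hY]

/-- the relative intersection property of `A_T` inside `A_S` -/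
def IntIn (T : Set S) : Prop := ∀ Y ⊆ T, ∀ Z ⊆ T, ∀ g ∈ stdParabolic M T,
  ∃ k ∈ stdParabolic M Y, ∃ Z' ⊆ Y,
    stdParabolic M Y ⊓ cj g (stdParabolic M Z) = cj k (stdParabolic M Z')

theorem intIn_of_res {T : Set S} (h : RelInt (res M T)) : IntIn M T := by
  intro Y hY Z hZ g hg
  rw [← range_incl] at hg
  obtain ⟨g, rfl⟩ := hg
  obtain ⟨k, hk, V, hV, he⟩ := h (Subtype.val ⁻¹' Y) (Subtype.val ⁻¹' Z) g
  refine ⟨incl M T k, ?_, Subtype.val '' V, ?_, ?_⟩
  · rw [std_eq_map M hY]; exact ⟨k, hk, rfl⟩
  · rintro _ ⟨v, hv, rfl⟩; exact hV hv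
  · rw [std_eq_map M hY, std_eq_map M hZ, ← map_incl_std, cj_map, cj_map, ← he,
      Subgroup.map_inf _ _ _ (incl_injective M T)]

theorem intIn_of_finite [Finite S] {T : Set S} (h : Finite (res M T).Group) : IntIn M T :=
  intIn_of_res M (GSph_145.relInt_of_finite (res M T))

/-- `C_T` positive definite implies that `W_T` is finite. -/
theorem finite_of_PD [Fintype S] {T : Set S} (hT : Num_774.PD M T) : Finite (res M T).Group := by
  classical
  apply Pos_418.finite_group_of_posDef
  intro x hx
  have h1 := hT (fun s => if h : s ∈ T then x ⟨s, h⟩ else 0) (fun s hs => dif_neg hs) ?_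
  · have key : ∀ f : S → ℝ, (∀ s, s ∉ T → f s = 0) → ∑ s, f s = ∑ s : T, f s := by
      intro f hf
      rw [← Finset.sum_subtype (Finset.univ.filter (· ∈ T)) (by simp) f, Finset.sum_filter]
      exact Finset.sum_congr rfl (fun s _ => by
        split_ifs with h
        · rfl
        · exact hf s h)
    rw [key _ (fun s hs => by simp [dif_neg hs])] at h1
    have h2 : ∑ s : T, ∑ t : S, Num_774.C M s t * (if h : (s : S) ∈ T then x ⟨s, h⟩ else 0) *
        (if h : t ∈ T then x ⟨t, h⟩ else 0) =
        2 * ∑ s : T, ∑ t : T, x s * x t * (-Real.cos (Real.pi / (res M T s t : ℝ))) := by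
      rw [Finset.mul_sum]
      refine Finset.sum_congr rfl (fun s _ => ?_)
      rw [key _ (fun t ht => by simp [dif_neg ht]), Finset.mul_sum]
      refine Finset.sum_congr rfl (fun t _ => ?_)
      simp only [Subtype.coe_prop, dite_true, Subtype.coe_eta, Num_774.C, res_apply]
      ring
    rw [h2] at h1
    linarith
  · intro h0
    apply hx
    funext s
    have := congrFun h0 (s : S)
    simpa using this

/-- **(D2) in the form used by TOP**: spherical `T ⊆ S`. -/
theorem int_of_PD [Fintype S] {T : Set S} (hT : Num_774.PD M T) : IntIn M T :=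
  intIn_of_finite M (finite_of_PD M hT)

end Crest.Agent.R175.GImg_145
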