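import Crest.Agent.R175.GMon_145

/-!
Row 175, Track D: least common multiples and greatest common divisors in the Artin monoid,
standard parabolic submonoids, the Garside element (helper145).
-/

set_option autoImplicit false

namespace Crest.Agent.R175.GLat_145

open Crest.Agent.R175.DDef_145 Crest.Agent.R175.DW_145 Crest.Agent.R175.GPL_145
open Crest.Agent.R175.GMon_145

variable {S : Type*} {M : CoxeterMatrix S} {W : Type*} [Group W] {cs : CoxeterSystem M W}
variable (D : Dat cs)

/-! ### Parabolic submonoids -/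

open Classical in
/-- indicator homomorphism of the letters in `X` -/
noncomputable def chi (M : CoxeterMatrix S) (X : Set S) : AM M →* ℕ :=
  amLift (fun s => if s ∈ X then 1 else 0) (by
    intro s t h
    by_cases hst : s = t
    · subst hst; rfl
    have h1 : M s t ≠ 1 := M.off_diagonal s t hst
    obtain ⟨m, hm⟩ : ∃ m, M s t = m + 2 := ⟨M s t - 2, by omega⟩
    rw [hm]
    have key : ∀ (f : S → ℕ), (∀ a, f a = 0 ∨ f a = 1) → ∀ (m : ℕ) (s t : S),
        ((alt s t (m + 2)).map f).prod = f s * f t := by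
      intro f hf m
      induction m with
      | zero => intro s t; simp [alt_succ]
      | succ m ih =>
        intro s t
        rw [alt_succ, List.map_cons, List.prod_cons, ih t s]
        rcases hf s with h | h <;> rcases hf t with h' | h' <;> simp [h, h']
    rw [key _ (fun a => by by_cases h : a ∈ X <;> simp [h]) m s t,
      key _ (fun a => by by_cases h : a ∈ X <;> simp [h]) m t s, mul_comm])

open Classical in
theorem chi_at (X : Set S) (s : S) : chi M X (at' M s) = if s ∈ X then 1 else 0 := by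
  unfold chi; rw [amLift_at]

/-- the parabolic submonoid -/
def PM (M : CoxeterMatrix S) (X : Set S) : Submonoid (AM M) := Submonoid.closure (at' M '' X)

theorem at_mem_PM {X : Set S} {s : S} (h : s ∈ X) : at' M s ∈ PM M X :=
  Submonoid.subset_closure ⟨s, h, rfl⟩

theorem mem_PM_iff {X : Set S} {z : AM M} : z ∈ PM M X ↔ chi M X z = 1 := by
  constructor
  · intro h
    induction h using Submonoid.closure_induction with
    | mem x hx =>
      obtain ⟨s, hs, rfl⟩ := hx
      rw [chi_at, if_pos hs]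
    | one => exact map_one _
    | mul x y _ _ hx hy => rw [map_mul, hx, hy, mul_one]
  · obtain ⟨l, rfl⟩ := exists_list z
    intro h
    induction l with
    | nil => exact Submonoid.one_mem _
    | cons a l ih =>
      rw [List.map_cons, List.prod_cons] at h ⊢
      rw [map_mul] at h
      have h1 := Nat.eq_one_of_mul_eq_one_right h
      have h2 := Nat.eq_one_of_mul_eq_one_left h
      refine Submonoid.mul_mem _ (at_mem_PM ?_) (ih h2)
      by_contra hn
      rw [chi_at, if_neg hn] at h1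
      exact absurd h1 (by norm_num)

theorem mul_mem_PM_iff {X : Set S} {x y : AM M} : x * y ∈ PM M X ↔ x ∈ PM M X ∧ y ∈ PM M X := by
  constructor
  · intro h
    rw [mem_PM_iff, map_mul] at h
    exact ⟨mem_PM_iff.2 (Nat.eq_one_of_mul_eq_one_right h),
      mem_PM_iff.2 (Nat.eq_one_of_mul_eq_one_left h)⟩
  · rintro ⟨h1, h2⟩
    exact Submonoid.mul_mem _ h1 h2

theorem at_mem_PM_iff {X : Set S} {s : S} : at' M s ∈ PM M X ↔ s ∈ X := by
  refine ⟨fun h => ?_, at_mem_PM⟩
  by_contra hn
  rw [mem_PM_iff, chi_at, if_neg hn] at h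
  exact absurd h (by norm_num)

theorem dvd_mem_PM {X : Set S} {x y : AM M} (h : x ∣ y) (hy : y ∈ PM M X) : x ∈ PM M X := by
  obtain ⟨z, rfl⟩ := h
  exact (mul_mem_PM_iff.1 hy).1

theorem PM_inter {X Y : Set S} {z : AM M} (hX : z ∈ PM M X) (hY : z ∈ PM M Y) :
    z ∈ PM M (X ∩ Y) := by
  obtain ⟨l, rfl⟩ := exists_list z
  induction l with
  | nil => exact Submonoid.one_mem _
  | cons a l ih =>
    rw [List.map_cons, List.prod_cons] at *
    obtain ⟨h1, h2⟩ := mul_mem_PM_iff.1 hX
    obtain ⟨h3, h4⟩ := mul_mem_PM_iff.1 hY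
    exact Submonoid.mul_mem _ (at_mem_PM ⟨at_mem_PM_iff.1 h1, at_mem_PM_iff.1 h3⟩) (ih h2 h4)

theorem PM_mono {X Y : Set S} (h : X ⊆ Y) : PM M X ≤ PM M Y :=
  Submonoid.closure_mono (Set.image_mono h)

theorem alt_mem_PM {X : Set S} {s t : S} (hs : s ∈ X) (ht : t ∈ X) (m : ℕ) :
    ((alt s t m).map (at' M)).prod ∈ PM M X := by
  induction m generalizing s t with
  | zero => exact Submonoid.one_mem _
  | succ m ih =>
    rw [alt_succ, List.map_cons, List.prod_cons]
    exact Submonoid.mul_mem _ (at_mem_PM hs) (ih ht hs)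

theorem rev_mem_PM {X : Set S} {z : AM M} (h : z ∈ PM M X) : rev z ∈ PM M X := by
  induction h using Submonoid.closure_induction with
  | mem x hx =>
    obtain ⟨s, hs, rfl⟩ := hx
    rw [rev_at]; exact at_mem_PM hs
  | one => rw [rev_one]; exact Submonoid.one_mem _
  | mul x y _ _ hx hy => rw [rev_mul]; exact Submonoid.mul_mem _ hy hx

/-! ### Divisibility -/

include D in
theorem mul_dvd_mul_left_iff {z x y : AM M} : z * x ∣ z * y ↔ x ∣ y := by
  constructor
  · rintro ⟨c, hc⟩
    rw [mul_assoc] at hc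
    exact ⟨c, mul_left_cancel' D hc⟩
  · rintro ⟨c, rfl⟩
    exact ⟨c, by rw [mul_assoc]⟩

theorem deg_le_of_dvd {x y : AM M} (h : x ∣ y) : deg x ≤ deg y := by
  obtain ⟨c, rfl⟩ := h; simp

theorem eq_of_dvd_of_deg {x y : AM M} (h : x ∣ y) (h' : deg y ≤ deg x) : x = y := by
  obtain ⟨c, rfl⟩ := h
  rw [deg_mul] at h'
  rw [eq_one_of_deg (z := c) (by omega), mul_one]

theorem dvd_antisymm' {x y : AM M} (h : x ∣ y) (h' : y ∣ x) : x = y :=
  eq_of_dvd_of_deg h (deg_le_of_dvd h')

include D in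
/-- least common multiples -/
theorem exists_lcm (t x y : AM M) (hx : x ∣ t) (hy : y ∣ t) :
    ∃ j, x ∣ j ∧ y ∣ j ∧ (∀ e, x ∣ e → y ∣ e → j ∣ e) ∧
      ∀ X : Set S, x ∈ PM M X → y ∈ PM M X → j ∈ PM M X := by
  induction hn : deg t using Nat.strong_induction_on generalizing t x y with
  | _ n IH =>
  subst hn
  by_cases hx1 : x = 1
  · subst hx1
    exact ⟨y, one_dvd y, dvd_rfl, fun e _ h => h, fun X _ h => h⟩
  by_cases hy1 : y = 1
  · subst hy1
    exact ⟨x, dvd_rfl, one_dvd x, fun e h _ => h, fun X h _ => h⟩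
  obtain ⟨a, x', rfl⟩ := exists_at_mul hx1
  obtain ⟨b, y', rfl⟩ := exists_at_mul hy1
  have hat : at' M a ∣ t := (Dvd.intro _ rfl).trans hx
  have hbt : at' M b ∣ t := (Dvd.intro _ rfl).trans hy
  obtain ⟨ta, hta⟩ := hat
  have hda : deg ta < deg t := by rw [hta]; simp
  obtain ⟨tb, htb⟩ := hbt
  have hdb : deg tb < deg t := by rw [htb]; simp
  by_cases hab : a = b
  · subst hab
    rw [hta, mul_dvd_mul_left_iff D] at hx hy
    obtain ⟨j, h1, h2, h3, h4⟩ := IH _ hda ta x' y' hx hy rfl
    refine ⟨at' M a * j, (mul_dvd_mul_left_iff D).2 h1, (mul_dvd_mul_left_iff D).2 h2, ?_, ?_⟩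
    · rintro e ⟨c, rfl⟩ he
      rw [mul_assoc] at he ⊢
      rw [mul_dvd_mul_left_iff D] at he ⊢
      exact h3 _ (Dvd.intro _ rfl) he
    · intro X hX hY
      exact Submonoid.mul_mem _ (mul_mem_PM_iff.1 hX).1
        (h4 X (mul_mem_PM_iff.1 hX).2 (mul_mem_PM_iff.1 hY).2)
  · obtain ⟨hM0, hct⟩ := two_atoms D hab ⟨ta, hta⟩ ⟨tb, htb⟩
    obtain ⟨m, hm⟩ : ∃ m, M a b = m + 1 := ⟨M a b - 1, by omega⟩
    set c := ((alt a b (M a b)).map (at' M)).prod with hc
    have hca : c = at' M a * ((alt b a m).map (at' M)).prod := by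
      rw [hc, hm, alt_succ, List.map_cons, List.prod_cons]
    have hcb : c = at' M b * ((alt a b m).map (at' M)).prod := by
      rw [hc, braid_at a b hM0, hm, alt_succ, List.map_cons, List.prod_cons]
    have hcmin : ∀ e, at' M a ∣ e → at' M b ∣ e → c ∣ e := fun e h1 h2 =>
      (two_atoms D hab h1 h2).2
    set ca := ((alt b a m).map (at' M)).prod with hca'
    set cb := ((alt a b m).map (at' M)).prod with hcb'
    -- join of x and c
    have h1 : x' ∣ ta := by rwa [hta, mul_dvd_mul_left_iff D] at hx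
    have h2 : ca ∣ ta := by rwa [hca, hta, mul_dvd_mul_left_iff D] at hct
    obtain ⟨d, hd1, hd2, hd3, hd4⟩ := IH _ hda ta x' ca h1 h2 rfl
    have hdt : at' M a * d ∣ t := by
      rw [hta, mul_dvd_mul_left_iff D]; exact hd3 _ h1 h2
    have hcd : c ∣ at' M a * d := by rw [hca, mul_dvd_mul_left_iff D]; exact hd2
    have hbd : at' M b ∣ at' M a * d := (by rw [hcb]; exact Dvd.intro _ rfl : at' M b ∣ c).trans hcd
    obtain ⟨d', hd'⟩ := hbd
    have h3 : d' ∣ tb := by rwa [hd', htb, mul_dvd_mul_left_iff D] at hdt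
    have h4 : y' ∣ tb := by rwa [htb, mul_dvd_mul_left_iff D] at hy
    obtain ⟨j, hj1, hj2, hj3, hj4⟩ := IH _ hdb tb d' y' h3 h4 rfl
    refine ⟨at' M b * j, ?_, (mul_dvd_mul_left_iff D).2 hj2, ?_, ?_⟩
    · exact ((mul_dvd_mul_left_iff D).2 hd1).trans (by rw [hd', mul_dvd_mul_left_iff D]; exact hj1)
    · intro e he1 he2
      have hae : at' M a ∣ e := (Dvd.intro _ rfl).trans he1
      have hbe : at' M b ∣ e := (Dvd.intro _ rfl).trans he2
      have hce := hcmin e hae hbe
      obtain ⟨e', rfl⟩ := hae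
      have h5 : at' M a * d ∣ at' M a * e' := by
        rw [mul_dvd_mul_left_iff D]
        refine hd3 _ (by rwa [mul_dvd_mul_left_iff D] at he1) ?_
        rwa [hca, mul_dvd_mul_left_iff D] at hce
      obtain ⟨e'', he''⟩ := hbe
      rw [he'', mul_dvd_mul_left_iff D]
      refine hj3 _ ?_ ?_
      · rwa [hd', he'', mul_dvd_mul_left_iff D] at h5
      · rwa [he'', mul_dvd_mul_left_iff D] at he2
    · intro X hX hY
      have haX := at_mem_PM_iff.1 (mul_mem_PM_iff.1 hX).1
      have hbX := at_mem_PM_iff.1 (mul_mem_PM_iff.1 hY).1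
      have h6 : d ∈ PM M X := hd4 X (mul_mem_PM_iff.1 hX).2 (alt_mem_PM hbX haX m)
      have h7 : d' ∈ PM M X := by
        have : at' M b * d' ∈ PM M X := by
          rw [← hd']; exact Submonoid.mul_mem _ (at_mem_PM haX) h6
        exact (mul_mem_PM_iff.1 this).2
      exact Submonoid.mul_mem _ (at_mem_PM hbX) (hj4 X h7 (mul_mem_PM_iff.1 hY).2)

include D in
/-- greatest common divisors -/
theorem exists_gcd (x y : AM M) :
    ∃ d, d ∣ x ∧ d ∣ y ∧ ∀ e, e ∣ x → e ∣ y → e ∣ d := by
  classical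
  let P : ℕ → Prop := fun n => ∃ d : AM M, d ∣ x ∧ d ∣ y ∧ deg d = n
  have hP0 : P 0 := ⟨1, one_dvd _, one_dvd _, deg_one⟩
  obtain ⟨d, hdx, hdy, hd⟩ := Nat.findGreatest_spec (P := P) (Nat.zero_le (deg x)) hP0
  refine ⟨d, hdx, hdy, fun e hex hey => ?_⟩
  obtain ⟨j, hj1, hj2, hj3, -⟩ := exists_lcm D x d e hdx hex
  have hjx := hj3 x hdx hex
  have hjy := hj3 y hdy hey
  have h1 : deg j ≤ deg d := by
    rw [hd]
    exact Nat.le_findGreatest (deg_le_of_dvd hjx) ⟨j, hjx, hjy, rfl⟩
  rw [eq_of_dvd_of_deg hj1 h1]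
  exact hj2

include D in
/-- gcds are left invariant -/
theorem gcd_mul_left {c x y d : AM M} (hx : d ∣ x) (hy : d ∣ y)
    (hd : ∀ e, e ∣ x → e ∣ y → e ∣ d) {e : AM M} (h1 : e ∣ c * x) (h2 : e ∣ c * y) :
    e ∣ c * d := by
  obtain ⟨g, hg1, hg2, hg3⟩ := exists_gcd D (c * x) (c * y)
  obtain ⟨h, rfl⟩ := hg3 c (Dvd.intro _ rfl) (Dvd.intro _ rfl)
  rw [mul_dvd_mul_left_iff D] at hg1 hg2
  exact (hg3 e h1 h2).trans ((mul_dvd_mul_left_iff D).2 (hd _ hg1 hg2))

/-! ### The Garside element -/

/-- the Garside element -/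
noncomputable def Dl : AM M := sg cs D.w0

theorem w0_mul_self : D.w0 * D.w0 = 1 := by
  have h1 := D.top D.w0⁻¹
  have h2 : D.w0⁻¹ = D.w0 := h1.eq_of_length (by rw [cs.length_inv])
  calc D.w0 * D.w0 = D.w0⁻¹ * D.w0 := by rw [h2]
    _ = 1 := inv_mul_cancel _

theorem w0_inv : D.w0⁻¹ = D.w0 := inv_eq_of_mul_eq_one_left (w0_mul_self D)

theorem exists_star (s : S) : ∃ t : S, cs.simple s * D.w0 = D.w0 * cs.simple t := by
  have h1 := D.top (cs.simple s)
  have h2 := D.top (cs.simple s * D.w0)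
  unfold PL at h1 h2
  rw [cs.length_simple, cs.inv_simple] at h1
  have h3 : cs.length ((cs.simple s * D.w0)⁻¹ * D.w0) = 1 := by omega
  obtain ⟨t, ht⟩ := cs.length_eq_one_iff.1 h3
  refine ⟨t, ?_⟩
  rw [mul_inv_rev, cs.inv_simple, w0_inv] at ht
  rw [← ht]
  calc cs.simple s * D.w0 = (D.w0 * D.w0) * (cs.simple s * D.w0) := by rw [w0_mul_self, one_mul]
    _ = _ := by simp only [mul_assoc]

/-- the involution of the atoms -/
noncomputable def star (s : S) : S := (exists_star D s).choose

theorem star_spec (s : S) : cs.simple s * D.w0 = D.w0 * cs.simple (star D s) :=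
  (exists_star D s).choose_spec

theorem at_mul_Dl (s : S) : at' M s * Dl D = Dl D * at' M (star D s) := by
  have h1 : PL cs (cs.simple s) D.w0 := D.top _
  have h2 : Dl D = at' M s * sg cs (cs.simple s * D.w0) := by
    unfold Dl
    conv_lhs => rw [sg_PL D h1, cs.inv_simple, sg_simple D]
  have h3 : PL cs (cs.simple s * D.w0) D.w0 := D.top _
  have h4 : Dl D = sg cs (cs.simple s * D.w0) * at' M (star D s) := by
    unfold Dl
    conv_lhs => rw [sg_PL D h3]
    rw [← sg_simple D]
    congr 2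
    rw [star_spec, mul_inv_rev, cs.inv_simple, mul_assoc, inv_mul_cancel, mul_one]
  conv_lhs => rw [h4]
  conv_rhs => rw [h2]
  rw [mul_assoc]

theorem star_star (s : S) : cs.simple (star D (star D s)) = cs.simple s := by
  have h1 := star_spec D s
  have h2 := star_spec D (star D s)
  have h3 : cs.simple (star D (star D s)) = D.w0 * (cs.simple (star D s) * D.w0) := by
    rw [h2, ← mul_assoc, w0_mul_self, one_mul]
  rw [h3, ← mul_assoc, ← h1, mul_assoc, w0_mul_self, mul_one]

theorem at_star_star (s : S) : at' M (star D (star D s)) = at' M s := by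
  rw [← sg_simple D, star_star, sg_simple D]

/-- conjugation by the Garside element -/
theorem exists_mul_Dl (z : AM M) : ∃ z', z * Dl D = Dl D * z' := by
  induction z using induction_left with
  | h1 => exact ⟨1, by simp⟩
  | h2 s z ih =>
    obtain ⟨z', hz'⟩ := ih
    exact ⟨at' M (star D s) * z', by rw [mul_assoc, hz', ← mul_assoc, at_mul_Dl, mul_assoc]⟩

theorem Dl_mul_at (s : S) : Dl D * at' M s = at' M (star D s) * Dl D := by
  rw [at_mul_Dl, at_star_star]

theorem simple_star (s : S) : cs.simple (star D s) = D.w0 * cs.simple s * D.w0 := by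
  rw [mul_assoc, star_spec, ← mul_assoc, w0_mul_self, one_mul]

theorem wordProd_star (ω : List S) :
    cs.wordProd (ω.map (star D)) = D.w0 * cs.wordProd ω * D.w0 := by
  induction ω with
  | nil => simp [w0_mul_self]
  | cons a ω ih =>
    rw [List.map_cons, cs.wordProd_cons, ih, cs.wordProd_cons, simple_star]
    calc D.w0 * cs.simple a * D.w0 * (D.w0 * cs.wordProd ω * D.w0) =
        D.w0 * cs.simple a * (D.w0 * D.w0) * cs.wordProd ω * D.w0 := by simp only [mul_assoc]
      _ = _ := by rw [w0_mul_self]; simp only [mul_assoc, one_mul, mul_one]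

theorem length_conj (w : W) : cs.length (D.w0 * w * D.w0) = cs.length w := by
  have key : ∀ w : W, cs.length (D.w0 * w * D.w0) ≤ cs.length w := by
    intro w
    obtain ⟨ω, hω, rfl⟩ := cs.exists_isReduced w
    rw [← wordProd_star, hω.eq]
    simpa using cs.length_wordProd_le (ω.map (star D))
  refine le_antisymm (key w) ?_
  have h := key (D.w0 * w * D.w0)
  have h2 : D.w0 * (D.w0 * w * D.w0) * D.w0 = w := by
    calc _ = (D.w0 * D.w0) * w * (D.w0 * D.w0) := by simp only [mul_assoc]
      _ = w := by rw [w0_mul_self]; simp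
  rwa [h2] at h

theorem Dl_mul_list (l : List S) :
    Dl D * (l.map (at' M)).prod = ((l.map (star D)).map (at' M)).prod * Dl D := by
  induction l with
  | nil => simp
  | cons a l ih =>
    rw [List.map_cons, List.prod_cons, ← mul_assoc, Dl_mul_at D a, mul_assoc, ih, List.map_cons,
      List.map_cons, List.prod_cons, mul_assoc]

theorem Dl_mul_sg (a : W) : Dl D * sg cs a = sg cs (D.w0 * a * D.w0) * Dl D := by
  obtain ⟨ω, hω, rfl⟩ := cs.exists_isReduced a
  have h1 : cs.IsReduced (ω.map (star D)) := by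
    unfold CoxeterSystem.IsReduced
    rw [wordProd_star, length_conj, hω.eq, List.length_map]
  rw [← wordProd_star, sg_wordProd D hω, sg_wordProd D h1, Dl_mul_list]

theorem exists_Dl_mul (z : AM M) : ∃ z', Dl D * z = z' * Dl D := by
  induction z using induction_left with
  | h1 => exact ⟨1, by simp⟩
  | h2 s z ih =>
    obtain ⟨z', hz'⟩ := ih
    exact ⟨at' M (star D s) * z', by rw [← mul_assoc, Dl_mul_at, mul_assoc, hz', mul_assoc]⟩

/-- the central element -/
noncomputable def Om : AM M := Dl D * Dl D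

theorem Om_central (z : AM M) : z * Om D = Om D * z := by
  unfold Om
  induction z using induction_left with
  | h1 => simp
  | h2 s z ih =>
    calc at' M s * z * (Dl D * Dl D) = at' M s * (z * (Dl D * Dl D)) := by rw [mul_assoc]
      _ = (at' M s * Dl D) * Dl D * z := by rw [ih]; simp only [mul_assoc]
      _ = Dl D * (at' M (star D s) * Dl D) * z := by rw [at_mul_Dl]; simp only [mul_assoc]
      _ = Dl D * Dl D * (at' M s * z) := by rw [at_mul_Dl, at_star_star]; simp only [mul_assoc]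

theorem sg_dvd_Dl (u : W) : sg cs u ∣ Dl D := by
  unfold Dl
  rw [sg_PL D (D.top u)]
  exact Dvd.intro _ rfl

theorem at_dvd_Dl (s : S) : at' M s ∣ Dl D := by
  rw [← sg_simple D]; exact sg_dvd_Dl D _

theorem exists_mul_Dl_pow (z : AM M) (r : ℕ) : ∃ z', z * Dl D ^ r = Dl D ^ r * z' := by
  induction r generalizing z with
  | zero => exact ⟨z, by simp⟩
  | succ r ih =>
    obtain ⟨z', h⟩ := exists_mul_Dl D z
    obtain ⟨z'', h'⟩ := ih z'
    exact ⟨z'', by rw [pow_succ', ← mul_assoc, h, mul_assoc, h', mul_assoc]⟩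

theorem exists_Dl_pow_mul (z : AM M) (r : ℕ) : ∃ z', Dl D ^ r * z = z' * Dl D ^ r := by
  induction r generalizing z with
  | zero => exact ⟨z, by simp⟩
  | succ r ih =>
    obtain ⟨z', h⟩ := exists_Dl_mul D z
    obtain ⟨z'', h'⟩ := ih z'
    exact ⟨z'', by rw [pow_succ, mul_assoc, h, ← mul_assoc, h', mul_assoc]⟩

/-- right factors of a power of the Garside element are left divisors -/
theorem dvd_of_mul_eq_pow {x y : AM M} {r : ℕ} (h : x * y = Dl D ^ r) : y ∣ Dl D ^ r := by
  obtain ⟨x', hx'⟩ := exists_mul_Dl_pow D x r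
  refine ⟨x', ?_⟩
  apply mul_left_cancel' D (z := x)
  rw [← mul_assoc, h, hx']

theorem mul_dvd_pow {x y : AM M} {r : ℕ} (h : x * y ∣ Dl D ^ r) : y ∣ Dl D ^ r := by
  obtain ⟨z, hz⟩ := h
  rw [mul_assoc] at hz
  exact (Dvd.intro _ rfl).trans (dvd_of_mul_eq_pow D hz.symm)

/-- a simple element times a divisor of `Δ^r` divides `Δ^(r+1)` -/
theorem sg_mul_dvd {u : W} {z : AM M} {r : ℕ} (h : z ∣ Dl D ^ r) : sg cs u * z ∣ Dl D ^ (r + 1) := by
  obtain ⟨t, ht⟩ := h
  obtain ⟨v, hv⟩ := sg_dvd_Dl D u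
  obtain ⟨v', hv'⟩ := exists_mul_Dl_pow D v r
  refine ⟨t * v', ?_⟩
  calc Dl D ^ (r + 1) = Dl D * Dl D ^ r := pow_succ' _ _
    _ = (sg cs u * v) * Dl D ^ r := by rw [← hv]
    _ = sg cs u * (v * Dl D ^ r) := by rw [mul_assoc]
    _ = sg cs u * z * (t * v') := by rw [hv', ht]; simp only [mul_assoc]

theorem dvd_Dl_pow (z : AM M) : z ∣ Dl D ^ (deg z) := by
  induction z using induction_left with
  | h1 => simp
  | h2 s z ih =>
    rw [deg_mul, deg_at, add_comm, ← sg_simple D]
    exact sg_mul_dvd D ih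

theorem Dl_pow_dvd {r r' : ℕ} (h : r ≤ r') : Dl D ^ r ∣ Dl D ^ r' := pow_dvd_pow _ h

/-- products of simple elements -/
theorem dvd_pow_iff {z : AM M} {r : ℕ} :
    z ∣ Dl D ^ r ↔ ∃ l : List W, l.length = r ∧ z = (l.map (sg cs)).prod := by
  constructor
  · induction r generalizing z with
    | zero =>
      rintro ⟨y, hy⟩
      rw [pow_zero] at hy
      have h1 : deg (1 : AM M) = deg (z * y) := by rw [hy]
      rw [deg_one, deg_mul] at h1
      exact ⟨[], rfl, by rw [eq_one_of_deg (z := z) (by omega)]; simp⟩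
    | succ r ih =>
      rintro ⟨t, ht⟩
      -- head of `z * t` is `w0`
      have h1 : Dl D ∣ z * sg cs (hd D t) := by
        unfold Dl
        rw [sg_dvd_iff D, ← hd_mul, ← sg_dvd_iff D, ← ht, pow_succ']
        exact Dvd.intro _ rfl
      obtain ⟨v, hv⟩ := h1
      have h2 : v * tl D t = Dl D ^ r := by
        apply mul_left_cancel' D (z := Dl D)
        rw [← mul_assoc, ← hv, mul_assoc, hd_tl, ← pow_succ', ht]
      obtain ⟨l, hl, hl'⟩ := ih ⟨_, h2.symm⟩
      -- `Δ v = v' Δ`
      obtain ⟨u', hu'⟩ : ∃ u' : W, Dl D = sg cs u' * sg cs (hd D t) := by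
        refine ⟨D.w0 * (hd D t)⁻¹, ?_⟩
        have hr : Rd cs (D.w0 * (hd D t)⁻¹) (hd D t) := by
          have h3 := D.top (hd D t)⁻¹
          unfold Rd
          unfold PL at h3
          rw [inv_inv, cs.length_inv] at h3
          rw [inv_mul_cancel_right]
          have h4 : cs.length (D.w0 * (hd D t)⁻¹) = cs.length (hd D t * D.w0) := by
            rw [← cs.length_inv, mul_inv_rev, inv_inv, w0_inv]
          omega
        unfold Dl
        rw [← sg_mul D hr, inv_mul_cancel_right]
      have key : ∀ l : List W, ∃ l' : List W, l'.length = l.length ∧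
          Dl D * (l.map (sg cs)).prod = (l'.map (sg cs)).prod * Dl D := by
        intro l
        induction l with
        | nil => exact ⟨[], rfl, by simp⟩
        | cons a l ihl =>
          obtain ⟨l', h3, h4⟩ := ihl
          refine ⟨(D.w0 * a * D.w0) :: l', by simp [h3], ?_⟩
          have h5 := Dl_mul_sg D a
          calc Dl D * ((a :: l).map (sg cs)).prod = (Dl D * sg cs a) * (l.map (sg cs)).prod := by
                rw [List.map_cons, List.prod_cons, mul_assoc]
            _ = sg cs (D.w0 * a * D.w0) * (Dl D * (l.map (sg cs)).prod) := by rw [h5, mul_assoc]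
            _ = _ := by rw [h4, List.map_cons, List.prod_cons]; exact (mul_assoc _ _ _).symm
      obtain ⟨l', hl1, hl2⟩ := key l
      refine ⟨l' ++ [u'], by simp [hl1, hl], ?_⟩
      apply mul_right_cancel'' D (z := sg cs (hd D t))
      rw [hv, hl', hl2, List.map_append, List.prod_append, mul_assoc]
      simp only [List.map_cons, List.map_nil, List.prod_cons, List.prod_nil, mul_one]
      rw [← hu']
  · rintro ⟨l, hl, rfl⟩
    induction l generalizing r with
    | nil => simp
    | cons a l ih =>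
      rw [List.length_cons] at hl
      subst hl
      rw [List.map_cons, List.prod_cons]
      exact sg_mul_dvd D (ih rfl)

/-- the tail of a divisor of `Δ^(r+1)` divides `Δ^r` -/
theorem tl_dvd {z : AM M} {r : ℕ} (h : z ∣ Dl D ^ (r + 1)) : tl D z ∣ Dl D ^ r := by
  obtain ⟨l, hl, hz⟩ := (dvd_pow_iff D).1 h
  cases l with
  | nil => simp at hl
  | cons a l =>
    rw [List.length_cons] at hl
    have h1 : (l.map (sg cs)).prod ∣ Dl D ^ r := (dvd_pow_iff D).2 ⟨l, by omega, rfl⟩
    rw [List.map_cons, List.prod_cons] at hz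
    have h2 : PL cs a (hd D z) := by
      rw [← sg_dvd_iff D, hz]; exact Dvd.intro _ rfl
    obtain ⟨b, hb, hr⟩ := h2.exists_eq
    have h3 := hd_tl D z
    rw [hb, sg_mul D hr, mul_assoc] at h3
    have h4 : sg cs b * tl D z = (l.map (sg cs)).prod := by
      apply mul_left_cancel' D (z := sg cs a)
      rw [h3]; exact hz
    rw [← h4] at h1
    exact mul_dvd_pow D h1

end Crest.Agent.R175.GLat_145
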