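import Crest.Agent.R175.DW_145

/-!
Row 175, Track D: reduced products and the prefix order; meets in a finite Coxeter group
(helper145).
-/

set_option autoImplicit false

namespace Crest.Agent.R175.GPL_145

open Crest.Agent.R175.DDef_145 Crest.Agent.R175.DW_145

variable {S W : Type*} [Group W] {M : CoxeterMatrix S} {cs : CoxeterSystem M W}

/-- the product `u * v` is reduced. -/
def Rd (cs : CoxeterSystem M W) (u v : W) : Prop := cs.length (u * v) = cs.length u + cs.length v

theorem PL_iff {u w : W} : PL cs u w ↔ Rd cs u (u⁻¹ * w) := by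
  unfold PL Rd
  rw [mul_inv_cancel_left, eq_comm]

theorem PL_mul {u v : W} (h : Rd cs u v) : PL cs u (u * v) := by
  rw [PL_iff, inv_mul_cancel_left]; exact h

theorem Rd.of_PL {u v : W} (h : PL cs u (u * v)) : Rd cs u v := by
  rw [PL_iff, inv_mul_cancel_left] at h; exact h

theorem _root_.Crest.Agent.R175.DW_145.PL.exists_eq {u w : W} (h : PL cs u w) : ∃ v, w = u * v ∧ Rd cs u v :=
  ⟨u⁻¹ * w, by simp, PL_iff.1 h⟩

theorem _root_.Crest.Agent.R175.DW_145.PL.refl (u : W) : PL cs u u := by unfold PL; simp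

theorem one_PL (u : W) : PL cs 1 u := by unfold PL; simp

theorem _root_.Crest.Agent.R175.DW_145.PL.length_le {u w : W} (h : PL cs u w) : cs.length u ≤ cs.length w := by
  unfold PL at h; omega

theorem _root_.Crest.Agent.R175.DW_145.PL.trans {u v w : W} (h1 : PL cs u v) (h2 : PL cs v w) : PL cs u w := by
  unfold PL at *
  have h3 := cs.length_mul_le (u⁻¹ * v) (v⁻¹ * w)
  rw [show u⁻¹ * v * (v⁻¹ * w) = u⁻¹ * w by group] at h3
  have h4 := cs.length_mul_le u (u⁻¹ * w)
  rw [mul_inv_cancel_left] at h4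
  omega

theorem _root_.Crest.Agent.R175.DW_145.PL.eq_of_length {u w : W} (h : PL cs u w) (h' : cs.length w ≤ cs.length u) : u = w := by
  unfold PL at h
  have : cs.length (u⁻¹ * w) = 0 := by omega
  rw [cs.length_eq_zero_iff] at this
  exact inv_mul_eq_one.1 this

theorem _root_.Crest.Agent.R175.DW_145.PL.antisymm {u w : W} (h : PL cs u w) (h' : PL cs w u) : u = w :=
  h.eq_of_length h'.length_le

theorem Rd.one_left (u : W) : Rd cs 1 u := by unfold Rd; simp
theorem Rd.one_right (u : W) : Rd cs u 1 := by unfold Rd; simp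

/-- associativity of reducedness -/
theorem Rd.assoc {u v w : W} : (Rd cs u v ∧ Rd cs (u * v) w) ↔ (Rd cs v w ∧ Rd cs u (v * w)) := by
  unfold Rd
  have h1 := cs.length_mul_le u v
  have h2 := cs.length_mul_le (u * v) w
  have h3 := cs.length_mul_le v w
  have h4 := cs.length_mul_le u (v * w)
  rw [← mul_assoc] at h4
  constructor
  · rintro ⟨h5, h6⟩
    rw [← mul_assoc]
    omega
  · rintro ⟨h5, h6⟩
    rw [← mul_assoc] at h6
    omega

theorem Rd.of_PL_right {u a b : W} (h : Rd cs u b) (hab : PL cs a b) : Rd cs u a := by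
  obtain ⟨c, rfl, hc⟩ := hab.exists_eq
  exact (Rd.assoc.2 ⟨hc, h⟩).1

theorem _root_.Crest.Agent.R175.DW_145.PL.mul_left {u a b : W} (h : Rd cs u b) (hab : PL cs a b) : PL cs (u * a) (u * b) := by
  obtain ⟨c, rfl, hc⟩ := hab.exists_eq
  rw [← mul_assoc]
  exact PL_mul (Rd.assoc.2 ⟨hc, h⟩).2

theorem _root_.Crest.Agent.R175.DW_145.PL.of_mul_left {u a b : W} (ha : Rd cs u a) (hb : Rd cs u b)
    (hab : PL cs (u * a) (u * b)) : PL cs a b := by
  unfold PL Rd at *
  rw [show (u * a)⁻¹ * (u * b) = a⁻¹ * b by group] at hab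
  omega

theorem _root_.Crest.Agent.R175.DW_145.PL.le_mul {u v w : W} (h : Rd cs v w) (huv : PL cs u v) : PL cs u (v * w) :=
  huv.trans (PL_mul h)

theorem simple_PL_iff {w : W} {i : S} : PL cs (cs.simple i) w ↔ cs.IsLeftDescent w i := by
  unfold PL
  rw [cs.isLeftDescent_iff, cs.length_simple, cs.inv_simple]
  omega

theorem Rd_simple_iff {w : W} {i : S} : Rd cs (cs.simple i) w ↔ ¬ cs.IsLeftDescent w i := by
  unfold Rd
  rw [cs.not_isLeftDescent_iff, cs.length_simple]
  omega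

theorem Rd.wordProd_cons {i : S} {ω : List S} :
    cs.IsReduced (i :: ω) ↔ (cs.IsReduced ω ∧ Rd cs (cs.simple i) (cs.wordProd ω)) := by
  unfold CoxeterSystem.IsReduced Rd
  rw [cs.wordProd_cons, List.length_cons, cs.length_simple]
  have h1 := cs.length_wordProd_le ω
  have h2 := cs.length_mul_le (cs.simple i) (cs.wordProd ω)
  rw [cs.length_simple] at h2
  constructor
  · intro h; omega
  · rintro ⟨h3, h4⟩; omega

theorem IsReduced_append {ω ω' : List S} (h : cs.IsReduced ω) (h' : cs.IsReduced ω')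
    (hr : Rd cs (cs.wordProd ω) (cs.wordProd ω')) : cs.IsReduced (ω ++ ω') := by
  unfold CoxeterSystem.IsReduced Rd at *
  rw [cs.wordProd_append, hr, List.length_append, h, h']

/-! ### Finite Coxeter groups: meets and the maximal reduced factor -/

/-- The properties of a finite Coxeter group that are used: longest element and joins. -/
structure Lat (cs : CoxeterSystem M W) where
  w0 : W
  top : ∀ w, PL cs w w0
  join : ∀ u v : W, ∃ j, PL cs u j ∧ PL cs v j ∧ ∀ w, PL cs u w → PL cs v w → PL cs j w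

variable (L : Lat cs)

include L in
theorem exists_meet (u v : W) : ∃ m, PL cs m u ∧ PL cs m v ∧
    ∀ e, PL cs e u → PL cs e v → PL cs e m := by
  classical
  let P : ℕ → Prop := fun n => ∃ m, PL cs m u ∧ PL cs m v ∧ cs.length m = n
  have hP0 : P 0 := ⟨1, one_PL u, one_PL v, cs.length_one⟩
  have hb : ∀ n, P n → n ≤ cs.length u := by
    rintro n ⟨m, hm, -, rfl⟩; exact hm.length_le
  obtain ⟨m, hmu, hmv, hm⟩ := Nat.findGreatest_spec (P := P) (Nat.zero_le (cs.length u)) hP0
  refine ⟨m, hmu, hmv, fun e heu hev => ?_⟩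
  obtain ⟨j, hj1, hj2, hj3⟩ := L.join m e
  have hju := hj3 u hmu heu
  have hjv := hj3 v hmv hev
  have h1 : cs.length j ≤ cs.length m := by
    rw [hm]
    exact Nat.le_findGreatest (hb _ ⟨j, hju, hjv, rfl⟩) ⟨j, hju, hjv, rfl⟩
  have := hj1.eq_of_length h1
  subst this
  exact hj2

theorem Rd_iff_PL {u b : W} : Rd cs u b ↔ PL cs b (u⁻¹ * L.w0) := by
  have h1 := L.top u
  have h2 := L.top (u * b)
  unfold Rd PL at *
  rw [show (u * b)⁻¹ * L.w0 = b⁻¹ * (u⁻¹ * L.w0) by group] at h2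
  omega

include L in
theorem exists_mx (u w : W) : ∃ a, PL cs a w ∧ Rd cs u a ∧
    ∀ b, PL cs b w → Rd cs u b → PL cs b a := by
  obtain ⟨m, h1, h2, h3⟩ := exists_meet L w (u⁻¹ * L.w0)
  refine ⟨m, h1, (Rd_iff_PL L).2 h2, fun b hb hr => h3 b hb ((Rd_iff_PL L).1 hr)⟩

/-- the largest prefix `a` of `w` such that `u * a` is reduced. -/
noncomputable def mx (u w : W) : W := (exists_mx L u w).choose

theorem mx_PL (u w : W) : PL cs (mx L u w) w := (exists_mx L u w).choose_spec.1
theorem mx_Rd (u w : W) : Rd cs u (mx L u w) := (exists_mx L u w).choose_spec.2.1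
theorem PL_mx {u w b : W} (hb : PL cs b w) (hr : Rd cs u b) : PL cs b (mx L u w) :=
  (exists_mx L u w).choose_spec.2.2 b hb hr

theorem mx_eq {u w a : W} (h1 : PL cs a w) (h2 : Rd cs u a)
    (h3 : ∀ b, PL cs b w → Rd cs u b → PL cs b a) : mx L u w = a :=
  (h3 _ (mx_PL L u w) (mx_Rd L u w)).antisymm (PL_mx L h1 h2)

theorem mx_one_left (w : W) : mx L 1 w = w :=
  mx_eq L (PL.refl w) (Rd.one_left w) fun _ h _ => h

theorem mx_one_right (u : W) : mx L u 1 = 1 :=
  mx_eq L (PL.refl 1) (Rd.one_right u) fun _ h _ => h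

/-- composition law -/
theorem mx_mul {s u w : W} (h : Rd cs s u) :
    mx L s (u * mx L u w) = u * mx L (s * u) w := by
  have hb1 := mx_PL L (s * u) w
  have hb2 := mx_Rd L (s * u) w
  set b := mx L (s * u) w with hb
  have h3 : Rd cs u b ∧ Rd cs s (u * b) := Rd.assoc.1 ⟨h, hb2⟩
  have h4 : PL cs b (mx L u w) := PL_mx L hb1 h3.1
  have h5 : PL cs (u * b) (u * mx L u w) := PL.mul_left (mx_Rd L u w) h4
  refine mx_eq L h5 h3.2 ?_
  -- maximality
  intro c hc hsc
  obtain ⟨m, hm1, hm2, hm3⟩ := exists_meet L (u * mx L u w) (s⁻¹ * L.w0)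
  have hum : PL cs u m := hm3 u (PL_mul (mx_Rd L u w)) ((Rd_iff_PL L).1 h)
  obtain ⟨d, rfl, hd⟩ := hum.exists_eq
  have h6 : PL cs d (mx L u w) := PL.of_mul_left hd (mx_Rd L u w) hm1
  have h7 : Rd cs s (u * d) := (Rd_iff_PL L).2 hm2
  have h8 : Rd cs (s * u) d := (Rd.assoc.2 ⟨hd, h7⟩).2
  have h9 : PL cs d b := PL_mx L (h6.trans (mx_PL L u w)) h8
  exact (hm3 c hc ((Rd_iff_PL L).1 hsc)).trans (PL.mul_left h3.1 h9)

end Crest.Agent.R175.GPL_145
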