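import Crest.Agent.R175.PTA_534

/-!
Row 175 (S0263), helper393: uniqueness of the position grading (LEMMA GRU), non-minimal form.

`Lg f` = the length derivation `(0, 0, c1, ci, cj, 2 c2)` of the base category.
`IsPos X p` : `p : X ⟶ X` is an even endomorphism with only a `c0` part and
`p ≫ d - d ≫ p = Lg d - d` (so the length `l` part of `d` moves the position by `1 - l`).
For graded `X`, `Y` and an even cocycle `φ : X ⟶ Y` the map `θ = p_X ≫ φ - φ ≫ p_Y - Lg φ` is a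
cocycle which vanishes on the frames; if `hT X Y = 0` it is a coboundary of a map vanishing on the
frames.
-/

set_option autoImplicit false
set_option linter.unusedSectionVars false

open CategoryTheory

namespace Crest.Agent.R175.GRU_393

open Crest.Agent.R175.PTA

universe u v

variable {T : Type u} {G : MG T} {k : Type v} [Field k] [Fintype T]

section L
variable {X Y Z : Gob G k}

/-- the length derivation -/
def Lg (f : X ⟶ Y) : X ⟶ Y :=
  mkH (fun _ => 0) (fun _ => 0) (fun _ _ a => c1 f a) (fun t => ci f t) (fun t => cj f t)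
    (fun t => c2 f t + c2 f t)

@[simp] theorem c0_Lg (f : X ⟶ Y) (t : T) : c0 (Lg f) t = 0 := rfl
@[simp] theorem cW_Lg (f : X ⟶ Y) (t : T) : cW (Lg f) t = 0 := rfl
@[simp] theorem c1_Lg (f : X ⟶ Y) {s t : T} (a : G.E s t) : c1 (Lg f) a = c1 f a := rfl
@[simp] theorem ci_Lg (f : X ⟶ Y) (t : T) : ci (Lg f) t = ci f t := rfl
@[simp] theorem cj_Lg (f : X ⟶ Y) (t : T) : cj (Lg f) t = cj f t := rfl
@[simp] theorem c2_Lg (f : X ⟶ Y) (t : T) : c2 (Lg f) t = c2 f t + c2 f t := rfl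

@[simp] theorem Lg_zero : Lg (0 : X ⟶ Y) = 0 := by
  apply hm_ext <;> intros <;> simp

theorem Lg_add (f g : X ⟶ Y) : Lg (f + g) = Lg f + Lg g := by
  apply hm_ext <;> intros <;> simp
  abel

theorem Lg_neg (f : X ⟶ Y) : Lg (-f) = -Lg f := by
  apply hm_ext <;> intros <;> simp

theorem Lg_sub (f g : X ⟶ Y) : Lg (f - g) = Lg f - Lg g := by
  rw [sub_eq_add_neg, Lg_add, Lg_neg, sub_eq_add_neg]

theorem Lg_comp (f : X ⟶ Y) (g : Y ⟶ Z) : Lg (f ≫ g) = Lg f ≫ g + f ≫ Lg g := by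
  apply hm_ext
  · intro t; simp
  · intro t; simp
  · intro s t a; simp [add_comm]
  · intro t; simp [add_comm]
  · intro t; simp [add_comm]
  · intro t
    simp only [c2_Lg, c2_comp, c2_add, c0_Lg, c1_Lg, ci_Lg, cj_Lg, LinearMap.comp_add,
      LinearMap.add_comp, LinearMap.comp_zero, LinearMap.zero_comp]
    abel

theorem Lg_bar (f : X ⟶ Y) : Lg (bar f) = bar (Lg f) := by
  apply hm_ext <;> intros <;> simp [LinearMap.comp_add, LinearMap.add_comp]

end L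

/-- a position operator on a T-framed object (as a morphism). -/
structure IsPos (X : TOb G k) (p : X.X ⟶ X.X) : Prop where
  pW : ∀ t, cW p t = 0
  p1 : ∀ (s t : T) (a : G.E s t), c1 p a = 0
  pi : ∀ t, ci p t = 0
  pj : ∀ t, cj p t = 0
  p2 : ∀ t, c2 p t = 0
  bp : bar p = p
  pd : p ≫ X.d - X.d ≫ p = Lg X.d - X.d

/-- the morphism `[p, φ] - L φ`. -/
def th {X Y : TOb G k} (p : X.X ⟶ X.X) (q : Y.X ⟶ Y.X) (f : X.X ⟶ Y.X) : X.X ⟶ Y.X :=
  p ≫ f - f ≫ q - Lg f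

section th

variable {X Y : TOb G k} {p : X.X ⟶ X.X} {q : Y.X ⟶ Y.X}

theorem th_mem (hp : IsPos X p) (hq : IsPos Y q) (f : X.X ⟶ Y.X) : th p q f ∈ Cs X.X Y.X := by
  intro t
  simp [th, hp.pW, hq.pW]

theorem bar_th (hp : IsPos X p) (hq : IsPos Y q) {f : X.X ⟶ Y.X} (hf : bar f = f) :
    bar (th p q f) = th p q f := by
  simp [th, hp.bp, hq.bp, hf, ← Lg_bar]

theorem D_th (hp : IsPos X p) (hq : IsPos Y q) {f : X.X ⟶ Y.X} (hf : bar f = f)
    (hD : D X Y f = 0) : D X Y (th p q f) = 0 := by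
  rw [D_apply, bar_th hp hq hf]
  have h1 : f ≫ Y.d = X.d ≫ f := by
    rw [D_apply, hf, sub_eq_zero] at hD
    exact hD
  have h2 : Lg f ≫ Y.d + f ≫ Lg Y.d = Lg X.d ≫ f + X.d ≫ Lg f := by
    rw [← Lg_comp, ← Lg_comp, h1]
  have h3 : p ≫ X.d = X.d ≫ p + (Lg X.d - X.d) := by
    rw [← hp.pd]; abel
  have h4 : q ≫ Y.d = Y.d ≫ q + (Lg Y.d - Y.d) := by
    rw [← hq.pd]; abel
  have h5 : p ≫ f ≫ Y.d = X.d ≫ p ≫ f + (Lg X.d ≫ f - X.d ≫ f) := by
    rw [h1, ← Category.assoc, h3, Preadditive.add_comp, Preadditive.sub_comp, Category.assoc]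
  have h6 : f ≫ q ≫ Y.d = X.d ≫ f ≫ q + (f ≫ Lg Y.d - X.d ≫ f) := by
    rw [h4, Preadditive.comp_add, Preadditive.comp_sub, ← Category.assoc, h1, Category.assoc]
  simp only [th, Preadditive.sub_comp, Preadditive.comp_sub, Category.assoc]
  rw [h5, h6]
  have h7 : Lg f ≫ Y.d = Lg X.d ≫ f + X.d ≫ Lg f - f ≫ Lg Y.d := by
    rw [← h2]; abel
  rw [h7]
  abel

/-- **GRU**: if `hT X Y = 0` then `p φ - φ q - L φ` is the coboundary of a map vanishing on the
frames. -/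
theorem exists_th_eq (hp : IsPos X p) (hq : IsPos Y q) (h : hT X Y = 0) {f : X.X ⟶ Y.X}
    (hf : bar f = f) (hD : D X Y f = 0) :
    ∃ K : X.X ⟶ Y.X, K ∈ Cs X.X Y.X ∧ D X Y K = th p q f := by
  have h0 : LinearMap.ker (DC X Y) = LinearMap.range (DC X Y) := by
    have h1 := hd_add_range (D := DC X Y) (fun x => DC_DC x)
    rw [show hd (DC X Y) = 0 from h, zero_add] at h1
    exact (Submodule.eq_of_le_of_finrank_eq (range_le_ker (fun x => DC_DC x)) h1).symm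
  have h2 : (⟨th p q f, th_mem hp hq f⟩ : Cs X.X Y.X) ∈ LinearMap.ker (DC X Y) := by
    rw [LinearMap.mem_ker]
    exact Subtype.ext (D_th hp hq hf hD)
  rw [h0] at h2
  obtain ⟨K, hK⟩ := h2
  exact ⟨K.1, K.2, congrArg Subtype.val hK⟩

/-- the length zero part: `p` commutes with `φ` up to `d0 K0 - bar K0 d0`. -/
theorem comm_c0 (hp : IsPos X p) (hq : IsPos Y q) (h : hT X Y = 0) {f : X.X ⟶ Y.X}
    (hf : bar f = f) (hD : D X Y f = 0) :
    ∃ K : ∀ t, X.X.V t →ₗ[k] Y.X.V t, ∀ t,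
      c0 f t ∘ₗ c0 p t - c0 q t ∘ₗ c0 f t =
        c0 Y.d t ∘ₗ K t - (Y.X.gV t ∘ₗ K t ∘ₗ X.X.gV t) ∘ₗ c0 X.d t := by
  obtain ⟨K, -, hK⟩ := exists_th_eq hp hq h hf hD
  refine ⟨fun t => c0 K t, fun t => ?_⟩
  have h1 := congrArg (fun g => c0 g t) hK
  simp only [D_apply, c0_sub, c0_comp, c0_bar, th, c0_Lg, sub_zero] at h1
  exact h1.symm

end th

/-! ### minimal objects -/

section minimal

variable {X Y : FObj G k}

/-- the morphism of a family of operators -/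
def posH (X : Gob G k) (p : ∀ t, X.V t →ₗ[k] X.V t) : X ⟶ X :=
  mkH p (fun _ => 0) (fun _ _ _ => 0) (fun _ => 0) (fun _ => 0) (fun _ => 0)

theorem isPos_of_minimal (X : FObj G k) (p : ∀ t, X.X.V t →ₗ[k] X.X.V t)
    (hg : ∀ t, X.X.gV t ∘ₗ p t = p t ∘ₗ X.X.gV t)
    (hB : ∀ {s t : T} (a : G.E s t), X.B a ∘ₗ p s = p t ∘ₗ X.B a)
    (hi : ∀ t, p t ∘ₗ X.i t = 0) (hj : ∀ t, X.j t ∘ₗ p t = 0)
    (he : ∀ t, X.e t ∘ₗ p t - p t ∘ₗ X.e t = X.e t) :
    IsPos X.toTOb (posH X.X p) := by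
  refine ⟨fun _ => rfl, fun _ _ _ => rfl, fun _ => rfl, fun _ => rfl, fun _ => rfl, ?_, ?_⟩
  · apply hm_ext <;> intros <;> simp [posH]
    rw [← LinearMap.comp_assoc, hg, LinearMap.comp_assoc, Gob.gV_sq, LinearMap.comp_id]
  · apply hm_ext
    · intro t; simp [posH]
    · intro t; simp [posH]
    · intro s t a; simp [posH, hB]
    · intro t; simp [posH, hi]
    · intro t; simp [posH, hj]
    · intro t
      simp [posH]
      rw [he]

/-- **GRU for minimal objects**: every even cocycle between graded minimal objects with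
`hT X Y = 0` preserves the position operators. -/
theorem comm_pos {p : X.X ⟶ X.X} {q : Y.X ⟶ Y.X} (hp : IsPos X.toTOb p) (hq : IsPos Y.toTOb q)
    (h : hT X.toTOb Y.toTOb = 0) {f : X.X ⟶ Y.X} (hf : bar f = f)
    (hD : D X.toTOb Y.toTOb f = 0) (t : T) : c0 f t ∘ₗ c0 p t = c0 q t ∘ₗ c0 f t := by
  obtain ⟨K, hK⟩ := comm_c0 hp hq h hf hD
  have := hK t
  simpa [sub_eq_zero] using this

/-- the length zero part of an even cocycle commutes with `B`. -/
theorem comm_B {f : X.X ⟶ Y.X} (hf : bar f = f) (hD : D X.toTOb Y.toTOb f = 0) {s t : T}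
    (a : G.E s t) : Y.B a ∘ₗ c0 f s = c0 f t ∘ₗ X.B a := by
  rw [D_apply, hf] at hD
  have h1 := congrArg (fun g => c1 g a) hD
  simpa [sub_eq_zero] using h1

theorem comm_i {f : X.X ⟶ Y.X} (hf : bar f = f) (hD : D X.toTOb Y.toTOb f = 0) (t : T) :
    Y.i t ∘ₗ cW f t = c0 f t ∘ₗ X.i t := by
  rw [D_apply, hf] at hD
  have h1 := congrArg (fun g => ci g t) hD
  simpa [sub_eq_zero] using h1

theorem comm_j {f : X.X ⟶ Y.X} (hf : bar f = f) (hD : D X.toTOb Y.toTOb f = 0) (t : T) :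
    Y.j t ∘ₗ c0 f t = cW f t ∘ₗ X.j t := by
  rw [D_apply, hf] at hD
  have h1 := congrArg (fun g => cj g t) hD
  simpa [sub_eq_zero] using h1

end minimal

end Crest.Agent.R175.GRU_393
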