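import Crest.Agent.R175.DDef_145

/-!
Row 175, Track D (D-c), helper106: the Artin monoid `AP M`, its length, letters and reversal.
-/

set_option autoImplicit false

namespace Crest.Agent.R175.GaA_106

open Crest.Agent.R175.DDef_145

universe u v

section Alt

variable {S : Type u}

theorem alt_append (s t : S) (m : ℕ) :
    alt s t (m + 1) = alt s t m ++ [if m % 2 = 0 then s else t] := by
  induction m generalizing s t with
  | zero => simp [alt_succ]
  | succ m ih =>
    rw [alt_succ s t (m + 1), ih t s, alt_succ s t m, List.cons_append]
    congr 2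
    by_cases h : m % 2 = 0
    · have : (m + 1) % 2 ≠ 0 := by omega
      simp [h, this]
    · have : (m + 1) % 2 = 0 := by omega
      simp [h, this]

theorem alt_reverse (s t : S) (m : ℕ) :
    (alt s t m).reverse = if m % 2 = 0 then alt t s m else alt s t m := by
  induction m generalizing s t with
  | zero => simp
  | succ m ih =>
    conv_lhs => rw [alt_append s t m, List.reverse_append, ih]
    by_cases h : m % 2 = 0
    · have : (m + 1) % 2 ≠ 0 := by omega
      simp [h, this, alt_succ]
    · have : (m + 1) % 2 = 0 := by omega
      simp [h, this, alt_succ]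

end Alt

section Monoid

variable {S : Type u} (M : CoxeterMatrix S)

/-- The braid relations on words. -/
inductive ARel : FreeMonoid S → FreeMonoid S → Prop
  | braid (s t : S) (h : M s t ≠ 0) :
      ARel (FreeMonoid.ofList (alt s t (M s t))) (FreeMonoid.ofList (alt t s (M s t)))

/-- The Artin monoid. -/
def AP : Type u := PresentedMonoid (ARel M)

instance : Monoid (AP M) := inferInstanceAs (Monoid (PresentedMonoid (ARel M)))

/-- The generators of the Artin monoid. -/
def g (s : S) : AP M := PresentedMonoid.of (ARel M) s

theorem mk_ofList (l : List S) :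
    (PresentedMonoid.mk (ARel M) (FreeMonoid.ofList l) : AP M) = (l.map (g M)).prod := by
  induction l with
  | nil => exact map_one (PresentedMonoid.mk (ARel M))
  | cons a l ih =>
    rw [FreeMonoid.ofList_cons, List.map_cons, List.prod_cons, ← ih]
    exact map_mul (PresentedMonoid.mk (ARel M)) _ _

theorem braid_g : Braid M (g M) := by
  intro s t h
  rw [← mk_ofList, ← mk_ofList]
  exact PresentedMonoid.mk_eq_mk_of_rel (ARel.braid s t h)

variable {M}

/-- Universal property. -/
def lift {N : Type*} [Monoid N] (f : S → N) (hf : Braid M f) : AP M →* N :=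
  PresentedMonoid.lift f (by
    rintro _ _ ⟨s, t, h⟩
    have e : ∀ l : List S, FreeMonoid.lift f (FreeMonoid.ofList l) = (l.map f).prod := by
      intro l
      rw [FreeMonoid.lift_apply]; rfl
    rw [e, e]
    exact hf s t h)

@[simp] theorem lift_g {N : Type*} [Monoid N] (f : S → N) (hf : Braid M f) (s : S) :
    lift f hf (g M s) = f s := rfl

theorem exists_word (x : AP M) : ∃ l : List S, x = (l.map (g M)).prod := by
  obtain ⟨l, rfl⟩ := PresentedMonoid.surjective_mk x
  exact ⟨FreeMonoid.toList l, (mk_ofList M (FreeMonoid.toList l)).symm ▸ rfl⟩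

theorem ind {p : AP M → Prop} (h1 : p 1) (hs : ∀ s x, p x → p (g M s * x)) (x : AP M) : p x := by
  obtain ⟨l, rfl⟩ := exists_word x
  induction l with
  | nil => exact h1
  | cons a l ih => rw [List.map_cons, List.prod_cons]; exact hs _ _ ih

theorem hom_ext {N : Type*} [Monoid N] {φ ψ : AP M →* N} (h : ∀ s, φ (g M s) = ψ (g M s)) :
    φ = ψ := by
  ext x
  induction x using ind with
  | h1 => simp
  | hs s x ih => rw [map_mul, map_mul, h, ih]

/-- Length. -/
def lenHom : AP M →* Multiplicative ℕ :=
  lift (fun _ => Multiplicative.ofAdd 1) (by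
    intro s t h
    simp only [List.map_const', List.prod_replicate, length_alt])

/-- Length of an element of the Artin monoid. -/
def len (x : AP M) : ℕ := (lenHom x).toAdd

@[simp] theorem len_one : len (1 : AP M) = 0 := by
  unfold len; rw [map_one]; rfl

@[simp] theorem len_g (s : S) : len (g M s) = 1 := rfl

@[simp] theorem len_mul (x y : AP M) : len (x * y) = len x + len y := by
  unfold len; rw [map_mul]; rfl

@[simp] theorem len_prod (l : List S) : len ((l.map (g M)).prod) = l.length := by
  induction l with
  | nil => simp
  | cons a l ih => rw [List.map_cons, List.prod_cons, len_mul, ih]; simp; omega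

theorem eq_one_of_len {x : AP M} (h : len x = 0) : x = 1 := by
  obtain ⟨l, rfl⟩ := exists_word x
  rw [len_prod] at h
  rw [List.length_eq_zero_iff.1 h]; rfl

theorem eq_one_iff_len {x : AP M} : x = 1 ↔ len x = 0 := ⟨fun h => by rw [h]; simp, eq_one_of_len⟩

theorem exists_g_of_ne_one {x : AP M} (h : x ≠ 1) : ∃ s y, x = g M s * y := by
  obtain ⟨l, rfl⟩ := exists_word x
  cases l with
  | nil => exact absurd rfl h
  | cons a l => exact ⟨a, (l.map (g M)).prod, by simp⟩

theorem finite_len [Finite S] (n : ℕ) : {x : AP M | len x ≤ n}.Finite := by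
  have : {x : AP M | len x ≤ n} ⊆
      (fun l : List S => (l.map (g M)).prod) '' {l : List S | l.length ≤ n} := by
    intro x hx
    obtain ⟨l, rfl⟩ := exists_word x
    exact ⟨l, by simpa using hx, rfl⟩
  exact (Set.Finite.image _ (List.finite_length_le S n)).subset this

open Classical in
/-- Indicator function. -/
noncomputable def ind01 (X : Set S) (s : S) : ℕ := if s ∈ X then 1 else 0

theorem braid_ind01 (X : Set S) : Braid M (ind01 X) := by
  intro s t h
  have key : ∀ (m : ℕ) (a b : S), ((alt a b (m + 2)).map (ind01 X)).prod =
      ind01 X a * ind01 X b := by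
    intro m
    induction m with
    | zero => intro a b; simp [alt_succ]
    | succ m ih =>
      intro a b
      rw [alt_succ, List.map_cons, List.prod_cons, ih]
      unfold ind01
      split_ifs <;> simp
  rcases Nat.lt_or_ge (M s t) 2 with h2 | h2
  · have h1 : M s t = 1 := by omega
    have hst : s = t := by
      by_contra hne
      exact M.off_diagonal s t hne h1
    subst hst; rfl
  · obtain ⟨m, hm⟩ := Nat.exists_eq_add_of_le' h2
    rw [hm, key, key, mul_comm]

/-- `1` if all letters are in `X`, `0` otherwise. -/
noncomputable def inXHom (X : Set S) : AP M →* ℕ := lift (ind01 X) (braid_ind01 X)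

/-- All letters of `x` are in `X`. -/
def InX (X : Set S) (x : AP M) : Prop := inXHom X x = 1

theorem inX_one (X : Set S) : InX X (1 : AP M) := map_one _

theorem inX_mul {X : Set S} {x y : AP M} : InX X (x * y) ↔ InX X x ∧ InX X y := by
  unfold InX
  rw [map_mul]
  exact ⟨fun h => ⟨Nat.eq_one_of_mul_eq_one_right h, Nat.eq_one_of_mul_eq_one_left h⟩,
    fun ⟨a, b⟩ => by rw [a, b]⟩

theorem inX_g {X : Set S} {s : S} : InX X (g M s) ↔ s ∈ X := by
  unfold InX inXHom
  rw [lift_g]
  unfold ind01
  split_ifs with h <;> simp [h]

theorem inX_prod {X : Set S} {l : List S} : InX X (l.map (g M)).prod ↔ ∀ s ∈ l, s ∈ X := by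
  induction l with
  | nil => simp [inX_one]
  | cons a l ih => rw [List.map_cons, List.prod_cons, inX_mul, inX_g, ih]; simp

/-- Reversal. -/
def revHom : AP M →* (AP M)ᵐᵒᵖ :=
  lift (fun s => MulOpposite.op (g M s)) (by
    intro s t h
    have e : ∀ l : List S, (l.map fun s => MulOpposite.op (g M s)).prod =
        MulOpposite.op ((l.reverse.map (g M)).prod) := by
      intro l
      induction l with
      | nil => simp
      | cons a l ih =>
        rw [List.map_cons, List.prod_cons, ih, List.reverse_cons, List.map_append, List.prod_append]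
        simp
    rw [e, e, alt_reverse, alt_reverse]
    split_ifs
    · rw [braid_g M s t h]
    · rw [braid_g M s t h])

/-- Reversal. -/
def rev (x : AP M) : AP M := (revHom x).unop

@[simp] theorem rev_one : rev (1 : AP M) = 1 := by
  unfold rev; rw [map_one]; rfl

@[simp] theorem rev_g (s : S) : rev (g M s) = g M s := rfl

@[simp] theorem rev_mul (x y : AP M) : rev (x * y) = rev y * rev x := by
  unfold rev; rw [map_mul]; rfl

@[simp] theorem rev_rev (x : AP M) : rev (rev x) = x := by
  induction x using ind with
  | h1 => simp
  | hs s x ih => simp [ih]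

theorem rev_prod (l : List S) : rev ((l.map (g M)).prod) = (l.reverse.map (g M)).prod := by
  induction l with
  | nil => simp
  | cons a l ih => simp [ih]

@[simp] theorem len_rev (x : AP M) : len (rev x) = len x := by
  induction x using ind with
  | h1 => simp
  | hs s x ih => simp [ih, add_comm]

theorem ind' {p : AP M → Prop} (h1 : p 1) (hs : ∀ s x, p x → p (x * g M s)) (x : AP M) : p x := by
  rw [← rev_rev x]
  induction (rev x) using ind with
  | h1 => simpa using h1
  | hs s x ih => simpa using hs s _ ih

end Monoid

end Crest.Agent.R175.GaA_106
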