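import Crest.Agent.R175.GaA_106

/-!
Row 175, Track D (D-c), helper106: the Artin monoid acts on `W × AP M` (Michel); maximal simple
left divisor `al`, cancellation.
-/

set_option autoImplicit false

namespace Crest.Agent.R175.GaB_106

open Crest.Agent.R175.DDef_145 Crest.Agent.R175.GaA_106

universe u v

variable {S : Type u} {M : CoxeterMatrix S} {W : Type v} [Group W] (cs : CoxeterSystem M W)

/-- prefix (weak) order. -/
def PL (u w : W) : Prop := cs.length u + cs.length (u⁻¹ * w) = cs.length w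

variable {cs}

theorem PL.refl (w : W) : PL cs w w := by simp [PL]

theorem PL.one (w : W) : PL cs 1 w := by simp [PL]

theorem PL.length_le {u w : W} (h : PL cs u w) : cs.length u ≤ cs.length w := by
  unfold PL at h; omega

theorem PL.of_mul {u w : W} (h : cs.length (u * w) = cs.length u + cs.length w) :
    PL cs u (u * w) := by
  unfold PL; rw [inv_mul_cancel_left, h]

theorem PL.trans {u v w : W} (h1 : PL cs u v) (h2 : PL cs v w) : PL cs u w := by
  unfold PL at *
  have e : u⁻¹ * w = (u⁻¹ * v) * (v⁻¹ * w) := by group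
  have l1 := cs.length_mul_le (u⁻¹ * v) (v⁻¹ * w)
  rw [← e] at l1
  have l2 := cs.length_mul_le u (u⁻¹ * w)
  rw [mul_inv_cancel_left] at l2
  omega

theorem PL.eq_of_length {u w : W} (h : PL cs u w) (hl : cs.length w ≤ cs.length u) : u = w := by
  unfold PL at h
  have : cs.length (u⁻¹ * w) = 0 := by omega
  have := cs.length_eq_zero_iff.1 this
  exact (inv_mul_eq_one.1 this)

theorem PL.antisymm {u w : W} (h : PL cs u w) (h' : PL cs w u) : u = w :=
  h.eq_of_length h'.length_le

theorem PL_mul_left_iff {c a b : W} (ha : cs.length (c * a) = cs.length c + cs.length a)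
    (hb : cs.length (c * b) = cs.length c + cs.length b) :
    PL cs (c * a) (c * b) ↔ PL cs a b := by
  unfold PL
  have e : (c * a)⁻¹ * (c * b) = a⁻¹ * b := by group
  rw [e, ha, hb]; omega

theorem PL_one_iff {u : W} : PL cs u 1 ↔ u = 1 := by
  constructor
  · intro h
    have := h.length_le
    rw [cs.length_one] at this
    exact cs.length_eq_zero_iff.1 (by omega)
  · rintro rfl; exact PL.refl _

theorem PL_simple_iff {s : S} {w : W} : PL cs (cs.simple s) w ↔ cs.IsLeftDescent w s := by
  unfold PL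
  rw [cs.length_simple, cs.inv_simple]
  have := cs.length_simple_mul w s
  unfold CoxeterSystem.IsLeftDescent
  omega

variable (cs)

/-- Facts about the Coxeter group used for the Garside theory. -/
structure WF : Prop where
  w1 : ∀ (w : W) (i j : S), i ≠ j → cs.IsLeftDescent w i → cs.IsLeftDescent w j →
    M i j ≠ 0 ∧ PL cs (cs.wordProd (alt i j (M i j))) w
  w1' : ∀ i j : S, i ≠ j → M i j ≠ 0 → cs.length (cs.wordProd (alt i j (M i j))) = M i j
  w4 : ∀ ω ω' : List S, cs.IsReduced ω → cs.IsReduced ω' → cs.wordProd ω = cs.wordProd ω' →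
    (ω.map (g M)).prod = (ω'.map (g M)).prod
  mz : ∀ u w : W, ∃ z, PL cs z w ∧ cs.length (u * z) = cs.length u + cs.length z ∧
    ∀ z', PL cs z' w → cs.length (u * z') = cs.length u + cs.length z' → PL cs z' z

/-- Section of `AP M → W`. -/
noncomputable def tau (w : W) : AP M := ((cs.exists_isReduced w).choose.map (g M)).prod

variable {cs}

theorem len_tau (w : W) : len (tau cs w) = cs.length w := by
  unfold tau
  rw [len_prod]
  obtain ⟨h1, h2⟩ := (cs.exists_isReduced w).choose_spec
  conv_rhs => rw [h2]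
  exact h1.eq.symm

namespace WF

variable (hW : WF cs)
include hW

theorem tau_word {ω : List S} (h : cs.IsReduced ω) :
    tau cs (cs.wordProd ω) = (ω.map (g M)).prod := by
  obtain ⟨h1, h2⟩ := (cs.exists_isReduced (cs.wordProd ω)).choose_spec
  exact hW.w4 _ _ h1 h h2.symm

theorem tau_one : tau cs (1 : W) = 1 := by
  have := hW.tau_word (ω := []) (by simp [CoxeterSystem.IsReduced])
  simpa using this

theorem tau_simple (s : S) : tau cs (cs.simple s) = g M s := by
  have := hW.tau_word (ω := [s]) (by simp [CoxeterSystem.IsReduced])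
  simpa using this

theorem tau_mul {u v : W} (h : cs.length (u * v) = cs.length u + cs.length v) :
    tau cs (u * v) = tau cs u * tau cs v := by
  obtain ⟨ω, h1, rfl⟩ := cs.exists_isReduced u
  obtain ⟨ω', h1', rfl⟩ := cs.exists_isReduced v
  rw [← cs.wordProd_append, hW.tau_word h1, hW.tau_word h1', hW.tau_word, List.map_append,
    List.prod_append]
  unfold CoxeterSystem.IsReduced
  rw [cs.wordProd_append, h, h1.eq, h1'.eq, List.length_append]

theorem tau_PL {u w : W} (h : PL cs u w) : tau cs w = tau cs u * tau cs (u⁻¹ * w) := by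
  rw [← hW.tau_mul, mul_inv_cancel_left]
  rw [mul_inv_cancel_left]; exact h.symm

end WF

/-- The maximal prefix `z` of `w` such that `u z` is reduced. -/
noncomputable def zz (hW : WF cs) (u w : W) : W := (hW.mz u w).choose

namespace WF

variable (hW : WF cs)
include hW

theorem zz_PL (u w : W) : PL cs (zz hW u w) w := (hW.mz u w).choose_spec.1

theorem zz_len (u w : W) :
    cs.length (u * zz hW u w) = cs.length u + cs.length (zz hW u w) :=
  (hW.mz u w).choose_spec.2.1

theorem zz_max {u w z' : W} (h : PL cs z' w)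
    (h' : cs.length (u * z') = cs.length u + cs.length z') : PL cs z' (zz hW u w) :=
  (hW.mz u w).choose_spec.2.2 z' h h'

theorem zz_one_right (u : W) : zz hW u 1 = 1 := PL_one_iff.1 (hW.zz_PL u 1)

theorem zz_eq {u w : W} (h : cs.length (u * w) = cs.length u + cs.length w) : zz hW u w = w :=
  (hW.zz_PL u w).antisymm (hW.zz_max (PL.refl w) h)

theorem zz_mul {u v : W} (h : cs.length (u * v) = cs.length u + cs.length v) (w : W) :
    zz hW u (v * zz hW v w) = v * zz hW (u * v) w := by
  set z := zz hW v w with hz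
  set y := zz hW u (v * z) with hy
  set z' := zz hW (u * v) w with hz'
  have hzl : cs.length (v * z) = cs.length v + cs.length z := hW.zz_len v w
  have hyl : cs.length (u * y) = cs.length u + cs.length y := hW.zz_len u _
  have hz'l : cs.length (u * v * z') = cs.length (u * v) + cs.length z' := hW.zz_len _ _
  have hvy : PL cs v y := hW.zz_max (PL.of_mul hzl) h
  have hvy' : cs.length y = cs.length v + cs.length (v⁻¹ * y) := hvy.symm
  -- `y' = v⁻¹ y`
  have h1 : PL cs (v⁻¹ * y) z := by
    rw [← PL_mul_left_iff (c := v) _ hzl, mul_inv_cancel_left]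
    · exact hW.zz_PL u _
    · rw [mul_inv_cancel_left]; exact hvy'
  have h2 : PL cs (v⁻¹ * y) z' := by
    apply hW.zz_max (h1.trans (hW.zz_PL v w))
    rw [mul_assoc, mul_inv_cancel_left, hyl, h]
    omega
  have h3 : cs.length (v * z') = cs.length v + cs.length z' := by
    have l1 := cs.length_mul_le v z'
    have l2 := cs.length_mul_le u (v * z')
    rw [← mul_assoc] at l2
    omega
  have h4 : PL cs z' z := hW.zz_max (hW.zz_PL _ _) h3
  have h5 : PL cs (v * z') y := by
    apply hW.zz_max ((PL_mul_left_iff h3 hzl).2 h4)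
    rw [← mul_assoc]
    omega
  refine PL.antisymm ?_ h5
  have := (PL_mul_left_iff (cs := cs) (c := v) (a := v⁻¹ * y) (b := z')
    (by rw [mul_inv_cancel_left]; exact hvy') h3).2 h2
  rwa [mul_inv_cancel_left] at this

/-- The action of a simple element on `W × AP M`. -/
noncomputable def act (u : W) : Function.End (W × AP M) := fun p =>
  (u * zz hW u p.1, tau cs ((zz hW u p.1)⁻¹ * p.1) * p.2)

theorem act_mul {u v : W} (h : cs.length (u * v) = cs.length u + cs.length v) :
    hW.act (u * v) = hW.act u * hW.act v := by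
  funext p
  obtain ⟨w, b⟩ := p
  show hW.act (u * v) (w, b) = hW.act u (hW.act v (w, b))
  unfold act
  simp only
  rw [hW.zz_mul h w]
  have hz := hW.zz_PL v w
  have h3 : cs.length (v * zz hW (u * v) w) = cs.length v + cs.length (zz hW (u * v) w) := by
    have l0 := hW.zz_len (u * v) w
    have l1 := cs.length_mul_le v (zz hW (u * v) w)
    have l2 := cs.length_mul_le u (v * zz hW (u * v) w)
    rw [← mul_assoc] at l2
    omega
  have h4 : PL cs (zz hW (u * v) w) (zz hW v w) := hW.zz_max (hW.zz_PL _ _) h3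
  refine Prod.ext (by simp [mul_assoc]) ?_
  simp only
  rw [← mul_assoc]
  congr 1
  have e1 : (v * zz hW (u * v) w)⁻¹ * (v * zz hW v w) = (zz hW (u * v) w)⁻¹ * zz hW v w := by group
  rw [e1, ← hW.tau_mul]
  · congr 1; group
  · have e2 : (zz hW (u * v) w)⁻¹ * zz hW v w * ((zz hW v w)⁻¹ * w) = (zz hW (u * v) w)⁻¹ * w := by
      group
    rw [e2]
    have a1 : cs.length (zz hW (u * v) w) + cs.length ((zz hW (u * v) w)⁻¹ * zz hW v w) =
      cs.length (zz hW v w) := h4
    have a2 : cs.length (zz hW v w) + cs.length ((zz hW v w)⁻¹ * w) = cs.length w := hz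
    have a3 : cs.length (zz hW (u * v) w) + cs.length ((zz hW (u * v) w)⁻¹ * w) = cs.length w :=
      h4.trans hz
    omega

theorem act_one : hW.act 1 = 1 := by
  funext p
  obtain ⟨w, b⟩ := p
  show hW.act 1 (w, b) = (w, b)
  unfold act
  have : zz hW 1 w = w := hW.zz_eq (by simp)
  simp [this, hW.tau_one]

theorem act_word {ω : List S} (h : cs.IsReduced ω) :
    (ω.map fun s => hW.act (cs.simple s)).prod = hW.act (cs.wordProd ω) := by
  induction ω with
  | nil => simp [hW.act_one]
  | cons a ω ih =>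
    have h' : cs.IsReduced ω := by simpa using h.drop 1
    rw [List.map_cons, List.prod_cons, ih h', cs.wordProd_cons, hW.act_mul]
    have e := h.eq
    rw [cs.wordProd_cons] at e
    rw [e, h'.eq, cs.length_simple, List.length_cons]; omega

omit hW in
theorem alt_eq_reverse (m : ℕ) : ∀ s t : S,
    alt s t m = (CoxeterSystem.alternatingWord t s m).reverse := by
  induction m with
  | zero => intro s t; simp [CoxeterSystem.alternatingWord]
  | succ m ih =>
    intro s t
    rw [alt_succ, CoxeterSystem.alternatingWord_succ, ih, List.concat_eq_append,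
      List.reverse_append]
    simp

omit hW in
theorem wordProd_alt_comm (i j : S) :
    cs.wordProd (alt i j (M i j)) = cs.wordProd (alt j i (M i j)) := by
  rw [alt_eq_reverse, alt_eq_reverse, cs.wordProd_reverse, cs.wordProd_reverse, inv_inj]
  have := cs.wordProd_braidWord_eq j i
  unfold CoxeterSystem.braidWord at this
  rw [M.symmetric j i] at this
  exact this

theorem braid_act : Braid M (fun s => hW.act (cs.simple s)) := by
  intro s t h
  by_cases hst : s = t
  · subst hst; rfl
  have h1 : cs.IsReduced (alt s t (M s t)) := by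
    unfold CoxeterSystem.IsReduced
    rw [hW.w1' s t hst h, length_alt]
  have h2 : cs.IsReduced (alt t s (M s t)) := by
    have := hW.w1' t s (Ne.symm hst) (by rwa [M.symmetric] )
    unfold CoxeterSystem.IsReduced
    rw [length_alt]
    rwa [M.symmetric] at this
  rw [hW.act_word h1, hW.act_word h2, wordProd_alt_comm]

/-- The action of the Artin monoid on `W × AP M`. -/
noncomputable def Phi : AP M →* Function.End (W × AP M) :=
  lift (fun s => hW.act (cs.simple s)) hW.braid_act

@[simp] theorem Phi_g (s : S) : hW.Phi (g M s) = hW.act (cs.simple s) := rfl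

theorem Phi_tau (w : W) : hW.Phi (tau cs w) = hW.act w := by
  obtain ⟨ω, h1, rfl⟩ := cs.exists_isReduced w
  rw [hW.tau_word h1, ← hW.act_word h1, map_list_prod, List.map_map]
  rfl

theorem tau_act (u : W) (p : W × AP M) :
    tau cs (hW.act u p).1 * (hW.act u p).2 = tau cs u * (tau cs p.1 * p.2) := by
  unfold act
  simp only
  rw [hW.tau_mul (hW.zz_len u p.1), mul_assoc, ← mul_assoc (tau cs (zz hW u p.1)),
    ← hW.tau_PL (hW.zz_PL u p.1)]

theorem tau_Phi (x : AP M) (p : W × AP M) :
    tau cs (hW.Phi x p).1 * (hW.Phi x p).2 = x * (tau cs p.1 * p.2) := by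
  induction x using ind with
  | h1 => rw [map_one, one_mul]; rfl
  | hs s x ih =>
    rw [map_mul]
    show tau cs (hW.Phi (g M s) (hW.Phi x p)).1 * (hW.Phi (g M s) (hW.Phi x p)).2 = _
    rw [Phi_g, hW.tau_act, ih, hW.tau_simple, mul_assoc]

/-- The maximal simple left divisor. -/
noncomputable def al (x : AP M) : W := (hW.Phi x (1, 1)).1

/-- The complement of the maximal simple left divisor. -/
noncomputable def om (x : AP M) : AP M := (hW.Phi x (1, 1)).2

theorem al_om (x : AP M) : tau cs (hW.al x) * hW.om x = x := by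
  have := hW.tau_Phi x (1, 1)
  rw [hW.tau_one, mul_one, mul_one] at this
  exact this

theorem Phi_11 (x : AP M) : hW.Phi x (1, 1) = (hW.al x, hW.om x) := rfl

theorem al_tau_mul (u : W) (x : AP M) : hW.al (tau cs u * x) = u * zz hW u (hW.al x) := by
  unfold al
  rw [map_mul, hW.Phi_tau]
  rfl

theorem om_tau_mul (u : W) (x : AP M) :
    hW.om (tau cs u * x) = tau cs ((zz hW u (hW.al x))⁻¹ * hW.al x) * hW.om x := by
  unfold om
  rw [map_mul, hW.Phi_tau]
  rfl

theorem al_one : hW.al (1 : AP M) = 1 := by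
  unfold al; rw [map_one]; rfl

theorem om_one : hW.om (1 : AP M) = 1 := by
  unfold om; rw [map_one]; rfl

theorem al_tau (w : W) : hW.al (tau cs w) = w := by
  have := hW.al_tau_mul w 1
  rwa [mul_one, hW.al_one, hW.zz_one_right, mul_one] at this

theorem tau_injective : Function.Injective (tau cs : W → AP M) := fun u w h => by
  rw [← hW.al_tau u, h, hW.al_tau]

/-- Recover `x` from `tau u * x`. -/
theorem recover (u : W) (x : AP M) :
    x = tau cs (u⁻¹ * hW.al (tau cs u * x)) * hW.om (tau cs u * x) := by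
  rw [hW.al_tau_mul, hW.om_tau_mul, inv_mul_cancel_left, ← mul_assoc,
    ← hW.tau_PL (hW.zz_PL u _), hW.al_om]

theorem tau_mul_cancel {u : W} {x y : AP M} (h : tau cs u * x = tau cs u * y) : x = y := by
  rw [hW.recover u x, h, ← hW.recover u y]

theorem g_mul_cancel {s : S} {x y : AP M} (h : g M s * x = g M s * y) : x = y := by
  rw [← hW.tau_simple] at h
  exact hW.tau_mul_cancel h

/-- Left cancellation. -/
theorem cancelL {a x y : AP M} (h : a * x = a * y) : x = y := by
  induction a using ind with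
  | h1 => simpa using h
  | hs s a ih =>
    rw [mul_assoc, mul_assoc] at h
    exact ih (hW.g_mul_cancel h)

/-- Right cancellation. -/
theorem cancelR {a x y : AP M} (h : x * a = y * a) : x = y := by
  have h' : rev a * rev x = rev a * rev y := by rw [← rev_mul, ← rev_mul, h]
  have := congrArg rev (hW.cancelL h')
  simpa using this

theorem dvd_mul_iff {a x y : AP M} : a * x ∣ a * y ↔ x ∣ y := by
  constructor
  · rintro ⟨c, hc⟩
    exact ⟨c, hW.cancelL (by rw [hc, mul_assoc])⟩
  · rintro ⟨c, rfl⟩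
    exact ⟨c, by rw [mul_assoc]⟩

theorem tau_dvd_iff {w : W} {x : AP M} : tau cs w ∣ x ↔ PL cs w (hW.al x) := by
  constructor
  · rintro ⟨y, rfl⟩
    rw [hW.al_tau_mul]
    exact PL.of_mul (hW.zz_len _ _)
  · intro h
    exact ⟨tau cs (w⁻¹ * hW.al x) * hW.om x, by rw [← mul_assoc, ← hW.tau_PL h, hW.al_om]⟩

theorem tau_dvd_tau {u w : W} : tau cs u ∣ tau cs w ↔ PL cs u w := by
  rw [hW.tau_dvd_iff, hW.al_tau]

theorem g_dvd_iff {s : S} {x : AP M} : g M s ∣ x ↔ cs.IsLeftDescent (hW.al x) s := by
  rw [← hW.tau_simple, hW.tau_dvd_iff, PL_simple_iff]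

/-- The lcm of two atoms. -/
theorem two_atoms {s t : S} (hst : s ≠ t) {x : AP M} (hs : g M s ∣ x) (ht : g M t ∣ x) :
    M s t ≠ 0 ∧ ((alt s t (M s t)).map (g M)).prod ∣ x := by
  obtain ⟨h0, h⟩ := hW.w1 (hW.al x) s t hst (hW.g_dvd_iff.1 hs) (hW.g_dvd_iff.1 ht)
  refine ⟨h0, ?_⟩
  have h1 : cs.IsReduced (alt s t (M s t)) := by
    unfold CoxeterSystem.IsReduced
    rw [hW.w1' s t hst h0, length_alt]
  rw [← hW.tau_word h1, hW.tau_dvd_iff]
  exact h

omit hW in
theorem antisymm {x y : AP M} (h : x ∣ y) (h' : y ∣ x) : x = y := by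
  obtain ⟨c, rfl⟩ := h
  obtain ⟨d, hd⟩ := h'
  have := congrArg len hd
  simp only [len_mul] at this
  rw [eq_one_of_len (x := c) (by omega), mul_one]

omit hW in
theorem len_le {x y : AP M} (h : x ∣ y) : len x ≤ len y := by
  obtain ⟨c, rfl⟩ := h
  simp

/-- Bounded lcm. -/
theorem lcm_aux (n : ℕ) : ∀ m : AP M, len m ≤ n → ∀ x y : AP M, x ∣ m → y ∣ m →
    ∃ j, x ∣ j ∧ y ∣ j ∧ ∀ m', x ∣ m' → y ∣ m' → j ∣ m' := by
  induction n with
  | zero =>
    intro m hm x y hx hy
    have hx1 : x = 1 := eq_one_of_len (by have := len_le hx; omega)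
    have hy1 : y = 1 := eq_one_of_len (by have := len_le hy; omega)
    subst hx1; subst hy1
    exact ⟨1, one_dvd _, one_dvd _, fun m' _ _ => one_dvd _⟩
  | succ n ih =>
    intro m hm x y hx hy
    by_cases hx1 : x = 1
    · subst hx1; exact ⟨y, one_dvd _, dvd_rfl, fun m' _ h => h⟩
    by_cases hy1 : y = 1
    · subst hy1; exact ⟨x, dvd_rfl, one_dvd _, fun m' h _ => h⟩
    obtain ⟨s, x', rfl⟩ := exists_g_of_ne_one hx1
    obtain ⟨t, y', rfl⟩ := exists_g_of_ne_one hy1
    have hsm : g M s ∣ m := (Dvd.intro _ rfl).trans hx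
    have htm : g M t ∣ m := (Dvd.intro _ rfl).trans hy
    -- join with a common first letter
    have common : ∀ (a : S) (p q : AP M), g M a * p ∣ m → g M a * q ∣ m →
        ∃ j, g M a * p ∣ j ∧ g M a * q ∣ j ∧ (∀ m', g M a * p ∣ m' → g M a * q ∣ m' → j ∣ m') := by
      intro a p q hp hq
      obtain ⟨m1, hm1⟩ : g M a ∣ m := (Dvd.intro _ rfl).trans hp
      have hl : len m1 ≤ n := by
        have := congrArg len hm1
        rw [len_mul, len_g] at this; omega
      obtain ⟨j, h1, h2, h3⟩ := ih m1 hl p q (by rwa [hm1, hW.dvd_mul_iff] at hp)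
        (by rwa [hm1, hW.dvd_mul_iff] at hq)
      refine ⟨g M a * j, hW.dvd_mul_iff.2 h1, hW.dvd_mul_iff.2 h2, ?_⟩
      intro m' hp' hq'
      obtain ⟨m'', rfl⟩ : g M a ∣ m' := (Dvd.intro _ rfl).trans hp'
      exact hW.dvd_mul_iff.2 (h3 _ (hW.dvd_mul_iff.1 hp') (hW.dvd_mul_iff.1 hq'))
    by_cases hst : s = t
    · subst hst
      exact common s x' y' hx hy
    obtain ⟨h0, hD⟩ := hW.two_atoms hst hsm htm
    -- `D = lcm(s,t)` starts with `s` and with `t`
    set D : AP M := ((alt s t (M s t)).map (g M)).prod with hDdef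
    obtain ⟨k, hk⟩ := Nat.exists_eq_succ_of_ne_zero h0
    have hD1 : D = g M s * ((alt t s k).map (g M)).prod := by
      rw [hDdef, hk]; simp [alt_succ]
    have hD2 : D = g M t * ((alt s t k).map (g M)).prod := by
      rw [hDdef, braid_g M s t h0, hk]; simp [alt_succ]
    obtain ⟨j1, a1, a2, a3⟩ := common s x' _ hx (hD1 ▸ hD)
    obtain ⟨j2, b1, b2, b3⟩ := common t y' _ hy (hD2 ▸ hD)
    rw [← hD1] at a2 a3
    rw [← hD2] at b2 b3
    have hj1 : j1 ∣ m := a3 m hx hD
    have hj2 : j2 ∣ m := b3 m hy hD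
    obtain ⟨p, rfl⟩ := a2
    obtain ⟨q, rfl⟩ := b2
    obtain ⟨c, hc⟩ := hD
    have hlD : 0 < len D := by rw [hD1]; simp
    have hl : len c ≤ n := by
      have := congrArg len hc
      rw [len_mul] at this; omega
    obtain ⟨j, c1, c2, c3⟩ := ih c hl p q (by rwa [hc, hW.dvd_mul_iff] at hj1)
      (by rwa [hc, hW.dvd_mul_iff] at hj2)
    refine ⟨D * j, a1.trans (hW.dvd_mul_iff.2 c1), b1.trans (hW.dvd_mul_iff.2 c2), ?_⟩
    intro m' hx' hy'
    have hs' : g M s ∣ m' := (Dvd.intro _ rfl).trans hx'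
    have ht' : g M t ∣ m' := (Dvd.intro _ rfl).trans hy'
    have hD' : D ∣ m' := (hW.two_atoms hst hs' ht').2
    have e1 := a3 m' hx' hD'
    have e2 := b3 m' hy' hD'
    obtain ⟨c', rfl⟩ := hD'
    exact hW.dvd_mul_iff.2 (c3 c' (hW.dvd_mul_iff.1 e1) (hW.dvd_mul_iff.1 e2))

theorem lcm {x y m : AP M} (hx : x ∣ m) (hy : y ∣ m) :
    ∃ j, x ∣ j ∧ y ∣ j ∧ ∀ m', x ∣ m' → y ∣ m' → j ∣ m' :=
  hW.lcm_aux (len m) m le_rfl x y hx hy

/-- gcd: every two elements have a greatest common left divisor. -/
theorem gcd (x y : AP M) : ∃ d, d ∣ x ∧ d ∣ y ∧ ∀ z, z ∣ x → z ∣ y → z ∣ d := by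
  have key : ∀ k, ∀ d, d ∣ x → d ∣ y → len x ≤ len d + k →
      ∃ d, d ∣ x ∧ d ∣ y ∧ ∀ z, z ∣ x → z ∣ y → z ∣ d := by
    intro k
    induction k with
    | zero =>
      intro d hdx hdy hl
      refine ⟨d, hdx, hdy, fun z hz hz' => ?_⟩
      obtain ⟨j, h1, h2, h3⟩ := hW.lcm hdx hz
      have hj := h3 x hdx hz
      have : len j ≤ len d := by have := len_le hj; omega
      obtain ⟨c, rfl⟩ := h1
      have : c = 1 := eq_one_of_len (by rw [len_mul] at this; omega)
      subst this
      simpa using h2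
    | succ k ih =>
      intro d hdx hdy hl
      by_cases h : ∀ z, z ∣ x → z ∣ y → z ∣ d
      · exact ⟨d, hdx, hdy, h⟩
      push Not at h
      obtain ⟨z, hzx, hzy, hzd⟩ := h
      obtain ⟨j, h1, h2, h3⟩ := hW.lcm hdx hzx
      refine ih j (h3 x hdx hzx) (h3 y hdy hzy) ?_
      obtain ⟨c, rfl⟩ := h1
      have : len c ≠ 0 := fun h0 => hzd (by rw [eq_one_of_len h0, mul_one] at h2; exact h2)
      rw [len_mul]; omega
  exact key (len x) 1 (one_dvd _) (one_dvd _) (by omega)

end WF

end Crest.Agent.R175.GaB_106
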