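import Crest.Agent.R175.GaB_106
import Crest.Agent.R175.WB_527

/-!
Row 175, Track D (D-c), helper106: the facts `WF cs` for a finite Coxeter group, the Garside
element.
-/

set_option autoImplicit false

namespace Crest.Agent.R175.GaC_106

open Crest.Agent.R175.DDef_145 Crest.Agent.R175.GaA_106 Crest.Agent.R175.GaB_106

universe u v

variable {S : Type u} {M : CoxeterMatrix S} {W : Type v} [Group W] {cs : CoxeterSystem M W}

section Longest

variable {w0 : W} (h0 : ∀ w, PL cs w w0)
include h0

theorem length_mul_w0 (u : W) : cs.length (u * w0) + cs.length u = cs.length w0 := by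
  have := h0 u⁻¹
  unfold PL at this
  rw [inv_inv, cs.length_inv] at this
  omega

theorem w0_inv : w0⁻¹ = w0 :=
  (h0 w0⁻¹).eq_of_length (by rw [cs.length_inv])

theorem w0_mul_self : w0 * w0 = 1 := by
  conv_lhs => rw [← w0_inv h0]
  rw [w0_inv h0]
  conv_lhs => lhs; rw [← w0_inv h0]
  exact inv_mul_cancel w0

theorem length_w0_mul (u : W) : cs.length (w0 * u) + cs.length u = cs.length w0 := by
  have := length_mul_w0 h0 u⁻¹
  rw [cs.length_inv] at this
  rw [← cs.length_inv (w0 * u), mul_inv_rev, w0_inv h0]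
  exact this

theorem PL_inv_mul_iff {u z : W} :
    PL cs z (u⁻¹ * w0) ↔ cs.length (u * z) = cs.length u + cs.length z := by
  unfold PL
  have h1 := length_mul_w0 h0 u⁻¹
  have h2 := length_mul_w0 h0 (u * z)⁻¹
  rw [cs.length_inv] at h1 h2
  rw [show (u * z)⁻¹ * w0 = z⁻¹ * (u⁻¹ * w0) by group] at h2
  omega

theorem exists_star (s : S) : ∃ t : S, cs.simple t = w0 * cs.simple s * w0 := by
  have h1 := length_w0_mul h0 (cs.simple s * w0)
  have h2 := length_mul_w0 h0 (cs.simple s)
  rw [cs.length_simple] at h2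
  have h3 : cs.length (w0 * cs.simple s * w0) = 1 := by rw [mul_assoc]; omega
  obtain ⟨t, ht⟩ := cs.length_eq_one_iff.1 h3
  exact ⟨t, ht.symm⟩

end Longest

/-- meets from joins. -/
theorem exists_meet (h3 : ∀ u v : W, ∃ j, PL cs u j ∧ PL cs v j ∧
    ∀ w, PL cs u w → PL cs v w → PL cs j w) (x y : W) :
    ∃ d, PL cs d x ∧ PL cs d y ∧ ∀ z, PL cs z x → PL cs z y → PL cs z d := by
  have key : ∀ k, ∀ d, PL cs d x → PL cs d y → cs.length x ≤ cs.length d + k →
      ∃ d, PL cs d x ∧ PL cs d y ∧ ∀ z, PL cs z x → PL cs z y → PL cs z d := by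
    intro k
    induction k with
    | zero =>
      intro d hdx hdy hl
      refine ⟨d, hdx, hdy, fun z hz hz' => ?_⟩
      obtain ⟨j, h1, h2, h3⟩ := h3 d z
      have hj := h3 x hdx hz
      have e := h1.eq_of_length (by have := hj.length_le; omega)
      rwa [← e] at h2
    | succ k ih =>
      intro d hdx hdy hl
      by_cases h : ∀ z, PL cs z x → PL cs z y → PL cs z d
      · exact ⟨d, hdx, hdy, h⟩
      push Not at h
      obtain ⟨z, hzx, hzy, hzd⟩ := h
      obtain ⟨j, h1, h2, h3⟩ := h3 d z
      refine ih j (h3 x hdx hzx) (h3 y hdy hzy) ?_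
      by_contra hc
      have e := h1.eq_of_length (by omega)
      rw [← e] at h2
      exact hzd h2
  exact key (cs.length x) 1 (PL.one _) (PL.one _) (by omega)

/-- All the facts hold for finite Coxeter groups. -/
theorem wf [Finite W] (cs : CoxeterSystem M W) : WF cs where
  w1 w i j hij hi hj := WA_527.w1 hij hi hj
  w1' i j hij h := WA_527.w1' hij _ (Or.inr le_rfl)
  w4 ω ω' h h' he := WB_527.w4 (braid_g M) ω ω' h h' he
  mz u w := by
    obtain ⟨w0, h0⟩ := WB_527.w2 (cs := cs)
    obtain ⟨d, h1, h2, h3⟩ := exists_meet (cs := cs) (fun u v => WB_527.w3 u v) w (u⁻¹ * w0)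
    exact ⟨d, h1, (PL_inv_mul_iff h0).1 h2, fun z' hz hz' => h3 z' hz ((PL_inv_mul_iff h0).2 hz')⟩

section Pi

variable (cs)

theorem braid_simple : Braid M cs.simple := fun s t _ => WF.wordProd_alt_comm (cs := cs) s t

/-- The projection `AP M → W`. -/
noncomputable def pi : AP M →* W := lift cs.simple (braid_simple cs)

@[simp] theorem pi_g (s : S) : pi cs (g M s) = cs.simple s := rfl

theorem pi_prod (l : List S) : pi cs ((l.map (g M)).prod) = cs.wordProd l := by
  induction l with
  | nil => simp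
  | cons a l ih => rw [List.map_cons, List.prod_cons, map_mul, ih, pi_g, cs.wordProd_cons]

variable {cs}

theorem pi_tau (w : W) : pi cs (tau cs w) = w := by
  unfold tau
  rw [pi_prod]
  exact (cs.exists_isReduced w).choose_spec.2.symm

theorem length_pi_le (x : AP M) : cs.length (pi cs x) ≤ len x := by
  obtain ⟨l, rfl⟩ := exists_word x
  rw [pi_prod, len_prod]
  exact cs.length_wordProd_le l

theorem eq_tau_of_length (hW : WF cs) {x : AP M} (h : cs.length (pi cs x) = len x) :
    x = tau cs (pi cs x) := by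
  obtain ⟨l, rfl⟩ := exists_word x
  rw [pi_prod, len_prod] at h
  rw [pi_prod, hW.tau_word h]

theorem dvd_tau (hW : WF cs) {x : AP M} {w : W} (h : x ∣ tau cs w) :
    x = tau cs (pi cs x) ∧ PL cs (pi cs x) w := by
  obtain ⟨y, hy⟩ := h
  have h1 := congrArg (pi cs) hy
  rw [pi_tau, map_mul] at h1
  have h2 := congrArg len hy
  rw [len_tau, len_mul] at h2
  have h3 := length_pi_le (cs := cs) x
  have h4 := length_pi_le (cs := cs) y
  have h5 := cs.length_mul_le (pi cs x) (pi cs y)
  rw [← h1] at h5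
  have h6 : cs.length (pi cs x) = len x := by omega
  refine ⟨eq_tau_of_length hW h6, ?_⟩
  rw [h1]
  apply PL.of_mul
  rw [← h1]; omega

theorem tau_mul_iff (hW : WF cs) {u v w : W} (h : tau cs u * tau cs v = tau cs w) :
    u * v = w ∧ cs.length w = cs.length u + cs.length v := by
  have h1 := congrArg (pi cs) h
  rw [pi_tau, map_mul, pi_tau, pi_tau] at h1
  have h2 := congrArg len h
  rw [len_tau, len_mul, len_tau, len_tau] at h2
  exact ⟨h1, h2.symm⟩

end Pi

section Garside

variable (hW : WF cs) {w0 : W} (h0 : ∀ w, PL cs w w0)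

/-- conjugation by `w0` on the generators. -/
noncomputable def star (h0 : ∀ w, PL cs w w0) (s : S) : S := (exists_star h0 s).choose

theorem simple_star (s : S) : cs.simple (star h0 s) = w0 * cs.simple s * w0 :=
  (exists_star h0 s).choose_spec

include hW h0

theorem g_star_star (s : S) : g M (star h0 (star h0 s)) = g M s := by
  rw [← hW.tau_simple, ← hW.tau_simple, simple_star, simple_star]
  congr 1
  rw [show w0 * (w0 * cs.simple s * w0) * w0 = (w0 * w0) * cs.simple s * (w0 * w0) by group,
    w0_mul_self h0]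
  simp

theorem tau_dvd_Delta (w : W) : tau cs w ∣ tau cs w0 := hW.tau_dvd_tau.2 (h0 w)

theorem g_dvd_Delta (s : S) : g M s ∣ tau cs w0 := by
  rw [← hW.tau_simple]; exact tau_dvd_Delta hW h0 _

/-- `σ_s Δ = Δ σ_{s*}`. -/
theorem g_mul_Delta (s : S) : g M s * tau cs w0 = tau cs w0 * g M (star h0 s) := by
  have h1 := length_mul_w0 h0 (cs.simple s)
  rw [cs.length_simple] at h1
  have e1 : tau cs w0 = g M s * tau cs (cs.simple s * w0) := by
    rw [← hW.tau_simple, ← hW.tau_mul, cs.simple_mul_simple_cancel_left]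
    rw [cs.simple_mul_simple_cancel_left, cs.length_simple]; omega
  have e0 : cs.simple s * w0 * cs.simple (star h0 s) = w0 := by
    rw [simple_star, show cs.simple s * w0 * (w0 * cs.simple s * w0) =
      cs.simple s * (w0 * w0) * cs.simple s * w0 by group, w0_mul_self h0, mul_one,
      cs.simple_mul_simple_self, one_mul]
  have e2 : tau cs w0 = tau cs (cs.simple s * w0) * g M (star h0 s) := by
    rw [← hW.tau_simple, ← hW.tau_mul, e0]
    rw [e0, cs.length_simple]; omega
  calc g M s * tau cs w0 = g M s * (tau cs (cs.simple s * w0) * g M (star h0 s)) := by rw [← e2]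
    _ = tau cs w0 * g M (star h0 s) := by rw [← mul_assoc, ← e1]

/-- The automorphism of conjugation by `Δ`. -/
theorem exists_mul_Delta (x : AP M) : ∃ x', x * tau cs w0 = tau cs w0 * x' ∧ len x' = len x := by
  induction x using ind with
  | h1 => exact ⟨1, by simp, rfl⟩
  | hs s x ih =>
    obtain ⟨x', h1, h2⟩ := ih
    refine ⟨g M (star h0 s) * x', ?_, by simp [h2]⟩
    rw [mul_assoc, h1, ← mul_assoc, g_mul_Delta hW h0, mul_assoc]

/-- `Δ²` is central. -/
theorem Delta_sq_comm (x : AP M) :
    x * (tau cs w0 * tau cs w0) = tau cs w0 * tau cs w0 * x := by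
  induction x using ind with
  | h1 => simp
  | hs s x ih =>
    rw [mul_assoc, ih]
    have : g M s * (tau cs w0 * tau cs w0) = tau cs w0 * tau cs w0 * g M s := by
      rw [← mul_assoc, g_mul_Delta hW h0, mul_assoc, g_mul_Delta hW h0, g_star_star hW h0,
        mul_assoc]
    calc g M s * (tau cs w0 * tau cs w0 * x) = (g M s * (tau cs w0 * tau cs w0)) * x := by
          simp only [mul_assoc]
      _ = tau cs w0 * tau cs w0 * (g M s * x) := by rw [this]; simp only [mul_assoc]

theorem dvd_Delta_pow (x : AP M) : ∃ n : ℕ, x ∣ tau cs w0 ^ n := by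
  induction x using ind' with
  | h1 => exact ⟨0, one_dvd _⟩
  | hs s x ih =>
    obtain ⟨n, hn⟩ := ih
    have key : ∀ n : ℕ, ∀ x : AP M, x ∣ tau cs w0 ^ n → ∀ s, x * g M s ∣ tau cs w0 ^ (n + 1) := by
      intro n x hx s
      obtain ⟨y, hy⟩ := hx
      rw [pow_succ, hy]
      -- `x y Δ = x Δ y'`
      obtain ⟨y', hy', -⟩ := exists_mul_Delta hW h0 y
      rw [mul_assoc, hy']
      obtain ⟨z, hz⟩ := g_dvd_Delta hW h0 s
      exact ⟨z * y', by rw [hz]; simp only [mul_assoc]⟩
    exact ⟨n + 1, key n x hn s⟩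

end Garside

end Crest.Agent.R175.GaC_106
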