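import Crest.Agent.R175.GaC_106

/-!
Row 175, Track D (D-d), helper106: the Artin monoid embeds in the Artin group (spherical type);
the lattice order on the Artin group.
-/

set_option autoImplicit false

namespace Crest.Agent.R175.GaD_106

open Crest.GroupTheory
open Crest.Agent.R175.DDef_145 Crest.Agent.R175.GaA_106 Crest.Agent.R175.GaB_106
open Crest.Agent.R175.GaC_106

universe u v

section Embed

/-- Ore: a cancellative monoid with a central element divisible by everything (up to powers)
embeds in a group. -/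
theorem exists_embedding {N : Type u} [Monoid N] (cL : ∀ a x y : N, a * x = a * y → x = y)
    (cR : ∀ a x y : N, x * a = y * a → x = y) (D : N) (hD : ∀ x, D * x = x * D)
    (hdiv : ∀ x : N, ∃ n : ℕ, ∃ y, x * y = D ^ n) :
    ∃ (G : Type u) (_ : Group G) (f : N →* G), Function.Injective f := by
  have hDn : ∀ (n : ℕ) (x : N), D ^ n * x = x * D ^ n := fun n x =>
    ((show Commute D x from hD x).pow_left n).eq
  let _ : OreLocalization.OreSet (Submonoid.powers D) :=
    { ore_right_cancel := fun r₁ r₂ s h => ⟨1, by simpa using cR _ _ _ h⟩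
      oreNum := fun r _ => r
      oreDenom := fun _ s => s
      ore_eq := fun r s => by
        obtain ⟨_, n, rfl⟩ := s
        exact hDn n r }
  have hu : ∀ x : N, IsUnit ((OreLocalization.numeratorHom :
      N →* OreLocalization (Submonoid.powers D) N) x) := by
    intro x
    obtain ⟨n, y, hy⟩ := hdiv x
    have hy' : y * x = D ^ n := by
      apply cL x
      rw [← mul_assoc, hy, hDn]
    have h1 : IsUnit ((OreLocalization.numeratorHom :
      N →* OreLocalization (Submonoid.powers D) N) (x * y)) := by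
      rw [hy]
      exact OreLocalization.numerator_isUnit (⟨D ^ n, n, rfl⟩ : Submonoid.powers D)
    rw [map_mul] at h1
    have h2 : Commute ((OreLocalization.numeratorHom :
      N →* OreLocalization (Submonoid.powers D) N) x) ((OreLocalization.numeratorHom :
      N →* OreLocalization (Submonoid.powers D) N) y) := by
      show _ * _ = _ * _
      rw [← map_mul, ← map_mul, hy, hy']
    exact (h2.isUnit_mul_iff.1 h1).1
  refine ⟨(OreLocalization (Submonoid.powers D) N)ˣ, inferInstance,
    IsUnit.liftRight (OreLocalization.numeratorHom) hu, ?_⟩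
  intro x y hxy
  have h1 : (OreLocalization.numeratorHom : N →* OreLocalization (Submonoid.powers D) N) x =
      (OreLocalization.numeratorHom : N →* OreLocalization (Submonoid.powers D) N) y := by
    have := congrArg Units.val hxy
    simpa [IsUnit.coe_liftRight] using this
  rw [OreLocalization.numeratorHom_apply, OreLocalization.numeratorHom_apply,
    OreLocalization.oreDiv_eq_iff] at h1
  obtain ⟨u, v, h2, h3⟩ := h1
  have h4 : (u : N) = v := by simpa using h3
  have h5 : (u : N) * y = v * x := h2
  rw [h4] at h5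
  exact (cL _ _ _ h5).symm

end Embed

variable {S : Type u} {M : CoxeterMatrix S} {W : Type v} [Group W] {cs : CoxeterSystem M W}

/-- The canonical map from the Artin monoid to the Artin group. -/
noncomputable def iota (M : CoxeterMatrix S) : AP M →* ArtinGroup M :=
  lift (artinGen M) (braid_artinGen M)

@[simp] theorem iota_g (s : S) : iota M (g M s) = artinGen M s := rfl

/-- induction in the Artin group. -/
theorem artin_ind {p : ArtinGroup M → Prop} (h1 : p 1) (hs : ∀ s x, p x → p (artinGen M s * x))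
    (hi : ∀ s x, p x → p ((artinGen M s)⁻¹ * x)) (x : ArtinGroup M) : p x := by
  have hx : x ∈ Subgroup.closure (Set.range (artinGen M)) := by
    have : Subgroup.closure (Set.range (artinGen M)) = ⊤ :=
      PresentedGroup.closure_range_of (artinRelators M)
    rw [this]; trivial
  have key : ∀ y, y ∈ Subgroup.closure (Set.range (artinGen M)) → ∀ x, p x → p (y * x) := by
    intro y hy
    induction hy using Subgroup.closure_induction'' with
    | mem y hy => obtain ⟨s, rfl⟩ := hy; exact hs s
    | inv_mem y hy => obtain ⟨s, rfl⟩ := hy; exact hi s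
    | one => intro x hx; rwa [one_mul]
    | mul a b _ _ iha ihb => intro x hx; rw [mul_assoc]; exact iha _ (ihb _ hx)
  have := key x hx 1 h1
  rwa [mul_one] at this

section Finite

variable (hW : WF cs) {w0 : W} (h0 : ∀ w, PL cs w w0)
include hW h0

theorem iota_injective : Function.Injective (iota M) := by
  obtain ⟨G, _, f, hf⟩ := exists_embedding (N := AP M) (fun a x y h => hW.cancelL h)
    (fun a x y h => hW.cancelR h) (tau cs w0 * tau cs w0)
    (fun x => (Delta_sq_comm hW h0 x).symm) (by
      intro x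
      obtain ⟨n, y, hy⟩ := dvd_Delta_pow hW h0 x
      refine ⟨n, y * tau cs w0 ^ n, ?_⟩
      rw [← mul_assoc, ← hy, (Commute.refl (tau cs w0)).mul_pow])
  have hb : Braid M (fun s => f (g M s)) := by
    intro s t h
    have e : ∀ l : List S, (l.map fun s => f (g M s)).prod = f ((l.map (g M)).prod) := by
      intro l; rw [map_list_prod, List.map_map]; rfl
    rw [e, e, braid_g M s t h]
  have e : ((artinLift M (fun s => f (g M s)) hb).comp (iota M)) = f := by
    apply hom_ext
    intro s
    rw [MonoidHom.comp_apply, iota_g, artinLift_gen]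
  intro x y hxy
  apply hf
  rw [← e, MonoidHom.comp_apply, MonoidHom.comp_apply, hxy]

omit hW h0 in
theorem iota_tau_comm {x y : AP M} (h : x * y = y * x) :
    iota M x * iota M y = iota M y * iota M x := by rw [← map_mul, h, map_mul]

/-- `D = Δ²` is central in the group. -/
theorem D_central (x : ArtinGroup M) :
    iota M (tau cs w0 * tau cs w0) * x = x * iota M (tau cs w0 * tau cs w0) := by
  induction x using artin_ind with
  | h1 => simp
  | hs s x ih =>
    have : iota M (tau cs w0 * tau cs w0) * artinGen M s =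
        artinGen M s * iota M (tau cs w0 * tau cs w0) := by
      rw [← iota_g]; exact (iota_tau_comm (Delta_sq_comm hW h0 (g M s))).symm
    rw [← mul_assoc, this, mul_assoc, ih, ← mul_assoc]
  | hi s x ih =>
    have : iota M (tau cs w0 * tau cs w0) * artinGen M s =
        artinGen M s * iota M (tau cs w0 * tau cs w0) := by
      rw [← iota_g]; exact (iota_tau_comm (Delta_sq_comm hW h0 (g M s))).symm
    have h2 : iota M (tau cs w0 * tau cs w0) * (artinGen M s)⁻¹ =
        (artinGen M s)⁻¹ * iota M (tau cs w0 * tau cs w0) := by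
      rw [mul_inv_eq_iff_eq_mul, mul_assoc, this, inv_mul_cancel_left]
    rw [← mul_assoc, h2, mul_assoc, ih, ← mul_assoc]

theorem D_pow_central (n : ℕ) (x : ArtinGroup M) :
    iota M (tau cs w0 * tau cs w0) ^ n * x = x * iota M (tau cs w0 * tau cs w0) ^ n :=
  ((show Commute (iota M (tau cs w0 * tau cs w0)) x from D_central hW h0 x).pow_left n).eq

/-- Every element is `D^{-n} x` with `x` positive. -/
theorem exists_pos (x : ArtinGroup M) : ∃ (n : ℕ) (y : AP M),
    iota M (tau cs w0 * tau cs w0) ^ n * x = iota M y := by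
  induction x using artin_ind with
  | h1 => exact ⟨0, 1, by simp⟩
  | hs s x ih =>
    obtain ⟨n, y, hy⟩ := ih
    refine ⟨n, g M s * y, ?_⟩
    rw [← mul_assoc, D_pow_central hW h0, mul_assoc, hy, map_mul, iota_g]
  | hi s x ih =>
    obtain ⟨n, y, hy⟩ := ih
    obtain ⟨z, hz⟩ := g_dvd_Delta hW h0 s
    refine ⟨n + 1, z * tau cs w0 * y, ?_⟩
    have e : iota M (tau cs w0 * tau cs w0) * (artinGen M s)⁻¹ = iota M (z * tau cs w0) := by
      rw [D_central hW h0, inv_mul_eq_iff_eq_mul, ← iota_g, ← map_mul, ← mul_assoc, ← hz]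
    rw [pow_succ, mul_assoc, ← mul_assoc (iota M (tau cs w0 * tau cs w0)), e, ← mul_assoc,
      D_pow_central hW h0, mul_assoc, hy, ← map_mul]

/-- two elements at once -/
theorem exists_pos_two (x x' : ArtinGroup M) : ∃ (n : ℕ) (y y' : AP M),
    iota M (tau cs w0 * tau cs w0) ^ n * x = iota M y ∧
    iota M (tau cs w0 * tau cs w0) ^ n * x' = iota M y' := by
  obtain ⟨n, y, hy⟩ := exists_pos hW h0 x
  obtain ⟨m, y', hy'⟩ := exists_pos hW h0 x'
  refine ⟨n + m, (tau cs w0 * tau cs w0) ^ m * y, (tau cs w0 * tau cs w0) ^ n * y', ?_, ?_⟩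
  · rw [map_mul (iota M) (_ ^ m) y, map_pow, ← hy, add_comm n m, pow_add, mul_assoc]
  · rw [map_mul (iota M) (_ ^ n) y', map_pow, ← hy', pow_add, mul_assoc]

omit hW h0 in
/-- positive elements. -/
theorem mem_P {x : ArtinGroup M} : x ∈ MonoidHom.mrange (iota M) ↔ ∃ y, iota M y = x := Iff.rfl

theorem le_iff {x y : AP M} :
    (iota M x)⁻¹ * iota M y ∈ MonoidHom.mrange (iota M) ↔ x ∣ y := by
  constructor
  · rintro ⟨z, hz⟩
    refine ⟨z, iota_injective hW h0 ?_⟩
    rw [map_mul, hz, mul_inv_cancel_left]
  · rintro ⟨z, rfl⟩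
    exact ⟨z, by rw [map_mul, inv_mul_cancel_left]⟩

theorem exists_meet' (x y : ArtinGroup M) : ∃ m : ArtinGroup M,
    m⁻¹ * x ∈ MonoidHom.mrange (iota M) ∧ m⁻¹ * y ∈ MonoidHom.mrange (iota M) ∧
    ∀ z, z⁻¹ * x ∈ MonoidHom.mrange (iota M) → z⁻¹ * y ∈ MonoidHom.mrange (iota M) →
      z⁻¹ * m ∈ MonoidHom.mrange (iota M) := by
  obtain ⟨n, x', y', hx', hy'⟩ := exists_pos_two hW h0 x y
  obtain ⟨d, hd1, hd2, hd3⟩ := hW.gcd x' y'
  set D : AP M := tau cs w0 * tau cs w0 with hD
  have ex : x = (iota M D ^ n)⁻¹ * iota M x' := by rw [← hx', inv_mul_cancel_left]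
  have ey : y = (iota M D ^ n)⁻¹ * iota M y' := by rw [← hy', inv_mul_cancel_left]
  refine ⟨(iota M D ^ n)⁻¹ * iota M d, ?_, ?_, ?_⟩
  · rw [ex, mul_inv_rev, inv_inv, mul_assoc, mul_inv_cancel_left]
    exact (le_iff hW h0).2 hd1
  · rw [ey, mul_inv_rev, inv_inv, mul_assoc, mul_inv_cancel_left]
    exact (le_iff hW h0).2 hd2
  · intro z hzx hzy
    obtain ⟨k, z', hz'⟩ := exists_pos hW h0 (iota M D ^ n * z)
    have hk : ∀ (t : ArtinGroup M) (t' : AP M), iota M D ^ n * t = iota M t' →
        z⁻¹ * t ∈ MonoidHom.mrange (iota M) → z' ∣ D ^ k * t' := by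
      intro t t' ht hzt
      rw [← le_iff hW h0, map_mul, map_pow, ← ht, ← hz']
      have : (iota M D ^ k * (iota M D ^ n * z))⁻¹ * (iota M D ^ k * (iota M D ^ n * t)) =
        z⁻¹ * t := by group
      rw [this]; exact hzt
    have h1 := hk x x' hx' hzx
    have h2 := hk y y' hy' hzy
    obtain ⟨e, he1, he2, he3⟩ := hW.gcd (D ^ k * x') (D ^ k * y')
    obtain ⟨e', rfl⟩ := he3 (D ^ k) (Dvd.intro _ rfl) (Dvd.intro _ rfl)
    have h3 : e' ∣ d := hd3 e' (hW.dvd_mul_iff.1 he1) (hW.dvd_mul_iff.1 he2)
    have h4 : z' ∣ D ^ k * d := (he3 z' h1 h2).trans (hW.dvd_mul_iff.2 h3)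
    rw [← le_iff hW h0, ← hz', map_mul (iota M) (D ^ k) d, map_pow] at h4
    have e5 : (iota M D ^ k * (iota M D ^ n * z))⁻¹ * (iota M D ^ k * iota M d) =
      z⁻¹ * ((iota M D ^ n)⁻¹ * iota M d) := by group
    rwa [e5] at h4

end Finite

/-- Length homomorphism. -/
noncomputable def lenG (M : CoxeterMatrix S) : ArtinGroup M →* Multiplicative ℤ :=
  artinLift M (fun _ => Multiplicative.ofAdd 1) (by
    intro s t h
    simp only [List.map_const', List.prod_replicate, length_alt])

theorem lenG_gen (s : S) : lenG M (artinGen M s) = Multiplicative.ofAdd 1 :=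
  artinLift_gen _ _ _ _

theorem lenG_iota (x : AP M) : lenG M (iota M x) = Multiplicative.ofAdd (len x : ℤ) := by
  induction x using ind with
  | h1 => simp
  | hs s x ih => rw [map_mul, map_mul, ih, iota_g, lenG_gen, len_mul, len_g, ← ofAdd_add]; simp

theorem iota_mem_std {X : Set S} {x : AP M} (h : InX X x) : iota M x ∈ stdParabolic M X := by
  obtain ⟨l, rfl⟩ := exists_word x
  rw [inX_prod] at h
  rw [map_list_prod]
  apply Subgroup.list_prod_mem
  intro y hy
  rw [List.map_map, List.mem_map] at hy
  obtain ⟨s, hs, rfl⟩ := hy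
  exact Subgroup.subset_closure ⟨s, h s hs, rfl⟩

theorem iota_mem_closure {X : Set S} {x : AP M} (h : InX X x) :
    iota M x ∈ Submonoid.closure (artinGen M '' X) := by
  obtain ⟨l, rfl⟩ := exists_word x
  rw [inX_prod] at h
  rw [map_list_prod]
  apply Submonoid.list_prod_mem
  intro y hy
  rw [List.map_map, List.mem_map] at hy
  obtain ⟨s, hs, rfl⟩ := hy
  exact Submonoid.subset_closure ⟨s, h s hs, rfl⟩

end Crest.Agent.R175.GaD_106
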