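import Crest.Agent.R175.DF_184

/-!
# R175, Track D: from a Garside monoid to `Gars` (group half of the Garside basis)

`GMon N` : facts about the Artin monoid; `GMon.exists_group` : embedding into a group;
`GMon.toGars` : the structure `Gars A` of `DF_184` for a group `A` generated by an injective image
of `N`.
-/

set_option autoImplicit false

namespace Crest.Agent.R175.GaG_184

open Crest.Agent.R175.DF_184

universe u v

/-- Garside monoid with parabolic submonoids. -/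
structure GMon (N : Type u) [Monoid N] where
  /-- atoms -/
  S : Set N
  gen : ∀ x : N, x ∈ Submonoid.closure S
  /-- length -/
  len : N →* Multiplicative ℕ
  len_atom : ∀ s ∈ S, len s = Multiplicative.ofAdd 1
  fin_len : ∀ n : ℕ, {x : N | (len x).toAdd ≤ n}.Finite
  cancelL : ∀ a b c : N, a * b = a * c → b = c
  cancelR : ∀ a b c : N, b * a = c * a → b = c
  gcd : ∀ a b : N, ∃ d, d ∣ a ∧ d ∣ b ∧ ∀ e, e ∣ a → e ∣ b → e ∣ d
  /-- Garside element -/
  Δ : N
  atom_dvd : ∀ s ∈ S, s ∣ Δ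
  Δ_conj : ∀ x, ∃ y, x * Δ = Δ * y
  Δ_cen : ∃ m : ℕ, 0 < m ∧ ∀ x, Commute (Δ ^ m) x
  par_div : ∀ X ⊆ S, ∀ a b, a * b ∈ Submonoid.closure X →
    a ∈ Submonoid.closure X ∧ b ∈ Submonoid.closure X
  par_cen : ∀ X ⊆ S, ∃ c ∈ Submonoid.closure X, (∀ x ∈ X, x ∣ c) ∧ (∀ x ∈ X, Commute c x)
  /-- (0a), W9 -/
  proj_mono : ∀ X ⊆ S, ∀ p ∈ Submonoid.closure X, ∀ q ∈ Submonoid.closure X, ∀ a b : N,
    (∀ x ∈ X, ¬ x ∣ a) → (∀ x ∈ X, ¬ x ∣ b) → p * a ∣ q * b → q * b ∣ Δ → a ∣ b
  /-- (0b), W8 -/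
  par_shift : ∀ X ⊆ S, ∀ p ∈ Submonoid.closure X, ∀ w : N, (∀ x ∈ X, ¬ x ∣ w) → p * w ∣ Δ →
    w ∣ p * w → p ∈ Submonoid.closure {x | x ∈ X ∧ ∃ s ∈ S, x * w = w * s}

namespace GMon

variable {N : Type u} [Monoid N] (D : GMon N)

theorem closure_cases {X : Set N} {q : N} (hq : q ∈ Submonoid.closure X) :
    q = 1 ∨ ∃ x ∈ X, ∃ q' ∈ Submonoid.closure X, q = x * q' := by
  induction hq using Submonoid.closure_induction with
  | mem x hx => exact Or.inr ⟨x, hx, 1, one_mem _, (mul_one x).symm⟩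
  | one => exact Or.inl rfl
  | mul a b ha hb iha ihb =>
    rcases iha with rfl | ⟨x, hx, a', ha', rfl⟩
    · rw [one_mul]; exact ihb
    · exact Or.inr ⟨x, hx, a' * b, mul_mem ha' hb, by rw [mul_assoc]⟩

variable {D}

theorem commute_of_atoms {X : Set N} {c : N} (h : ∀ x ∈ X, Commute c x) :
    ∀ x ∈ Submonoid.closure X, Commute c x := by
  intro x hx
  induction hx using Submonoid.closure_induction with
  | mem x hx => exact h x hx
  | one => exact Commute.one_right c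
  | mul a b _ _ iha ihb => exact iha.mul_right ihb

theorem dvd_cancel (D : GMon N) {a b c : N} (h : a * b ∣ a * c) : b ∣ c := by
  obtain ⟨d, hd⟩ := h
  exact ⟨d, D.cancelL a _ _ (by rw [hd, mul_assoc])⟩

theorem one_of_len {x : N} (h : (D.len x).toAdd = 0) : x = 1 := by
  rcases closure_cases (D.gen x) with h1 | ⟨s, hs, q, _, rfl⟩
  · exact h1
  · rw [map_mul, D.len_atom s hs, toAdd_mul, toAdd_ofAdd] at h
    omega

theorem one_of_mul (D : GMon N) {a b : N} (h : a * b = 1) : a = 1 := by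
  apply one_of_len (D := D)
  have := congrArg (fun x => (D.len x).toAdd) h
  simp only [map_mul, map_one, toAdd_mul, toAdd_one] at this
  omega

/-- every element of `N_X` divides a power of the central element -/
theorem dvd_pow {X : Set N} (hX : X ⊆ D.S) {c : N} (hc : c ∈ Submonoid.closure X)
    (h1 : ∀ x ∈ X, x ∣ c) (h2 : ∀ x ∈ X, Commute c x) :
    ∀ a ∈ Submonoid.closure X, ∃ n : ℕ, ∃ b ∈ Submonoid.closure X,
      a * b = c ^ n ∧ b * a = c ^ n := by
  have h2' := commute_of_atoms h2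
  have key : ∀ a ∈ Submonoid.closure X, ∃ n : ℕ, ∃ b ∈ Submonoid.closure X, a * b = c ^ n := by
    intro a ha
    induction ha using Submonoid.closure_induction_left with
    | one => exact ⟨0, 1, one_mem _, by simp⟩
    | mul_left x hx a ha ih =>
      obtain ⟨n, b, hb, e⟩ := ih
      obtain ⟨y, hy⟩ := h1 x hx
      have hyX : y ∈ Submonoid.closure X := (D.par_div X hX x y (by rw [← hy]; exact hc)).2
      refine ⟨n + 1, b * y, mul_mem hb hyX, ?_⟩
      have e2 : Commute (c ^ n) x := (h2 x hx).pow_left n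
      calc x * a * (b * y) = x * (a * b) * y := by simp only [mul_assoc]
        _ = c ^ (n + 1) := by rw [e, ← e2.eq, mul_assoc, ← hy, pow_succ]
  intro a ha
  obtain ⟨n, b, hb, e⟩ := key a ha
  refine ⟨n, b, hb, e, ?_⟩
  apply D.cancelL a
  rw [← mul_assoc, e]
  exact ((h2' a ha).pow_left n).eq

theorem gcd_mul (D : GMon N) {a b g w e : N} (hg : ∀ e, e ∣ a → e ∣ b → e ∣ g) (h1 : e ∣ w * a)
    (h2 : e ∣ w * b) : e ∣ w * g := by
  obtain ⟨g', h3, h4, h5⟩ := D.gcd (w * a) (w * b)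
  obtain ⟨h, rfl⟩ := h5 w (Dvd.intro _ rfl) (Dvd.intro _ rfl)
  have h6 : h ∣ g := hg h (dvd_cancel D h3) (dvd_cancel D h4)
  exact (h5 e h1 h2).trans (mul_dvd_mul_left w h6)

/-! ### embedding into a group -/

/-- powers of a central element form an Ore set -/
@[reducible] def oreSet (D : GMon N) {c : N} (hc : ∀ x, Commute c x) :
    OreLocalization.OreSet (Submonoid.powers c) where
  ore_right_cancel r₁ r₂ s h := ⟨1, by
    have := D.cancelR _ _ _ h
    rw [this]⟩
  oreNum r _ := r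
  oreDenom _ s := s
  ore_eq r s := by
    obtain ⟨s, n, rfl⟩ := s
    exact ((hc r).pow_left n).eq

theorem exists_group (D : GMon N) :
    ∃ (G : Type u) (_ : Group G) (j : N →* G), Function.Injective j := by
  obtain ⟨c, hc, h1, h2⟩ := D.par_cen D.S (Set.Subset.refl _)
  have hcen : ∀ x, Commute c x := fun x => commute_of_atoms h2 x (D.gen x)
  let _ := oreSet D hcen
  let f : N →* OreLocalization (Submonoid.powers c) N := OreLocalization.numeratorHom
  have hunit : ∀ x, IsUnit (f x) := by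
    intro x
    obtain ⟨n, b, -, e1, e2⟩ := dvd_pow (D := D) (Set.Subset.refl _) hc h1 h2 x (D.gen x)
    obtain ⟨u, hu⟩ : IsUnit (f (c ^ n)) :=
      OreLocalization.numerator_isUnit (⟨c ^ n, n, rfl⟩ : Submonoid.powers c)
    have h3 : f x * (f b * ↑u⁻¹) = 1 := by
      rw [← mul_assoc, ← map_mul, e1, ← hu, Units.mul_inv]
    have h4 : (↑u⁻¹ * f b) * f x = 1 := by
      rw [mul_assoc, ← map_mul, e2, ← hu, Units.inv_mul]
    have h5 := left_inv_eq_right_inv h4 h3
    exact ⟨⟨f x, f b * ↑u⁻¹, h3, by rw [← h5]; exact h4⟩, rfl⟩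
  refine ⟨(OreLocalization (Submonoid.powers c) N)ˣ, inferInstance, IsUnit.liftRight f hunit, ?_⟩
  intro x y hxy
  have h3 : f x = f y := by
    have := congrArg (fun u : (OreLocalization (Submonoid.powers c) N)ˣ =>
      (u : OreLocalization (Submonoid.powers c) N)) hxy
    exact this
  have h4 := OreLocalization.oreDiv_eq_iff.1 h3
  obtain ⟨u', v', h5, h6⟩ := h4
  simp only [OneMemClass.coe_one, mul_one] at h6
  rw [Submonoid.smul_def, smul_eq_mul, smul_eq_mul, h6] at h5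
  exact (D.cancelL _ _ _ h5).symm

/-! ### the group -/

section Grp

variable {A : Type v} [Group A] (i : N →* A)

theorem map_closure_le {X : Set N} {x : N} (hx : x ∈ Submonoid.closure X) :
    i x ∈ Subgroup.closure (i '' X) := by
  induction hx using Submonoid.closure_induction with
  | mem x hx => exact Subgroup.subset_closure ⟨x, hx, rfl⟩
  | one => rw [map_one]; exact one_mem _
  | mul a b _ _ iha ihb => rw [map_mul]; exact mul_mem iha ihb

/-- fractions -/
theorem exists_frac {X : Set N} (hX : X ⊆ D.S) {c : N} (hc : c ∈ Submonoid.closure X)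
    (h1 : ∀ x ∈ X, x ∣ c) (h2 : ∀ x ∈ X, Commute c x) :
    ∀ g ∈ Subgroup.closure (i '' X), ∃ n : ℕ, ∃ a ∈ Submonoid.closure X,
      i (c ^ n) * g = i a := by
  have h2' := commute_of_atoms h2
  -- `i c` commutes with the subgroup
  have hcomm : ∀ g ∈ Subgroup.closure (i '' X), Commute (i c) g := by
    intro g hg
    induction hg using Subgroup.closure_induction with
    | mem y hy =>
      obtain ⟨x, hx, rfl⟩ := hy
      exact (h2 x hx).map i
    | one => exact Commute.one_right _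
    | mul a b _ _ iha ihb => exact iha.mul_right ihb
    | inv a _ iha => exact iha.inv_right
  intro g hg
  induction hg using Subgroup.closure_induction with
  | mem y hy =>
    obtain ⟨x, hx, rfl⟩ := hy
    exact ⟨0, x, Submonoid.subset_closure hx, by simp⟩
  | one => exact ⟨0, 1, one_mem _, by simp⟩
  | mul g h hg _ ihg ihh =>
    obtain ⟨n, a, ha, e1⟩ := ihg
    obtain ⟨m, b, hb, e2⟩ := ihh
    refine ⟨m + n, a * b, mul_mem ha hb, ?_⟩
    have e3 : Commute (i (c ^ m)) g := by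
      rw [map_pow]; exact (hcomm g hg).pow_left m
    have e4 : Commute (i (c ^ m)) (i a) := ((h2' a ha).pow_left m).map i
    rw [pow_add, map_mul, map_mul]
    calc i (c ^ m) * i (c ^ n) * (g * h) = i (c ^ m) * (i (c ^ n) * g) * h := by
          simp only [mul_assoc]
      _ = i a * (i (c ^ m) * h) := by rw [e1, e4.eq, mul_assoc]
      _ = i a * i b := by rw [e2]
  | inv g hg ihg =>
    obtain ⟨n, a, ha, e1⟩ := ihg
    obtain ⟨m, b, hb, e2, e3⟩ := dvd_pow (D := D) hX hc h1 h2 a ha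
    refine ⟨m, b * c ^ n, mul_mem hb (pow_mem hc n), ?_⟩
    have e4 : g⁻¹ = (i a)⁻¹ * i (c ^ n) := by rw [← e1]; group
    rw [e4, map_mul, ← e3, map_mul]
    group

variable {i}
variable (hi : Function.Injective i)
include hi

theorem mem_of_pos {X : Set N} (hX : X ⊆ D.S) {b : N}
    (hb : i b ∈ Subgroup.closure (i '' X)) : b ∈ Submonoid.closure X := by
  obtain ⟨c, hc, h1, h2⟩ := D.par_cen X hX
  obtain ⟨n, a, ha, e⟩ := exists_frac (D := D) i hX hc h1 h2 _ hb
  rw [← map_mul] at e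
  have e' := hi e
  exact (D.par_div X hX (c ^ n) b (by rw [e']; exact ha)).2

theorem dvd_iff {a b : N} : (i a)⁻¹ * i b ∈ MonoidHom.mrange i ↔ a ∣ b := by
  constructor
  · rintro ⟨c, hc⟩
    refine ⟨c, hi ?_⟩
    rw [map_mul, hc, mul_inv_cancel_left]
  · rintro ⟨c, rfl⟩
    exact ⟨c, by rw [map_mul, inv_mul_cancel_left]⟩

variable (htop : ∀ g : A, g ∈ Subgroup.closure (i '' D.S))
include htop

theorem exists_meet (x y : A) : ∃ m : A, m⁻¹ * x ∈ MonoidHom.mrange i ∧
    m⁻¹ * y ∈ MonoidHom.mrange i ∧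
    ∀ z, z⁻¹ * x ∈ MonoidHom.mrange i → z⁻¹ * y ∈ MonoidHom.mrange i →
      z⁻¹ * m ∈ MonoidHom.mrange i := by
  obtain ⟨c, hc, h1, h2⟩ := D.par_cen D.S (Set.Subset.refl _)
  have hcen : ∀ x, Commute c x := fun x => commute_of_atoms h2 x (D.gen x)
  have frac : ∀ g : A, ∃ n : ℕ, ∃ a, i (c ^ n) * g = i a := by
    intro g
    obtain ⟨n, a, -, e⟩ := exists_frac (D := D) i (Set.Subset.refl _) hc h1 h2 g (htop g)
    exact ⟨n, a, e⟩
  have up : ∀ (g : A) (n k : ℕ) (a : N), i (c ^ n) * g = i a → i (c ^ (k + n)) * g =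
      i (c ^ k * a) := by
    intro g n k a e
    rw [pow_add, map_mul, mul_assoc, e, map_mul]
  obtain ⟨n, a, ha⟩ := frac x
  obtain ⟨m, b, hb⟩ := frac y
  have ha' := up x n m a ha
  have hb' := up y m n b hb
  rw [add_comm] at hb'
  set k := m + n
  obtain ⟨g, g1, g2, g3⟩ := D.gcd (c ^ m * a) (c ^ n * b)
  refine ⟨(i (c ^ k))⁻¹ * i g, ?_, ?_, fun z hz1 hz2 => ?_⟩
  · rw [mul_inv_rev, inv_inv, mul_assoc, ha']
    exact (dvd_iff hi).2 g1
  · rw [mul_inv_rev, inv_inv, mul_assoc, hb']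
    exact (dvd_iff hi).2 g2
  · obtain ⟨l, d, hd⟩ := frac z
    have hd' := up z l k d hd
    -- `i (c ^ (k + l)) z = i (c ^ k d)`, `i (c ^ (k+l)) x = i (c ^ l * a')`
    have hx : i (c ^ (l + k)) * x = i (c ^ l * (c ^ m * a)) := up x k l _ ha'
    have hy : i (c ^ (l + k)) * y = i (c ^ l * (c ^ n * b)) := up y k l _ hb'
    rw [add_comm k l] at hd'
    have k1 : c ^ k * d ∣ c ^ l * (c ^ m * a) := by
      rw [← dvd_iff hi, ← hd', ← hx]
      rwa [show (i (c ^ (l + k)) * z)⁻¹ * (i (c ^ (l + k)) * x) = z⁻¹ * x by group]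
    have k2 : c ^ k * d ∣ c ^ l * (c ^ n * b) := by
      rw [← dvd_iff hi, ← hd', ← hy]
      rwa [show (i (c ^ (l + k)) * z)⁻¹ * (i (c ^ (l + k)) * y) = z⁻¹ * y by group]
    have k3 := gcd_mul D g3 k1 k2
    rw [← dvd_iff hi, ← hd', map_mul] at k3
    rwa [show (i (c ^ (l + k)) * z)⁻¹ * (i (c ^ l) * i g) = z⁻¹ * ((i (c ^ k))⁻¹ * i g) by
      rw [pow_add, map_mul]; group] at k3

omit hi htop in
theorem lenA_eq {lenA : A →* Multiplicative ℤ}
    (hlen : ∀ s ∈ D.S, lenA (i s) = Multiplicative.ofAdd 1) (x : N) :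
    (lenA (i x)).toAdd = ((D.len x).toAdd : ℤ) := by
  have hx := D.gen x
  induction hx using Submonoid.closure_induction with
  | mem s hs => rw [hlen s hs, D.len_atom s hs]; rfl
  | one => simp
  | mul a b _ _ iha ihb => simp only [map_mul, toAdd_mul, iha, ihb]; push_cast; rfl

omit hi htop in
theorem set_eq {X' : Set A} (hX' : X' ⊆ i '' D.S) :
    X' = i '' {s | s ∈ D.S ∧ i s ∈ X'} := by
  ext y
  constructor
  · intro hy
    obtain ⟨s, hs, rfl⟩ := hX' hy
    exact ⟨s, ⟨hs, hy⟩, rfl⟩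
  · rintro ⟨s, hs, rfl⟩
    exact hs.2

omit hi in
theorem Δ_cof (g : A) : ∃ n : ℕ, g⁻¹ * i D.Δ ^ n ∈ MonoidHom.mrange i := by
  obtain ⟨m, hm, h⟩ := D.Δ_cen
  obtain ⟨m', rfl⟩ : ∃ m', m = m' + 1 := ⟨m - 1, by omega⟩
  obtain ⟨n, a, -, e⟩ := exists_frac (D := D) (c := D.Δ ^ (m' + 1)) i (Set.Subset.refl _)
    (D.gen _) (fun x hx => (D.atom_dvd x hx).trans (by rw [pow_succ']; exact Dvd.intro _ rfl))
    (fun x _ => h x) _ (htop g⁻¹)
  refine ⟨(m' + 1) * n, a, ?_⟩
  have hc : ∀ g' : A, Commute (i ((D.Δ ^ (m' + 1)) ^ n)) g' := by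
    intro g'
    rw [map_pow]
    apply Commute.pow_left
    have hg := htop g'
    induction hg using Subgroup.closure_induction with
    | mem y hy =>
      obtain ⟨x, hx, rfl⟩ := hy
      exact (h x).map i
    | one => exact Commute.one_right _
    | mul a b _ _ iha ihb => exact iha.mul_right ihb
    | inv a _ iha => exact iha.inv_right
  rw [← e, (hc g⁻¹).eq, ← map_pow, pow_mul]

omit htop in
theorem fin_div (n : ℕ) :
    {g : A | g ∈ MonoidHom.mrange i ∧ g⁻¹ * i D.Δ ^ n ∈ MonoidHom.mrange i}.Finite := by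
  refine ((D.fin_len (D.len (D.Δ ^ n)).toAdd).image i).subset ?_
  rintro _ ⟨⟨x, rfl⟩, h⟩
  refine ⟨x, ?_, rfl⟩
  rw [← map_pow, dvd_iff hi] at h
  obtain ⟨y, hy⟩ := h
  rw [Set.mem_ofPred_eq, hy, map_mul, toAdd_mul]
  omega

omit htop in
theorem par_pos {X : Set N} (hX : X ⊆ D.S) (g : A) (hg : g ∈ Subgroup.closure (i '' X))
    (hP : g ∈ MonoidHom.mrange i) : g ∈ Submonoid.closure (i '' X) := by
  obtain ⟨b, rfl⟩ := hP
  have hb := mem_of_pos (D := D) hi hX hg
  rw [← MonoidHom.map_mclosure]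
  exact ⟨b, hb, rfl⟩

omit htop in
theorem par_div' {X : Set N} (hX : X ⊆ D.S) {a b : A} (ha : a ∈ MonoidHom.mrange i)
    (hb : b ∈ MonoidHom.mrange i) (hab : a * b ∈ Subgroup.closure (i '' X)) :
    a ∈ Subgroup.closure (i '' X) := by
  obtain ⟨a, rfl⟩ := ha
  obtain ⟨b, rfl⟩ := hb
  rw [← map_mul] at hab
  exact map_closure_le i (D.par_div X hX a b (mem_of_pos (D := D) hi hX hab)).1

omit hi htop in
/-- common denominators -/
theorem common {X : Set N} (hX : X ⊆ D.S) {x y : A} (hx : x ∈ Subgroup.closure (i '' X))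
    (hy : y ∈ Subgroup.closure (i '' X)) :
    ∃ w ∈ Submonoid.closure X, ∃ a ∈ Submonoid.closure X, ∃ b ∈ Submonoid.closure X,
      ∃ m ∈ Submonoid.closure X, i w * x = i a ∧ i w * y = i b ∧ a ∣ m ∧ b ∣ m := by
  obtain ⟨c, hc, h1, h2⟩ := D.par_cen X hX
  obtain ⟨n, a, ha, e1⟩ := exists_frac (D := D) i hX hc h1 h2 x hx
  obtain ⟨m, b, hb, e2⟩ := exists_frac (D := D) i hX hc h1 h2 y hy
  have ha' : c ^ m * a ∈ Submonoid.closure X := mul_mem (pow_mem hc m) ha
  have hb' : c ^ n * b ∈ Submonoid.closure X := mul_mem (pow_mem hc n) hb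
  obtain ⟨k, a', -, e3, -⟩ := dvd_pow (D := D) hX hc h1 h2 _ ha'
  obtain ⟨l, b', -, e4, -⟩ := dvd_pow (D := D) hX hc h1 h2 _ hb'
  refine ⟨c ^ (m + n), pow_mem hc _, _, ha', _, hb', c ^ (k + l), pow_mem hc _, ?_, ?_, ?_, ?_⟩
  · rw [pow_add, map_mul, mul_assoc, e1, map_mul]
  · rw [add_comm, pow_add, map_mul, mul_assoc, e2, map_mul]
  · rw [pow_add, ← e3, mul_assoc]; exact Dvd.intro _ rfl
  · rw [add_comm, pow_add, ← e4, mul_assoc]; exact Dvd.intro _ rfl

omit htop in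
theorem par_meet {X : Set N} (hX : X ⊆ D.S) {x y m : A} (hx : x ∈ Subgroup.closure (i '' X))
    (hy : y ∈ Subgroup.closure (i '' X)) (h1 : m⁻¹ * x ∈ MonoidHom.mrange i)
    (h3 : ∀ z, z⁻¹ * x ∈ MonoidHom.mrange i → z⁻¹ * y ∈ MonoidHom.mrange i →
      z⁻¹ * m ∈ MonoidHom.mrange i) : m ∈ Subgroup.closure (i '' X) := by
  obtain ⟨w, hw, a, ha, b, hb, -, -, e1, e2, -, -⟩ := common (D := D) (i := i) hX hx hy
  obtain ⟨d, hd⟩ := h3 (i w)⁻¹ (by rw [inv_inv, e1]; exact ⟨a, rfl⟩)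
    (by rw [inv_inv, e2]; exact ⟨b, rfl⟩)
  rw [inv_inv] at hd
  have h4 : d ∣ a := by
    rw [← dvd_iff hi, hd, ← e1]
    rwa [show (i w * m)⁻¹ * (i w * x) = m⁻¹ * x by group]
  obtain ⟨d', rfl⟩ := h4
  have h5 := (D.par_div X hX d d' ha).1
  have : m = (i w)⁻¹ * i d := by rw [hd]; group
  rw [this]
  exact mul_mem (inv_mem (map_closure_le i hw)) (map_closure_le i h5)

omit htop in
theorem par_join {X : Set N} (hX : X ⊆ D.S) {x y z : A} (hx : x ∈ Subgroup.closure (i '' X))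
    (hy : y ∈ Subgroup.closure (i '' X)) (h1 : x⁻¹ * z ∈ MonoidHom.mrange i)
    (h2 : y⁻¹ * z ∈ MonoidHom.mrange i) :
    ∃ j ∈ Subgroup.closure (i '' X), x⁻¹ * j ∈ MonoidHom.mrange i ∧
      y⁻¹ * j ∈ MonoidHom.mrange i ∧ j⁻¹ * z ∈ MonoidHom.mrange i := by
  obtain ⟨w, hw, a, ha, b, hb, m, hm, e1, e2, e3, e4⟩ := common (D := D) (i := i) hX hx hy
  obtain ⟨p, hp⟩ := h1
  have hz : i w * z = i (a * p) := by
    rw [map_mul, ← e1, hp]; group
  have k1 : a ∣ a * p := Dvd.intro _ rfl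
  have k2 : b ∣ a * p := by
    rw [← dvd_iff hi, ← hz, ← e2]
    rwa [show (i w * y)⁻¹ * (i w * z) = y⁻¹ * z by group]
  obtain ⟨d, g1, g2, g3⟩ := D.gcd (a * p) m
  obtain ⟨m', hm'⟩ := g2
  have hd : d ∈ Submonoid.closure X := (D.par_div X hX d m' (by rw [← hm']; exact hm)).1
  refine ⟨(i w)⁻¹ * i d, mul_mem (inv_mem (map_closure_le i hw)) (map_closure_le i hd), ?_, ?_, ?_⟩
  · have := (dvd_iff hi).2 (g3 a k1 e3)
    rwa [← e1, show (i w * x)⁻¹ * i d = x⁻¹ * ((i w)⁻¹ * i d) by group] at this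
  · have := (dvd_iff hi).2 (g3 b k2 e4)
    rwa [← e2, show (i w * y)⁻¹ * i d = y⁻¹ * ((i w)⁻¹ * i d) by group] at this
  · have := (dvd_iff hi).2 g1
    rwa [← hz, show (i d)⁻¹ * (i w * z) = ((i w)⁻¹ * i d)⁻¹ * z by group] at this

omit htop in
theorem red_of_max {X : Set N} (hX : X ⊆ D.S) {p a : N} (hp : p ∈ Submonoid.closure X)
    (hmax : ∀ e ∈ Subgroup.closure (i '' X), e ∈ MonoidHom.mrange i →
      e⁻¹ * i (p * a) ∈ MonoidHom.mrange i → e⁻¹ * i p ∈ MonoidHom.mrange i) :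
    ∀ x ∈ X, ¬ x ∣ a := by
  intro x hx hxa
  have h1 : p * x ∈ Submonoid.closure X := mul_mem hp (Submonoid.subset_closure hx)
  have h2 := hmax (i (p * x)) (map_closure_le i h1) ⟨_, rfl⟩
    ((dvd_iff hi).2 (mul_dvd_mul_left p hxa))
  rw [dvd_iff hi] at h2
  obtain ⟨r, hr⟩ := h2
  have h3 : x * r = 1 := by
    apply D.cancelL p
    rw [mul_one, ← mul_assoc]; exact hr.symm
  have h4 := one_of_mul D h3
  have h5 := D.len_atom x (hX hx)
  rw [h4, map_one] at h5
  have := congrArg Multiplicative.toAdd h5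
  simp at this

/-- **The Garside structure on the group.** -/
noncomputable def toGars (lenA : A →* Multiplicative ℤ)
    (hlen : ∀ s ∈ D.S, lenA (i s) = Multiplicative.ofAdd 1) : Gars A where
  S := i '' D.S
  P := MonoidHom.mrange i
  Δ := i D.Δ
  len := lenA
  meet x y := (exists_meet hi htop x y).choose
  S_pos := by
    rintro _ ⟨s, -, rfl⟩
    exact ⟨s, rfl⟩
  gen := by
    rintro _ ⟨x, rfl⟩
    have hx := D.gen x
    induction hx using Submonoid.closure_induction with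
    | mem x hx => exact Submonoid.subset_closure ⟨x, hx, rfl⟩
    | one => rw [map_one]; exact one_mem _
    | mul a b _ _ iha ihb => rw [map_mul]; exact mul_mem iha ihb
  len_atom := by
    rintro _ ⟨s, hs, rfl⟩
    exact hlen s hs
  len_pos := by
    rintro _ ⟨x, rfl⟩ hne
    rw [lenA_eq hlen]
    by_contra h
    apply hne
    rw [one_of_len (D := D) (x := x) (by omega), map_one]
  meet_left x y := (exists_meet hi htop x y).choose_spec.1
  meet_right x y := (exists_meet hi htop x y).choose_spec.2.1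
  le_meet x y z := (exists_meet hi htop x y).choose_spec.2.2 z
  Δ_pos := ⟨D.Δ, rfl⟩
  Δ_conj := by
    rintro _ ⟨x, rfl⟩
    obtain ⟨y, hy⟩ := D.Δ_conj x
    exact ⟨y, by rw [mul_assoc, ← map_mul, hy, map_mul, inv_mul_cancel_left]⟩
  Δ_cen := by
    obtain ⟨m, hm, h⟩ := D.Δ_cen
    refine ⟨m, hm, fun g => ?_⟩
    have hg := htop g
    induction hg using Subgroup.closure_induction with
    | mem y hy =>
      obtain ⟨x, hx, rfl⟩ := hy
      rw [← map_pow]
      exact (h x).map i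
    | one => exact Commute.one_right _
    | mul a b _ _ iha ihb => exact iha.mul_right ihb
    | inv a _ iha => exact iha.inv_right
  Δ_cof := Δ_cof htop
  fin_div := fin_div hi
  atom_le := by
    rintro _ ⟨s, hs, rfl⟩
    exact (dvd_iff hi).2 (D.atom_dvd s hs)
  par_pos X' hX' g hg hP := by
    rw [set_eq hX'] at hg ⊢
    exact par_pos hi (fun s hs => hs.1) g hg hP
  par_div X' hX' a ha b hb hab := by
    rw [set_eq hX'] at hab ⊢
    exact par_div' (D := D) hi (fun s hs => hs.1) ha hb hab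
  par_meet X' hX' x hx y hy := by
    rw [set_eq hX'] at hx hy ⊢
    exact par_meet (D := D) hi (fun s hs => hs.1) hx hy (exists_meet hi htop x y).choose_spec.1
      (exists_meet hi htop x y).choose_spec.2.2
  par_join X' hX' x hx y hy z h1 h2 := by
    rw [set_eq hX'] at hx hy ⊢
    exact par_join (D := D) hi (fun s hs => hs.1) hx hy h1 h2
  proj_mono X' hX' a b p q ha hab hb hp hpP hpa hpm hq hqP hqb hqm := by
    rw [set_eq hX'] at hp hpm hq hqm
    set X : Set N := {s | s ∈ D.S ∧ i s ∈ X'} with hX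
    have hXS : X ⊆ D.S := fun s hs => hs.1
    obtain ⟨p, rfl⟩ := hpP
    obtain ⟨q, rfl⟩ := hqP
    obtain ⟨a1, ha1⟩ := hpa
    obtain ⟨b1, hb1⟩ := hqb
    have ea : a = i (p * a1) := by rw [map_mul, ha1, mul_inv_cancel_left]
    have eb : b = i (q * b1) := by rw [map_mul, hb1, mul_inv_cancel_left]
    subst ea eb
    have h1 := red_of_max (D := D) hi hXS (mem_of_pos (D := D) hi hXS hp) hpm
    have h2 := red_of_max (D := D) hi hXS (mem_of_pos (D := D) hi hXS hq) hqm
    have h3 := D.proj_mono X hXS p (mem_of_pos (D := D) hi hXS hp) q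
      (mem_of_pos (D := D) hi hXS hq) a1 b1 h1 h2 ((dvd_iff hi).1 hab) ((dvd_iff hi).1 hb)
    rw [← ha1, ← hb1]
    exact (dvd_iff hi).2 h3
  par_shift X' hX' w p hw hwΔ hwr hp hpP hpw hwp := by
    rw [set_eq hX'] at hp
    set X : Set N := {s | s ∈ D.S ∧ i s ∈ X'} with hX
    have hXS : X ⊆ D.S := fun s hs => hs.1
    obtain ⟨p, rfl⟩ := hpP
    obtain ⟨w, rfl⟩ := hw
    have h1 := mem_of_pos (D := D) hi hXS hp
    rw [← map_mul] at hpw hwp
    have h2 := D.par_shift X hXS p h1 w (fun x hx hxw => hwr (i x) hx.2 ((dvd_iff hi).2 hxw))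
      ((dvd_iff hi).1 hpw) ((dvd_iff hi).1 hwp)
    clear hpw hwp h1 hp
    induction h2 using Submonoid.closure_induction with
    | mem x hx =>
      obtain ⟨hx1, s, hs, e⟩ := hx
      apply Subgroup.subset_closure
      refine ⟨hx1.2, s, hs, ?_⟩
      rw [mul_assoc, ← map_mul, e, map_mul, inv_mul_cancel_left]
    | one => rw [map_one]; exact one_mem _
    | mul a b _ _ iha ihb => rw [map_mul]; exact mul_mem iha ihb

end Grp

end GMon

end Crest.Agent.R175.GaG_184
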