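import Crest.Agent.R175.PTB_534
import Crest.Agent.R175.KS_303

/-!
# R175 / GLUE-PT, part A: indecomposable T-framed objects with one frame

* `ZE X`: the algebra of even closed endomorphisms; nilpotent or unit if idempotents are trivial.
* `Ind X`: minimal, nonzero, only trivial even closed idempotents.
* `frame_unit`: for an indecomposable single-framed `X`, an even closed endomorphism which is nonzero
  on the frame is invertible.
* `hiso_of_frames`: two indecomposable single-framed objects with even closed maps in both directions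
  whose composite is nonzero on the frame are isomorphic.
-/

set_option autoImplicit false
set_option linter.unusedSectionVars false
set_option linter.unusedVariables false

open CategoryTheory Module LinearMap

namespace Crest.Agent.R175.GlA_445

open Crest.Agent.R175.PTA

universe u v

variable {T : Type u} {G : MG T} {k : Type v} [Field k] [Fintype T]

/-! ### one-dimensional spaces -/

theorem one_dim_smul {V : Type*} [AddCommGroup V] [Module k V] (h : finrank k V = 1)
    (f : V →ₗ[k] V) : ∃ c : k, ∀ x, f x = c • x := by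
  obtain ⟨v, hv0, hv⟩ := finrank_eq_one_iff'.1 h
  obtain ⟨c, hc⟩ := hv (f v)
  refine ⟨c, fun x => ?_⟩
  obtain ⟨a, rfl⟩ := hv x
  rw [map_smul, ← hc, smul_smul, smul_smul, mul_comm]

/-! ### the algebra of even closed endomorphisms -/

/-- even closed endomorphisms -/
def ZE (X : TOb G k) : Subalgebra k (End X.X) where
  carrier := {f | bar f = f ∧ D X X f = 0}
  mul_mem' := by
    rintro f g ⟨hf, hf'⟩ ⟨hg, hg'⟩
    change bar (g ≫ f) = g ≫ f ∧ D X X (g ≫ f) = 0
    refine ⟨?_, ?_⟩
    · rw [bar_comp]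
      change bar g ≫ bar f = g ≫ f
      rw [hf, hg]
    · rw [D_comp_left hg']
      rw [hf', Limits.comp_zero]
  add_mem' := by
    rintro f g ⟨hf, hf'⟩ ⟨hg, hg'⟩
    refine ⟨?_, ?_⟩
    · change bar ((f : X.X ⟶ X.X) + g) = f + g
      rw [bar_add, hf, hg]
    · change D X X ((f : X.X ⟶ X.X) + g) = 0
      rw [map_add, hf', hg', add_zero]
  algebraMap_mem' := by
    intro r
    have : (algebraMap k (End X.X) r : X.X ⟶ X.X) = r • 𝟙 X.X := by
      rw [Algebra.algebraMap_eq_smul_one]
      rfl
    refine ⟨?_, ?_⟩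
    · rw [this, bar_smul, bar_id]
    · rw [this, map_smul, D_id, smul_zero]

theorem mem_ZE {X : TOb G k} {f : End X.X} :
    f ∈ ZE X ↔ bar (f : X.X ⟶ X.X) = f ∧ D X X f = 0 := Iff.rfl

instance (X : TOb G k) : FiniteDimensional k (End X.X) :=
  inferInstanceAs (FiniteDimensional k (X.X ⟶ X.X))

/-- only trivial even closed idempotents -/
def IdTriv (X : TOb G k) : Prop :=
  ∀ e : X.X ⟶ X.X, bar e = e → D X X e = 0 → e ≫ e = e → e = 0 ∨ e = 𝟙 X.X

/-- minimal -/
def Mnl (X : TOb G k) : Prop := ∀ t, c0 X.d t = 0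

/-- indecomposable -/
structure Ind (X : TOb G k) : Prop where
  mnl : Mnl X
  ne : 𝟙 X.X ≠ 0
  idem : IdTriv X

theorem nil_or_unit {X : TOb G k} (hX : IdTriv X) (c : X.X ⟶ X.X) (hc : bar c = c)
    (hD : D X X c = 0) : IsNilpotent (show End X.X from c) ∨
      ∃ c' : X.X ⟶ X.X, bar c' = c' ∧ D X X c' = 0 ∧ c ≫ c' = 𝟙 _ ∧ c' ≫ c = 𝟙 _ := by
  have h1 : ∀ e : ZE X, e * e = e → e = 0 ∨ e = 1 := by
    intro e he
    have h2 := hX e.1 e.2.1 e.2.2 (by
      have h3 : e.1 * e.1 = e.1 := congrArg Subtype.val he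
      exact h3)
    rcases h2 with h2 | h2
    · left; exact Subtype.ext h2
    · right; exact Subtype.ext h2
  rcases KS_303.nil_or_unit k h1 (⟨c, hc, hD⟩ : ZE X) with ⟨n, hn⟩ | h
  · left
    refine ⟨n, ?_⟩
    have := congrArg Subtype.val hn
    exact this
  · right
    obtain ⟨⟨a, b, hab, hba⟩, ha⟩ := h
    have ha' : a.1 = (show End X.X from c) := congrArg Subtype.val ha
    have e1 : a.1 * b.1 = 1 := congrArg Subtype.val hab
    have e2 : b.1 * a.1 = 1 := congrArg Subtype.val hba
    rw [ha'] at e1 e2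
    exact ⟨b.1, b.2.1, b.2.2, e2, e1⟩

/-- the frame part of an endomorphism -/
def cWa (X : Gob G k) (t : T) : End X →ₐ[k] Module.End k (X.W t) where
  toFun f := cW (f : X ⟶ X) t
  map_one' := rfl
  map_mul' _ _ := rfl
  map_zero' := rfl
  map_add' _ _ := rfl
  commutes' r := by
    have h1 : (algebraMap k (End X) r : X ⟶ X) = r • 𝟙 X := by
      rw [Algebra.algebraMap_eq_smul_one]
      rfl
    rw [h1, cW_smul, cW_id]
    ext x
    simp

theorem not_nil_of_frame {X : Gob G k} {t : T} (h1 : finrank k (X.W t) = 1) {c : X ⟶ X}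
    (hc : cW c t ≠ 0) : ¬ IsNilpotent (show End X from c) := by
  rintro ⟨n, hn⟩
  obtain ⟨a, ha⟩ := one_dim_smul h1 (cW c t)
  have h2 : (cW c t : Module.End k (X.W t)) ^ n = 0 := by
    have h3 := congrArg (cWa X t) hn
    rw [map_pow, map_zero] at h3
    exact h3
  have h4 : ∀ m : ℕ, ∀ x, ((cW c t : Module.End k (X.W t)) ^ m) x = a ^ m • x := by
    intro m
    induction m with
    | zero => intro x; simp
    | succ m ih =>
      intro x
      rw [pow_succ', Module.End.mul_apply, ih, ha, smul_smul, pow_succ']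
  have ha0 : a ≠ 0 := by
    rintro rfl
    apply hc
    ext x
    rw [ha, zero_smul]
    rfl
  obtain ⟨v, hv0, -⟩ := finrank_eq_one_iff'.1 h1
  have h5 := h4 n v
  rw [h2] at h5
  have h6 : (0 : X.W t) = a ^ n • v := h5
  exact hv0 ((smul_eq_zero.1 h6.symm).resolve_left (pow_ne_zero n ha0))

/-- **an even closed endomorphism nonzero on the frame is invertible** -/
theorem frame_unit {X : TOb G k} (hX : IdTriv X) {t : T} (h1 : finrank k (X.X.W t) = 1)
    {c : X.X ⟶ X.X} (hb : bar c = c) (hD : D X X c = 0) (hc : cW c t ≠ 0) :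
    ∃ c' : X.X ⟶ X.X, bar c' = c' ∧ D X X c' = 0 ∧ c ≫ c' = 𝟙 _ ∧ c' ≫ c = 𝟙 _ :=
  (nil_or_unit hX c hb hD).resolve_left (not_nil_of_frame h1 hc)

/-- **two indecomposable objects with one frame at `t` are isomorphic** if there are even closed maps
in both directions, nonzero on the frame -/
theorem hiso_of_frames {X Y : TOb G k} (hX : IdTriv X) (hY : IdTriv Y) {t : T}
    (h1 : finrank k (X.X.W t) = 1) (h2 : finrank k (Y.X.W t) = 1)
    {f : X.X ⟶ Y.X} {g : Y.X ⟶ X.X} (bf : bar f = f) (bg : bar g = g) (Df : D X Y f = 0)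
    (Dg : D Y X g = 0) (hf : cW f t ≠ 0) (hg : cW g t ≠ 0) : HIso X Y := by
  -- composites
  have key : ∀ (V V' : Type v) [AddCommGroup V] [Module k V] [AddCommGroup V'] [Module k V]
      [Module k V'], True := fun _ _ _ _ _ _ _ => trivial
  have hcomp : cW (f ≫ g) t ≠ 0 := by
    rw [cW_comp]
    intro h0
    apply hf
    -- `cW g t` is injective
    have hinj : Function.Injective (cW g t) := by
      rw [← LinearMap.ker_eq_bot, Submodule.eq_bot_iff]
      intro x hx
      by_contra hx0
      obtain ⟨v, hv0, hv⟩ := finrank_eq_one_iff'.1 h2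
      apply hg
      ext y
      obtain ⟨a, ha⟩ := hv x
      obtain ⟨b, hb⟩ := hv y
      have ha0 : a ≠ 0 := by
        rintro rfl
        apply hx0
        rw [← ha, zero_smul]
      have hgv : cW g t v = 0 := by
        have h3 : cW g t (a • v) = 0 := by rw [ha]; exact hx
        rw [map_smul] at h3
        exact (smul_eq_zero.1 h3).resolve_left ha0
      rw [← hb, map_smul, hgv, smul_zero]
      rfl
    ext x
    have h3 := LinearMap.congr_fun h0 x
    have h4 : cW g t (cW f t x) = 0 := h3
    have h5 : cW f t x = 0 := hinj (by rw [h4, map_zero])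
    rw [h5]
    rfl
  have hcomp' : cW (g ≫ f) t ≠ 0 := by
    rw [cW_comp]
    intro h0
    apply hg
    have hinj : Function.Injective (cW f t) := by
      rw [← LinearMap.ker_eq_bot, Submodule.eq_bot_iff]
      intro x hx
      by_contra hx0
      obtain ⟨v, hv0, hv⟩ := finrank_eq_one_iff'.1 h1
      apply hf
      ext y
      obtain ⟨a, ha⟩ := hv x
      obtain ⟨b, hb⟩ := hv y
      have ha0 : a ≠ 0 := by
        rintro rfl
        apply hx0
        rw [← ha, zero_smul]
      have hgv : cW f t v = 0 := by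
        have h3 : cW f t (a • v) = 0 := by rw [ha]; exact hx
        rw [map_smul] at h3
        exact (smul_eq_zero.1 h3).resolve_left ha0
      rw [← hb, map_smul, hgv, smul_zero]
      rfl
    ext x
    have h3 := LinearMap.congr_fun h0 x
    have h4 : cW f t (cW g t x) = 0 := h3
    have h5 : cW g t x = 0 := hinj (by rw [h4, map_zero])
    rw [h5]
    rfl
  obtain ⟨c, bc, Dc, c1, c2⟩ := frame_unit hX h1 (c := f ≫ g) (by rw [bar_comp, bf, bg])
    (by rw [D_comp_left Df, Dg, Limits.comp_zero]) hcomp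
  obtain ⟨c', bc', Dc', c1', c2'⟩ := frame_unit hY h2 (c := g ≫ f) (by rw [bar_comp, bf, bg])
    (by rw [D_comp_left Dg, Df, Limits.comp_zero]) hcomp'
  -- right inverse of `f` : `g ≫ c`; left inverse: `c' ≫ g`
  have hl : (c' ≫ g) ≫ f = 𝟙 _ := by rw [Category.assoc, c2']
  have hr : f ≫ (g ≫ c) = 𝟙 _ := by rw [← Category.assoc, c1]
  have heq : c' ≫ g = g ≫ c := by
    calc c' ≫ g = (c' ≫ g) ≫ (f ≫ (g ≫ c)) := by rw [hr, Category.comp_id]
      _ = ((c' ≫ g) ≫ f) ≫ (g ≫ c) := by simp only [Category.assoc]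
      _ = g ≫ c := by rw [hl, Category.id_comp]
  exact ⟨HEquiv.ofIso f (g ≫ c) bf (by rw [bar_comp, bg, bc]) Df
    (by rw [D_comp_left Dg, Dc, Limits.comp_zero]) hr (by rw [← heq, hl])⟩

/-- the sign of a homogeneous map which is nonzero on one-dimensional frames of the same space -/
theorem sign_one {X : TOb G k} {t : T} (h1 : finrank k (X.X.W t) = 1) {ε : k}
    {c : X.X ⟶ X.X} (hb : bar c = ε • c) (hc : cW c t ≠ 0) : ε = 1 := by
  obtain ⟨a, ha⟩ := one_dim_smul h1 (cW c t)
  have h2 : cW (bar c) t = cW c t := by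
    rw [cW_bar]
    ext x
    have h3 : (X.X.gW t ∘ₗ X.X.gW t) x = x := by rw [X.X.gW_sq]; rfl
    change X.X.gW t (cW c t (X.X.gW t x)) = cW c t x
    rw [ha, ha, map_smul]
    congr 1
  rw [hb, cW_smul] at h2
  by_contra hne
  apply hc
  have h4 : (ε - 1) • cW c t = 0 := by rw [sub_smul, one_smul, h2, sub_self]
  exact (smul_eq_zero.1 h4).resolve_left (sub_ne_zero.2 hne)

end Crest.Agent.R175.GlA_445
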