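import Crest.Agent.R175.MinF_445

/-!
# R175 / GLUE-PT: numeric facts

`a s t : ℕ` = number of edges between `s` and `t`.
-/

set_option autoImplicit false

namespace Crest.Agent.R175.GlN_445

open Finset Crest.Agent.R175.MinB_445

variable {T : Type*} [Fintype T]

/-- finitely many vectors of natural numbers below a bound -/
theorem finite_below {I : Type*} [Fintype I] (w : I → ℝ) (hw : ∀ i, 0 < w i) (B : ℝ) :
    ({v : I → ℕ | ∑ i, w i * (v i : ℝ) ≤ B} : Set (I → ℕ)).Finite := by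
  classical
  have : ({v : I → ℕ | ∑ i, w i * (v i : ℝ) ≤ B} : Set (I → ℕ)) ⊆
      Set.Icc 0 (fun i => ⌈B / w i⌉₊) := by
    classical
    intro v hv
    refine ⟨fun i => Nat.zero_le _, fun i => ?_⟩
    have h1 : w i * (v i : ℝ) ≤ B := by
      refine le_trans ?_ hv
      exact Finset.single_le_sum (f := fun j => w j * (v j : ℝ))
        (fun j _ => mul_nonneg (hw j).le (Nat.cast_nonneg _)) (Finset.mem_univ i)
    have h2 : (v i : ℝ) ≤ B / w i := by
      rw [le_div_iff₀ (hw i)]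
      linarith [mul_comm (w i) (v i : ℝ)]
    exact_mod_cast h2.trans (Nat.le_ceil _)
  exact (Set.finite_Icc _ _).subset this

/-- discreteness of `Phi` on objects with a fixed frame vector -/
theorem disc {I Ob : Type*} [Fintype I] (c : I → ℝ) (hc : ∀ i, 0 < c i) (n : Ob → I → ℕ)
    (P : Ob → Prop) (b x : ℝ) :
    Set.Finite {y : ℝ | y ≤ x ∧ ∃ X, P X ∧ ∑ i, c i * (n X i : ℝ) - b = y} := by
  refine ((finite_below c hc (x + b)).image fun v => ∑ i, c i * (v i : ℝ) - b).subset ?_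
  rintro y ⟨hy, X, -, rfl⟩
  refine ⟨n X, ?_, rfl⟩
  change ∑ i, c i * (n X i : ℝ) ≤ x + b
  linarith

/-- lower bound -/
theorem bound (gam ht : T → ℝ) (hg : ∀ t, 0 < gam t) (m : T → ℕ) {p : ℝ} (hp : 0 ≤ p) :
    -(∑ t, |ht t| / gam t) * wt gam m ≤ p - ∑ t, ht t * (m t : ℝ) := by
  have h1 : ∑ t, ht t * (m t : ℝ) ≤ (∑ t, |ht t| / gam t) * wt gam m := by
    unfold wt
    rw [Finset.mul_sum]
    refine Finset.sum_le_sum fun t _ => ?_
    have h2 : |ht t| / gam t ≤ ∑ s, |ht s| / gam s :=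
      Finset.single_le_sum (f := fun s => |ht s| / gam s)
        (fun s _ => div_nonneg (abs_nonneg _) (hg s).le) (Finset.mem_univ t)
    have h3 : 0 ≤ gam t * (m t : ℝ) := mul_nonneg (hg t).le (Nat.cast_nonneg _)
    calc ht t * (m t : ℝ) ≤ |ht t| * (m t : ℝ) :=
          mul_le_mul_of_nonneg_right (le_abs_self _) (Nat.cast_nonneg _)
      _ = |ht t| / gam t * (gam t * (m t : ℝ)) := by
          rw [← mul_assoc, div_mul_cancel₀ _ (hg t).ne']
      _ ≤ _ := mul_le_mul_of_nonneg_right h2 h3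
  linarith

/-- adjacency moved from the frame vector to the weight -/
theorem sum_adj (a : T → T → ℕ) (f : T → ℝ) (m : T → ℕ) :
    ∑ t, f t * ((∑ s, a s t * m s : ℕ) : ℝ) = ∑ s, (∑ t, (a s t : ℝ) * f t) * (m s : ℝ) := by
  simp only [Nat.cast_sum, Nat.cast_mul, Finset.mul_sum, Finset.sum_mul]
  rw [Finset.sum_comm]
  exact Finset.sum_congr rfl fun s _ => Finset.sum_congr rfl fun t _ => by ring

/-- `gam . (A m) = 2 gam . m - om . m` -/
theorem wt_adj (a : T → T → ℕ) {gam om : T → ℝ}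
    (h : ∀ s, 2 * gam s - ∑ t, (a s t : ℝ) * gam t = om s) {m n : T → ℕ}
    (hn : ∀ t, n t = ∑ s, a s t * m s) : wt gam n = 2 * wt gam m - wt om m := by
  have h1 : wt gam n = ∑ s, (∑ t, (a s t : ℝ) * gam t) * (m s : ℝ) := by
    rw [← sum_adj]
    exact Finset.sum_congr rfl fun t _ => by rw [hn t]
  rw [h1]
  unfold wt
  rw [Finset.mul_sum, ← Finset.sum_sub_distrib]
  refine Finset.sum_congr rfl fun s _ => ?_
  rw [← h s]
  ring

/-- the value of `Phi` on the reduced cone -/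
theorem phi_red (a : T → T → ℕ) {I : Type*} [Fintype I] {c : I → ℝ} (hc : ∀ i, 0 < c i)
    {ht : T → ℝ} {L : I → T → ℕ}
    (hL : ∀ s, 2 * ht s - ∑ t, (a s t : ℝ) * ht t ≤ ∑ i, c i * (L i s : ℝ))
    {m n : T → ℕ} (hn : ∀ t, n t = ∑ s, a s t * m s) {u v : I → ℕ}
    (huv : ∀ i, v i + ∑ s, L i s * m s ≤ 2 * u i) :
    ∑ i, c i * (v i : ℝ) - ∑ t, ht t * (n t : ℝ) ≤
      2 * (∑ i, c i * (u i : ℝ) - ∑ t, ht t * (m t : ℝ)) := by
  have h1 : ∑ t, ht t * (n t : ℝ) = ∑ s, (∑ t, (a s t : ℝ) * ht t) * (m s : ℝ) := by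
    rw [← sum_adj]
    exact Finset.sum_congr rfl fun t _ => by rw [hn t]
  have h2 : ∑ i, c i * (v i : ℝ) + ∑ s, (∑ i, c i * (L i s : ℝ)) * (m s : ℝ) ≤
      2 * ∑ i, c i * (u i : ℝ) := by
    have h3 : ∑ s, (∑ i, c i * (L i s : ℝ)) * (m s : ℝ) =
        ∑ i, c i * ((∑ s, L i s * m s : ℕ) : ℝ) := by
      simp only [Nat.cast_sum, Nat.cast_mul, Finset.mul_sum, Finset.sum_mul]
      rw [Finset.sum_comm]
      exact Finset.sum_congr rfl fun s _ => Finset.sum_congr rfl fun t _ => by ring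
    rw [h3, ← Finset.sum_add_distrib, Finset.mul_sum]
    refine Finset.sum_le_sum fun i _ => ?_
    have h4 : (v i : ℝ) + ((∑ s, L i s * m s : ℕ) : ℝ) ≤ 2 * (u i : ℝ) := by
      exact_mod_cast huv i
    nlinarith [hc i]
  have h5 : ∑ s, (2 * ht s - ∑ t, (a s t : ℝ) * ht t) * (m s : ℝ) ≤
      ∑ s, (∑ i, c i * (L i s : ℝ)) * (m s : ℝ) :=
    Finset.sum_le_sum fun s _ => mul_le_mul_of_nonneg_right (hL s) (Nat.cast_nonneg _)
  have h6 : ∑ s, (2 * ht s - ∑ t, (a s t : ℝ) * ht t) * (m s : ℝ) =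
      2 * ∑ s, ht s * (m s : ℝ) - ∑ s, (∑ t, (a s t : ℝ) * ht t) * (m s : ℝ) := by
    rw [Finset.mul_sum, ← Finset.sum_sub_distrib]
    exact Finset.sum_congr rfl fun s _ => by ring
  rw [h1]
  linarith

/-- the value of `Phi` on the cone reduced at one vertex with one frame -/
theorem phi_red_one [DecidableEq T] (a : T → T → ℕ) {I : Type*} [Fintype I] {c : I → ℝ}
    (hc : ∀ i, 0 < c i) {ht : T → ℝ} {L : I → T → ℕ}
    (hL : ∀ s, 2 * ht s - ∑ t, (a s t : ℝ) * ht t ≤ ∑ i, c i * (L i s : ℝ)) (t0 : T)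
    {n : T → ℕ} (hn : ∀ t, n t = a t0 t) {u u' v : I → ℕ}
    (huv : ∀ i, v i + L i t0 ≤ u i + u' i) :
    ∑ i, c i * (v i : ℝ) - ∑ t, ht t * (n t : ℝ) ≤
      (∑ i, c i * (u i : ℝ) - ht t0) + (∑ i, c i * (u' i : ℝ) - ht t0) := by
  have h1 : ∑ t, ht t * (n t : ℝ) = ∑ t, (a t0 t : ℝ) * ht t :=
    Finset.sum_congr rfl fun t _ => by rw [hn t]; ring
  have h2 : ∑ i, c i * (v i : ℝ) + ∑ i, c i * (L i t0 : ℝ) ≤
      ∑ i, c i * (u i : ℝ) + ∑ i, c i * (u' i : ℝ) := by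
    rw [← Finset.sum_add_distrib, ← Finset.sum_add_distrib]
    refine Finset.sum_le_sum fun i _ => ?_
    have h4 : (v i : ℝ) + (L i t0 : ℝ) ≤ (u i : ℝ) + (u' i : ℝ) := by
      exact_mod_cast huv i
    nlinarith [hc i]
  have h3 := hL t0
  rw [h1]
  linarith

end Crest.Agent.R175.GlN_445
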