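import Crest.Agent.R175.PTA_534

/-!
# Parity shift of T-framed objects (row 175, S0263; helper936, task 514)

`sh X` : same spaces, `gV, gW ↦ -gV, -gW`, `d ↦ -d`.  `th X : X ⟶ sh X` (all components the
identity) is an odd closed isomorphism with inverse `th' X`.
* `hT_sh_left / hT_sh_right / hT_sh_sh`, the same for `hD`;
* `HIso_sh`, `HIso_sh_sh`, `HIso_sh_iff`;
* `lam_sh`;
* `oddIso`: an odd closed map `a : X ⟶ Y` which is invertible up to homotopy gives `HIso X (sh Y)`;
* a space of odd cocycles into `Y` is the space of even cocycles into `sh Y` (`toSh`).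
* `HEquiv.refl/symm/trans` live elsewhere; here only what concerns the shift.
-/

set_option autoImplicit false
set_option linter.unusedSectionVars false

open CategoryTheory

namespace Crest.Agent.R175.Shift_936

open Crest.Agent.R175.PTA

universe u v w

variable {T : Type u} {G : MG T} {k : Type v} [Field k]

/-- parity shift of a graded object -/
abbrev shG (X : Gob G k) : Gob G k where
  V := X.V
  W := X.W
  gV t := -X.gV t
  gW t := -X.gW t
  gV_sq t := by rw [LinearMap.neg_comp, LinearMap.comp_neg, neg_neg, X.gV_sq]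
  gW_sq t := by rw [LinearMap.neg_comp, LinearMap.comp_neg, neg_neg, X.gW_sq]

@[simp] theorem gV_shG (X : Gob G k) (t : T) : (shG X).gV t = -X.gV t := rfl
@[simp] theorem gW_shG (X : Gob G k) (t : T) : (shG X).gW t = -X.gW t := rfl

variable [Fintype T]

/-- the identity `X ⟶ sh X` (odd) -/
def thG (X : Gob G k) : X ⟶ shG X :=
  mkH (fun _ => LinearMap.id) (fun _ => LinearMap.id) (fun _ _ _ => 0) (fun _ => 0) (fun _ => 0)
    (fun _ => 0)

/-- the identity `sh X ⟶ X` (odd) -/
def thG' (X : Gob G k) : shG X ⟶ X :=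
  mkH (fun _ => LinearMap.id) (fun _ => LinearMap.id) (fun _ _ _ => 0) (fun _ => 0) (fun _ => 0)
    (fun _ => 0)

section lems
variable (X : Gob G k)
@[simp] theorem c0_thG (t : T) : c0 (thG X) t = LinearMap.id := rfl
@[simp] theorem cW_thG (t : T) : cW (thG X) t = LinearMap.id := rfl
@[simp] theorem c1_thG {s t : T} (a : G.E s t) : c1 (thG X) a = 0 := rfl
@[simp] theorem ci_thG (t : T) : ci (thG X) t = 0 := rfl
@[simp] theorem cj_thG (t : T) : cj (thG X) t = 0 := rfl
@[simp] theorem c2_thG (t : T) : c2 (thG X) t = 0 := rfl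
@[simp] theorem c0_thG' (t : T) : c0 (thG' X) t = LinearMap.id := rfl
@[simp] theorem cW_thG' (t : T) : cW (thG' X) t = LinearMap.id := rfl
@[simp] theorem c1_thG' {s t : T} (a : G.E s t) : c1 (thG' X) a = 0 := rfl
@[simp] theorem ci_thG' (t : T) : ci (thG' X) t = 0 := rfl
@[simp] theorem cj_thG' (t : T) : cj (thG' X) t = 0 := rfl
@[simp] theorem c2_thG' (t : T) : c2 (thG' X) t = 0 := rfl

@[simp] theorem thG_thG' : thG X ≫ thG' X = 𝟙 X := by
  apply hm_ext <;> intros <;> simp
@[simp] theorem thG'_thG : thG' X ≫ thG X = 𝟙 (shG X) := by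
  apply hm_ext <;> intros <;> simp
@[simp] theorem thG_thG'_assoc {Y : Gob G k} (f : X ⟶ Y) : thG X ≫ thG' X ≫ f = f := by
  rw [← Category.assoc, thG_thG', Category.id_comp]
@[simp] theorem thG'_thG_assoc {Y : Gob G k} (f : shG X ⟶ Y) : thG' X ≫ thG X ≫ f = f := by
  rw [← Category.assoc, thG'_thG, Category.id_comp]

@[simp] theorem gam_shG : gam (shG X) = -(thG' X ≫ gam X ≫ thG X) := by
  apply hm_ext <;> intros <;> simp

@[simp] theorem bar_thG : bar (thG X) = -thG X := by
  simp only [bar, gam_shG, Preadditive.comp_neg]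
  rw [thG_thG'_assoc, gam_gam_assoc]
@[simp] theorem bar_thG' : bar (thG' X) = -thG' X := by
  simp only [bar, gam_shG, Preadditive.neg_comp, Category.assoc]
  rw [thG_thG'_assoc, gam_gam, Category.comp_id]
end lems

/-- parity shift of a T-framed object -/
abbrev sh (X : TOb G k) : TOb G k where
  X := shG X.X
  d := -(thG' X.X ≫ X.d ≫ thG X.X)
  dd := by simp
  dg := by
    simp only [gam_shG, Preadditive.comp_neg, Preadditive.neg_comp, neg_neg, Category.assoc,
      thG_thG'_assoc]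
    have h := X.dg
    have h2 : X.d ≫ gam X.X ≫ thG X.X = -(gam X.X ≫ X.d ≫ thG X.X) := by
      rw [← Category.assoc, h, Preadditive.neg_comp, Category.assoc]
    rw [h2]
    simp
  dW t := by simp

theorem sh_X (X : TOb G k) : (sh X).X = shG X.X := rfl
theorem sh_d (X : TOb G k) : (sh X).d = -(thG' X.X ≫ X.d ≫ thG X.X) := rfl

/-- the odd closed isomorphism `X ⟶ sh X` -/
def th (X : TOb G k) : X.X ⟶ (sh X).X := thG X.X
/-- its inverse -/
def th' (X : TOb G k) : (sh X).X ⟶ X.X := thG' X.X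

section thl
variable (X : TOb G k)
@[simp] theorem th_th' : th X ≫ th' X = 𝟙 X.X := thG_thG' X.X
@[simp] theorem th'_th : th' X ≫ th X = 𝟙 (sh X).X := thG'_thG X.X
@[simp] theorem th_th'_assoc {Y : Gob G k} (f : X.X ⟶ Y) : th X ≫ th' X ≫ f = f :=
  thG_thG'_assoc X.X f
@[simp] theorem th'_th_assoc {Y : Gob G k} (f : (sh X).X ⟶ Y) : th' X ≫ th X ≫ f = f :=
  thG'_thG_assoc X.X f
@[simp] theorem bar_th : bar (th X) = -th X := bar_thG X.X
@[simp] theorem bar_th' : bar (th' X) = -th' X := bar_thG' X.X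
@[simp] theorem cW_th (t : T) : cW (th X) t = LinearMap.id := rfl
@[simp] theorem cW_th' (t : T) : cW (th' X) t = LinearMap.id := rfl

@[simp] theorem D_th : D X (sh X) (th X) = 0 := by
  rw [D_apply, bar_th, sh_d]
  simp only [Preadditive.comp_neg, sub_neg_eq_add]
  show -(thG X.X ≫ thG' X.X ≫ X.d ≫ thG X.X) + X.d ≫ thG X.X = 0
  rw [thG_thG'_assoc]; abel

@[simp] theorem D_th' : D (sh X) X (th' X) = 0 := by
  rw [D_apply, bar_th', sh_d]
  simp only [Preadditive.comp_neg, Preadditive.neg_comp, neg_neg, Category.assoc]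
  show thG' X.X ≫ X.d - thG' X.X ≫ X.d ≫ thG X.X ≫ thG' X.X = 0
  rw [thG_thG', Category.comp_id, sub_self]
end thl

/-! ### invariance of the dimensions -/

/-- `hd` is invariant under an isomorphism which commutes with the differentials up to a non-zero
scalar. -/
theorem hd_congr_smul {K K' : Type*} [AddCommGroup K] [Module k K] [AddCommGroup K'] [Module k K']
    (D : K →ₗ[k] K) (D' : K' →ₗ[k] K') (φ : K ≃ₗ[k] K') (c : k) (hc : c ≠ 0)
    (h : ∀ x, D' (φ x) = c • φ (D x)) : hd D = hd D' := by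
  have hk : LinearMap.ker D' = (LinearMap.ker D).map φ.toLinearMap := by
    ext y
    simp only [LinearMap.mem_ker, Submodule.mem_map, LinearEquiv.coe_coe]
    constructor
    · intro hy
      refine ⟨φ.symm y, ?_, by simp⟩
      have h1 := h (φ.symm y)
      rw [φ.apply_symm_apply, hy] at h1
      have h2 := (smul_eq_zero.mp h1.symm).resolve_left hc
      exact (LinearEquiv.map_eq_zero_iff φ).mp h2
    · rintro ⟨x, hx, rfl⟩
      rw [h, hx, map_zero, smul_zero]
  have hr : LinearMap.range D' = (LinearMap.range D).map φ.toLinearMap := by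
    ext y
    simp only [LinearMap.mem_range, Submodule.mem_map, LinearEquiv.coe_coe]
    constructor
    · rintro ⟨x, rfl⟩
      refine ⟨c • D (φ.symm x), ⟨c • φ.symm x, by rw [map_smul]⟩, ?_⟩
      rw [map_smul, ← h, φ.apply_symm_apply]
    · rintro ⟨_, ⟨x, rfl⟩, rfl⟩
      refine ⟨c⁻¹ • φ x, ?_⟩
      rw [map_smul, h, smul_smul, inv_mul_cancel₀ hc, one_smul]
  rw [hd, hd, hk, hr, LinearEquiv.finrank_map_eq, LinearEquiv.finrank_map_eq]

/-- pre-composition with an isomorphism, on all maps -/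
def precomp {X Y : Gob G k} (p : X ⟶ Y) (q : Y ⟶ X) (hpq : p ≫ q = 𝟙 X) (hqp : q ≫ p = 𝟙 Y)
    (Z : Gob G k) : (Y ⟶ Z) ≃ₗ[k] (X ⟶ Z) where
  toFun f := p ≫ f
  invFun f := q ≫ f
  map_add' f g := by simp
  map_smul' c f := by simp
  left_inv f := by simp only [← Category.assoc, hqp, Category.id_comp]
  right_inv f := by simp only [← Category.assoc, hpq, Category.id_comp]

/-- post-composition with an isomorphism, on all maps -/
def postcomp {X Y : Gob G k} (p : X ⟶ Y) (q : Y ⟶ X) (hpq : p ≫ q = 𝟙 X) (hqp : q ≫ p = 𝟙 Y)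
    (Z : Gob G k) : (Z ⟶ X) ≃ₗ[k] (Z ⟶ Y) where
  toFun f := f ≫ p
  invFun f := f ≫ q
  map_add' f g := by simp
  map_smul' c f := by simp
  left_inv f := by simp only [Category.assoc, hpq, Category.comp_id]
  right_inv f := by simp only [Category.assoc, hqp, Category.comp_id]

/-- pre-composition on the maps with `cW = 0` -/
def precompC {X Y : Gob G k} (p : X ⟶ Y) (q : Y ⟶ X) (hpq : p ≫ q = 𝟙 X) (hqp : q ≫ p = 𝟙 Y)
    (Z : Gob G k) : Cs Y Z ≃ₗ[k] Cs X Z where
  toFun f := ⟨p ≫ f.1, Cs_comp_left _ f.2⟩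
  invFun f := ⟨q ≫ f.1, Cs_comp_left _ f.2⟩
  map_add' f g := Subtype.ext (by simp)
  map_smul' c f := Subtype.ext (by simp)
  left_inv f := Subtype.ext (by simp only [← Category.assoc, hqp, Category.id_comp])
  right_inv f := Subtype.ext (by simp only [← Category.assoc, hpq, Category.id_comp])

/-- post-composition on the maps with `cW = 0` -/
def postcompC {X Y : Gob G k} (p : X ⟶ Y) (q : Y ⟶ X) (hpq : p ≫ q = 𝟙 X) (hqp : q ≫ p = 𝟙 Y)
    (Z : Gob G k) : Cs Z X ≃ₗ[k] Cs Z Y where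
  toFun f := ⟨f.1 ≫ p, Cs_comp_right f.2 _⟩
  invFun f := ⟨f.1 ≫ q, Cs_comp_right f.2 _⟩
  map_add' f g := Subtype.ext (by simp)
  map_smul' c f := Subtype.ext (by simp)
  left_inv f := Subtype.ext (by simp only [Category.assoc, hpq, Category.comp_id])
  right_inv f := Subtype.ext (by simp only [Category.assoc, hqp, Category.comp_id])

section inv
variable (X Y : TOb G k)

theorem D_th_comp (f : (sh X).X ⟶ Y.X) : D X Y (th X ≫ f) = th X ≫ D (sh X) Y f := by
  rw [D_comp, D_th]; simp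

theorem D_comp_th (f : X.X ⟶ Y.X) : D X (sh Y) (f ≫ th Y) = -(D X Y f ≫ th Y) := by
  rw [D_comp, D_th]; simp

theorem D_th'_comp (f : X.X ⟶ Y.X) : D (sh X) Y (th' X ≫ f) = th' X ≫ D X Y f := by
  rw [D_comp, D_th']; simp

theorem D_comp_th' (f : X.X ⟶ (sh Y).X) : D X Y (f ≫ th' Y) = -(D X (sh Y) f ≫ th' Y) := by
  rw [D_comp, D_th']; simp

theorem hD_sh_left : hD (sh X) Y = hD X Y := by
  apply hd_congr_smul (D (sh X) Y) (D X Y)
    (precomp (th X) (th' X) (th_th' X) (th'_th X) Y.X) 1 one_ne_zero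
  intro f
  rw [one_smul]
  exact D_th_comp X Y f

theorem hD_sh_right : hD X (sh Y) = hD X Y := by
  symm
  apply hd_congr_smul (D X Y) (D X (sh Y))
    (postcomp (th Y) (th' Y) (th_th' Y) (th'_th Y) X.X) (-1) (by simp)
  intro f
  rw [neg_one_smul]
  exact D_comp_th X Y f

theorem hT_sh_left : hT (sh X) Y = hT X Y := by
  apply hd_congr_smul (DC (sh X) Y) (DC X Y)
    (precompC (th X) (th' X) (th_th' X) (th'_th X) Y.X) 1 one_ne_zero
  intro f
  rw [one_smul]
  exact Subtype.ext (D_th_comp X Y f.1)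

theorem hT_sh_right : hT X (sh Y) = hT X Y := by
  symm
  apply hd_congr_smul (DC X Y) (DC X (sh Y))
    (postcompC (th Y) (th' Y) (th_th' Y) (th'_th Y) X.X) (-1) (by simp)
  intro f
  rw [neg_one_smul]
  exact Subtype.ext (D_comp_th X Y f.1)

theorem hT_sh_sh : hT (sh X) (sh Y) = hT X Y := by rw [hT_sh_left, hT_sh_right]
theorem hD_sh_sh : hD (sh X) (sh Y) = hD X Y := by rw [hD_sh_left, hD_sh_right]

@[simp] theorem lam_sh (t : T) : lam (sh X) t = lam X t := rfl

end inv

/-! ### conjugation by the shift -/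

section conj
variable {X Y Z : TOb G k}

/-- the shift on morphisms -/
def shf (f : X.X ⟶ Y.X) : (sh X).X ⟶ (sh Y).X := th' X ≫ f ≫ th Y

@[simp] theorem shf_id : shf (𝟙 X.X) = 𝟙 (sh X).X := by simp [shf]
theorem shf_comp (f : X.X ⟶ Y.X) (g : Y.X ⟶ Z.X) : shf (f ≫ g) = shf f ≫ shf g := by
  simp [shf]
theorem shf_add (f g : X.X ⟶ Y.X) : shf (f + g) = shf f + shf g := by simp [shf]
theorem shf_neg (f : X.X ⟶ Y.X) : shf (-f) = -shf f := by simp [shf]
theorem shf_sub (f g : X.X ⟶ Y.X) : shf (f - g) = shf f - shf g := by simp [shf]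
theorem shf_smul (c : k) (f : X.X ⟶ Y.X) : shf (c • f) = c • shf f := by simp [shf]
@[simp] theorem shf_zero : shf (0 : X.X ⟶ Y.X) = 0 := by simp [shf]

@[simp] theorem bar_shf (f : X.X ⟶ Y.X) : bar (shf f) = shf (bar f) := by
  simp [shf]

theorem D_shf (f : X.X ⟶ Y.X) : D (sh X) (sh Y) (shf f) = -shf (D X Y f) := by
  rw [shf, D_th'_comp, D_comp_th]
  simp [shf]

theorem shf_mem_Cs {f : X.X ⟶ Y.X} (hf : f ∈ Cs X.X Y.X) : shf f ∈ Cs (sh X).X (sh Y).X :=
  Cs_comp_left _ (Cs_comp_right hf _)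

theorem shf_injective {f g : X.X ⟶ Y.X} (h : shf f = shf g) : f = g := by
  have := congrArg (fun a => th X ≫ a ≫ th' Y) h
  simpa [shf] using this

/-- the shift of a homotopy equivalence -/
def _root_.Crest.Agent.R175.PTA.HEquiv.sh (e : HEquiv X Y) : HEquiv (sh X) (sh Y) where
  p := shf e.p
  q := shf e.q
  s := -shf e.s
  r := -shf e.r
  bp := by rw [bar_shf, e.bp]
  bq := by rw [bar_shf, e.bq]
  Dp := by rw [D_shf, e.Dp]; simp
  Dq := by rw [D_shf, e.Dq]; simp
  pq := by
    rw [← shf_comp, e.pq, shf_add, shf_id, map_neg, D_shf, neg_neg]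
  qp := by
    rw [← shf_comp, e.qp, shf_add, shf_id, map_neg, D_shf, neg_neg]

theorem HIso_sh (h : HIso X Y) : HIso (sh X) (sh Y) := h.map fun e => e.sh

/-- `sh (sh X)` is `X` -/
theorem HIso_sh_sh (X : TOb G k) : HIso (sh (sh X)) X :=
  ⟨{ p := th' (sh X) ≫ th' X
     q := th X ≫ th (sh X)
     s := 0
     r := 0
     bp := by simp
     bq := by simp
     Dp := by rw [D_comp, D_th', D_th']; simp
     Dq := by rw [D_comp, D_th, D_th]; simp
     pq := by simp
     qp := by simp }⟩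

/-- An odd closed map which has an odd closed homotopy inverse is a homotopy equivalence
`X ≃ sh Y`. -/
theorem HIso_of_odd (p : X.X ⟶ Y.X) (q : Y.X ⟶ X.X) (s : X.X ⟶ X.X) (r : Y.X ⟶ Y.X)
    (bp : bar p = -p) (bq : bar q = -q) (Dp : D X Y p = 0) (Dq : D Y X q = 0)
    (pq : p ≫ q = 𝟙 X.X + D X X s) (qp : q ≫ p = 𝟙 Y.X + D Y Y r) : HIso X (sh Y) :=
  ⟨{ p := p ≫ th Y
     q := th' Y ≫ q
     s := s
     r := -shf r
     bp := by simp [bp]
     bq := by simp [bq]
     Dp := by rw [D_comp_th, Dp]; simp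
     Dq := by rw [D_th'_comp, Dq]; simp
     pq := by simp [pq]
     qp := by
      rw [map_neg, D_shf, neg_neg]
      have : (th' Y ≫ q) ≫ (p ≫ th Y) = shf (q ≫ p) := by simp [shf]
      rw [this, qp, shf_add, shf_id] }⟩

/-- A strictly invertible odd closed map gives `HIso X (sh Y)`. -/
theorem HIso_of_odd_iso (p : X.X ⟶ Y.X) (q : Y.X ⟶ X.X) (bp : bar p = -p)
    (Dp : D X Y p = 0) (pq : p ≫ q = 𝟙 X.X) (qp : q ≫ p = 𝟙 Y.X) : HIso X (sh Y) := by
  have bq : bar q = -q := by
    have h1 : bar p ≫ bar q = 𝟙 X.X := by rw [← bar_comp, pq, bar_id]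
    have h2 : q ≫ (bar p ≫ bar q) = q := by rw [h1, Category.comp_id]
    rw [bp, Preadditive.neg_comp, Preadditive.comp_neg, ← Category.assoc, qp,
      Category.id_comp] at h2
    have h3 := congrArg Neg.neg h2
    rwa [neg_neg] at h3
  have Dq : D Y X q = 0 := by
    have h1 : D X X (p ≫ q) = 0 := by rw [pq, D_id]
    rw [D_comp, Dp, Limits.zero_comp, add_zero] at h1
    have h2 : q ≫ (p ≫ D Y X q) = 0 := by rw [h1, Limits.comp_zero]
    rwa [← Category.assoc, qp, Category.id_comp] at h2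
  exact HIso_of_odd p q 0 0 bp bq Dp Dq (by simp [pq]) (by simp [qp])

/-- A strictly invertible even closed map gives `HIso X Y`. -/
theorem HIso_of_even_iso (p : X.X ⟶ Y.X) (q : Y.X ⟶ X.X) (bp : bar p = p)
    (Dp : D X Y p = 0) (pq : p ≫ q = 𝟙 X.X) (qp : q ≫ p = 𝟙 Y.X) : HIso X Y := by
  have bq : bar q = q := by
    have h1 : bar p ≫ bar q = 𝟙 X.X := by rw [← bar_comp, pq, bar_id]
    have h2 : q ≫ (bar p ≫ bar q) = q := by rw [h1, Category.comp_id]
    rw [bp, ← Category.assoc, qp, Category.id_comp] at h2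
    exact h2
  have Dq : D Y X q = 0 := by
    have h1 : D X X (p ≫ q) = 0 := by rw [pq, D_id]
    rw [D_comp, Dp, Limits.zero_comp, add_zero] at h1
    have h2 : q ≫ (p ≫ D Y X q) = 0 := by rw [h1, Limits.comp_zero]
    rwa [← Category.assoc, qp, Category.id_comp] at h2
  exact ⟨⟨p, q, 0, 0, bp, bq, Dp, Dq, by simp [pq], by simp [qp]⟩⟩

end conj

/-! ### even and odd parts -/

section parts
variable {X Y : TOb G k}

/-- In characteristic ≠ 2 every map is the sum of its even and its odd part. -/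
theorem exists_parts (h2 : (2 : k) ≠ 0) {X Y : Gob G k} (f : X ⟶ Y) :
    ∃ a b : X ⟶ Y, f = a + b ∧ bar a = a ∧ bar b = -b := by
  refine ⟨(2⁻¹ : k) • (f + bar f), (2⁻¹ : k) • (f - bar f), ?_, ?_, ?_⟩
  · rw [← smul_add]
    have : f + bar f + (f - bar f) = (2 : k) • f := by rw [two_smul]; abel
    rw [this, smul_smul, inv_mul_cancel₀ h2, one_smul]
  · simp only [bar_smul, bar_add, bar_bar]; rw [add_comm]
  · simp only [bar_smul, bar_sub, bar_bar]; rw [← smul_neg, neg_sub]

/-- The parts of a cocycle are cocycles. -/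
theorem D_parts (h2 : (2 : k) ≠ 0) (f : X.X ⟶ Y.X) (hf : D X Y f = 0) :
    ∃ a b : X.X ⟶ Y.X, f = a + b ∧ bar a = a ∧ bar b = -b ∧ D X Y a = 0 ∧ D X Y b = 0 := by
  have hb : D X Y (bar f) = 0 := by
    have := bar_D (X := X) (Y := Y) f
    rw [hf, bar_zero] at this
    rw [← neg_eq_zero, ← this]
  refine ⟨(2⁻¹ : k) • (f + bar f), (2⁻¹ : k) • (f - bar f), ?_, ?_, ?_, ?_, ?_⟩
  · rw [← smul_add]
    have : f + bar f + (f - bar f) = (2 : k) • f := by rw [two_smul]; abel
    rw [this, smul_smul, inv_mul_cancel₀ h2, one_smul]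
  · simp only [bar_smul, bar_add, bar_bar]; rw [add_comm]
  · simp only [bar_smul, bar_sub, bar_bar]; rw [← smul_neg, neg_sub]
  · rw [map_smul, map_add, hf, hb]; simp
  · rw [map_smul, map_sub, hf, hb]; simp

/-- Primitives: an even (odd) coboundary is the coboundary of an odd (even) map. -/
theorem exists_primitive (h2 : (2 : k) ≠ 0) (f g : X.X ⟶ Y.X) (hfg : D X Y g = f) (c : k)
    (hc : c = 1 ∨ c = -1) (hf : bar f = c • f) :
    ∃ g' : X.X ⟶ Y.X, D X Y g' = f ∧ bar g' = -(c • g') ∧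
      (g ∈ Cs X.X Y.X → g' ∈ Cs X.X Y.X) := by
  have hcc : c * c = 1 := by rcases hc with rfl | rfl <;> simp
  have hb : D X Y (bar g) = -(c • f) := by
    have := bar_D (X := X) (Y := Y) g
    rw [hfg, hf] at this
    rw [this, neg_neg]
  refine ⟨(2⁻¹ : k) • (g - c • bar g), ?_, ?_, ?_⟩
  · rw [map_smul, map_sub, map_smul, hfg, hb, smul_neg, smul_smul, hcc, one_smul, sub_neg_eq_add,
      ← two_smul k f, smul_smul, inv_mul_cancel₀ h2, one_smul]
  · simp only [bar_smul, bar_sub, bar_bar]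
    have h3 : bar g - c • g = -(c • (g - c • bar g)) := by
      rw [smul_sub, smul_smul, hcc, one_smul, neg_sub]
    rw [h3, smul_neg, smul_comm (2⁻¹ : k) c]
  · intro hg
    exact Submodule.smul_mem _ _ (Submodule.sub_mem _ hg (Submodule.smul_mem _ _ (bar_mem_Cs hg)))

end parts

/-! ### minimal objects -/

/-- parity shift of a minimal object -/
abbrev shF (X : FObj G k) : FObj G k where
  X := shG X.X
  B a := -X.B a
  i t := -X.i t
  j t := -X.j t
  e t := -X.e t
  mc t := by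
    have := X.mc t
    simpa [shG] using this
  gB a := by
    have := X.gB a
    simpa [shG] using this
  gi t := by simpa [shG] using X.gi t
  gj t := by simpa [shG] using X.gj t
  ge t := by simpa [shG] using X.ge t

theorem shF_toTOb (X : FObj G k) : (shF X).toTOb.d = (sh X.toTOb).d := by
  rw [sh_d]
  apply hm_ext
  · intro t; simp
  · intro t; simp
  · intro s t a; simp
  · intro t; simp
  · intro t; simp
  · intro t; simp

theorem shF_eq (X : FObj G k) : (shF X).toTOb = sh X.toTOb := by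
  have h := shF_toTOb X
  show TOb.mk (shG X.X) (shF X).dm _ _ _ = TOb.mk (shG X.X) (-(thG' X.X ≫ X.dm ≫ thG X.X)) _ _ _
  congr 1

end Crest.Agent.R175.Shift_936
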