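/-
Row 175 (S0263), step (A) of post #2527 (helper175) / (4) of #2434 (helper228): the linear algebra of the
local endomorphism algebra (helper356).

* `ScNil k Z` : every element of the algebra `Z` is a scalar plus a nilpotent element.
* `scNil_of_idem` : a finite dimensional algebra over an algebraically closed field without idempotents
  other than `0`, `1` has `ScNil`.
* `ScNil.character` : then there is an algebra homomorphism `c : Z → k` with `z - c z` nilpotent.
* `loc` (LEMMA LOC) : if `Z` acts on finitely many finite dimensional spaces `W s`, of total dimension at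
  least two, there are INVERTIBLE `A0 s : W s ≃ W s` with `∑ s, tr (A0 s ∘ ρ s z) = 0` for all `z`.
-/
import Mathlib

set_option autoImplicit false

namespace Crest.Agent.R175.LocA_356

open Module

universe u v w

/-- every element is a scalar plus a nilpotent element -/
def ScNil (k : Type u) (Z : Type v) [Field k] [Ring Z] [Algebra k Z] : Prop :=
  ∀ z : Z, ∃ c : k, IsNilpotent (z - algebraMap k Z c)

section idem

variable {k : Type u} {Z : Type v} [Field k] [Ring Z] [Algebra k Z]

/-- a finite dimensional algebra over an algebraically closed field without non-trivial idempotents: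
every element is a scalar plus a nilpotent element. -/
theorem scNil_of_idem [IsAlgClosed k] [FiniteDimensional k Z]
    (h : ∀ e : Z, e * e = e → e = 0 ∨ e = 1) : ScNil k Z := by
  intro z
  rcases subsingleton_or_nontrivial Z with hZ | hZ
  · exact ⟨0, ⟨0, Subsingleton.elim _ _⟩⟩
  have hint : IsIntegral k z := IsIntegral.of_finite k z
  have hdeg : 0 < (minpoly k z).degree := minpoly.degree_pos hint
  obtain ⟨c, hc⟩ := IsAlgClosed.exists_root (minpoly k z) (ne_of_gt hdeg)
  have hne : minpoly k z ≠ 0 := minpoly.ne_zero hint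
  obtain ⟨q, hq, hqc⟩ := Polynomial.exists_eq_pow_rootMultiplicity_mul_and_not_dvd
    (minpoly k z) hne c
  set m := (minpoly k z).rootMultiplicity c with hm
  have hmpos : 0 < m := (Polynomial.rootMultiplicity_pos hne).2 hc
  have hcop : IsCoprime ((Polynomial.X - Polynomial.C c) ^ m) q := by
    apply IsCoprime.pow_left
    exact (Polynomial.irreducible_X_sub_C c).coprime_iff_not_dvd.2 hqc
  obtain ⟨u, v, huv⟩ := hcop
  refine ⟨c, m, ?_⟩
  have hz : Polynomial.aeval z ((Polynomial.X - Polynomial.C c) ^ m)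
      = (z - algebraMap k Z c) ^ m := by simp
  rw [← hz]
  set p := (Polynomial.X - Polynomial.C c) ^ m with hp
  have hpq : Polynomial.aeval z (p * q) = 0 := by
    rw [← hq]; exact minpoly.aeval k z
  have hsum : Polynomial.aeval z (u * p) + Polynomial.aeval z (v * q) = 1 := by
    rw [← map_add, huv, map_one]
  have he : Polynomial.aeval z (u * p) * Polynomial.aeval z (u * p)
      = Polynomial.aeval z (u * p) := by
    have h1 : Polynomial.aeval z (u * p) * Polynomial.aeval z (v * q) = 0 := by
      rw [← map_mul, show u * p * (v * q) = (u * v) * (p * q) by ring, map_mul, hpq, mul_zero]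
    calc Polynomial.aeval z (u * p) * Polynomial.aeval z (u * p)
        = Polynomial.aeval z (u * p) * Polynomial.aeval z (u * p)
            + Polynomial.aeval z (u * p) * Polynomial.aeval z (v * q) := by rw [h1, add_zero]
      _ = Polynomial.aeval z (u * p) * (Polynomial.aeval z (u * p)
            + Polynomial.aeval z (v * q)) := by rw [mul_add]
      _ = Polynomial.aeval z (u * p) := by rw [hsum, mul_one]
  rcases h _ he with h0 | h1
  · -- `aeval (u p) = 0`, so `aeval (v q) = 1`, so `p z = 0`
    rw [h0, zero_add] at hsum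
    calc Polynomial.aeval z p = Polynomial.aeval z p * 1 := by rw [mul_one]
      _ = Polynomial.aeval z p * Polynomial.aeval z (v * q) := by rw [hsum]
      _ = 0 := by
        rw [← map_mul, show p * (v * q) = v * (p * q) by ring, map_mul, hpq, mul_zero]
  · -- `aeval (u p) = 1`, so `q z = 0`: contradiction with minimality
    exfalso
    have hq0 : Polynomial.aeval z q = 0 := by
      calc Polynomial.aeval z q = Polynomial.aeval z (u * p) * Polynomial.aeval z q := by
            rw [h1, one_mul]
        _ = 0 := by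
          rw [← map_mul, show u * p * q = u * (p * q) by ring, map_mul, hpq, mul_zero]
    have hqne : q ≠ 0 := by
      rintro rfl
      exact hne (by rw [hq, mul_zero])
    have hle : (minpoly k z).natDegree ≤ q.natDegree :=
      Polynomial.natDegree_le_of_dvd (minpoly.dvd k z hq0) hqne
    have hpne : p ≠ 0 := by
      rw [hp]; exact pow_ne_zero _ (Polynomial.X_sub_C_ne_zero c)
    have hnd : (minpoly k z).natDegree = m + q.natDegree := by
      rw [hq, Polynomial.natDegree_mul hpne hqne, hp, Polynomial.natDegree_pow,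
        Polynomial.natDegree_X_sub_C, mul_one]
    omega

theorem ScNil.of_surjective {Z' : Type w} [Ring Z'] [Algebra k Z'] (h : ScNil k Z)
    (f : Z →ₐ[k] Z') (hf : Function.Surjective f) : ScNil k Z' := by
  intro z'
  obtain ⟨z, rfl⟩ := hf z'
  obtain ⟨c, hc⟩ := h z
  refine ⟨c, ?_⟩
  have := hc.map f
  rwa [map_sub, AlgHom.commutes] at this

/-- in a finite dimensional algebra with `ScNil`, the product of a nilpotent element with any element is
nilpotent -/
theorem ScNil.mul_nil [FiniteDimensional k Z] (h : ScNil k Z) {n : Z} (hn : IsNilpotent n) (a : Z) :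
    IsNilpotent (a * n) := by
  obtain ⟨c, hc⟩ := h (a * n)
  by_cases hc0 : c = 0
  · simpa [hc0] using hc
  -- `a * n = c + nilpotent` is a unit, so `n` is left invertible, contradiction unless `Z` trivial
  have hu : IsUnit (a * n) := by
    have h1 : IsUnit (algebraMap k Z c) := (IsUnit.mk0 c hc0).map (algebraMap k Z)
    have h2 : a * n = (a * n - algebraMap k Z c) + algebraMap k Z c := by abel
    rw [h2]
    exact hc.isUnit_add_right_of_commute h1 (Algebra.commute_algebraMap_right _ _)
  obtain ⟨b, hb⟩ := hu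
  obtain ⟨m, hm⟩ := hn
  -- `(b⁻¹ a) n = 1`, so `(b⁻¹ a)^m n^m = 1`
  have hl : ((↑b⁻¹ : Z) * a) * n = 1 := by
    rw [mul_assoc, ← hb]; simp
  have hpow : ∀ j : ℕ, ∃ y : Z, y * n ^ j = 1 := by
    intro j
    induction j with
    | zero => exact ⟨1, by simp⟩
    | succ j ih =>
      obtain ⟨y, hy⟩ := ih
      refine ⟨((↑b⁻¹ : Z) * a) * y, ?_⟩
      rw [pow_succ, mul_assoc, ← mul_assoc y, hy, one_mul, hl]
  obtain ⟨y, hy⟩ := hpow m
  rw [hm, mul_zero] at hy
  refine ⟨0, ?_⟩
  rw [pow_zero, ← hy]

theorem ScNil.nil_mul [FiniteDimensional k Z] (h : ScNil k Z) {n : Z} (hn : IsNilpotent n) (a : Z) :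
    IsNilpotent (n * a) := by
  obtain ⟨m, hm⟩ := h.mul_nil hn a
  refine ⟨m + 1, ?_⟩
  have : ∀ j : ℕ, (n * a) ^ (j + 1) = n * (a * n) ^ j * a := by
    intro j
    induction j with
    | zero => simp
    | succ j ih => rw [pow_succ, ih, pow_succ]; simp [mul_assoc]
  rw [this, hm, mul_zero, zero_mul]

theorem ScNil.add_nil [FiniteDimensional k Z] (h : ScNil k Z) {n n' : Z} (hn : IsNilpotent n)
    (hn' : IsNilpotent n') : IsNilpotent (n + n') := by
  obtain ⟨c, hc⟩ := h (n + n')
  by_cases hc0 : c = 0
  · simpa [hc0] using hc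
  have hu : IsUnit (n + n') := by
    have h1 : IsUnit (algebraMap k Z c) := (IsUnit.mk0 c hc0).map (algebraMap k Z)
    have h2 : n + n' = (n + n' - algebraMap k Z c) + algebraMap k Z c := by abel
    rw [h2]
    exact hc.isUnit_add_right_of_commute h1 (Algebra.commute_algebraMap_right _ _)
  obtain ⟨b, hb⟩ := hu
  -- `1 = b⁻¹ n + b⁻¹ n'`, both nilpotent
  have h3 : IsNilpotent ((↑b⁻¹ : Z) * n) := h.mul_nil hn _
  have h4 : IsNilpotent ((↑b⁻¹ : Z) * n') := h.mul_nil hn' _
  have h5 : (↑b⁻¹ : Z) * n' = 1 - (↑b⁻¹ : Z) * n := by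
    have : (↑b⁻¹ : Z) * (n + n') = 1 := by rw [← hb]; simp
    rw [mul_add] at this
    rw [← this]; abel
  have h6 : IsUnit ((↑b⁻¹ : Z) * n') := by
    rw [h5]; exact h3.isUnit_one_sub
  have h7 : IsUnit n' := by
    have : n' = (b : Z) * ((↑b⁻¹ : Z) * n') := by rw [← mul_assoc]; simp
    rw [this]; exact b.isUnit.mul h6
  rcases subsingleton_or_nontrivial Z with hZ | hZ
  · exact ⟨0, Subsingleton.elim _ _⟩
  · exact absurd h7 hn'.not_isUnit

/-- the character of a (non-trivial) algebra with `ScNil` -/
theorem ScNil.character [FiniteDimensional k Z] [Nontrivial Z] (h : ScNil k Z) :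
    ∃ c : Z →ₐ[k] k, ∀ z, IsNilpotent (z - algebraMap k Z (c z)) := by
  have h0 := h
  choose c hc using h0
  have huniq : ∀ (z : Z) (x : k), IsNilpotent (z - algebraMap k Z x) → x = c z := by
    intro z x hx
    have h1 : IsNilpotent ((z - algebraMap k Z x) + -(z - algebraMap k Z (c z))) :=
      ScNil.add_nil h hx (hc z).neg
    have h2 : (z - algebraMap k Z x) + -(z - algebraMap k Z (c z)) = algebraMap k Z (c z - x) := by
      rw [map_sub]; abel
    rw [h2] at h1
    by_contra hne
    have h3 : IsUnit (algebraMap k Z (c z - x)) :=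
      (IsUnit.mk0 _ (sub_ne_zero.2 (Ne.symm hne))).map (algebraMap k Z)
    exact h1.not_isUnit h3
  have hmul : ∀ x y, c (x * y) = c x * c y := by
    intro x y
    symm
    apply huniq
    have : x * y - algebraMap k Z (c x * c y)
        = (x - algebraMap k Z (c x)) * y + algebraMap k Z (c x) * (y - algebraMap k Z (c y)) := by
      rw [map_mul, sub_mul, mul_sub]; abel
    rw [this]
    exact ScNil.add_nil h (ScNil.nil_mul h (hc x) y) (ScNil.mul_nil h (hc y) _)
  have hadd : ∀ x y, c (x + y) = c x + c y := by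
    intro x y
    symm
    apply huniq
    have : x + y - algebraMap k Z (c x + c y)
        = (x - algebraMap k Z (c x)) + (y - algebraMap k Z (c y)) := by
      rw [map_add]; abel
    rw [this]
    exact ScNil.add_nil h (hc x) (hc y)
  have halg : ∀ r : k, c (algebraMap k Z r) = r := by
    intro r
    symm
    apply huniq
    rw [sub_self]
    exact IsNilpotent.zero
  refine ⟨{ toFun := c, map_one' := ?_, map_mul' := hmul, map_zero' := ?_, map_add' := hadd,
            commutes' := halg }, hc⟩
  · have := halg 1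
    rwa [map_one] at this
  · have := halg 0
    rwa [map_zero] at this

end idem

section tri

variable {k : Type u} [Field k]

/-- a nil, multiplicatively closed linear space of endomorphisms of `W ≠ 0` is killed from the left by
a non-zero functional -/
theorem exists_functional {W : Type v} [AddCommGroup W] [Module k W] [FiniteDimensional k W]
    [Nontrivial W] (N : Submodule k (Module.End k W)) (hmul : ∀ f ∈ N, ∀ g ∈ N, f * g ∈ N)
    (hnil : ∀ f ∈ N, IsNilpotent f) :
    ∃ φ : W →ₗ[k] k, φ ≠ 0 ∧ ∀ f ∈ N, φ ∘ₗ f = 0 := by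
  classical
  -- `R φ = {φ ∘ a : a ∈ k + N}`
  let A : Submodule k (Module.End k W) := Submodule.span k {1} ⊔ N
  have hA1 : (1 : Module.End k W) ∈ A := Submodule.mem_sup_left (Submodule.mem_span_singleton_self _)
  have hAN : N ≤ A := le_sup_right
  have hAmem : ∀ a ∈ A, ∃ t : k, ∃ n ∈ N, a = t • 1 + n := by
    intro a ha
    obtain ⟨y, hy, z, hz, rfl⟩ := Submodule.mem_sup.1 ha
    obtain ⟨t, rfl⟩ := Submodule.mem_span_singleton.1 hy
    exact ⟨t, z, hz, rfl⟩
  let pre : (W →ₗ[k] k) → (Module.End k W →ₗ[k] (W →ₗ[k] k)) := fun φ => φ.compRight k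
  let R : (W →ₗ[k] k) → Submodule k (W →ₗ[k] k) := fun φ => A.map (pre φ)
  have hex : ∃ n : ℕ, ∃ φ : W →ₗ[k] k, φ ≠ 0 ∧ finrank k (R φ) = n := by
    obtain ⟨w, hw⟩ := exists_ne (0 : W)
    obtain ⟨φ, hφ⟩ := Module.Projective.exists_dual_ne_zero k hw
    refine ⟨_, φ, ?_, rfl⟩
    rintro rfl
    exact hφ rfl
  obtain ⟨φ, hφ0, hφn⟩ := Nat.find_spec hex
  refine ⟨φ, hφ0, ?_⟩
  intro f hf
  by_contra hne
  -- `R (φ f) ≤ R φ`, equality by minimality
  have hle : R (φ ∘ₗ f) ≤ R φ := by
    rintro _ ⟨a, ha, rfl⟩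
    obtain ⟨t, n, hn, rfl⟩ := hAmem a ha
    refine ⟨t • f + f * n, hAN (N.add_mem (N.smul_mem t hf) (hmul f hf n hn)), ?_⟩
    ext w
    simp [pre, LinearMap.compRight_apply]
  have hmin : finrank k (R φ) ≤ finrank k (R (φ ∘ₗ f)) := by
    rw [hφn]
    exact Nat.find_min' hex ⟨φ ∘ₗ f, hne, rfl⟩
  have heq : R (φ ∘ₗ f) = R φ := Submodule.eq_of_le_of_finrank_le hle hmin
  have hmem : φ ∈ R (φ ∘ₗ f) := by
    rw [heq]
    exact ⟨1, hA1, by ext w; simp [pre, LinearMap.compRight_apply]⟩
  obtain ⟨a, ha, haφ⟩ := hmem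
  obtain ⟨t, n, hn, rfl⟩ := hAmem a ha
  have hg : t • f + f * n ∈ N := N.add_mem (N.smul_mem t hf) (hmul f hf n hn)
  have hφg : φ ∘ₗ (t • f + f * n) = φ := by
    have haφ' : (φ ∘ₗ f) ∘ₗ (t • (1 : Module.End k W) + n) = φ := haφ
    have : φ ∘ₗ (t • f + f * n) = (φ ∘ₗ f) ∘ₗ (t • (1 : Module.End k W) + n) := by
      ext w
      simp
    rw [this, haφ']
  have hpow : ∀ j : ℕ, φ ∘ₗ ((t • f + f * n) ^ j) = φ := by
    intro j
    induction j with
    | zero => ext w; simp
    | succ j ih =>
      rw [pow_succ]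
      calc φ ∘ₗ ((t • f + f * n) ^ j * (t • f + f * n))
          = (φ ∘ₗ ((t • f + f * n) ^ j)) ∘ₗ (t • f + f * n) := by ext w; rfl
        _ = φ := by rw [ih, hφg]
  obtain ⟨m, hm⟩ := hnil _ hg
  have := hpow m
  rw [hm] at this
  apply hφ0
  rw [← this]
  ext w
  simp

/-- triangular basis: diagonal coordinates vanish -/
theorem exists_basis (n : ℕ) : ∀ {W : Type v} [AddCommGroup W] [Module k W] [FiniteDimensional k W],
    finrank k W = n → ∀ (N : Submodule k (Module.End k W)), (∀ f ∈ N, ∀ g ∈ N, f * g ∈ N) →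
    (∀ f ∈ N, IsNilpotent f) →
    ∃ b : Basis (Fin n) k W, ∀ f ∈ N, ∀ i, b.repr (f (b i)) i = 0 := by
  induction n with
  | zero =>
    intro W _ _ _ hW N _ _
    exact ⟨finBasisOfFinrankEq k W hW, fun f _ i => i.elim0⟩
  | succ n ih =>
    intro W _ _ _ hW N hmul hnil
    have hnt : Nontrivial W := Module.nontrivial_of_finrank_pos (R := k) (by omega)
    obtain ⟨φ, hφ0, hφ⟩ := exists_functional N hmul hnil
    let H : Submodule k W := LinearMap.ker φ
    have hNH : ∀ f ∈ N, ∀ w, f w ∈ H := by
      intro f hf w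
      have := congrArg (fun ψ : W →ₗ[k] k => ψ w) (hφ f hf)
      simpa [H, LinearMap.mem_ker] using this
    have hHdim : finrank k H = n := by
      have h1 := LinearMap.finrank_range_add_finrank_ker φ
      have h2 : finrank k (LinearMap.range φ) = 1 := by
        have : LinearMap.range φ = ⊤ := by
          rw [LinearMap.range_eq_top]
          exact LinearMap.surjective hφ0
        rw [this, finrank_top, finrank_self]
      rw [h2, hW] at h1
      show finrank k (LinearMap.ker φ) = n
      omega
    -- restriction to `H`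
    let res : N →ₗ[k] Module.End k H :=
      { toFun := fun f => (f : Module.End k W).restrict (fun w _ => hNH f.1 f.2 w)
        map_add' := fun f g => by ext w; rfl
        map_smul' := fun c f => by ext w; rfl }
    have hres : ∀ (f : N) (w : H), ((res f w : H) : W) = (f : Module.End k W) (w : W) := fun f w => rfl
    obtain ⟨b', hb'⟩ := ih hHdim (LinearMap.range res) (by
        rintro _ ⟨f, rfl⟩ _ ⟨g, rfl⟩
        refine ⟨⟨f.1 * g.1, hmul _ f.2 _ g.2⟩, ?_⟩
        ext w
        rfl) (by
        rintro _ ⟨f, rfl⟩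
        obtain ⟨m, hm⟩ := hnil f.1 f.2
        refine ⟨m, ?_⟩
        ext w
        have : ∀ j : ℕ, (((res f) ^ j) w : W) = ((f : Module.End k W) ^ j) (w : W) := by
          intro j
          induction j generalizing w with
          | zero => simp
          | succ j ihj =>
            rw [pow_succ, pow_succ, Module.End.mul_apply, Module.End.mul_apply, ihj, hres]
        rw [this, hm]
        simp)
    obtain ⟨y, hy⟩ : ∃ y : W, φ y = 1 := LinearMap.surjective hφ0 1
    have hli : ∀ (c : k), ∀ x ∈ H, c • y + x = 0 → c = 0 := by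
      intro c x hx h
      have := congrArg φ h
      rw [map_add, map_smul, hy, LinearMap.mem_ker.1 hx, map_zero, add_zero] at this
      simpa using this
    have hsp : ∀ z : W, ∃ c : k, z + c • y ∈ H := by
      intro z
      refine ⟨-φ z, ?_⟩
      rw [LinearMap.mem_ker, map_add, map_smul, hy]
      simp
    let b : Basis (Fin (n + 1)) k W := Basis.mkFinCons y b' hli hsp
    have hb0 : b 0 = y := by simp [b, Basis.coe_mkFinCons]
    have hbs : ∀ i : Fin n, b i.succ = (b' i : W) := by intro i; simp [b, Basis.coe_mkFinCons]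
    -- coordinates of an element of `H`
    have hco : ∀ (h : H), b.repr (h : W) 0 = 0 ∧ ∀ i : Fin n, b.repr (h : W) i.succ = b'.repr h i := by
      intro h
      have hexp : (h : W) = ∑ i : Fin (n + 1),
          (Fin.cons 0 (fun i => b'.repr h i) : Fin (n + 1) → k) i • b i := by
        rw [Fin.sum_univ_succ]
        simp only [Fin.cons_zero, zero_smul, zero_add, Fin.cons_succ, hbs]
        conv_lhs => rw [← b'.sum_repr h]
        rw [Submodule.coe_sum]
        simp
      have hrep : ∀ i, b.repr (h : W) i = (Fin.cons 0 (fun i => b'.repr h i) : Fin (n + 1) → k) i := by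
        intro i
        conv_lhs => rw [hexp]
        rw [Basis.repr_sum_self]
      refine ⟨by rw [hrep]; rfl, fun i => by rw [hrep]; rfl⟩
    refine ⟨b, ?_⟩
    intro f hf i
    refine Fin.cases ?_ (fun i => ?_) i
    · exact (hco ⟨f (b 0), hNH f hf _⟩).1
    · have h1 := (hco ⟨f (b i.succ), hNH f hf _⟩).2 i
      rw [show ((⟨f (b i.succ), hNH f hf _⟩ : H) : W) = f (b i.succ) from rfl] at h1
      rw [h1]
      have h2 : (⟨f (b i.succ), hNH f hf _⟩ : H) = res ⟨f, hf⟩ (b' i) := by
        apply Subtype.ext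
        rw [hres]
        show f (b i.succ) = f (b' i : W)
        rw [hbs]
      rw [h2]
      exact hb' _ ⟨_, rfl⟩ i

/-- invertible diagonal endomorphism in a basis -/
theorem trace_diag {W : Type v} [AddCommGroup W] [Module k W] [FiniteDimensional k W] {n : ℕ}
    (b : Basis (Fin n) k W) (x : Fin n → k) (hx : ∀ i, x i ≠ 0) :
    ∃ D : W ≃ₗ[k] W, ∀ f : Module.End k W,
      LinearMap.trace k W (D.toLinearMap ∘ₗ f) = ∑ i, x i * b.repr (f (b i)) i := by
  classical
  let D0 : W →ₗ[k] W := b.constr k (fun i => x i • b i)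
  let D1 : W →ₗ[k] W := b.constr k (fun i => (x i)⁻¹ • b i)
  have h01 : D0 ∘ₗ D1 = LinearMap.id := by
    apply b.ext
    intro i
    simp [D0, D1, smul_smul, inv_mul_cancel₀ (hx i)]
  have h10 : D1 ∘ₗ D0 = LinearMap.id := by
    apply b.ext
    intro i
    simp [D0, D1, smul_smul, mul_inv_cancel₀ (hx i)]
  refine ⟨LinearEquiv.ofLinearMap D0 D1 h01 h10, ?_⟩
  intro f
  rw [show (LinearEquiv.ofLinearMap D0 D1 h01 h10).toLinearMap = D0 from rfl,
    LinearMap.trace_eq_matrix_trace k b, Matrix.trace]
  apply Finset.sum_congr rfl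
  intro i _
  rw [Matrix.diag_apply, LinearMap.toMatrix_apply, LinearMap.comp_apply]
  have : ∀ w : W, b.repr (D0 w) i = x i * b.repr w i := by
    intro w
    have hw : D0 w = ∑ j, (x j * b.repr w j) • b j := by
      conv_lhs => rw [← b.sum_repr w]
      rw [map_sum]
      apply Finset.sum_congr rfl
      intro j _
      rw [map_smul, Basis.constr_basis, smul_smul, mul_comm]
    rw [hw, Basis.repr_sum_self]
  exact this _

end tri

section loc

variable {k : Type u} [Field k]

open Classical in
/-- non-zero scalars with sum zero -/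
theorem exists_scalars [Infinite k] {κ : Type*} [Fintype κ] [DecidableEq κ] (h : 2 ≤ Fintype.card κ) :
    ∃ x : κ → k, (∀ i, x i ≠ 0) ∧ ∑ i, x i = 0 := by
  obtain ⟨i0, i1, hne⟩ := Fintype.exists_pair_of_one_lt_card (by omega : 1 < Fintype.card κ)
  let S : k := ∑ i ∈ (Finset.univ.erase i0).erase i1, (1 : k)
  obtain ⟨t, ht⟩ := Infinite.exists_notMem_finset ({0, -S} : Finset k)
  simp only [Finset.mem_insert, Finset.mem_singleton, not_or] at ht
  refine ⟨fun i => if i = i0 then t else if i = i1 then -S - t else 1, ?_, ?_⟩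
  · intro i
    by_cases h0 : i = i0
    · simp [h0, ht.1]
    · by_cases h1 : i = i1
      · simp only [h0, if_false, h1, if_true, if_neg (Ne.symm hne)]
        intro h
        apply ht.2
        exact (sub_eq_zero.1 h).symm
      · simp [h0, h1]
  · rw [← Finset.add_sum_erase _ _ (Finset.mem_univ i0),
      ← Finset.add_sum_erase (Finset.univ.erase i0) _ (Finset.mem_erase.2 ⟨Ne.symm hne,
        Finset.mem_univ i1⟩)]
    have hS : ∑ i ∈ (Finset.univ.erase i0).erase i1,
        (if i = i0 then t else if i = i1 then -S - t else 1) = S := by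
      apply Finset.sum_congr rfl
      intro i hi
      rw [Finset.mem_erase, Finset.mem_erase] at hi
      rw [if_neg hi.2.1, if_neg hi.1]
    rw [hS]
    simp only [if_true, if_neg (Ne.symm hne)]
    ring

/-- **LEMMA LOC.** -/
theorem loc [Infinite k] {Z : Type v} [Ring Z] [Algebra k Z] [FiniteDimensional k Z]
    (h : ScNil k Z) {ι : Type*} [Fintype ι] (W : ι → Type w) [∀ s, AddCommGroup (W s)]
    [∀ s, Module k (W s)] [∀ s, FiniteDimensional k (W s)] (ρ : ∀ s, Z →ₐ[k] Module.End k (W s))
    (hdim : 2 ≤ ∑ s, finrank k (W s)) :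
    ∃ A0 : ∀ s, W s ≃ₗ[k] W s, ∀ z : Z,
      ∑ s, LinearMap.trace k (W s) ((A0 s).toLinearMap ∘ₗ ρ s z) = 0 := by
  classical
  have hnt : Nontrivial Z := by
    by_contra hZ
    rw [not_nontrivial_iff_subsingleton] at hZ
    have hW : ∀ s, finrank k (W s) = 0 := by
      intro s
      rw [Module.finrank_eq_zero_iff_of_free]
      constructor
      intro x y
      have h1 : (1 : Module.End k (W s)) = 0 := by
        rw [← map_one (ρ s), Subsingleton.elim (1 : Z) 0, map_zero]
      have h2 : ∀ x : W s, x = 0 := fun x => by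
        have := congrArg (fun f : Module.End k (W s) => f x) h1
        simpa using this
      rw [h2 x, h2 y]
    simp [hW] at hdim
  obtain ⟨c, hc⟩ := h.character
  let N : Submodule k Z := LinearMap.ker c.toLinearMap
  have hN : ∀ z ∈ N, IsNilpotent z := by
    intro z hz
    have h1 : c z = 0 := hz
    have := hc z
    rwa [h1, map_zero, sub_zero] at this
  have hb : ∀ s, ∃ b : Basis (Fin (finrank k (W s))) k (W s), ∀ z ∈ N, ∀ i,
      b.repr (ρ s z (b i)) i = 0 := by
    intro s
    obtain ⟨b, hb⟩ := exists_basis (finrank k (W s)) (W := W s) rfl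
      (N.map (ρ s).toLinearMap) (by
        rintro _ ⟨x, hx, rfl⟩ _ ⟨y, hy, rfl⟩
        refine ⟨x * y, ?_, ?_⟩
        · show c (x * y) = 0
          have : c x = 0 := hx
          rw [map_mul, this, zero_mul]
        · exact map_mul (ρ s) x y) (by
        rintro _ ⟨x, hx, rfl⟩
        exact (hN x hx).map (ρ s))
    exact ⟨b, fun z hz i => hb _ ⟨z, hz, rfl⟩ i⟩
  choose b hb using hb
  obtain ⟨x, hx, hxs⟩ := exists_scalars (k := k) (κ := Σ s, Fin (finrank k (W s))) (by
    rw [Fintype.card_sigma]
    simpa using hdim)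
  choose D hD using fun s => trace_diag (b s) (fun i => x ⟨s, i⟩) (fun i => hx _)
  refine ⟨D, ?_⟩
  intro z
  have hz : ∀ s i, (b s).repr (ρ s z (b s i)) i = c z := by
    intro s i
    have h1 : z - algebraMap k Z (c z) ∈ N := by
      show c (z - algebraMap k Z (c z)) = 0
      rw [map_sub, AlgHom.commutes]
      simp
    have h2 := hb s _ h1 i
    rw [map_sub, AlgHom.commutes, LinearMap.sub_apply, map_sub, Finsupp.sub_apply,
      Module.algebraMap_end_apply, map_smul, Finsupp.smul_apply, Basis.repr_self,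
      Finsupp.single_eq_same, smul_eq_mul, mul_one] at h2
    exact sub_eq_zero.1 h2
  calc ∑ s, LinearMap.trace k (W s) ((D s).toLinearMap ∘ₗ ρ s z)
      = ∑ s, ∑ i, x ⟨s, i⟩ * c z := by
        apply Finset.sum_congr rfl
        intro s _
        rw [hD]
        apply Finset.sum_congr rfl
        intro i _
        rw [hz]
    _ = (∑ p : Σ s, Fin (finrank k (W s)), x p) * c z := by
        rw [Finset.sum_mul, Fintype.sum_sigma]
    _ = 0 := by rw [hxs, zero_mul]

/-- LEMMA LOC in the form of the application: `Z` has no non-trivial idempotents. -/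
theorem loc_of_idem [IsAlgClosed k] {Z : Type v} [Ring Z] [Algebra k Z] [FiniteDimensional k Z]
    (h : ∀ e : Z, e * e = e → e = 0 ∨ e = 1) {ι : Type*} [Fintype ι] (W : ι → Type w)
    [∀ s, AddCommGroup (W s)] [∀ s, Module k (W s)] [∀ s, FiniteDimensional k (W s)]
    (ρ : ∀ s, Z →ₐ[k] Module.End k (W s)) (hdim : 2 ≤ ∑ s, finrank k (W s)) :
    ∃ A0 : ∀ s, W s ≃ₗ[k] W s, ∀ z : Z,
      ∑ s, LinearMap.trace k (W s) ((A0 s).toLinearMap ∘ₗ ρ s z) = 0 :=
  loc (scNil_of_idem h) W ρ hdim

end loc

end Crest.Agent.R175.LocA_356
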