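/-
Row 175 (S0263), step (A) of post #2527, parity version of LEMMA LOC (helper259).

`loc_even` : as `LocA_356.loc_of_idem`, for spaces `W s` with an involution `g s` commuting with the
action of the algebra; the invertible `A0 s` are even, i.e. commute with `g s`.
-/
import Crest.Agent.R175.LocA_356

set_option autoImplicit false

namespace Crest.Agent.R175.LocE_259

open Module

universe u v w

variable {k : Type u} [Field k]

section inv

variable {W : Type w} [AddCommGroup W] [Module k W]

/-- the even part of an involution -/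
def evn (g : W →ₗ[k] W) : Submodule k W := LinearMap.ker (g - LinearMap.id)

/-- the odd part of an involution -/
def odd (g : W →ₗ[k] W) : Submodule k W := LinearMap.ker (g + LinearMap.id)

theorem mem_evn {g : W →ₗ[k] W} {x : W} : x ∈ evn g ↔ g x = x := by
  simp [evn, sub_eq_zero]

theorem mem_odd {g : W →ₗ[k] W} {x : W} : x ∈ odd g ↔ g x = -x := by
  simp [odd, add_eq_zero_iff_eq_neg]

theorem isCompl_evn_odd (h2 : (2 : k) ≠ 0) {g : W →ₗ[k] W} (hg : ∀ x, g (g x) = x) :
    IsCompl (evn g) (odd g) := by
  refine IsCompl.of_eq ?_ ?_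
  · rw [Submodule.eq_bot_iff]
    rintro x ⟨h1, h3⟩
    have h1' := mem_evn.1 h1
    have h3' := mem_odd.1 h3
    rw [h1'] at h3'
    have : (2 : k) • x = 0 := by
      rw [two_smul]
      nth_rewrite 1 [h3']
      simp
    exact (smul_eq_zero.1 this).resolve_left h2
  · rw [Submodule.eq_top_iff']
    intro x
    have hx : x = (2 : k)⁻¹ • (x + g x) + (2 : k)⁻¹ • (x - g x) := by
      rw [← smul_add]
      have : x + g x + (x - g x) = (2 : k) • x := by
        rw [two_smul]; abel
      rw [this, smul_smul, inv_mul_cancel₀ h2, one_smul]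
    rw [hx]
    refine Submodule.add_mem_sup ?_ ?_
    · refine Submodule.smul_mem _ _ (mem_evn.2 ?_)
      rw [map_add, hg]; abel
    · refine Submodule.smul_mem _ _ (mem_odd.2 ?_)
      rw [map_sub, hg]; abel

end inv

/-- the block `b` of an involution -/
def blk {W : Type w} [AddCommGroup W] [Module k W] (g : W →ₗ[k] W) : Bool → Submodule k W
  | true => evn g
  | false => odd g

theorem blk_map {W : Type w} [AddCommGroup W] [Module k W] {g f : W →ₗ[k] W}
    (hf : ∀ x, f (g x) = g (f x)) (b : Bool) : ∀ x ∈ blk g b, f x ∈ blk g b := by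
  cases b
  · intro x hx
    have := mem_odd.1 hx
    refine mem_odd.2 ?_
    rw [← hf, this, map_neg]
  · intro x hx
    have := mem_evn.1 hx
    refine mem_evn.2 ?_
    rw [← hf, this]

/-- **LEMMA LOC, parity version.** -/
theorem loc_even [IsAlgClosed k] (h2 : (2 : k) ≠ 0) {Z : Type v} [Ring Z] [Algebra k Z]
    [FiniteDimensional k Z] (hid : ∀ e : Z, e * e = e → e = 0 ∨ e = 1)
    {ι : Type*} [Fintype ι] (W : ι → Type w)
    [∀ s, AddCommGroup (W s)] [∀ s, Module k (W s)] [∀ s, FiniteDimensional k (W s)]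
    (g : ∀ s, W s →ₗ[k] W s) (hg : ∀ s x, g s (g s x) = x)
    (ρ : ∀ s, Z →ₐ[k] Module.End k (W s)) (hρ : ∀ s z x, ρ s z (g s x) = g s (ρ s z x))
    (hdim : 2 ≤ ∑ s, finrank k (W s)) :
    ∃ A0 : ∀ s, W s ≃ₗ[k] W s, (∀ s x, A0 s (g s x) = g s (A0 s x)) ∧
      ∀ z : Z, ∑ s, LinearMap.trace k (W s) ((A0 s).toLinearMap ∘ₗ ρ s z) = 0 := by
  classical
  -- the blocks
  let W' : ι × Bool → Type w := fun p => blk (g p.1) p.2
  let _ : ∀ p, AddCommGroup (W' p) := fun p => inferInstanceAs (AddCommGroup (blk (g p.1) p.2))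
  let _ : ∀ p, Module k (W' p) := fun p => inferInstanceAs (Module k (blk (g p.1) p.2))
  have : ∀ p, FiniteDimensional k (W' p) :=
    fun p => inferInstanceAs (FiniteDimensional k (blk (g p.1) p.2))
  let ρ' : ∀ p, Z →ₐ[k] Module.End k (W' p) := fun p =>
    { toFun := fun z => (ρ p.1 z).restrict (blk_map (hρ p.1 z) p.2)
      map_one' := by
        ext x; simp [LinearMap.restrict_apply]
      map_mul' := by
        intro z z'
        ext x; simp [LinearMap.restrict_apply]
      map_zero' := by
        ext x; simp [LinearMap.restrict_apply]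
      map_add' := by
        intro z z'
        ext x; simp [LinearMap.restrict_apply]
      commutes' := by
        intro c
        ext x
        rw [LinearMap.coe_restrict_apply, AlgHom.commutes, Module.algebraMap_end_apply,
          Module.algebraMap_end_apply]
        rfl }
  have hc : ∀ s, IsCompl (evn (g s)) (odd (g s)) := fun s => isCompl_evn_odd h2 (hg s)
  have hfin : ∀ s, finrank k (W s) = finrank k (evn (g s)) + finrank k (odd (g s)) := fun s =>
    (Submodule.finrank_add_eq_of_isCompl (hc s)).symm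
  have hdim' : 2 ≤ ∑ p, finrank k (W' p) := by
    rw [Fintype.sum_prod_type]
    refine hdim.trans_eq (Finset.sum_congr rfl fun s _ => ?_)
    rw [Fintype.sum_bool, hfin s]
    rfl
  obtain ⟨A, hA⟩ := LocA_356.loc_of_idem hid W' ρ' hdim'
  let e : ∀ s, (evn (g s) × odd (g s)) ≃ₗ[k] W s := fun s => Submodule.prodEquivOfIsCompl _ _ (hc s)
  let A' : ∀ s, (evn (g s) × odd (g s)) ≃ₗ[k] (evn (g s) × odd (g s)) := fun s =>
    (A (s, true)).prodCongr (A (s, false))
  have key : ∀ s (f : W s →ₗ[k] W s) (hf : ∀ x, f (g s x) = g s (f x))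
      (y : evn (g s) × odd (g s)),
      f (e s y) = e s (⟨f y.1, blk_map hf true _ y.1.2⟩, ⟨f y.2, blk_map hf false _ y.2.2⟩) := by
    intro s f hf y
    simp [e]
  refine ⟨fun s => (e s).symm.trans ((A' s).trans (e s)), ?_, ?_⟩
  · intro s x
    obtain ⟨y, rfl⟩ := (e s).surjective x
    have hgg : ∀ y : evn (g s) × odd (g s), g s (e s y) = e s (y.1, -y.2) := by
      intro y
      have h1 := mem_evn.1 y.1.2
      have h3 := mem_odd.1 y.2.2
      simp [e, h1, h3]
    simp only [LinearEquiv.trans_apply, LinearEquiv.symm_apply_apply]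
    rw [hgg, LinearEquiv.symm_apply_apply, hgg]
    refine congrArg (e s) ?_
    exact Prod.ext rfl (map_neg (A (s, false)) y.2)
  · intro z
    have := hA z
    rw [Fintype.sum_prod_type] at this
    rw [← this]
    refine Finset.sum_congr rfl fun s _ => ?_
    rw [Fintype.sum_bool]
    have h1 : (((e s).symm.trans ((A' s).trans (e s))).toLinearMap ∘ₗ ρ s z)
        = (e s).conj (LinearMap.prodMap
            ((A (s, true)).toLinearMap ∘ₗ ρ' (s, true) z)
            ((A (s, false)).toLinearMap ∘ₗ ρ' (s, false) z)) := by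
      ext x
      obtain ⟨y, rfl⟩ := (e s).surjective x
      simp only [LinearMap.comp_apply, LinearEquiv.coe_coe, LinearEquiv.conj_apply_apply,
        LinearEquiv.symm_apply_apply, LinearEquiv.trans_apply]
      rw [key s (ρ s z) (hρ s z) y]
      simp only [LinearEquiv.symm_apply_apply]
      rfl
    rw [h1, LinearMap.trace_conj', LinearMap.trace_prodMap']
    rfl

end Crest.Agent.R175.LocE_259
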