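import Mathlib

/-!
# R175 / homology of a differential space and short exact sequences (dimension form)

`hh D = dim ker D - dim range D`.  For `0 -> V1 -> V -> V2 -> 0` compatible with the differentials:
`hh D <= hh D1 + hh D2`, with strict inequality iff the connecting map is nonzero.
-/

namespace Crest.Agent.R175.LES_445

open Module LinearMap

variable {k : Type*} [Field k]
variable {V V1 V2 : Type*} [AddCommGroup V] [Module k V] [AddCommGroup V1] [Module k V1]
  [AddCommGroup V2] [Module k V2]

/-- dimension of the homology of a differential space -/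
noncomputable def hh (D : V →ₗ[k] V) : ℕ := finrank k (ker D) - finrank k (range D)

theorem range_le_ker {D : V →ₗ[k] V} (hD : ∀ x, D (D x) = 0) : range D ≤ ker D := by
  rintro _ ⟨x, rfl⟩
  exact hD x

variable [FiniteDimensional k V] [FiniteDimensional k V1] [FiniteDimensional k V2]

theorem hh_add {D : V →ₗ[k] V} (hD : ∀ x, D (D x) = 0) :
    hh D + 2 * finrank k (range D) = finrank k V := by
  have h1 := D.finrank_range_add_finrank_ker
  have h2 := Submodule.finrank_mono (range_le_ker hD)
  unfold hh
  omega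

/-- every class is zero iff `hh = 0` -/
theorem hh_eq_zero {D : V →ₗ[k] V} (hD : ∀ x, D (D x) = 0) :
    hh D = 0 ↔ ∀ x, D x = 0 → ∃ y, D y = x := by
  have h2 := Submodule.finrank_mono (range_le_ker hD)
  constructor
  · intro h x hx
    have h3 : finrank k (range D) = finrank k (ker D) := by
      unfold hh at h
      omega
    have h4 := Submodule.eq_of_le_of_finrank_eq (range_le_ker hD) h3
    have h5 : x ∈ ker D := hx
    rw [← h4] at h5
    exact h5
  · intro h
    have h3 : range D = ker D := by
      refine le_antisymm (range_le_ker hD) ?_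
      intro x hx
      exact h x hx
    unfold hh
    rw [h3]
    omega

section Seq

variable {D : V →ₗ[k] V} {D1 : V1 →ₗ[k] V1} {D2 : V2 →ₗ[k] V2}
  {i : V1 →ₗ[k] V} {p : V →ₗ[k] V2}

theorem rank_add (hi : Function.Injective i) (hp : Function.Surjective p) (hpi : ∀ x, p (i x) = 0)
    (hD1 : ∀ x, D (i x) = i (D1 x)) (hD2 : ∀ x, p (D x) = D2 (p x)) :
    finrank k (range D1) + finrank k (range D2) ≤ finrank k (range D) := by
  set q : range D →ₗ[k] V2 := p ∘ₗ (range D).subtype with hq
  have h1 := q.finrank_range_add_finrank_ker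
  have h2 : range q = range D2 := by
    ext y
    constructor
    · rintro ⟨⟨_, x, rfl⟩, rfl⟩
      exact ⟨p x, (hD2 x).symm⟩
    · rintro ⟨z, rfl⟩
      obtain ⟨x, rfl⟩ := hp z
      exact ⟨⟨D x, x, rfl⟩, hD2 x⟩
  let f : range D1 →ₗ[k] ker q :=
    { toFun := fun x => ⟨⟨i x.1, by obtain ⟨y, hy⟩ := x.2; exact ⟨i y, by rw [hD1, hy]⟩⟩, hpi _⟩
      map_add' := fun x y => by ext; simp
      map_smul' := fun c x => by ext; simp }
  have h3 : finrank k (range D1) ≤ finrank k (ker q) := by
    refine LinearMap.finrank_le_finrank_of_injective (f := f) ?_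
    intro x y hxy
    have h4 : i x.1 = i y.1 := by
      have := congrArg (fun z : ker q => (z.1.1 : V)) hxy
      exact this
    exact Subtype.ext (hi h4)
  rw [h2] at h1
  omega

theorem rank_add_lt (hi : Function.Injective i) (hp : Function.Surjective p)
    (hpi : ∀ x, p (i x) = 0)
    (hD1 : ∀ x, D (i x) = i (D1 x)) (hD2 : ∀ x, p (D x) = D2 (p x))
    {v : V} {a : V1} (hv : D v = i a) (ha : ∀ y, D1 y ≠ a) :
    finrank k (range D1) + finrank k (range D2) < finrank k (range D) := by
  set q : range D →ₗ[k] V2 := p ∘ₗ (range D).subtype with hq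
  have h1 := q.finrank_range_add_finrank_ker
  have h2 : range q = range D2 := by
    ext y
    constructor
    · rintro ⟨⟨_, x, rfl⟩, rfl⟩
      exact ⟨p x, (hD2 x).symm⟩
    · rintro ⟨z, rfl⟩
      obtain ⟨x, rfl⟩ := hp z
      exact ⟨⟨D x, x, rfl⟩, hD2 x⟩
  set S : Submodule k V1 := range D1 ⊔ Submodule.span k {a} with hS
  have hSD : ∀ x ∈ S, i x ∈ range D := by
    intro x hx
    have : S ≤ (range D).comap i := by
      refine sup_le ?_ ?_
      · rintro _ ⟨y, rfl⟩
        exact ⟨i y, hD1 y⟩
      · rw [Submodule.span_le]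
        intro y hy
        rw [Set.mem_singleton_iff] at hy
        subst hy
        exact ⟨v, hv⟩
    exact this hx
  let f : S →ₗ[k] ker q :=
    { toFun := fun x => ⟨⟨i x.1, hSD x.1 x.2⟩, hpi _⟩
      map_add' := fun x y => by ext; simp
      map_smul' := fun c x => by ext; simp }
  have h3 : finrank k S ≤ finrank k (ker q) := by
    refine LinearMap.finrank_le_finrank_of_injective (f := f) ?_
    intro x y hxy
    have h4 : i x.1 = i y.1 := by
      have := congrArg (fun z : ker q => (z.1.1 : V)) hxy
      exact this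
    exact Subtype.ext (hi h4)
  have h5 : finrank k (range D1) < finrank k S := by
    refine Submodule.finrank_lt_finrank_of_lt ?_
    refine lt_of_le_of_ne le_sup_left ?_
    intro heq
    have h6 : a ∈ S := Submodule.mem_sup_right (Submodule.mem_span_singleton_self a)
    rw [← heq] at h6
    obtain ⟨y, hy⟩ := h6
    exact ha y hy
  rw [h2] at h1
  omega

/-- **subadditivity** -/
theorem hh_le (hi : Function.Injective i) (hp : Function.Surjective p) (hpi : ∀ x, p (i x) = 0)
    (hdim : finrank k V = finrank k V1 + finrank k V2)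
    (hD : ∀ x, D (D x) = 0) (hDD1 : ∀ x, D1 (D1 x) = 0) (hDD2 : ∀ x, D2 (D2 x) = 0)
    (hD1 : ∀ x, D (i x) = i (D1 x)) (hD2 : ∀ x, p (D x) = D2 (p x)) :
    hh D ≤ hh D1 + hh D2 := by
  have h1 := hh_add hD
  have h2 := hh_add hDD1
  have h3 := hh_add hDD2
  have h4 := rank_add hi hp hpi hD1 hD2
  omega

/-- **strict subadditivity** when the connecting map is nonzero -/
theorem hh_lt (hi : Function.Injective i) (hp : Function.Surjective p) (hpi : ∀ x, p (i x) = 0)
    (hdim : finrank k V = finrank k V1 + finrank k V2)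
    (hD : ∀ x, D (D x) = 0) (hDD1 : ∀ x, D1 (D1 x) = 0) (hDD2 : ∀ x, D2 (D2 x) = 0)
    (hD1 : ∀ x, D (i x) = i (D1 x)) (hD2 : ∀ x, p (D x) = D2 (p x))
    {v : V} {a : V1} (hv : D v = i a) (ha : ∀ y, D1 y ≠ a) :
    hh D + 2 ≤ hh D1 + hh D2 := by
  have h1 := hh_add hD
  have h2 := hh_add hDD1
  have h3 := hh_add hDD2
  have h4 := rank_add_lt hi hp hpi hD1 hD2 hv ha
  omega

end Seq

end Crest.Agent.R175.LES_445
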