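/-
Row 175 (S0263), block (A) (helper259): direct sums of graded objects, the cone of an ODD closed map
(the parity involution is the plain direct sum), and `hT X (ocone a) ≤ hT X Y + hT X Y'`.
-/
import Crest.Agent.R175.PTA_534
import Crest.Agent.R175.LES_445

set_option autoImplicit false

open CategoryTheory

namespace Crest.Agent.R175.Ocone_259

open Crest.Agent.R175.PTA Module

universe u v

variable {T : Type u} {G : MG T} {k : Type v} [Field k]

/-- direct sum of graded objects -/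
abbrev gsum (X Y : Gob G k) : Gob G k where
  V t := X.V t × Y.V t
  W t := X.W t × Y.W t
  gV t := (X.gV t).prodMap (Y.gV t)
  gW t := (X.gW t).prodMap (Y.gW t)
  gV_sq t := by
    rw [LinearMap.prodMap_comp, X.gV_sq, Y.gV_sq, LinearMap.prodMap_id]
  gW_sq t := by
    rw [LinearMap.prodMap_comp, X.gW_sq, Y.gW_sq, LinearMap.prodMap_id]

variable (X Y : Gob G k)

def il : X ⟶ gsum X Y :=
  mkH (fun _ => LinearMap.inl k _ _) (fun _ => LinearMap.inl k _ _) (fun _ _ _ => 0) (fun _ => 0)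
    (fun _ => 0) (fun _ => 0)
def ir : Y ⟶ gsum X Y :=
  mkH (fun _ => LinearMap.inr k _ _) (fun _ => LinearMap.inr k _ _) (fun _ _ _ => 0) (fun _ => 0)
    (fun _ => 0) (fun _ => 0)
def pl : gsum X Y ⟶ X :=
  mkH (fun _ => LinearMap.fst k _ _) (fun _ => LinearMap.fst k _ _) (fun _ _ _ => 0) (fun _ => 0)
    (fun _ => 0) (fun _ => 0)
def pr : gsum X Y ⟶ Y :=
  mkH (fun _ => LinearMap.snd k _ _) (fun _ => LinearMap.snd k _ _) (fun _ _ _ => 0) (fun _ => 0)
    (fun _ => 0) (fun _ => 0)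

section simps
variable (t : T)
@[simp] theorem c0_il : c0 (il X Y) t = LinearMap.inl k _ _ := rfl
@[simp] theorem cW_il : cW (il X Y) t = LinearMap.inl k _ _ := rfl
@[simp] theorem c1_il {s t : T} (a : G.E s t) : c1 (il X Y) a = 0 := rfl
@[simp] theorem ci_il : ci (il X Y) t = 0 := rfl
@[simp] theorem cj_il : cj (il X Y) t = 0 := rfl
@[simp] theorem c2_il : c2 (il X Y) t = 0 := rfl
@[simp] theorem c0_ir : c0 (ir X Y) t = LinearMap.inr k _ _ := rfl
@[simp] theorem cW_ir : cW (ir X Y) t = LinearMap.inr k _ _ := rfl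
@[simp] theorem c1_ir {s t : T} (a : G.E s t) : c1 (ir X Y) a = 0 := rfl
@[simp] theorem ci_ir : ci (ir X Y) t = 0 := rfl
@[simp] theorem cj_ir : cj (ir X Y) t = 0 := rfl
@[simp] theorem c2_ir : c2 (ir X Y) t = 0 := rfl
@[simp] theorem c0_pl : c0 (pl X Y) t = LinearMap.fst k _ _ := rfl
@[simp] theorem cW_pl : cW (pl X Y) t = LinearMap.fst k _ _ := rfl
@[simp] theorem c1_pl {s t : T} (a : G.E s t) : c1 (pl X Y) a = 0 := rfl
@[simp] theorem ci_pl : ci (pl X Y) t = 0 := rfl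
@[simp] theorem cj_pl : cj (pl X Y) t = 0 := rfl
@[simp] theorem c2_pl : c2 (pl X Y) t = 0 := rfl
@[simp] theorem c0_pr : c0 (pr X Y) t = LinearMap.snd k _ _ := rfl
@[simp] theorem cW_pr : cW (pr X Y) t = LinearMap.snd k _ _ := rfl
@[simp] theorem c1_pr {s t : T} (a : G.E s t) : c1 (pr X Y) a = 0 := rfl
@[simp] theorem ci_pr : ci (pr X Y) t = 0 := rfl
@[simp] theorem cj_pr : cj (pr X Y) t = 0 := rfl
@[simp] theorem c2_pr : c2 (pr X Y) t = 0 := rfl
end simps

variable [Fintype T]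

@[simp] theorem il_pl : il X Y ≫ pl X Y = 𝟙 X := by
  apply hm_ext <;> intros <;> simp
@[simp] theorem ir_pr : ir X Y ≫ pr X Y = 𝟙 Y := by
  apply hm_ext <;> intros <;> simp
@[simp] theorem il_pr : il X Y ≫ pr X Y = 0 := by
  apply hm_ext <;> intros <;> simp
@[simp] theorem ir_pl : ir X Y ≫ pl X Y = 0 := by
  apply hm_ext <;> intros <;> simp
theorem tot_id : pl X Y ≫ il X Y + pr X Y ≫ ir X Y = 𝟙 (gsum X Y) := by
  apply hm_ext
  · intro t; ext x <;> simp
  · intro t; ext x <;> simp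
  · intros; simp
  · intros; simp
  · intros; simp
  · intros; simp

@[simp] theorem il_pl_assoc {Z : Gob G k} (f : X ⟶ Z) : il X Y ≫ pl X Y ≫ f = f := by
  rw [← Category.assoc, il_pl, Category.id_comp]
@[simp] theorem ir_pr_assoc {Z : Gob G k} (f : Y ⟶ Z) : ir X Y ≫ pr X Y ≫ f = f := by
  rw [← Category.assoc, ir_pr, Category.id_comp]
@[simp] theorem il_pr_assoc {Z : Gob G k} (f : Y ⟶ Z) : il X Y ≫ pr X Y ≫ f = 0 := by
  rw [← Category.assoc, il_pr, Limits.zero_comp]
@[simp] theorem ir_pl_assoc {Z : Gob G k} (f : X ⟶ Z) : ir X Y ≫ pl X Y ≫ f = 0 := by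
  rw [← Category.assoc, ir_pl, Limits.zero_comp]

theorem gam_gsum : gam (gsum X Y) = pl X Y ≫ gam X ≫ il X Y + pr X Y ≫ gam Y ≫ ir X Y := by
  apply hm_ext
  · intro t; ext x <;> simp [gsum]
  · intro t; ext x <;> simp [gsum]
  · intros; simp
  · intros; simp
  · intros; simp
  · intros; simp

@[simp] theorem il_gam : il X Y ≫ gam (gsum X Y) = gam X ≫ il X Y := by
  rw [gam_gsum]; simp
@[simp] theorem ir_gam : ir X Y ≫ gam (gsum X Y) = gam Y ≫ ir X Y := by
  rw [gam_gsum]; simp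
@[simp] theorem gam_pl : gam (gsum X Y) ≫ pl X Y = pl X Y ≫ gam X := by
  rw [gam_gsum]; simp
@[simp] theorem gam_pr : gam (gsum X Y) ≫ pr X Y = pr X Y ≫ gam Y := by
  rw [gam_gsum]; simp

@[simp] theorem bar_il : bar (il X Y) = il X Y := by
  rw [bar, il_gam]; simp
@[simp] theorem bar_ir : bar (ir X Y) = ir X Y := by
  rw [bar, ir_gam]; simp
@[simp] theorem bar_pl : bar (pl X Y) = pl X Y := by
  rw [bar, ← Category.assoc, gam_pl]; simp
@[simp] theorem bar_pr : bar (pr X Y) = pr X Y := by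
  rw [bar, ← Category.assoc, gam_pr]; simp

section cone

variable {Y Y' : TOb G k} (a : Y.X ⟶ Y'.X)

/-- the cone of an odd closed map of `Cs` -/
abbrev ocone (hD : D Y Y' a = 0) (ho : bar a = -a) (hW : ∀ t, cW a t = 0) : TOb G k where
  X := gsum Y.X Y'.X
  d := pl _ _ ≫ Y.d ≫ il _ _ + pl _ _ ≫ a ≫ ir _ _ + pr _ _ ≫ Y'.d ≫ ir _ _
  dd := by
    have h : a ≫ Y'.d + Y.d ≫ a = 0 := by
      have := hD
      rw [D_apply, ho, Preadditive.comp_neg, sub_neg_eq_add] at this
      exact this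
    simp only [Preadditive.add_comp, Preadditive.comp_add, Category.assoc, il_pl_assoc,
      il_pr_assoc, ir_pl_assoc, ir_pr_assoc, Limits.comp_zero, add_zero, zero_add,
      TOb.dd_assoc]
    rw [← Preadditive.comp_add, ← Category.assoc Y.d, ← Category.assoc a, ← Preadditive.add_comp,
      add_comm (Y.d ≫ a), h]
    simp
  dg := by
    have h : a ≫ gam Y'.X = -(gam Y.X ≫ a) := by
      have h1 : gam Y.X ≫ bar a = gam Y.X ≫ (-a) := by rw [ho]
      rw [bar, gam_gam_assoc, Preadditive.comp_neg] at h1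
      exact h1
    rw [gam_gsum]
    simp only [Preadditive.add_comp, Preadditive.comp_add, Category.assoc, il_pl_assoc,
      il_pr_assoc, ir_pl_assoc, ir_pr_assoc, Limits.comp_zero, add_zero, zero_add, neg_add]
    have e1 : Y.d ≫ gam Y.X ≫ il Y.X Y'.X = -(gam Y.X ≫ Y.d ≫ il Y.X Y'.X) := by
      rw [← Category.assoc, Y.dg]; simp
    have e2 : a ≫ gam Y'.X ≫ ir Y.X Y'.X = -(gam Y.X ≫ a ≫ ir Y.X Y'.X) := by
      rw [← Category.assoc, h]; simp
    have e3 : Y'.d ≫ gam Y'.X ≫ ir Y.X Y'.X = -(gam Y'.X ≫ Y'.d ≫ ir Y.X Y'.X) := by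
      rw [← Category.assoc, Y'.dg]; simp
    rw [e1, e2, e3]
    simp only [Preadditive.comp_neg]
    abel
  dW t := by
    simp [hW t]

variable (hD : D Y Y' a = 0) (ho : bar a = -a) (hW : ∀ t, cW a t = 0)

theorem ir_d : ir Y.X Y'.X ≫ (ocone a hD ho hW).d = Y'.d ≫ ir Y.X Y'.X := by
  simp [ocone]

theorem d_pl : (ocone a hD ho hW).d ≫ pl Y.X Y'.X = pl Y.X Y'.X ≫ Y.d := by
  simp [ocone]

theorem lam_ocone (t : T) : lam (ocone a hD ho hW) t = lam Y t + lam Y' t :=
  Module.finrank_prod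

theorem ci_ocone (t : T) (x : Y.X.W t × Y'.X.W t) :
    ci (ocone a hD ho hW).d t x = (ci Y.d t x.1, ci a t x.1 + ci Y'.d t x.2) := by
  refine Prod.ext ?_ ?_ <;> simp

theorem cj_ocone (t : T) (x : Y.X.V t × Y'.X.V t) :
    cj (ocone a hD ho hW).d t x = (cj Y.d t x.1, cj a t x.1 + cj Y'.d t x.2) := by
  refine Prod.ext ?_ ?_ <;> simp

/-- `hT` is subadditive on cones -/
theorem hT_ocone_le (X : TOb G k) : hT X (ocone a hD ho hW) ≤ hT X Y + hT X Y' := by
  have key := LES_445.hh_le (k := k) (D := DC X (ocone a hD ho hW)) (D1 := DC X Y')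
    (D2 := DC X Y)
    (i := { toFun := fun f => ⟨f.1 ≫ ir Y.X Y'.X, Cs_comp_right f.2 _⟩
            map_add' := fun f g => Subtype.ext (by simp)
            map_smul' := fun c f => Subtype.ext (by simp) })
    (p := { toFun := fun f => ⟨f.1 ≫ pl Y.X Y'.X, Cs_comp_right f.2 _⟩
            map_add' := fun f g => Subtype.ext (by simp)
            map_smul' := fun c f => Subtype.ext (by simp) })
    ?_ ?_ ?_ ?_ DC_DC DC_DC DC_DC ?_ ?_
  · rw [add_comm]; exact key
  · intro f g h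
    have h1 : f.1 ≫ ir Y.X Y'.X = g.1 ≫ ir Y.X Y'.X := congrArg Subtype.val h
    have h2 := congrArg (fun z => z ≫ pr Y.X Y'.X) h1
    simp only [Category.assoc, ir_pr, Category.comp_id] at h2
    exact Subtype.ext h2
  · intro f
    refine ⟨⟨f.1 ≫ il Y.X Y'.X, Cs_comp_right f.2 _⟩, Subtype.ext ?_⟩
    simp
  · intro f
    refine Subtype.ext ?_
    simp
  · -- dimensions
    let e : Cs X.X (gsum Y.X Y'.X) ≃ₗ[k] Cs X.X Y'.X × Cs X.X Y.X :=
      { toFun := fun f => (⟨f.1 ≫ pr Y.X Y'.X, Cs_comp_right f.2 _⟩,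
          ⟨f.1 ≫ pl Y.X Y'.X, Cs_comp_right f.2 _⟩)
        map_add' := fun f g => by ext1 <;> exact Subtype.ext (by simp)
        map_smul' := fun c f => by ext1 <;> exact Subtype.ext (by simp)
        invFun := fun p => ⟨p.1.1 ≫ ir Y.X Y'.X + p.2.1 ≫ il Y.X Y'.X,
          Submodule.add_mem _ (Cs_comp_right p.1.2 _) (Cs_comp_right p.2.2 _)⟩
        left_inv := fun f => Subtype.ext (by
          simp only [Category.assoc]
          rw [← Preadditive.comp_add, add_comm, tot_id, Category.comp_id])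
        right_inv := fun p => by
          ext1 <;> exact Subtype.ext (by simp) }
    rw [← Module.finrank_prod]
    exact e.finrank_eq
  · intro f
    refine Subtype.ext ?_
    change D X (ocone a hD ho hW) (f.1 ≫ ir Y.X Y'.X) = (D X Y' f.1) ≫ ir Y.X Y'.X
    rw [D_apply, D_apply, bar_comp, bar_ir, Category.assoc, ir_d, Preadditive.sub_comp]
    simp
  · intro f
    refine Subtype.ext ?_
    change (D X (ocone a hD ho hW) f.1) ≫ pl Y.X Y'.X = D X Y (f.1 ≫ pl Y.X Y'.X)
    rw [D_apply, D_apply, Preadditive.sub_comp, Category.assoc, d_pl, bar_comp, bar_pl]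
    simp

end cone

end Crest.Agent.R175.Ocone_259
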