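/-
Row 175 (S0263), block (A) of post #2527 (helper259).

* `REDstmt`, `red` : RED in existence form (from `Red_61`).
* `conered` : an odd closed map `a : Y → Y'` whose path is "invertible on `K`" gives `C'` with
  `hT X C' + ∑ dim K_t lam_t X ≤ hT X Y + hT X Y'` and `lam C' = lam Y + lam Y' - C dim K`.
* `redA` : `Y` with trivial idempotents and at least two frames gives `C'` with
  `hT X C' + ∑ lam_t Y * lam_t X ≤ 2 hT X Y` and `lam C' = A (lam Y)` (`A` the adjacency matrix).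
-/
import Crest.Agent.R175.Ocone_259
import Crest.Agent.R175.LocE_259
import Crest.Agent.R175.Dual_338
import Crest.Agent.R175.Red_61

set_option autoImplicit false

open CategoryTheory

namespace Crest.Agent.R175.StepA_259

open Crest.Agent.R175.PTA Crest.Agent.R175.Ocone_259 Module

universe u v

variable {T : Type u} {G : MG T} {k : Type v} [Field k] [Fintype T]

/-- the path map `W → W'` of a map `a : Y → Y'` (through `V` and `V'`) -/
def path {Y Y' : TOb G k} (a : Y.X ⟶ Y'.X) (t : T) : Y.X.W t →ₗ[k] Y'.X.W t :=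
  cj a t ∘ₗ ci Y.d t + cj Y'.d t ∘ₗ ci a t

theorem path_apply {Y Y' : TOb G k} (a : Y.X ⟶ Y'.X) (t : T) (x : Y.X.W t) :
    path a t x = cj a t (ci Y.d t x) + cj Y'.d t (ci a t x) := rfl

variable (G k) in
/-- the statement of RED (all vertices at once, target side, non-minimal objects) -/
def REDstmt : Prop :=
  ∀ (C : TOb G k) (K : T → Type v) [∀ t, AddCommGroup (K t)] [∀ t, Module k (K t)]
    [∀ t, FiniteDimensional k (K t)] (gK : ∀ t, K t →ₗ[k] K t) (_ : ∀ t x, gK t (gK t x) = x)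
    (u : ∀ t, K t →ₗ[k] C.X.W t) (Xi : ∀ t, C.X.W t →ₗ[k] K t)
    (_ : ∀ t x, C.X.gW t (u t x) = u t (gK t x)) (_ : ∀ t x, Xi t (C.X.gW t x) = gK t (Xi t x))
    (_ : ∀ t x, Xi t (u t x) = 0) (_ : ∀ t x, Xi t (cj C.d t (ci C.d t (u t x))) = x),
    ∃ C' : TOb G k, (∀ X : TOb G k, hT X C = hT X C' + ∑ t, finrank k (K t) * lam X t) ∧
      ∀ s, lam C' s + 2 * finrank k (K s) =
        lam C s + ∑ t, Fintype.card (G.E t s) * finrank k (K t)

/-- RED, from `Red_61` -/
theorem red : REDstmt G k := by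
  intro C K _ _ _ gK hgK u Xi hu hXi h0 h1
  let R : Red_61.RD C :=
    { K := K, gK := gK, gK2 := hgK, u := u, Xi := Xi, gu := hu, gXi := hXi, Xu := h0, Xjiu := h1 }
  refine ⟨R.ob, fun X => R.hT_red X, fun s => ?_⟩
  exact R.lam_ob s

theorem conered {Y Y' : TOb G k} (a : Y.X ⟶ Y'.X) (hD : D Y Y' a = 0)
    (ho : bar a = -a) (hW : ∀ t, cW a t = 0)
    (K : T → Type v) [∀ t, AddCommGroup (K t)] [∀ t, Module k (K t)]
    [∀ t, FiniteDimensional k (K t)] (gK : ∀ t, K t →ₗ[k] K t) (hgK : ∀ t x, gK t (gK t x) = x)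
    (p : ∀ t, K t →ₗ[k] Y.X.W t) (q : ∀ t, Y'.X.W t →ₗ[k] K t)
    (hp : ∀ t x, Y.X.gW t (p t x) = p t (gK t x)) (hq : ∀ t x, q t (Y'.X.gW t x) = gK t (q t x))
    (h1 : ∀ t x, q t (path a t (p t x)) = x) :
    ∃ C' : TOb G k,
      (∀ X : TOb G k, hT X C' + ∑ t, finrank k (K t) * lam X t ≤ hT X Y + hT X Y') ∧
      ∀ s, lam C' s + 2 * finrank k (K s) =
        lam Y s + lam Y' s + ∑ t, Fintype.card (G.E t s) * finrank k (K t) := by
  obtain ⟨C', h2, h3⟩ := red (ocone a hD ho hW) K gK hgK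
    (fun t => LinearMap.inl k (Y.X.W t) (Y'.X.W t) ∘ₗ p t)
    (fun t => q t ∘ₗ LinearMap.snd k (Y.X.W t) (Y'.X.W t))
    (fun t x => Prod.ext (hp t x) (map_zero (Y'.X.gW t))) (fun t x => hq t _)
    (fun t x => map_zero (q t))
    (fun t x => by
      change q t (cj (ocone a hD ho hW).d t (ci (ocone a hD ho hW).d t (p t x, 0))).2 = x
      rw [ci_ocone, cj_ocone]
      change q t (cj a t (ci Y.d t (p t x)) + cj Y'.d t (ci a t (p t x) + ci Y'.d t 0)) = x
      rw [map_zero, add_zero, ← path_apply]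
      exact h1 t x)
  refine ⟨C', fun X => ?_, fun s => ?_⟩
  · rw [← h2]
    exact hT_ocone_le a hD ho hW X
  · rw [h3, lam_ocone]

section redA

variable (Y : TOb G k)

/-- the algebra of even closed endomorphisms -/
def Z0 : Subalgebra k (End Y.X) where
  carrier := {z | bar (X := Y.X) (Y := Y.X) z = z ∧ D Y Y z = 0}
  mul_mem' := by
    rintro a b ⟨ha, ha'⟩ ⟨hb, hb'⟩
    constructor
    · rw [End.mul_def, bar_comp, ha, hb]
    · rw [End.mul_def, D_comp, ha', hb']
      simp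
  add_mem' := by
    rintro a b ⟨ha, ha'⟩ ⟨hb, hb'⟩
    exact ⟨by rw [bar_add, ha, hb], by rw [map_add, ha', hb', add_zero]⟩
  algebraMap_mem' := by
    intro r
    have h : (algebraMap k (End Y.X) r) = r • 𝟙 Y.X := by
      rw [Algebra.algebraMap_eq_smul_one]; rfl
    rw [h]
    exact ⟨by rw [bar_smul, bar_id], by rw [map_smul, D_id, smul_zero]⟩

variable {Y}

theorem mem_Z0 {z : Y.X ⟶ Y.X} : z ∈ Z0 Y ↔ bar z = z ∧ D Y Y z = 0 := Iff.rfl

instance : FiniteDimensional k (End Y.X) := inferInstanceAs (FiniteDimensional k (Y.X ⟶ Y.X))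

instance : FiniteDimensional k (Z0 Y) :=
  inferInstanceAs (FiniteDimensional k (Subalgebra.toSubmodule (Z0 Y)))

/-- the action on the frames -/
def rho (t : T) : Z0 Y →ₐ[k] Module.End k (Y.X.W t) where
  toFun z := cW (X := Y.X) (Y := Y.X) z.1 t
  map_one' := rfl
  map_mul' a b := rfl
  map_zero' := rfl
  map_add' a b := rfl
  commutes' r := by
    have h : (algebraMap k (Z0 Y) r : End Y.X) = r • 𝟙 Y.X := by
      rw [Subalgebra.coe_algebraMap, Algebra.algebraMap_eq_smul_one]; rfl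
    change cW (X := Y.X) (Y := Y.X) (algebraMap k (Z0 Y) r : End Y.X) t = _
    rw [h, cW_smul, cW_id, Module.algebraMap_end_eq_smul_id]

theorem rho_apply (t : T) (z : Z0 Y) : rho t z = cW (X := Y.X) (Y := Y.X) z.1 t := rfl

/-- **step (A)** -/
theorem redA [IsAlgClosed k] (h2 : (2 : k) ≠ 0)
    (hid : ∀ e : Y.X ⟶ Y.X, bar e = e → D Y Y e = 0 → e ≫ e = e → e = 0 ∨ e = 𝟙 Y.X)
    (hlam : 2 ≤ ∑ t, lam Y t) :
    ∃ C' : TOb G k, (∀ X : TOb G k, hT X C' + ∑ t, lam Y t * lam X t ≤ hT X Y + hT X Y) ∧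
      ∀ s, lam C' s = ∑ t, Fintype.card (G.E t s) * lam Y t := by
  have hsq : ∀ (t : T) (x : Y.X.W t), Y.X.gW t (Y.X.gW t x) = x := fun t x =>
    LinearMap.congr_fun (Y.X.gW_sq t) x
  obtain ⟨A0, hA, hA'⟩ := LocE_259.loc_even h2 (Z := Z0 Y)
    (by
      intro e he
      have h := hid e.1 e.2.1 e.2.2 (congrArg Subtype.val he)
      rcases h with h | h
      · exact Or.inl (Subtype.ext h)
      · exact Or.inr (Subtype.ext h))
    (fun t => Y.X.W t) (fun t => Y.X.gW t) hsq rho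
    (by
      intro t z x
      have h := congrArg (fun f => cW (X := Y.X) (Y := Y.X) f t) z.2.1
      have h' : cW (bar (X := Y.X) (Y := Y.X) z.1) t (Y.X.gW t x)
          = cW (X := Y.X) (Y := Y.X) z.1 t (Y.X.gW t x) := by rw [z.2.1]
      rw [cW_bar] at h'
      change Y.X.gW t (cW (X := Y.X) (Y := Y.X) z.1 t (Y.X.gW t (Y.X.gW t x))) = _ at h'
      rw [hsq] at h'
      exact h'.symm)
    hlam
  obtain ⟨a, haW, haD, hao, hap'⟩ := Dual_338.exists_path_odd' (X := Y) (Y := Y) h2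
    (fun t => (A0 t).toLinearMap) (fun t => LinearMap.ext fun x => (hA t x).symm)
    (fun z hz hz' => hA' ⟨z, hz', hz⟩)
  have hap : ∀ t x, path a t x = Y.X.gW t (A0 t x) := by
    intro t x
    have h := LinearMap.congr_fun (hap' t) x
    rw [Dual_338.path, hao] at h
    simp only [LinearMap.sub_apply, LinearMap.comp_apply, ci_neg, LinearMap.neg_apply, map_neg,
      sub_neg_eq_add] at h
    exact h
  obtain ⟨C', h3, h4⟩ := conered a haD hao haW (fun t => Y.X.W t) (fun t => Y.X.gW t) hsq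
    (fun t => LinearMap.id) (fun t => (A0 t).symm.toLinearMap ∘ₗ Y.X.gW t) (fun _ _ => rfl)
    (by
      intro t x
      change (A0 t).symm (Y.X.gW t (Y.X.gW t x)) = Y.X.gW t ((A0 t).symm (Y.X.gW t x))
      apply (A0 t).injective
      rw [hA, LinearEquiv.apply_symm_apply, LinearEquiv.apply_symm_apply])
    (by
      intro t x
      rw [LinearMap.id_apply, hap]
      change (A0 t).symm (Y.X.gW t (Y.X.gW t (A0 t x))) = x
      rw [hsq]
      exact (A0 t).symm_apply_apply x)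
  refine ⟨C', h3, fun s => ?_⟩
  have h5 := h4 s
  simp only [lam] at h5 ⊢
  omega

end redA

end Crest.Agent.R175.StepA_259
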