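import Crest.Agent.R175.GlA_445
import Crest.Agent.R175.Shift_936
import Crest.Agent.R175.Dual_338
import Crest.Agent.R175.StepA_259
import Crest.Agent.R175.GlN_445

/-!
# R175 / GLUE-PT, part B: two indecomposable objects with one frame of the same type

`red_or_iso`: two objects with trivial idempotents and a single frame at `t` are isomorphic up to a
shift, or there is `C'` with `hT X C' + lam X t ≤ hT X Z + hT X Z'` and `lam C' s = #E t s`.
-/

set_option autoImplicit false
set_option linter.unusedSectionVars false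
set_option linter.unusedVariables false

open CategoryTheory Module LinearMap

namespace Crest.Agent.R175.GlB_445

open Crest.Agent.R175.PTA Crest.Agent.R175.GlA_445 Crest.Agent.R175.Shift_936
open Crest.Agent.R175.StepA_259 (conered)

universe u v

variable {T : Type u} {G : MG T} {k : Type v} [Field k] [Fintype T] [DecidableEq T]

/-- single frame at `t` -/
def Sing (X : TOb G k) (t : T) : Prop := lam X = Pi.single t 1

theorem Sing.one {X : TOb G k} {t : T} (h : Sing X t) : finrank k (X.X.W t) = 1 := by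
  have h1 := congrFun h t
  rw [Pi.single_eq_same] at h1
  exact h1

theorem Sing.zero {X : TOb G k} {t s : T} (h : Sing X t) (hs : s ≠ t) :
    Subsingleton (X.X.W s) := by
  have h1 := congrFun h s
  rw [Pi.single_eq_of_ne hs] at h1
  exact finrank_zero_iff.1 h1

/-- isomorphic up to a shift -/
def Sim (X Y : TOb G k) : Prop := HIso X Y ∨ HIso X (sh Y)

theorem bij_of_ne {X Y : Gob G k} {t : T} (hX1 : finrank k (X.W t) = 1)
    (hX0 : ∀ s, s ≠ t → Subsingleton (X.W s)) (hY1 : finrank k (Y.W t) = 1)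
    (hY0 : ∀ s, s ≠ t → Subsingleton (Y.W s)) (f : ∀ s, X.W s →ₗ[k] Y.W s) (hf : f t ≠ 0) :
    ∀ s, Function.Bijective (f s) := by
  intro s
  by_cases hs : s = t
  · subst hs
    have hinj : Function.Injective (f s) := by
      rw [← LinearMap.ker_eq_bot, Submodule.eq_bot_iff]
      intro x hx
      by_contra hx0
      obtain ⟨v, hv0, hv⟩ := finrank_eq_one_iff'.1 hX1
      apply hf
      ext y
      obtain ⟨a, ha⟩ := hv x
      obtain ⟨b, hb⟩ := hv y
      have ha0 : a ≠ 0 := by
        rintro rfl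
        apply hx0
        rw [← ha, zero_smul]
      have hgv : f s v = 0 := by
        have h3 : f s (a • v) = 0 := by rw [ha]; exact hx
        rw [map_smul] at h3
        exact (smul_eq_zero.1 h3).resolve_left ha0
      rw [← hb, map_smul, hgv, smul_zero]
      rfl
    exact ⟨hinj, (LinearMap.injective_iff_surjective_of_finrank_eq_finrank
      (hX1.trans hY1.symm)).1 hinj⟩
  · have h1 := hX0 s hs
    have h2 := hY0 s hs
    exact ⟨fun x y _ => Subsingleton.elim _ _, fun y => ⟨0, Subsingleton.elim _ _⟩⟩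

/-- the frame parity of a single-framed object is a sign -/
theorem sign {X : TOb G k} {t : T} (hX : Sing X t) :
    (∀ x, X.X.gW t x = x) ∨ (∀ x, X.X.gW t x = -x) := by
  obtain ⟨c, hc⟩ := one_dim_smul hX.one (X.X.gW t)
  obtain ⟨v, hv0, -⟩ := finrank_eq_one_iff'.1 hX.one
  have h1 : X.X.gW t (X.X.gW t v) = v := LinearMap.congr_fun (X.X.gW_sq t) v
  rw [hc, hc, smul_smul] at h1
  have h2 : (c * c - 1) • v = 0 := by rw [sub_smul, h1, one_smul, sub_self]
  have h3 := (smul_eq_zero.1 h2).resolve_right hv0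
  have h4 : (c - 1) * (c + 1) = 0 := by linear_combination h3
  rcases mul_eq_zero.1 h4 with h5 | h5
  · left
    intro x
    rw [hc, sub_eq_zero.1 h5, one_smul]
  · right
    intro x
    rw [hc, eq_neg_of_add_eq_zero_left h5, neg_smul, one_smul]

/-- cone of an odd cocycle with non zero path, reduced -/
theorem cone_red {Z Z' : TOb G k} {t : T} (hZ : Sing Z t) (hZ' : Sing Z' t)
    (a : Z.X ⟶ Z'.X) (ha : a ∈ Cs Z.X Z'.X) (hD : D Z Z' a = 0) (ho : bar a = -a)
    (hp : Dual_338.path Z Z' a t ≠ 0) :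
    ∃ C' : TOb G k, (∀ X : TOb G k, hT X C' + lam X t ≤ hT X Z + hT X Z') ∧
      ∀ s, lam C' s = Fintype.card (G.E t s) := by
  have hpath : ∀ s, Dual_338.path Z Z' a s = StepA_259.path a s := by
    intro s
    rw [Dual_338.path, StepA_259.path, ho, ci_neg, LinearMap.comp_neg, sub_neg_eq_add]
  have hbij : ∀ s, Function.Bijective (Dual_338.path Z Z' a s) :=
    bij_of_ne hZ.one (fun s hs => hZ.zero hs) hZ'.one (fun s hs => hZ'.zero hs) _ hp
  have hcomm : ∀ s x, Dual_338.path Z Z' a s (Z.X.gW s x) =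
      Z'.X.gW s (Dual_338.path Z Z' a s x) := by
    intro s x
    have h1 := Dual_338.path_bar (X := Z) (Y := Z') a s
    rw [ho, Dual_338.path_neg] at h1
    have h2 := LinearMap.congr_fun h1 (Z.X.gW s x)
    have h3 : Z.X.gW s (Z.X.gW s x) = x := LinearMap.congr_fun (Z.X.gW_sq s) x
    simp only [LinearMap.neg_apply, LinearMap.comp_apply, h3, neg_inj] at h2
    exact h2
  obtain ⟨C', h3, h4⟩ := conered a hD ho ha (fun s => Z.X.W s) (fun s => Z.X.gW s)
    (fun s x => LinearMap.congr_fun (Z.X.gW_sq s) x) (fun s => LinearMap.id)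
    (fun s => (LinearEquiv.ofBijective _ (hbij s)).symm.toLinearMap) (fun _ _ => rfl)
    (by
      intro s x
      change (LinearEquiv.ofBijective _ (hbij s)).symm (Z'.X.gW s x) =
        Z.X.gW s ((LinearEquiv.ofBijective _ (hbij s)).symm x)
      rw [LinearEquiv.symm_apply_eq, LinearEquiv.ofBijective_apply, hcomm]
      congr 1
      exact ((LinearEquiv.ofBijective _ (hbij s)).apply_symm_apply x).symm)
    (by
      intro s x
      rw [← hpath]
      exact (LinearEquiv.ofBijective _ (hbij s)).symm_apply_apply x)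
  have hsum : ∀ f : T → ℕ, ∑ s, finrank k (Z.X.W s) * f s = f t := by
    intro f
    rw [Finset.sum_eq_single t]
    · rw [hZ.one, one_mul]
    · intro s _ hs
      have := hZ.zero hs
      rw [finrank_zero_of_subsingleton, zero_mul]
    · intro h; exact absurd (Finset.mem_univ t) h
  refine ⟨C', fun X => ?_, fun s => ?_⟩
  · have h5 := h3 X
    rw [hsum] at h5
    exact h5
  · have h5 := h4 s
    have h6 : ∑ t', Fintype.card (G.E t' s) * finrank k (Z.X.W t') = Fintype.card (G.E t s) := by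
      rw [← hsum (fun t' => Fintype.card (G.E t' s))]
      exact Finset.sum_congr rfl fun _ _ => mul_comm _ _
    rw [h6] at h5
    have h7 : lam Z s = lam Z' s := by rw [hZ, hZ']
    change lam C' s + 2 * lam Z s = _ at h5
    omega

/-- the same frame parity: either an even closed map nonzero on the frame, or a reduction -/
theorem lift_or_red (h2 : (2 : k) ≠ 0) {Z Z' : TOb G k} {t : T}
    (hZ : Sing Z t) (hZ' : Sing Z' t)
    (hg : ((∀ x, Z.X.gW t x = x) ∧ ∀ x, Z'.X.gW t x = x) ∨
      ((∀ x, Z.X.gW t x = -x) ∧ ∀ x, Z'.X.gW t x = -x)) :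
    (∃ F : Z.X ⟶ Z'.X, bar F = F ∧ D Z Z' F = 0 ∧ cW F t ≠ 0) ∨
    ∃ C' : TOb G k, (∀ X : TOb G k, hT X C' + lam X t ≤ hT X Z + hT X Z') ∧
      ∀ s, lam C' s = Fintype.card (G.E t s) := by
  classical
  by_cases hex : ∃ a ∈ Cs Z'.X Z.X, D Z' Z a = 0 ∧ bar a = -a ∧ Dual_338.path Z' Z a t ≠ 0
  · right
    obtain ⟨a, ha, hD, ho, hp⟩ := hex
    obtain ⟨C', h3, h4⟩ := cone_red hZ' hZ a ha hD ho hp
    exact ⟨C', fun X => by rw [add_comm (hT X Z)]; exact h3 X, h4⟩
  · left
    push Not at hex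
    have hdim : ∀ s, finrank k (Z.X.W s) = finrank k (Z'.X.W s) := fun s => by
      have h1 : lam Z s = lam Z' s := by rw [hZ, hZ']
      exact h1
    let ψ : ∀ s, Z.X.W s →ₗ[k] Z'.X.W s := fun s => (LinearEquiv.ofFinrankEq _ _ (hdim s)).toLinearMap
    obtain ⟨F, hD, hb, hF⟩ := Dual_338.exists_lift_even h2 ψ (by
      intro s
      by_cases hs : s = t
      · subst hs
        ext x
        rcases hg with ⟨h3, h4⟩ | ⟨h3, h4⟩
        · rw [LinearMap.comp_apply, LinearMap.comp_apply, h3, h4]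
        · rw [LinearMap.comp_apply, LinearMap.comp_apply, h3, h4, map_neg]
      · have := hZ'.zero hs
        ext x
        exact Subsingleton.elim _ _) (by
      intro a ha hDa hba
      apply Finset.sum_eq_zero
      intro s _
      by_cases hs : s = t
      · subst hs
        rw [hex a ha hDa hba]
        simp
      · have := hZ.zero hs
        have h5 : (Z.X.gW s ∘ₗ Dual_338.path Z' Z a s ∘ₗ ψ s) = 0 := by
          ext x
          exact Subsingleton.elim _ _
        rw [h5, map_zero])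
    refine ⟨F, hb, hD, ?_⟩
    rw [hF]
    intro h0
    obtain ⟨v, hv0, -⟩ := finrank_eq_one_iff'.1 hZ.one
    have h6 : (LinearEquiv.ofFinrankEq _ _ (hdim t)) v = 0 := LinearMap.congr_fun h0 v
    exact hv0 ((LinearEquiv.map_eq_zero_iff _).1 h6)

theorem red_or_iso_even (h2 : (2 : k) ≠ 0) {Z Z' : TOb G k} {t : T}
    (iZ : IdTriv Z) (iZ' : IdTriv Z') (hZ : Sing Z t) (hZ' : Sing Z' t)
    (hg : ((∀ x, Z.X.gW t x = x) ∧ ∀ x, Z'.X.gW t x = x) ∨
      ((∀ x, Z.X.gW t x = -x) ∧ ∀ x, Z'.X.gW t x = -x)) :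
    HIso Z Z' ∨
    ∃ C' : TOb G k, (∀ X : TOb G k, hT X C' + lam X t ≤ hT X Z + hT X Z') ∧
      ∀ s, lam C' s = Fintype.card (G.E t s) := by
  rcases lift_or_red h2 hZ hZ' hg with ⟨F, bF, DF, hF⟩ | h
  · rcases lift_or_red h2 hZ' hZ (hg.imp And.symm And.symm) with ⟨F', bF', DF', hF'⟩ | ⟨C', h3, h4⟩
    · left
      exact hiso_of_frames iZ iZ' hZ.one hZ'.one bF bF' DF DF' hF hF'
    · right
      exact ⟨C', fun X => by rw [add_comm (hT X Z)]; exact h3 X, h4⟩
  · exact Or.inr h

/-! ### shift -/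

theorem sing_sh {X : TOb G k} {t : T} (h : Sing X t) : Sing (sh X) t := by
  have h1 : lam (sh X) = lam X := funext fun s => lam_sh X s
  rw [Sing, h1]
  exact h

theorem idTriv_sh {X : TOb G k} (h : IdTriv X) : IdTriv (sh X) := by
  intro e he hD hee
  -- `e = shf f`
  let f : X.X ⟶ X.X := th X ≫ e ≫ th' X
  have hf : shf f = e := by
    simp only [shf, f, Category.assoc, th'_th_assoc, th'_th, Category.comp_id]
  have h1 : bar f = f := by
    simp only [f, bar_comp, bar_th, bar_th', he, Preadditive.neg_comp, Preadditive.comp_neg,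
      neg_neg]
  have h2 : D X X f = 0 := by
    apply shf_injective
    rw [shf_zero]
    have h3 := D_shf f
    rw [hf, hD] at h3
    exact neg_eq_zero.1 h3.symm
  have h3 : f ≫ f = f := by
    simp only [f, Category.assoc, th'_th_assoc]
    rw [← Category.assoc e e, hee]
  rcases h f h1 h2 h3 with h4 | h4
  · left
    rw [← hf, h4, shf_zero]
  · right
    rw [← hf, h4, shf_id]

/-- **dichotomy** for two single-framed objects of the same type -/
theorem red_or_sim (h2 : (2 : k) ≠ 0) {Z Z' : TOb G k} {t : T}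
    (iZ : IdTriv Z) (iZ' : IdTriv Z') (hZ : Sing Z t) (hZ' : Sing Z' t) :
    Sim Z Z' ∨
    ∃ C' : TOb G k, (∀ X : TOb G k, hT X C' + lam X t ≤ hT X Z + hT X Z') ∧
      ∀ s, lam C' s = Fintype.card (G.E t s) := by
  have key : ((∀ x, Z.X.gW t x = x) ∧ ∀ x, (sh Z').X.gW t x = x) ∨
      ((∀ x, Z.X.gW t x = -x) ∧ ∀ x, (sh Z').X.gW t x = -x) →
      Sim Z Z' ∨ ∃ C' : TOb G k, (∀ X : TOb G k, hT X C' + lam X t ≤ hT X Z + hT X Z') ∧
      ∀ s, lam C' s = Fintype.card (G.E t s) := by
    intro hg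
    rcases red_or_iso_even h2 iZ (idTriv_sh iZ') hZ (sing_sh hZ') hg with h | ⟨C', h3, h4⟩
    · exact Or.inl (Or.inr h)
    · exact Or.inr ⟨C', fun X => by rw [← hT_sh_right (X := X) (Y := Z')]; exact h3 X, h4⟩
  have hsh : ∀ x, (sh Z').X.gW t x = -(Z'.X.gW t x) := fun x => rfl
  rcases sign hZ with h | h <;> rcases sign hZ' with h' | h'
  · exact (red_or_iso_even h2 iZ iZ' hZ hZ' (Or.inl ⟨h, h'⟩)).imp Or.inl id
  · exact key (Or.inl ⟨h, fun x => by rw [hsh, h', neg_neg]⟩)
  · exact key (Or.inr ⟨h, fun x => by rw [hsh, h']⟩)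
  · exact (red_or_iso_even h2 iZ iZ' hZ hZ' (Or.inr ⟨h, h'⟩)).imp Or.inl id

end Crest.Agent.R175.GlB_445
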