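import Crest.Agent.R175.GlB_445

/-!
# R175 / GLUE-PT, part C: cones of non zero classes

* `nz`: `Z, Z'` single-framed, of different types or isomorphic up to a shift, `hT Z Z' ≠ 0`: there is
  `U` with `lam U = lam Z + lam Z'`, `hT X U ≤ hT X Z + hT X Z'`, and `hD Z U < hD Z Z + hD Z Z'`.
* `orthQ`: `Q` unframed, `Z` indecomposable single-framed, `hT Q Z ≠ 0`: `U` with `lam U = lam Z`,
  `hT X U ≤ hT X Q + hT X Z`, and no object similar to `Z` is a retract of `U`.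
-/

set_option autoImplicit false
set_option linter.unusedSectionVars false
set_option linter.unusedVariables false

open CategoryTheory Module LinearMap

namespace Crest.Agent.R175.GlC_445

open Crest.Agent.R175.PTA Crest.Agent.R175.GlA_445 Crest.Agent.R175.Shift_936
open Crest.Agent.R175.GlB_445 Crest.Agent.R175.Ocone_259

universe u v

variable {T : Type u} {G : MG T} {k : Type v} [Field k] [Fintype T] [DecidableEq T]

/-! ### classes -/

theorem hd_eq_hh {K : Type*} [AddCommGroup K] [Module k K] (D : K →ₗ[k] K) :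
    hd D = LES_445.hh D := rfl

/-- a nonzero class of `H_T` has a homogeneous representative which is not a coboundary of `Cs` -/
theorem exists_class (h2 : (2 : k) ≠ 0) {X Y : TOb G k} (h : hT X Y ≠ 0) :
    ∃ b : X.X ⟶ Y.X, b ∈ Cs X.X Y.X ∧ D X Y b = 0 ∧ (bar b = b ∨ bar b = -b) ∧
      ∀ y ∈ Cs X.X Y.X, D X Y y ≠ b := by
  by_contra hno
  push Not at hno
  apply h
  change LES_445.hh (DC X Y) = 0
  rw [LES_445.hh_eq_zero DC_DC]
  intro x hx
  have hx' : D X Y x.1 = 0 := congrArg Subtype.val hx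
  obtain ⟨a, b, hab, ba, bb, Da, Db⟩ := D_parts h2 x.1 hx'
  have hCa : a ∈ Cs X.X Y.X := by
    intro t
    have h1 : cW x.1 t = 0 := x.2 t
    rw [hab, cW_add] at h1
    have h3 : cW (bar x.1) t = 0 := by rw [cW_bar, x.2 t]; simp
    rw [hab, bar_add, ba, bb, cW_add, cW_neg] at h3
    have h4 : (2 : k) • cW a t = 0 := by
      rw [two_smul]
      calc cW a t + cW a t = (cW a t + cW b t) + (cW a t + -cW b t) := by abel
        _ = 0 := by rw [h1, h3, add_zero]
    exact (smul_eq_zero.1 h4).resolve_left h2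
  have hCb : b ∈ Cs X.X Y.X := by
    have h1 : b = x.1 - a := by rw [hab]; abel
    rw [h1]
    exact Submodule.sub_mem _ x.2 hCa
  obtain ⟨y, hy, hy'⟩ := hno a hCa Da (Or.inl ba)
  obtain ⟨z, hz, hz'⟩ := hno b hCb Db (Or.inr bb)
  refine ⟨⟨y + z, Submodule.add_mem _ hy hz⟩, Subtype.ext ?_⟩
  change D X Y (y + z) = x.1
  rw [map_add, hy', hz', hab]

/-- the same with an odd representative, after a shift of the target if necessary -/
theorem exists_odd (h2 : (2 : k) ≠ 0) {X Y : TOb G k} (h : hT X Y ≠ 0) :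
    ∃ Y' : TOb G k, (Y' = Y ∨ Y' = sh Y) ∧ ∃ b : X.X ⟶ Y'.X, b ∈ Cs X.X Y'.X ∧
      D X Y' b = 0 ∧ bar b = -b ∧ ∀ y ∈ Cs X.X Y'.X, D X Y' y ≠ b := by
  obtain ⟨b, hC, hD, hb | hb, hno⟩ := exists_class h2 h
  · refine ⟨sh Y, Or.inr rfl, b ≫ th Y, Cs_comp_right hC _, ?_, ?_, ?_⟩
    · rw [D_comp_th, hD, Limits.zero_comp, neg_zero]
    · rw [bar_comp, bar_th, hb, Preadditive.comp_neg]
    · intro y hy hy'
      refine hno (-(y ≫ th' Y)) (Submodule.neg_mem _ (Cs_comp_right hy _)) ?_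
      rw [map_neg, D_comp_th', hy', neg_neg, Category.assoc, th_th', Category.comp_id]
  · exact ⟨Y, Or.inl rfl, b, hC, hD, hb, hno⟩

/-! ### the cone -/

section cone

variable {Z Z' : TOb G k} (b : Z.X ⟶ Z'.X) (hb0 : D Z Z' b = 0) (ho : bar b = -b)
  (hW : ∀ t, cW b t = 0)

theorem D_il : D Z (ocone b hb0 ho hW) (il Z.X Z'.X) = b ≫ ir Z.X Z'.X := by
  rw [D_apply, bar_il]
  simp only [Preadditive.comp_add, il_pl_assoc, il_pr_assoc, add_zero]
  abel

theorem D_ir : D Z' (ocone b hb0 ho hW) (ir Z.X Z'.X) = 0 := by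
  rw [D_apply, bar_ir, ir_d, sub_self]

/-- strict subadditivity of `hD Z` on the cone of a class which is nonzero in `H_D` -/
theorem hD_ocone_lt (hno : ∀ y : Z.X ⟶ Z'.X, D Z Z' y ≠ b) :
    hD Z (ocone b hb0 ho hW) < hD Z Z + hD Z Z' := by
  have key := LES_445.hh_lt (k := k) (D := D Z (ocone b hb0 ho hW)) (D1 := D Z Z')
    (D2 := D Z Z)
    (i := { toFun := fun f => f ≫ ir Z.X Z'.X
            map_add' := fun f g => by simp
            map_smul' := fun c f => by simp })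
    (p := { toFun := fun f => f ≫ pl Z.X Z'.X
            map_add' := fun f g => by simp
            map_smul' := fun c f => by simp })
    ?_ ?_ ?_ ?_ D_D D_D D_D ?_ ?_ (v := il Z.X Z'.X) (a := b) ?_ hno
  · change LES_445.hh (D Z (ocone b hb0 ho hW)) < LES_445.hh (D Z Z) + LES_445.hh (D Z Z')
    omega
  · intro f g h
    have h1 : f ≫ ir Z.X Z'.X = g ≫ ir Z.X Z'.X := h
    have h2 := congrArg (fun z => z ≫ pr Z.X Z'.X) h1
    simpa only [Category.assoc, ir_pr, Category.comp_id] using h2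
  · intro f
    refine ⟨f ≫ il Z.X Z'.X, ?_⟩
    change (f ≫ il Z.X Z'.X) ≫ pl Z.X Z'.X = f
    simp
  · intro f
    change (f ≫ ir Z.X Z'.X) ≫ pl Z.X Z'.X = 0
    simp
  · let e : (Z.X ⟶ gsum Z.X Z'.X) ≃ₗ[k] (Z.X ⟶ Z'.X) × (Z.X ⟶ Z.X) :=
      { toFun := fun f => (f ≫ pr Z.X Z'.X, f ≫ pl Z.X Z'.X)
        map_add' := fun f g => by ext1 <;> simp
        map_smul' := fun c f => by ext1 <;> simp
        invFun := fun p => p.1 ≫ ir Z.X Z'.X + p.2 ≫ il Z.X Z'.X
        left_inv := fun f => by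
          simp only [Category.assoc]
          rw [← Preadditive.comp_add, add_comm, tot_id, Category.comp_id]
        right_inv := fun p => by
          ext1 <;> simp }
    rw [← Module.finrank_prod]
    exact e.finrank_eq
  · intro f
    change D Z (ocone b hb0 ho hW) (f ≫ ir Z.X Z'.X) = (D Z Z' f) ≫ ir Z.X Z'.X
    rw [D_apply, D_apply, bar_comp, bar_ir, Category.assoc, ir_d, Preadditive.sub_comp]
    simp
  · intro f
    change (D Z (ocone b hb0 ho hW) f) ≫ pl Z.X Z'.X = D Z Z (f ≫ pl Z.X Z'.X)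
    rw [D_apply, D_apply, Preadditive.sub_comp, Category.assoc, d_pl, bar_comp, bar_pl]
    simp
  · exact D_il b hb0 ho hW

end cone

/-! ### objects similar to a single-framed one -/

/-- a similarity gives a closed map, homogeneous, nonzero on the frame -/
theorem Sim.map {Z Z' : TOb G k} {t : T} (hZ : Sing Z t) (h : Sim Z Z') :
    ∃ p : Z.X ⟶ Z'.X, D Z Z' p = 0 ∧ (bar p = p ∨ bar p = -p) ∧ cW p t ≠ 0 := by
  have key : ∀ {Y : TOb G k} (e : HEquiv Z Y), cW e.p t ≠ 0 := by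
    intro Y e h0
    obtain ⟨v, hv0, -⟩ := finrank_eq_one_iff'.1 hZ.one
    have h1 := LinearMap.congr_fun (e.cW_pq t) v
    rw [h0, LinearMap.comp_zero] at h1
    exact hv0 h1.symm
  rcases h with ⟨⟨e⟩⟩ | ⟨⟨e⟩⟩
  · exact ⟨e.p, e.Dp, Or.inl e.bp, key e⟩
  · refine ⟨e.p ≫ th' Z', ?_, Or.inr ?_, ?_⟩
    · rw [D_comp_th', e.Dp, Limits.zero_comp, neg_zero]
    · rw [bar_comp, e.bp, bar_th', Preadditive.comp_neg]
    · rw [cW_comp, cW_th', LinearMap.id_comp]
      exact key e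

/-- `H_T → H_D` is injective for single-framed objects of different types or similar ones -/
theorem not_cobound {Z Z' : TOb G k} {t t' : T} (hZ : Sing Z t) (hZ' : Sing Z' t')
    (hsim : t = t' → Sim Z Z') {b : Z.X ⟶ Z'.X}
    (hno : ∀ y ∈ Cs Z.X Z'.X, D Z Z' y ≠ b) (y : Z.X ⟶ Z'.X) : D Z Z' y ≠ b := by
  intro hy
  by_cases htt : t = t'
  · subst htt
    obtain ⟨p, Dp, -, hp⟩ := Sim.map hZ (hsim rfl)
    have hdim1 := hZ.one
    -- `cW y t = c • cW p t`
    obtain ⟨c, hc⟩ : ∃ c : k, ∀ x, cW y t x = c • cW p t x := by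
      have hb := bij_of_ne hZ.one (fun s hs => hZ.zero hs) hZ'.one (fun s hs => hZ'.zero hs)
        (fun s => cW p s) hp t
      let e := LinearEquiv.ofBijective (cW p t) hb
      obtain ⟨c, hc⟩ := one_dim_smul hZ.one (e.symm.toLinearMap ∘ₗ cW y t)
      refine ⟨c, fun x => ?_⟩
      have h1 : e.symm (cW y t x) = c • x := hc x
      have h2 : cW y t x = e (c • x) := by rw [← h1, LinearEquiv.apply_symm_apply]
      rw [h2, map_smul]
      rfl
    refine hno (y - c • p) ?_ ?_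
    · intro s
      by_cases hs : s = t
      · subst hs
        ext x
        rw [cW_sub, cW_smul, LinearMap.sub_apply, LinearMap.smul_apply, hc, sub_self]
        rfl
      · have := hZ'.zero hs
        ext x
        exact Subsingleton.elim _ _
    · rw [map_sub, map_smul, Dp, smul_zero, sub_zero, hy]
  · refine hno y ?_ hy
    intro s
    by_cases hs : s = t
    · subst hs
      have := hZ'.zero htt
      ext x
      exact Subsingleton.elim _ _
    · have := hZ.zero hs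
      ext x
      have h1 : x = 0 := Subsingleton.elim _ _
      rw [h1, map_zero, map_zero]

theorem sim_sh {X Y : TOb G k} (h : Sim X Y) : Sim X (sh Y) := by
  rcases h with h | h
  · exact Or.inr (h.trans (HIso_sh_sh Y).symm)
  · exact Or.inl h

/-- **field `nz`** -/
theorem nz (h2 : (2 : k) ≠ 0) {Z Z' : TOb G k} {t t' : T} (hZ : Sing Z t) (hZ' : Sing Z' t')
    (hsim : t = t' → Sim Z Z') (h : hT Z Z' ≠ 0) :
    ∃ U : TOb G k, (∀ s, lam U s = lam Z s + lam Z' s) ∧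
      (∀ X, hT X U ≤ hT X Z + hT X Z') ∧ hD Z U < hD Z Z + hD Z Z' := by
  obtain ⟨Y', hY', b, hC, hD', ho, hno⟩ := exists_odd h2 h
  rcases hY' with rfl | rfl
  · refine ⟨ocone b hD' ho hC, fun s => lam_ocone b hD' ho hC s, fun X => hT_ocone_le b hD' ho hC X,
      hD_ocone_lt b hD' ho hC (not_cobound hZ hZ' hsim hno)⟩
  · refine ⟨ocone b hD' ho hC, fun s => ?_, fun X => ?_, ?_⟩
    · rw [lam_ocone b hD' ho hC, lam_sh]
    · rw [← hT_sh_right (X := X) (Y := Z')]
      exact hT_ocone_le b hD' ho hC X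
    · rw [← hD_sh_right (X := Z) (Y := Z')]
      exact hD_ocone_lt b hD' ho hC
        (not_cobound hZ (sing_sh hZ') (fun htt => sim_sh (hsim htt)) hno)

/-! ### unframed objects -/

/-- retract up to homotopy -/
def Retr (Y U : TOb G k) : Prop :=
  ∃ (i : Y.X ⟶ U.X) (p : U.X ⟶ Y.X) (s : Y.X ⟶ Y.X), bar i = i ∧ bar p = p ∧ D Y U i = 0 ∧
    D U Y p = 0 ∧ i ≫ p = 𝟙 Y.X + D Y Y s

theorem no_retract_aux (h2 : (2 : k) ≠ 0) {Q Z U : TOb G k} {t : T} (hQ : ∀ s, lam Q s = 0)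
    (iZ : IdTriv Z) (hZ : Sing Z t) (hU : lam U t = 1) (b : Q.X ⟶ Z.X)
    (hno : ∀ y ∈ Cs Q.X Z.X, D Q Z y ≠ b) (j : Q.X ⟶ U.X) (ι : Z.X ⟶ U.X) (bι : bar ι = ι)
    (Dι : D Z U ι = 0) (Dj : D Q U j = b ≫ ι) (hιi : Function.Injective (cW ι t)) {Y : TOb G k}
    (hY : Retr Y U) (hs : Sim Y Z) : False := by
  obtain ⟨i, p, s, bi, bp, Di, Dp, hip⟩ := hY
  have hQ0 : ∀ s, Subsingleton (Q.X.W s) := fun s => finrank_zero_iff.1 (hQ s)
  -- `Y` is single-framed
  have hlamY : lam Y = lam Z := by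
    rcases hs with h | h
    · exact funext h.lam_eq
    · exact funext fun s => (h.lam_eq s).trans (lam_sh Z s)
  have hYs : Sing Y t := by rw [Sing, hlamY]; exact hZ
  obtain ⟨φ, Dφ, hφ, hφW⟩ := Sim.map hYs hs
  have hU1 : finrank k (U.X.W t) = 1 := hU
  have hps : Function.Surjective (cW p t) := by
    intro x
    refine ⟨cW i t x, ?_⟩
    have h1 : cW (i ≫ p) t = LinearMap.id := by rw [hip, cW_add, cW_D, add_zero, cW_id]
    exact LinearMap.congr_fun h1 x
  have hpi : Function.Injective (cW p t) :=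
    (LinearMap.injective_iff_surjective_of_finrank_eq_finrank (hU1.trans hYs.one.symm)).2 hps
  have hφb := bij_of_ne hYs.one (fun s hs => hYs.zero hs) hZ.one (fun s hs => hZ.zero hs)
    (fun s => cW φ s) hφW t
  have hc : cW (ι ≫ p ≫ φ) t ≠ 0 := by
    intro h0
    obtain ⟨v, hv0, -⟩ := finrank_eq_one_iff'.1 hZ.one
    have h1 : cW φ t (cW p t (cW ι t v)) = 0 := LinearMap.congr_fun h0 v
    have h3 : cW p t (cW ι t v) = 0 := hφb.1 (by rw [h1, map_zero])
    have h4 : cW ι t v = 0 := hpi (by rw [h3, map_zero])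
    exact hv0 (hιi (by rw [h4, map_zero]))
  have Dpφ : D U Z (p ≫ φ) = 0 := by
    rw [D_comp_left Dp, Dφ, Limits.comp_zero]
  have Dc : D Z Z (ι ≫ p ≫ φ) = 0 := by
    rw [D_comp_left Dι, Dpφ, Limits.comp_zero]
  have hφe : bar φ = φ := by
    rcases hφ with h | h
    · exact h
    · exfalso
      have hbc : bar (ι ≫ p ≫ φ) = (-1 : k) • (ι ≫ p ≫ φ) := by
        rw [bar_comp, bar_comp, bι, bp, h, Preadditive.comp_neg, Preadditive.comp_neg,
          neg_one_smul]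
      have h1 := sign_one hZ.one hbc hc
      apply h2
      linear_combination -h1
  have bc : bar (ι ≫ p ≫ φ) = ι ≫ p ≫ φ := by
    rw [bar_comp, bar_comp, bι, bp, hφe]
  obtain ⟨c', bc', Dc', hcc', -⟩ := frame_unit iZ hZ.one bc Dc hc
  -- `b = D (j ≫ p ≫ φ ≫ c')`
  have Dr : D U Z (p ≫ φ ≫ c') = 0 := by
    rw [D_comp_left Dp, D_comp_left Dφ, Dc', Limits.comp_zero, Limits.comp_zero]
  have br : bar (p ≫ φ ≫ c') = p ≫ φ ≫ c' := by
    rw [bar_comp, bar_comp, bp, hφe, bc']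
  refine hno (j ≫ p ≫ φ ≫ c') ?_ ?_
  · intro s
    have := hQ0 s
    ext x
    have h1 : x = 0 := Subsingleton.elim _ _
    rw [h1, map_zero, map_zero]
  · rw [D_comp_right _ Dr br, Dj, Category.assoc]
    have h4 : ι ≫ p ≫ φ ≫ c' = 𝟙 Z.X := by
      rw [← hcc']
      simp only [Category.assoc]
    rw [h4, Category.comp_id]

theorem no_retract (h2 : (2 : k) ≠ 0) {Q Z : TOb G k} {t : T} (hQ : ∀ s, lam Q s = 0)
    (iZ : IdTriv Z) (hZ : Sing Z t) (b : Q.X ⟶ Z.X) (hb0 : D Q Z b = 0) (ho : bar b = -b)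
    (hW : ∀ t, cW b t = 0) (hno : ∀ y ∈ Cs Q.X Z.X, D Q Z y ≠ b) {Y : TOb G k}
    (hY : Retr Y (ocone b hb0 ho hW)) (hs : Sim Y Z) : False := by
  refine no_retract_aux h2 hQ iZ hZ ?_ b hno (il Q.X Z.X) (ir Q.X Z.X) (bar_ir Q.X Z.X)
    (D_ir b hb0 ho hW) (D_il b hb0 ho hW) ?_ hY hs
  · have h1 := lam_ocone b hb0 ho hW t
    have h3 : lam Z t = 1 := hZ.one
    rw [hQ t, h3] at h1
    exact h1
  · intro x y hxy
    have h1 : ((0 : Q.X.W t), x) = (0, y) := hxy
    exact (Prod.ext_iff.1 h1).2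

/-- **field `orthQ`** -/
theorem orthQ (h2 : (2 : k) ≠ 0) {Q Z : TOb G k} {t : T} (hQ : ∀ s, lam Q s = 0)
    (iZ : IdTriv Z) (hZ : Sing Z t) (h : hT Q Z ≠ 0) :
    ∃ U : TOb G k, (∀ s, lam U s = lam Z s) ∧ (∀ X, hT X U ≤ hT X Q + hT X Z) ∧
      ∀ Y, Retr Y U → ¬ Sim Y Z := by
  obtain ⟨Y', hY', b, hC, hD', ho, hno⟩ := exists_odd h2 h
  rcases hY' with rfl | rfl
  · refine ⟨ocone b hD' ho hC, fun s => ?_, fun X => hT_ocone_le b hD' ho hC X,
      fun Y hY hs => no_retract h2 hQ iZ hZ b hD' ho hC hno hY hs⟩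
    rw [lam_ocone b hD' ho hC, hQ, zero_add]
  · refine ⟨ocone b hD' ho hC, fun s => ?_, fun X => ?_, fun Y hY hs =>
      no_retract h2 hQ (idTriv_sh iZ) (sing_sh hZ) b hD' ho hC hno hY (sim_sh hs)⟩
    · rw [lam_ocone b hD' ho hC, lam_sh, hQ, zero_add]
    · rw [← hT_sh_right (X := X) (Y := Z)]
      exact hT_ocone_le b hD' ho hC X

end Crest.Agent.R175.GlC_445
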