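import Crest.Agent.R175.UG_27
import Crest.Agent.R175.FmC_180
import Crest.Agent.R175.Lev_788

/-!
Row 175 (S0263), block (D) = `Lev.PT` (helper505): numeric facts about the unfolded graph
`UG M Λ` for the instance of `PTMinF` (MinF_445, GlN_445).
-/

set_option autoImplicit false
set_option linter.unusedSectionVars false

namespace Crest.Agent.R175.GlU_505

open Crest.Agent.R175.Unf_109 Crest.Agent.R175.UG_27 Crest.Agent.R175.Pos_418
open Crest.Agent.R175.Lev_788 Crest.Agent.R175.FmC_180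

variable {S : Type} [Fintype S] {M : CoxeterMatrix S} {Λ : Finset ℕ}

/-- `2 x_a - Σ_b #E(a,b) x_b = (Cu x)_a` -/
theorem mv_card (x : S × J Λ → ℝ) (a : S × J Λ) :
    2 * x a - ∑ b, (Fintype.card ((UG M Λ).E a b) : ℝ) * x b = mv (Cu M Λ) x a := by
  classical
  unfold mv
  have h1 : ∀ b, Cu M Λ a b * x b
      = (if b = a then 2 * x a else 0) - (Fintype.card ((UG M Λ).E a b) : ℝ) * x b := by
    intro b
    by_cases h : a.1 = b.1
    · have h0 : Fintype.card ((UG M Λ).E a b) = 0 :=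
        @Fintype.card_eq_zero _ _ (isEmpty_fibre h)
      rw [h0]
      unfold Cu
      rw [if_pos h]
      by_cases h2 : a.2 = b.2
      · have : b = a := Prod.ext h.symm h2.symm
        subst this
        simp
      · have : b ≠ a := fun h' => h2 (by rw [h'])
        simp [h2, this]
    · have : b ≠ a := fun h' => h (by rw [h'])
      rw [if_neg this, card_UG_real]
      unfold Cu
      rw [if_neg h]
      ring
  rw [Finset.sum_congr rfl fun b _ => h1 b, Finset.sum_sub_distrib]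
  simp

/-- the same with the other order of the edges -/
theorem mv_card' (x : S × J Λ → ℝ) (a : S × J Λ) :
    2 * x a - ∑ b, (Fintype.card ((UG M Λ).E b a) : ℝ) * x b = mv (Cu M Λ) x a := by
  rw [← mv_card]
  congr 1
  refine Finset.sum_congr rfl fun b _ => ?_
  rw [card_UG_real, card_UG_real, M.symmetric b.1 a.1, mu_comm]

/-- `h ⊗ wt` -/
theorem mv_hwt (hΛ : Good M Λ) (h : S → ℝ) (a : S × J Λ) :
    2 * (h a.1 * wt Λ a.2) - ∑ b, (Fintype.card ((UG M Λ).E a b) : ℝ) * (h b.1 * wt Λ b.2)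
      = mv (Cr M) h a.1 * wt Λ a.2 := by
  rw [mv_card (x := fun a => h a.1 * wt Λ a.2)]
  exact mv_wt hΛ h a.1 a.2

/-- the weights `gam` and `om` -/
theorem exists_gam (hM : PDm (Cr M)) : ∃ c : S → ℝ, (∀ s, 0 < c s) ∧ ∀ s, mv (Cr M) c s = 1 := by
  refine exists_pos_mv_eq_one hM (fun s t hst => ?_)
  exact Num_774.C_nonpos M hst

/-- the frame inequality at all vertices of the unfolded graph from the one at the base points -/
theorem frame_ineq (hΛ : Good M Λ) (L : J Λ → S × J Λ → ℕ)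
    (hL : ∀ s j, ∑ i, wt Λ i * (L i (s, j) : ℝ)
      = wt Λ j * ∑ i, wt Λ i * (L i (s, jz hΛ.four) : ℝ))
    (h : S → ℝ)
    (hh : ∀ s, mv (Cr M) h s ≤ ∑ i, wt Λ i * (L i (s, jz hΛ.four) : ℝ)) (a : S × J Λ) :
    2 * (h a.1 * wt Λ a.2) - ∑ b, (Fintype.card ((UG M Λ).E a b) : ℝ) * (h b.1 * wt Λ b.2)
      ≤ ∑ i, wt Λ i * (L i a : ℝ) := by
  rw [mv_hwt hΛ, show a = (a.1, a.2) from rfl, hL]
  have := mul_le_mul_of_nonneg_right (hh a.1) (wt_pos Λ a.2).le
  linarith

/-- `PFs` of `Lev_788` from `eig` -/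
theorem pfs (h4 : ∀ m ∈ Λ, 4 ≤ m) : PFs Λ h4 := by
  classical
  intro v hv i
  refine eig h4 v (fun m hm i => ?_) i
  rw [← hv m hm i]
  unfold nsum nbs
  rw [Finset.sum_filter]

end Crest.Agent.R175.GlU_505
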