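import Crest.Agent.R175.PTH2_175

/-!
Row 175 (S0263): (K) for rigid T-framed objects (helper175): a lowest eigenvector killed by all
`B, j` and a highest eigenfunctional killing all `B, i` at the same vertex cannot coexist.
-/

set_option autoImplicit false
set_option linter.unusedSectionVars false
set_option linter.unusedSimpArgs false

open CategoryTheory Crest.Agent.R175.PTA Crest.Agent.R175.PTH Crest.Agent.R175.PTH2

namespace Crest.Agent.R175.PTK

universe u v

/-! ### linear algebra -/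

section lin
variable {k : Type*} [Field k] {V M : Type*} [AddCommGroup V] [Module k V] [AddCommGroup M]
  [Module k M]

theorem exists_factor (f : V →ₗ[k] M) (φ : V →ₗ[k] k) (h : ∀ x, f x = 0 → φ x = 0) :
    ∃ θ : M →ₗ[k] k, ∀ x, θ (f x) = φ x := by
  have h1 : φ ∈ (LinearMap.ker f).dualAnnihilator := by
    rw [Submodule.mem_dualAnnihilator]
    intro x hx
    exact h x hx
  rw [← LinearMap.range_dualMap_eq_dualAnnihilator_ker] at h1
  obtain ⟨θ, hθ⟩ := h1
  exact ⟨θ, fun x => LinearMap.congr_fun hθ x⟩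

/-- an injective operator preserving `N` maps `N` onto `N`. -/
theorem exists_pre_mem [FiniteDimensional k V] (S : V →ₗ[k] V) (hS : ∀ x, S x = 0 → x = 0)
    (N : Submodule k V) (hN : ∀ x ∈ N, S x ∈ N) {y : V} (hy : y ∈ N) : ∃ x ∈ N, S x = y := by
  let S' : N →ₗ[k] N := S.restrict hN
  have hinj : Function.Injective S' := by
    rw [injective_iff_map_eq_zero]
    intro x hx
    exact Subtype.ext (hS x.1 (congrArg Subtype.val hx))
  obtain ⟨x, hx⟩ := (LinearMap.injective_iff_surjective.1 hinj) ⟨y, hy⟩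
  exact ⟨x.1, x.2, congrArg Subtype.val hx⟩

theorem mem_of_map_mem [FiniteDimensional k V] (S : V →ₗ[k] V) (hS : ∀ x, S x = 0 → x = 0)
    (N : Submodule k V) (hN : ∀ x ∈ N, S x ∈ N) {y : V} (hy : S y ∈ N) : y ∈ N := by
  obtain ⟨x, hx, h⟩ := exists_pre_mem S hS N hN hy
  have : y - x = 0 := hS _ (by rw [map_sub, h, sub_self])
  rw [sub_eq_zero.1 this]
  exact hx

end lin

variable {T : Type u} {k : Type v} [Field k] [Fintype T] {G : MG T}

/-- functionals on families indexed by the arrows leaving `s` -/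
theorem exists_pi (s : T) (N : T → Type*) [∀ u, AddCommGroup (N u)] [∀ u, Module k (N u)]
    (θ : (∀ u, G.E s u → N u) →ₗ[k] k) :
    ∃ g : ∀ u, G.E s u → (N u →ₗ[k] k), ∀ m, θ m = ∑ u, ∑ a : G.E s u, g u a (m u a) := by
  classical
  refine ⟨fun u a => θ ∘ₗ (LinearMap.single k (fun u => G.E s u → N u) u) ∘ₗ
    (LinearMap.single k (fun _ : G.E s u => N u) a), fun m => ?_⟩
  have h1 : m = ∑ u, ∑ a : G.E s u, (LinearMap.single k (fun u => G.E s u → N u) u)
      (LinearMap.single k (fun _ : G.E s u => N u) a (m u a)) := by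
    have h2 : ∀ u, ∑ a : G.E s u, LinearMap.single k (fun _ : G.E s u => N u) a (m u a) = m u := by
      intro u
      exact Finset.univ_sum_single (m u)
    simp only [← map_sum, h2]
    exact (Finset.univ_sum_single m).symm
  conv_lhs => rw [h1]
  simp only [map_sum, LinearMap.comp_apply]

/-- a functional on homology extends to cochains -/
theorem exists_ext (X : TOb G k) (s : T) (η : Hv X s →ₗ[k] k) :
    ∃ η0 : X.X.V s →ₗ[k] k, ∀ x hx, η0 x = η (mk X s x hx) := by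
  obtain ⟨g, hg⟩ := LinearMap.exists_extend (η ∘ₗ mkL X s)
  refine ⟨g, fun x hx => ?_⟩
  have := LinearMap.congr_fun hg ⟨x, hx⟩
  exact this

/-! ### the source `Q` -/

/-- `k` at every vertex, `d = 0` -/
abbrev Q (G : MG T) (k : Type v) [Field k] : TOb G k where
  X :=
    { V := fun _ => k
      W := fun _ => PUnit
      gV := fun _ => LinearMap.id
      gW := fun _ => LinearMap.id
      gV_sq := fun _ => rfl
      gW_sq := fun _ => rfl }
  d := 0
  dW := fun _ => rfl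
  dd := by simp
  dg := by simp

/-! ### the eigenvector gives a map `Q → X` -/

section existF
variable {X : TOb G k} {p : X.X ⟶ X.X} (hp : Eul X p) {s : T}
include hp

theorem Hp_mem_U {ξ : Hv X s} (h : ξ ∈ U X s) : Hp hp s ξ ∈ U X s := by
  have h1 : U X s ≤ (U X s).comap (Hp hp s) := by
    refine sup_le (iSup_le fun u => iSup_le fun a => ?_) ?_
    · rintro _ ⟨ξ, rfl⟩
      rw [Submodule.mem_comap, Hp_HB]
      exact HB_mem_U _ _
    · rintro _ ⟨w, rfl⟩
      rw [Submodule.mem_comap, Hp_Hi]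
      exact Submodule.zero_mem _
  exact h1 h

/-- existence of lifts -/
theorem exists_lift {x : X.X.V s} (hx : c0 X.d s x = 0)
    (hB : ∀ u (a : G.E s u), HB X a (mk X s x hx) = 0) (hj : Hj X s (mk X s x hx) = 0) :
    ∃ F, IsLift X s x F := by
  have h1 : ∀ u (a : G.E s u), ∃ y, c0 X.d u y = -c1 X.d a x := by
    intro u a
    have h2 := hB u a
    rw [HB_mk, mk_eq_zero] at h2
    obtain ⟨y, hy⟩ := h2
    exact ⟨-y, by rw [map_neg, hy]⟩
  choose F hF using h1
  exact ⟨F, hx, hj, hF⟩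

theorem R_mem_U {x : X.X.V s} {F : ∀ u, G.E s u → X.X.V u} (h : IsLift X s x F) {μ : k}
    (hμ : ∀ ξ : Hv X s, Hp hp s ξ = (μ - 1) • ξ → ξ = 0)
    (hA : Hp hp s (mk X s x h.h0) = μ • mk X s x h.h0) : R h ∈ U X s := by
  refine mem_of_map_mem (Hp hp s - (μ - 1) • LinearMap.id) (fun ξ hξ => hμ ξ ?_) (U X s)
    (fun ξ hξ => ?_) ?_
  · rw [← sub_eq_zero]
    exact hξ
  · exact Submodule.sub_mem _ (Hp_mem_U hp hξ) (Submodule.smul_mem _ _ hξ)
  · rw [Hp_mk, mk_smul, mk_eq_iff] at hA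
    obtain ⟨w, hw⟩ := hA
    have h1 := R_sub_mem (h.pLift hp) (h.smul μ) w hw
    have h2 : (Hp hp s - (μ - 1) • LinearMap.id : Hv X s →ₗ[k] Hv X s) (R h) =
        (R (h.pLift hp) - R (h.smul μ)) + Hi X s (cj p s x) := by
      rw [LinearMap.sub_apply, LinearMap.smul_apply, LinearMap.id_apply, Hp_R hp h, R_smul h, sub_smul,
        one_smul]
      abel
    rw [h2]
    exact Submodule.add_mem _ h1 (Hi_mem_U _)

theorem existF {μ : k}
    (hμ : ∀ ξ : Hv X s, Hp hp s ξ = (μ - 1) • ξ → ξ = 0) {x : X.X.V s} (hx : c0 X.d s x = 0)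
    (hA : Hp hp s (mk X s x hx) = μ • mk X s x hx)
    (hB : ∀ u (a : G.E s u), HB X a (mk X s x hx) = 0) (hj : Hj X s (mk X s x hx) = 0) :
    ∃ f : (Q G k).X ⟶ X.X, D (Q G k) X f = 0 ∧ ∀ c : k, c0 f s c = c • x := by
  classical
  obtain ⟨F, hF⟩ := exists_lift hp hx hB hj
  obtain ⟨m, hm, w, hy, hR⟩ := exists_of_mem_U (R_mem_U hp hF hμ hA)
  rw [R, mk_eq_iff] at hR
  obtain ⟨z, hz⟩ := hR
  let f : (Q G k).X ⟶ X.X := mkH (Pi.single s (LinearMap.toSpanSingleton k _ x)) (fun _ => 0)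
    (Pi.single s (fun t a => LinearMap.toSpanSingleton k _ (F t a - m t a))) (fun _ => 0)
    (Pi.single s (LinearMap.toSpanSingleton k _ (-w)))
    (Pi.single s (LinearMap.toSpanSingleton k _ (-z)))
  have f0s : c0 f s = LinearMap.toSpanSingleton k _ x :=
    Pi.single_eq_same (M := fun t => k →ₗ[k] X.X.V t) s _
  have f0 : ∀ t, t ≠ s → c0 f t = 0 := fun t ht => Pi.single_eq_of_ne ht _
  have f1s : ∀ t (a : G.E s t), c1 f a = LinearMap.toSpanSingleton k _ (F t a - m t a) := by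
    intro t a
    exact congrFun (congrFun (Pi.single_eq_same (M := fun s => ∀ t, G.E s t → (k →ₗ[k] X.X.V t)) s
      (fun t a => LinearMap.toSpanSingleton k _ (F t a - m t a))) t) a
  have f1 : ∀ s' t (a : G.E s' t), s' ≠ s → c1 f a = 0 := by
    intro s' t a hs
    exact congrFun (congrFun (Pi.single_eq_of_ne (M := fun s => ∀ t, G.E s t → (k →ₗ[k] X.X.V t))
      hs (fun t a => LinearMap.toSpanSingleton k _ (F t a - m t a))) t) a
  have fjs : cj f s = LinearMap.toSpanSingleton k _ (-w) :=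
    Pi.single_eq_same (M := fun t => k →ₗ[k] X.X.W t) s _
  have fj : ∀ t, t ≠ s → cj f t = 0 := fun t ht => Pi.single_eq_of_ne ht _
  have f2s : c2 f s = LinearMap.toSpanSingleton k _ (-z) :=
    Pi.single_eq_same (M := fun t => k →ₗ[k] X.X.V t) s _
  have f2 : ∀ t, t ≠ s → c2 f t = 0 := fun t ht => Pi.single_eq_of_ne ht _
  refine ⟨f, ?_, fun c => ?_⟩
  · have h0 : D (Q G k) X f = f ≫ X.d := by
      rw [D_apply, Limits.zero_comp, sub_zero]
    rw [h0]
    apply hm_ext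
    · intro t
      rw [c0_comp]
      by_cases ht : t = s
      · subst ht
        rw [f0s]
        apply LinearMap.ext_ring
        simp [hx]
      · rw [f0 t ht]; simp
    · intro t
      rw [cW_comp]
      have : cW f t = 0 := rfl
      rw [this]; simp
    · intro s' t a
      rw [c1_comp]
      by_cases hs : s' = s
      · subst hs
        rw [f0s, f1s]
        apply LinearMap.ext_ring
        simp [hF.h1, hm]
      · rw [f0 _ hs, f1 _ _ _ hs]; simp
    · intro t
      rw [ci_comp]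
      have : cW f t = 0 := rfl
      have h2 : ci f t = 0 := rfl
      rw [this, h2]; simp
    · intro t
      rw [cj_comp]
      by_cases ht : t = s
      · subst ht
        rw [f0s, fjs]
        apply LinearMap.ext_ring
        have h3 : cj X.d t x = 0 := hj
        simp [h3]
      · rw [f0 t ht, fj t ht]; simp
    · intro t
      rw [c2_comp]
      by_cases ht : t = s
      · subst ht
        rw [f0s, fjs, f2s]
        apply LinearMap.ext_ring
        have h4 : ∑ u, ∑ a : G.E t u, c1 X.d (G.rev a) ∘ₗ c1 f a =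
            LinearMap.toSpanSingleton k _ (bS X t (F - m)) := by
          apply LinearMap.ext_ring
          simp only [LinearMap.sum_apply, LinearMap.comp_apply, f1s,
            LinearMap.toSpanSingleton_apply, one_smul, bS_apply, Pi.sub_apply]
        rw [h4]
        simp only [LinearMap.add_apply, LinearMap.comp_apply, LinearMap.toSpanSingleton_apply,
          one_smul, map_sub, map_neg, hz, c2_zero, LinearMap.zero_apply]
        abel
      · rw [f0 t ht, fj t ht, f2 t ht]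
        have h4 : ∑ u, ∑ a : G.E t u, c1 X.d (G.rev a) ∘ₗ c1 f a = 0 := by
          refine Finset.sum_eq_zero fun u _ => Finset.sum_eq_zero fun a _ => ?_
          rw [f1 _ _ _ ht, LinearMap.comp_zero]
        rw [h4]; simp
  · rw [f0s]; rfl

end existF

/-! ### the functional gives a map `X → Q` -/

section rho
variable {X : TOb G k} {s : T}

/-- the secondary functional -/
def rho (η0 : X.X.V s →ₗ[k] k) (G1 : ∀ u, G.E u s → (X.X.V u →ₗ[k] k)) : X.X.V s →ₗ[k] k :=
  η0 ∘ₗ c2 X.d s + ∑ u, ∑ a : G.E s u, G1 u (G.rev a) ∘ₗ c1 X.d a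

theorem rho_apply (η0 : X.X.V s →ₗ[k] k) (G1 : ∀ u, G.E u s → (X.X.V u →ₗ[k] k))
    (x : X.X.V s) : rho η0 G1 x =
      η0 (c2 X.d s x) + ∑ u, ∑ a : G.E s u, G1 u (G.rev a) (c1 X.d a x) := by
  simp [rho, LinearMap.sum_apply]

variable {η : Hv X s →ₗ[k] k} {η0 : X.X.V s →ₗ[k] k} {G1 : ∀ u, G.E u s → (X.X.V u →ₗ[k] k)}

theorem eta_R (h0 : ∀ x hx, η0 x = η (mk X s x hx))
    (h1 : ∀ u (a : G.E u s) x, G1 u a (c0 X.d u x) = -η0 (c1 X.d a x))
    {x : X.X.V s} {F : ∀ u, G.E s u → X.X.V u} (h : IsLift X s x F) :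
    η (R h) = rho η0 G1 x := by
  rw [R, ← h0, map_add, bS_apply, map_sum, rho_apply]
  congr 1
  refine Finset.sum_congr rfl fun u _ => ?_
  rw [map_sum]
  refine Finset.sum_congr rfl fun a _ => ?_
  have h2 := h1 u (G.rev a) (F u a)
  rw [h.h1, map_neg, neg_inj] at h2
  exact h2.symm

theorem rho_d0 (h0 : ∀ x hx, η0 x = η (mk X s x hx))
    (h1 : ∀ u (a : G.E u s) x, G1 u a (c0 X.d u x) = -η0 (c1 X.d a x))
    (hi : ∀ w, η (Hi X s w) = 0) (w : X.X.V s) : rho η0 G1 (c0 X.d s w) = 0 := by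
  have h2 : ∀ y, η0 (c0 X.d s y) = 0 := by
    intro y
    rw [h0 _ (dd0 X s y), show mk X s (c0 X.d s y) (dd0 X s y) = 0 from
      (mk_eq_zero X _).2 ⟨y, rfl⟩, map_zero]
  have h3 : ∀ w, η0 (ci X.d s w) = 0 := by
    intro w
    rw [h0 _ (ddi X s w)]
    exact hi w
  have h4 : ∑ u, ∑ a : G.E s u, G1 u (G.rev a) (c1 X.d a (c0 X.d s w)) =
      η0 (∑ u, ∑ a : G.E s u, c1 X.d (G.rev a) (c1 X.d a w)) := by
    rw [map_sum]
    refine Finset.sum_congr rfl fun u _ => ?_
    rw [map_sum]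
    refine Finset.sum_congr rfl fun a _ => ?_
    have h5 := dd1 X a w
    rw [← neg_eq_iff_add_eq_zero.2 ((add_comm _ _).trans h5), map_neg, h1, neg_neg]
  have h6 := congrArg η0 (dd2 X s w)
  rw [map_add, map_add, map_add, h2, h3, map_zero, add_zero, add_zero] at h6
  rw [rho_apply, h4]
  exact h6

end rho

section existG
variable {X : TOb G k} {p : X.X ⟶ X.X} (hp : Eul X p) {s : T}
include hp

theorem rho_zero {η : Hv X s →ₗ[k] k} {η0 : X.X.V s →ₗ[k] k}
    {G1 : ∀ u, G.E u s → (X.X.V u →ₗ[k] k)} {ν : k}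
    (hν : ∀ ξ : Hv X s, Hp hp s ξ = (ν + 1) • ξ → ξ = 0)
    (hA : ∀ ξ, η (Hp hp s ξ) = ν * η ξ) (hi : ∀ w, η (Hi X s w) = 0)
    (h0 : ∀ x hx, η0 x = η (mk X s x hx))
    (h1 : ∀ u (a : G.E u s) x, G1 u a (c0 X.d u x) = -η0 (c1 X.d a x))
    {x : X.X.V s} (hx : c0 X.d s x = 0)
    (hB : ∀ u (a : G.E s u), HB X a (mk X s x hx) = 0) (hj : Hj X s (mk X s x hx) = 0) :
    rho η0 G1 x = 0 := by
  let Z : Submodule k (Hv X s) := (⨅ u, ⨅ a : G.E s u, LinearMap.ker (HB X a)) ⊓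
    LinearMap.ker (Hj X s)
  have hZ : ∀ ξ : Hv X s, ξ ∈ Z ↔ (∀ u (a : G.E s u), HB X a ξ = 0) ∧ Hj X s ξ = 0 := by
    intro ξ
    simp only [Z, Submodule.mem_inf, Submodule.mem_iInf, LinearMap.mem_ker]
  obtain ⟨ξ, hξ, hS⟩ := exists_pre_mem (Hp hp s - (ν + 1) • LinearMap.id)
    (fun ξ hξ => hν ξ (by rw [← sub_eq_zero]; exact hξ)) Z (fun ξ hξ => by
      rw [hZ] at hξ ⊢
      rw [LinearMap.sub_apply, LinearMap.smul_apply, LinearMap.id_apply]
      refine ⟨fun u a => ?_, ?_⟩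
      · rw [map_sub, map_smul, hξ.1, smul_zero, sub_zero, ← Hp_HB, hξ.1, map_zero]
      · rw [map_sub, map_smul, hξ.2, smul_zero, sub_zero, Hj_Hp]) ((hZ _).2 ⟨hB, hj⟩)
  rw [hZ] at hξ
  obtain ⟨x', hx', rfl⟩ := mk_surj X ξ
  obtain ⟨F, hF⟩ := exists_lift hp hx' hξ.1 hξ.2
  rw [LinearMap.sub_apply, LinearMap.smul_apply, LinearMap.id_apply, Hp_mk, mk_smul, mk_sub,
    mk_eq_iff] at hS
  obtain ⟨w, hw⟩ := hS
  have e1 : x = c0 p s x' - (ν + 1) • x' - c0 X.d s w := by rw [hw]; abel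
  have e2 := hA (R hF)
  rw [Hp_R hp hF, map_add, map_sub, hi, add_zero, eta_R h0 h1 hF, eta_R h0 h1 (hF.pLift hp)] at e2
  rw [e1, map_sub, map_sub, map_smul, rho_d0 h0 h1 hi, sub_zero, smul_eq_mul]
  linear_combination e2

theorem existG {ν : k} (hν : ∀ ξ : Hv X s, Hp hp s ξ = (ν + 1) • ξ → ξ = 0)
    (η : Hv X s →ₗ[k] k) (hA : ∀ ξ, η (Hp hp s ξ) = ν * η ξ)
    (hB : ∀ u (a : G.E u s) ξ, η (HB X a ξ) = 0) (hi : ∀ w, η (Hi X s w) = 0) :
    ∃ g : X.X ⟶ (Q G k).X, X.d ≫ g = 0 ∧ ∀ x hx, (c0 g s x : k) = η (mk X s x hx) := by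
  classical
  obtain ⟨η0, h0⟩ := exists_ext X s η
  have h00 : ∀ y, η0 (c0 X.d s y) = 0 := by
    intro y
    rw [h0 _ (dd0 X s y), show mk X s (c0 X.d s y) (dd0 X s y) = 0 from
      (mk_eq_zero X _).2 ⟨y, rfl⟩, map_zero]
  have h0i : ∀ w, η0 (ci X.d s w) = 0 := by
    intro w
    rw [h0 _ (ddi X s w)]
    exact hi w
  have hG1 : ∀ u (a : G.E u s), ∃ g : X.X.V u →ₗ[k] k, ∀ x, g (c0 X.d u x) = -η0 (c1 X.d a x) := by
    intro u a
    refine exists_factor (c0 X.d u) (-(η0 ∘ₗ c1 X.d a)) (fun x hx => ?_)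
    rw [LinearMap.neg_apply, LinearMap.comp_apply, neg_eq_zero]
    have h3 : c0 X.d s (c1 X.d a x) = 0 := by
      have := dd1 X a x
      rw [hx, map_zero, zero_add] at this
      exact this
    rw [h0 _ h3]
    exact hB u a (mk X u x hx)
  choose G1 h1 using hG1
  have hrho : ∀ x, c0 X.d s x = 0 → cj X.d s x = 0 →
      (∀ u (a : G.E s u), c1 X.d a x ∈ LinearMap.range (c0 X.d u)) → rho η0 G1 x = 0 := by
    intro x hx hj h
    refine rho_zero hp hν hA hi h0 h1 hx (fun u a => ?_) hj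
    obtain ⟨y, hy⟩ := h u a
    rw [HB_mk, mk_eq_zero]
    exact ⟨y, hy⟩
  let Ψ : X.X.V s →ₗ[k] (∀ u, G.E s u → X.X.V u ⧸ LinearMap.range (c0 X.d u)) ×
      X.X.W s × X.X.V s :=
    LinearMap.prod (LinearMap.pi fun u => LinearMap.pi fun a =>
      (Submodule.mkQ (LinearMap.range (c0 X.d u))) ∘ₗ c1 X.d a)
      (LinearMap.prod (cj X.d s) (c0 X.d s))
  obtain ⟨θ, hθ⟩ := exists_factor Ψ (rho η0 G1) (fun x hx => by
    have e1 := congrArg Prod.fst hx
    have e2 := congrArg (fun q => q.2.1) hx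
    have e3 := congrArg (fun q => q.2.2) hx
    refine hrho x e3 e2 (fun u a => ?_)
    have e4 := congrFun (congrFun e1 u) a
    exact (Submodule.Quotient.mk_eq_zero _).1 e4)
  obtain ⟨g1, hg1⟩ := exists_pi s (fun u => X.X.V u ⧸ LinearMap.range (c0 X.d u))
    (θ ∘ₗ LinearMap.inl k _ _)
  let gW : X.X.W s →ₗ[k] k := θ ∘ₗ LinearMap.inr k _ _ ∘ₗ LinearMap.inl k _ _
  let g2 : X.X.V s →ₗ[k] k := θ ∘ₗ LinearMap.inr k _ _ ∘ₗ LinearMap.inr k _ _
  have hsum : ∀ x, rho η0 G1 x = (∑ u, ∑ a : G.E s u,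
      g1 u a (Submodule.mkQ (LinearMap.range (c0 X.d u)) (c1 X.d a x))) + gW (cj X.d s x) +
        g2 (c0 X.d s x) := by
    intro x
    rw [← hθ]
    have e1 : Ψ x = LinearMap.inl k _ _ (Ψ x).1 + LinearMap.inr k _ _ (LinearMap.inl k _ _
        (cj X.d s x)) + LinearMap.inr k _ _ (LinearMap.inr k _ _ (c0 X.d s x)) := by
      refine Prod.ext ?_ (Prod.ext ?_ ?_)
      · simp
      · simp [Ψ]
      · simp [Ψ]
    rw [e1, map_add, map_add]
    have e2 := hg1 (Ψ x).1
    rw [LinearMap.comp_apply] at e2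
    rw [e2]
    rfl
  let G1' : ∀ u, G.E u s → (X.X.V u →ₗ[k] k) := fun u a =>
    G1 u a - g1 u (G.rev a) ∘ₗ Submodule.mkQ (LinearMap.range (c0 X.d u))
  have h1' : ∀ u (a : G.E u s) x, G1' u a (c0 X.d u x) + η0 (c1 X.d a x) = 0 := by
    intro u a x
    have e : Submodule.mkQ (LinearMap.range (c0 X.d u)) (c0 X.d u x) = 0 :=
      (Submodule.Quotient.mk_eq_zero _).2 ⟨x, rfl⟩
    rw [LinearMap.sub_apply, LinearMap.comp_apply, e, map_zero, sub_zero, h1]
    abel
  have h2' : ∀ x, η0 (c2 X.d s x) + (∑ u, ∑ a : G.E s u, G1' u (G.rev a) (c1 X.d a x)) -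
      gW (cj X.d s x) - g2 (c0 X.d s x) = 0 := by
    intro x
    have e := hsum x
    rw [rho_apply] at e
    have e3 : ∑ u, ∑ a : G.E s u, G1' u (G.rev a) (c1 X.d a x) =
        (∑ u, ∑ a : G.E s u, G1 u (G.rev a) (c1 X.d a x)) - ∑ u, ∑ a : G.E s u,
          g1 u a (Submodule.mkQ (LinearMap.range (c0 X.d u)) (c1 X.d a x)) := by
      rw [← Finset.sum_sub_distrib]
      refine Finset.sum_congr rfl fun u _ => ?_
      rw [← Finset.sum_sub_distrib]
      refine Finset.sum_congr rfl fun a _ => ?_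
      simp only [G1', LinearMap.sub_apply, LinearMap.comp_apply, G.rev_rev]
    rw [e3]
    linear_combination e
  let g : X.X ⟶ (Q G k).X := mkH (Pi.single s η0) (fun _ => 0)
    (fun t u a => Pi.single (M := fun u => G.E t u → (X.X.V t →ₗ[k] k)) s (fun a => G1' t a) u a)
    (Pi.single s (-gW)) (fun _ => 0) (Pi.single s (-g2))
  have g0s : c0 g s = η0 := Pi.single_eq_same (M := fun t => X.X.V t →ₗ[k] k) s _
  have g0 : ∀ t, t ≠ s → c0 g t = 0 := fun t ht => Pi.single_eq_of_ne ht _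
  have g1s : ∀ t (a : G.E t s), c1 g a = G1' t a := by
    intro t a
    exact congrFun (Pi.single_eq_same (M := fun u => G.E t u → (X.X.V t →ₗ[k] k)) s
      (fun a => G1' t a)) a
  have g1' : ∀ t u (a : G.E t u), u ≠ s → c1 g a = 0 := by
    intro t u a hu
    exact congrFun (Pi.single_eq_of_ne (M := fun u => G.E t u → (X.X.V t →ₗ[k] k)) hu
      (fun a => G1' t a)) a
  have gis : ci g s = -gW := Pi.single_eq_same (M := fun t => X.X.W t →ₗ[k] k) s _
  have gi : ∀ t, t ≠ s → ci g t = 0 := fun t ht => Pi.single_eq_of_ne ht _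
  have g2s : c2 g s = -g2 := Pi.single_eq_same (M := fun t => X.X.V t →ₗ[k] k) s _
  have g2' : ∀ t, t ≠ s → c2 g t = 0 := fun t ht => Pi.single_eq_of_ne ht _
  refine ⟨g, ?_, fun x hx => ?_⟩
  · apply hm_ext
    · intro t
      rw [c0_comp]
      by_cases ht : t = s
      · subst ht
        rw [g0s]
        ext x
        exact h00 x
      · rw [g0 t ht]; simp
    · intro t
      rw [cW_comp]
      have : cW g t = 0 := rfl
      rw [this]; simp
    · intro t u a
      rw [c1_comp]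
      by_cases hu : u = s
      · subst hu
        rw [g0s, g1s]
        ext x
        exact h1' t a x
      · rw [g0 _ hu, g1' _ _ _ hu]; simp
    · intro t
      rw [ci_comp]
      by_cases ht : t = s
      · subst ht
        rw [g0s, gis, X.dW]
        ext x
        simp only [LinearMap.comp_zero, zero_add, LinearMap.comp_apply]
        exact h0i x
      · rw [g0 t ht, gi t ht]; simp
    · intro t
      exact Subsingleton.elim _ _
    · intro t
      rw [c2_comp]
      by_cases ht : t = s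
      · subst ht
        rw [g0s, gis, g2s]
        ext x
        have h4 : (∑ u, ∑ a : G.E t u, c1 g (G.rev a) ∘ₗ c1 X.d a) x =
            ∑ u, ∑ a : G.E t u, G1' u (G.rev a) (c1 X.d a x) := by
          simp only [LinearMap.sum_apply, LinearMap.comp_apply, g1s]
        have h5 := h2' x
        simp only [LinearMap.add_apply, LinearMap.comp_apply, h4, LinearMap.neg_apply, c2_zero,
          LinearMap.zero_apply]
        linear_combination h5
      · rw [g0 t ht, gi t ht, g2' t ht]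
        have h4 : ∑ u, ∑ a : G.E t u, c1 g (G.rev a) ∘ₗ c1 X.d a = 0 := by
          refine Finset.sum_eq_zero fun u _ => Finset.sum_eq_zero fun a _ => ?_
          rw [g1' _ _ _ ht, LinearMap.zero_comp]
        rw [h4]; simp
  · rw [g0s]
    exact h0 x hx

end existG

/-! ### (K) -/

theorem gV_cycle (X : TOb G k) (s : T) {x : X.X.V s} (hx : c0 X.d s x = 0) :
    c0 X.d s (X.X.gV s x) = 0 := by
  have h1 : c0 (bar X.d) s x = c0 (-X.d) s x := by rw [TOb.bar_d]
  rw [c0_bar, c0_neg, LinearMap.neg_apply, hx, neg_zero, LinearMap.comp_apply,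
    LinearMap.comp_apply] at h1
  have h2 := LinearMap.congr_fun (X.X.gV_sq s) (c0 X.d s (X.X.gV s x))
  rw [LinearMap.comp_apply, h1, map_zero] at h2
  exact h2.symm

/-- **(K)**: on a rigid object a lowest eigenvector killed by all `B, j` and a highest
eigenfunctional killing all `B, i` at the same vertex cannot coexist. -/
theorem no_both {X : TOb G k} {p : X.X ⟶ X.X} (hp : Eul X p) (hX : hT X X = 0) {s : T} {μ ν : k}
    (hμ : ∀ ξ : Hv X s, Hp hp s ξ = (μ - 1) • ξ → ξ = 0)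
    (hν : ∀ ξ : Hv X s, Hp hp s ξ = (ν + 1) • ξ → ξ = 0)
    {ξ : Hv X s} (hξ : ξ ≠ 0) (hAξ : Hp hp s ξ = μ • ξ)
    (hBξ : ∀ u (a : G.E s u), HB X a ξ = 0) (hjξ : Hj X s ξ = 0)
    {η : Hv X s →ₗ[k] k} (hη : η ≠ 0) (hAη : ∀ ξ, η (Hp hp s ξ) = ν * η ξ)
    (hBη : ∀ u (a : G.E u s) ξ, η (HB X a ξ) = 0) (hiη : ∀ w, η (Hi X s w) = 0) : False := by
  obtain ⟨x, hx, rfl⟩ := mk_surj X ξ
  obtain ⟨f, hf, hf0⟩ := existF hp hμ hx hAξ hBξ hjξ
  obtain ⟨g, hg, hg0⟩ := existG hp hν η hAη hBη hiη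
  have hg' : D X (Q G k) (bar g) = 0 := by
    rw [D_apply, bar_bar, hg, Limits.comp_zero, sub_zero]
  have hcl : D X X (bar g ≫ f) = 0 := closed_comp hg' hf
  have hmem : bar g ≫ f ∈ Cs X.X X.X := by
    intro t
    rw [cW_comp]
    have : cW (bar g) t = 0 := Subsingleton.elim _ _
    rw [this, LinearMap.comp_zero]
  obtain ⟨K, -, hK⟩ := exact_of_hT hX hmem hcl
  obtain ⟨ξ', hξ'⟩ : ∃ ξ', η ξ' ≠ 0 := by
    by_contra hcon
    push Not at hcon
    exact hη (LinearMap.ext hcon)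
  obtain ⟨x', hx', rfl⟩ := mk_surj X ξ'
  have h1 := Hmap_eq hcl (map_zero (D X X)) (by rw [sub_zero, hK]) s
    (mk X s (X.X.gV s x') (gV_cycle X s hx'))
  have h2 : c0 (bar g ≫ f) s (X.X.gV s x') = η (mk X s x' hx') • x := by
    rw [c0_comp, LinearMap.comp_apply, c0_bar]
    change c0 f s (c0 g s (X.X.gV s (X.X.gV s x'))) = _
    have h3 : X.X.gV s (X.X.gV s x') = x' := LinearMap.congr_fun (X.X.gV_sq s) x'
    rw [h3, hf0, hg0 x' hx']
  have h4 : mk X s (η (mk X s x' hx') • x) (by rw [map_smul, hx, smul_zero]) = 0 := by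
    rw [Hmap_mk, Hmap_mk] at h1
    rw [mk_congr X _ h2] at h1
    rw [h1, mk_eq_zero]
    exact ⟨0, by simp⟩
  rw [← mk_smul X hx] at h4
  rcases smul_eq_zero.1 h4 with h | h
  · exact hξ' h
  · exact hξ h

end Crest.Agent.R175.PTK
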