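import Crest.Agent.R175.FmE_180
import Crest.Agent.R175.PTK_175
import Crest.Agent.R175.Euler_184

/-!
Row 175 (S0263), block (D) for all labels (helper180): (K) for pairs and the Euler inequality for
weighted families of pairwise orthogonal objects, in the language of `QM`.
-/

set_option autoImplicit false
set_option linter.unusedSectionVars false
set_option linter.unusedVariables false

open CategoryTheory Crest.Agent.R175.PTA

namespace Crest.Agent.R175.GlueD1_180

open Crest.Agent.R175.PTH (Hv Hp HB Hi Hj mk mk_surj mk_eq_zero mk_congr mk_smul Hmap Hmap_mk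
  Hmap_eq closed_comp exact_of_hT)
open Crest.Agent.R175.PTQ_4 Crest.Agent.R175.FmE_180 Crest.Agent.R175.DomF_180
open Crest.Agent.R175.PTK (Q)

universe u v

variable {T : Type u} {k : Type v} [Field k] [Fintype T] {G : MG T}

/-- **(K) for pairs**: a functional on `X` and a vector of `X'` (`hT X X' = 0`) at the same vertex. -/
theorem no_both2 {X X' : TOb G k} {p : X.X ⟶ X.X} {p' : X'.X ⟶ X'.X} (hp : PTH.Eul X p)
    (hp' : PTH.Eul X' p') (hX : hT X X' = 0) {s : T} {μ ν : k}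
    (hμ : ∀ ξ : Hv X' s, Hp hp' s ξ = (μ - 1) • ξ → ξ = 0)
    (hν : ∀ ξ : Hv X s, Hp hp s ξ = (ν + 1) • ξ → ξ = 0)
    {ξ : Hv X' s} (hξ : ξ ≠ 0) (hAξ : Hp hp' s ξ = μ • ξ)
    (hBξ : ∀ u (a : G.E s u), HB X' a ξ = 0) (hjξ : Hj X' s ξ = 0)
    {η : Hv X s →ₗ[k] k} (hη : η ≠ 0) (hAη : ∀ ξ, η (Hp hp s ξ) = ν * η ξ)
    (hBη : ∀ u (a : G.E u s) ξ, η (HB X a ξ) = 0) (hiη : ∀ w, η (Hi X s w) = 0) : False := by
  obtain ⟨x, hx, rfl⟩ := mk_surj X' ξ
  obtain ⟨f, hf, hf0⟩ := PTK.existF hp' hμ hx hAξ hBξ hjξ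
  obtain ⟨g, hg, hg0⟩ := PTK.existG hp hν η hAη hBη hiη
  have hg' : D X (Q G k) (bar g) = 0 := by
    rw [D_apply, bar_bar, hg, Limits.comp_zero, sub_zero]
  have hcl : D X X' (bar g ≫ f) = 0 := closed_comp hg' hf
  have hmem : bar g ≫ f ∈ Cs X.X X'.X := by
    intro t
    rw [cW_comp]
    have : cW (bar g) t = 0 := Subsingleton.elim _ _
    rw [this, LinearMap.comp_zero]
  obtain ⟨K, -, hK⟩ := exact_of_hT hX hmem hcl
  obtain ⟨ξ', hξ'⟩ : ∃ ξ', η ξ' ≠ 0 := by
    by_contra hcon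
    push Not at hcon
    exact hη (LinearMap.ext hcon)
  obtain ⟨x', hx', rfl⟩ := mk_surj X ξ'
  have h1 := Hmap_eq hcl (map_zero (D X X')) (by rw [sub_zero, hK]) s
    (mk X s (X.X.gV s x') (PTK.gV_cycle X s hx'))
  have h2 : c0 (bar g ≫ f) s (X.X.gV s x') = η (mk X s x' hx') • x := by
    rw [c0_comp, LinearMap.comp_apply, c0_bar]
    change c0 f s (c0 g s (X.X.gV s (X.X.gV s x'))) = _
    have h3 : X.X.gV s (X.X.gV s x') = x' := LinearMap.congr_fun (X.X.gV_sq s) x'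
    rw [h3, hf0, hg0 x' hx']
  have h4 : mk X' s (η (mk X s x' hx') • x) (by rw [map_smul, hx, smul_zero]) = 0 := by
    rw [Hmap_mk, Hmap_mk] at h1
    rw [mk_congr X' _ h2] at h1
    rw [h1, mk_eq_zero]
    exact ⟨0, by simp⟩
  rw [← mk_smul X' hx] at h4
  rcases smul_eq_zero.1 h4 with h | h
  · exact hξ' h
  · exact hξ h

/-- (K) for pairs, in the language of `QM` -/
theorem K_pair {X X' : TOb G k} {p : X.X ⟶ X.X} {p' : X'.X ⟶ X'.X} (hp : PTH.Eul X p)
    (hp' : PTH.Eul X' p') (hX : hT X X' = 0) {ht : k → ℤ} (ht_add : ∀ μ, ht (μ + 1) = ht μ + 1)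
    {t : T} {a b : ℤ} (hlo : lo ht (qmOf X' hp') a) (hhi : hi ht (qmOf X hp) b)
    (hc : cb ht (qmOf X hp) t b) : ¬ ka ht (qmOf X' hp') t a := by
  rintro ⟨μ, hμ, ξ, hξ, hAξ, hkξ⟩
  obtain ⟨ν, hν, η, hη, hAη, hBη⟩ := hc
  rw [QM.mem_kerA] at hkξ
  refine no_both2 hp hp' hX (s := t) (μ := μ) (ν := ν) ?_ ?_ hξ hAξ hkξ.1 hkξ.2 hη hAη ?_ ?_
  · intro ξ' h'
    by_contra h0
    have h1 := hlo t (μ - 1) ξ' h0 h'
    have h2 := ht_add (μ - 1)
    rw [sub_add_cancel] at h2
    omega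
  · intro ξ' h'
    by_contra h0
    have h1 := hhi t (ν + 1) ξ' h0 h'
    have h2 := ht_add ν
    omega
  · intro u c ξ'
    exact hBη _ (QM.B_mem_imB (X := qmOf X hp) c ξ')
  · intro w
    exact hBη _ (QM.i_mem_imB (X := qmOf X hp) w)

/-! ### the Euler inequality for families -/

/-- the bilinear form -/
noncomputable def bil (G : MG T) (x y : (T → ℝ) × (T → ℝ)) : ℝ :=
  (∑ s, ∑ t, (Fintype.card (G.E s t) : ℝ) * (x.1 s * y.1 t)) + (∑ t, x.2 t * y.1 t) +
    (∑ t, x.1 t * y.2 t) - 2 * ∑ t, x.1 t * y.1 t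

/-- the bilinear form -/
noncomputable def bilL (G : MG T) : ((T → ℝ) × (T → ℝ)) →ₗ[ℝ] ((T → ℝ) × (T → ℝ)) →ₗ[ℝ] ℝ :=
  LinearMap.mk₂ ℝ (bil G)
    (fun x x' y => by
      simp only [bil, Prod.fst_add, Prod.snd_add, Pi.add_apply, add_mul, mul_add,
        Finset.sum_add_distrib]
      ring)
    (fun c x y => by
      simp only [bil, Prod.smul_fst, Prod.smul_snd, Pi.smul_apply, smul_eq_mul, Finset.mul_sum,
        mul_add, mul_sub]
      congr 1
      · congr 1
        · congr 1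
          · exact Finset.sum_congr rfl fun s _ => Finset.sum_congr rfl fun t _ => by ring
          · exact Finset.sum_congr rfl fun t _ => by ring
        · exact Finset.sum_congr rfl fun t _ => by ring
      · exact Finset.sum_congr rfl fun t _ => by ring)
    (fun x y y' => by
      simp only [bil, Prod.fst_add, Prod.snd_add, Pi.add_apply, mul_add,
        Finset.sum_add_distrib]
      ring)
    (fun c x y => by
      simp only [bil, Prod.smul_fst, Prod.smul_snd, Pi.smul_apply, smul_eq_mul, Finset.mul_sum,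
        mul_add, mul_sub]
      congr 1
      · congr 1
        · congr 1
          · exact Finset.sum_congr rfl fun s _ => Finset.sum_congr rfl fun t _ => by ring
          · exact Finset.sum_congr rfl fun t _ => by ring
        · exact Finset.sum_congr rfl fun t _ => by ring
      · exact Finset.sum_congr rfl fun t _ => by ring)

theorem bil_sum {I : Type*} [Fintype I] (ω : I → ℝ) (x : I → (T → ℝ) × (T → ℝ)) :
    bil G (∑ i, ω i • x i) (∑ i, ω i • x i) = ∑ i, ∑ j, ω i * (ω j * bil G (x i) (x j)) := by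
  have h1 : ∀ y, bilL G (∑ i, ω i • x i) y = ∑ i, ω i * bilL G (x i) y := by
    intro y
    rw [map_sum, LinearMap.sum_apply]
    exact Finset.sum_congr rfl fun i _ => by rw [map_smul, LinearMap.smul_apply, smul_eq_mul]
  change bilL G (∑ i, ω i • x i) (∑ i, ω i • x i) = _
  rw [h1]
  refine Finset.sum_congr rfl fun i _ => ?_
  rw [map_sum, Finset.mul_sum]
  refine Finset.sum_congr rfl fun j _ => ?_
  rw [map_smul, smul_eq_mul]
  rfl

theorem bil_le (h2 : (2 : k) ≠ 0) (X Y : TOb G k) (h : hT X Y = 0) :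
    bil G (fun t => (Module.finrank k (Hv X t) : ℝ), fun t => (lam X t : ℝ))
      (fun t => (Module.finrank k (Hv Y t) : ℝ), fun t => (lam Y t : ℝ)) ≤ 0 := by
  have e := Euler_184.euler h2 X Y
  rw [h, zero_add] at e
  have e' : ((∑ s, ∑ t, (Fintype.card (G.E s t) : ℝ) *
        ((Module.finrank k (Hv X s) : ℝ) * (Module.finrank k (Hv Y t) : ℝ)))) +
      (∑ t, (lam X t : ℝ) * (Module.finrank k (Hv Y t) : ℝ)) +
      (∑ t, (Module.finrank k (Hv X t) : ℝ) * (lam Y t : ℝ)) ≤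
    2 * ∑ t, (Module.finrank k (Hv X t) : ℝ) * (Module.finrank k (Hv Y t) : ℝ) := by
    exact_mod_cast e
  unfold bil
  linarith

/-- field `euler` of `DomF` -/
theorem euler_fam (h2 : (2 : k) ≠ 0) {I : Type*} [Fintype I] {ω : I → ℝ} (hω : ∀ i, 0 < ω i)
    (X : I → TOb G k) (p : ∀ i, (X i).X ⟶ (X i).X) (hp : ∀ i, PTH.Eul (X i) (p i))
    (hX : ∀ i j, hT (X i) (X j) = 0) :
    ∑ t, dW ω (fun i => qmOf (X i) (hp i)) t *
      (muW ω (fun i => qmOf (X i) (hp i)) t + lW ω (fun i => qmOf (X i) (hp i)) t) ≤ 0 := by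
  let x : I → (T → ℝ) × (T → ℝ) := fun i =>
    (fun t => (Module.finrank k (Hv (X i) t) : ℝ), fun t => (lam (X i) t : ℝ))
  have h1 : bil G (∑ i, ω i • x i) (∑ i, ω i • x i) ≤ 0 := by
    rw [bil_sum]
    refine Finset.sum_nonpos fun i _ => Finset.sum_nonpos fun j _ => ?_
    exact mul_nonpos_of_nonneg_of_nonpos (hω i).le
      (mul_nonpos_of_nonneg_of_nonpos (hω j).le (bil_le h2 _ _ (hX i j)))
  have hd : ∀ t, (∑ i, ω i • x i).1 t = dW ω (fun i => qmOf (X i) (hp i)) t := by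
    intro t
    rw [Prod.fst_sum, Finset.sum_apply]
    rfl
  have hl : ∀ t, (∑ i, ω i • x i).2 t = lW ω (fun i => qmOf (X i) (hp i)) t := by
    intro t
    rw [Prod.snd_sum, Finset.sum_apply]
    rfl
  unfold bil at h1
  simp only [hd, hl] at h1
  refine le_trans (le_of_eq ?_) h1
  simp only [muW_eq]
  rw [Finset.mul_sum, ← Finset.sum_add_distrib, ← Finset.sum_add_distrib,
    ← Finset.sum_sub_distrib]
  refine Finset.sum_congr rfl fun t _ => ?_
  rw [mul_add, mul_sub, mul_add, Finset.mul_sum]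
  have : ∑ u, dW ω (fun i => qmOf (X i) (hp i)) t *
        ((Fintype.card (G.E t u) : ℝ) * dW ω (fun i => qmOf (X i) (hp i)) u) =
        ∑ u, (Fintype.card (G.E t u) : ℝ) *
        (dW ω (fun i => qmOf (X i) (hp i)) t * dW ω (fun i => qmOf (X i) (hp i)) u) :=
      Finset.sum_congr rfl fun u _ => by ring
  rw [this]
  ring

end Crest.Agent.R175.GlueD1_180
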