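import Crest.Agent.R175.GluePT_445
import Crest.Agent.R175.GlU_505
import Crest.Agent.R175.Fm7_27

/-!
# R175 / GLUE-PT over the unfolding graph `UG M Λ`

`pt_fam`: (P_T) for an `F`-family `Y`, from the inequality for the orthogonal `F`-stable families of
minimisers (`OFam`).
-/

set_option autoImplicit false
set_option linter.unusedSectionVars false
set_option linter.unusedVariables false

open scoped Classical
open CategoryTheory Module LinearMap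

namespace Crest.Agent.R175.GlueData_445

open Crest.GroupTheory
open Crest.Agent.R175.PTA Crest.Agent.R175.GlB_445 Crest.Agent.R175.GluePT_445
open Crest.Agent.R175.Unf_109 Crest.Agent.R175.UG_27 Crest.Agent.R175.Pos_418
open Crest.Agent.R175.Lev_788 Crest.Agent.R175.FmC_180 Crest.Agent.R175.Fm_27

universe v

variable {S : Type} [Fintype S] {M : CoxeterMatrix S} {Λ : Finset ℕ} {k : Type v} [Field k]

theorem nsum_eq_nbs {A : Type*} [AddCommMonoid A] (m : ℕ) (f : J Λ → A) (i : J Λ) :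
    nsum Λ m f i = ∑ j ∈ nbs Λ m i, f j := by
  unfold nsum nbs
  rw [Finset.sum_filter]

/-- the functor `F_m` -/
noncomputable def FF (M : CoxeterMatrix S) (φ : ℝ →+* k) (hΛ : ∀ m ∈ Λ, 4 ≤ m) (m : Λ)
    (X : TOb (UG M Λ) k) : TOb (UG M Λ) k :=
  (Fm M φ m.2 ((by norm_num : 2 ≤ 4).trans (hΛ m.1 m.2))).FT X

theorem lam_FF (φ : ℝ →+* k) (hΛ : ∀ m ∈ Λ, 4 ≤ m) (m : Λ) (X : TOb (UG M Λ) k) (a : S × J Λ) :
    lam (FF M φ hΛ m X) a = ∑ b, NN Λ S m a b * lam X b := by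
  unfold FF
  rw [ADat.lam_FT]
  refine Finset.sum_congr rfl fun b _ => ?_
  rw [NN_symm]
  unfold NN
  by_cases h : b.1 = a.1 ∧ nb Λ m b.2 a.2
  · rw [if_pos h, one_mul]
    exact if_pos h
  · rw [if_neg h, zero_mul]
    exact if_neg h

theorem hT_FF (φ : ℝ →+* k) (hΛ : ∀ m ∈ Λ, 4 ≤ m) (m : Λ) (X Y : TOb (UG M Λ) k) :
    hT (FF M φ hΛ m X) Y = hT X (FF M φ hΛ m Y) := ADat.hT_FT _ _ _

/-- the instance of the data -/
noncomputable def dat (hΛ : Good M Λ) (φ : ℝ →+* k) (Y : J Λ → TOb (UG M Λ) k)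
    (hF : ∀ (m : Λ) i X, hT X (FF M φ hΛ.four m (Y i)) = ∑ j ∈ nbs Λ m i, hT X (Y j))
    (hFl : ∀ (m : Λ) i a, lam (FF M φ hΛ.four m (Y i)) a = ∑ j ∈ nbs Λ m i, lam (Y j) a)
    (h : S → ℝ) (hl : ∀ s, mv (Cr M) h s ≤ ∑ i, wt Λ i * (lam (Y i) (s, jz hΛ.four) : ℝ))
    (c : S → ℝ) (hc : ∀ s, 0 < c s) (hc1 : ∀ s, mv (Cr M) c s = 1) :
    Data (UG M Λ) k (J Λ) Λ where
  c := wt Λ
  Y := Y
  gam a := c a.1 * wt Λ a.2
  om a := wt Λ a.2
  ht a := h a.1 * wt Λ a.2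
  c_pos := wt_pos Λ
  gam_pos a := mul_pos (hc _) (wt_pos Λ _)
  om_pos a := wt_pos Λ _
  hgam a := by rw [GlU_505.mv_hwt hΛ, hc1, one_mul]
  hlam a := by
    refine GlU_505.frame_ineq hΛ (fun i a => lam (Y i) a) (fun s j => ?_) h hl a
    refine pf hΛ.four (fun j i => (lam (Y i) (s, j) : ℝ)) (fun m hm j i => ?_) j
    have h1 := hFl ⟨m, hm⟩ i (s, j)
    rw [lam_FF, sum_NN] at h1
    rw [nsum_eq_nbs m (fun i' => (lam (Y i') (s, j) : ℝ)) i, ← nsum_cast]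
    rw [h1]
    push_cast
    rfl
  F := FF M φ hΛ.four
  N m := NN Λ S m
  del m := 2 * Real.cos (Real.pi / m)
  lam_F m X a := lam_FF φ hΛ.four m X a
  adj m X Z := hT_FF φ hΛ.four m X Z
  gam_F m a := gam_F hΛ.four m.2 c a
  ht_F m a := gam_F hΛ.four m.2 h a
  Y_F m X := by
    rw [← sum_wt_nsum hΛ.four m.2]
    refine Finset.sum_congr rfl fun i _ => ?_
    rw [hF m i X, nsum_eq_nbs]
    push_cast
    rfl

/-- an orthogonal `F`-stable family of minimisers over the vertex `s` -/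
structure OFam (hΛ : ∀ m ∈ Λ, 4 ≤ m) (φ : ℝ →+* k) (s : S) (X : J Λ → TOb (UG M Λ) k) : Prop where
  ind : ∀ j, MInd (X j)
  lam_eq : ∀ j, lam (X j) = Pi.single (s, j) 1
  orth : ∀ i j, hT (X i) (X j) = 0
  sum : ∀ (m : Λ) j, ∃ l, IsSum (FF M φ hΛ m (X j)) l ∧
    (∀ Z ∈ l, ∃ j', nb Λ m j j' ∧ lam Z = Pi.single (s, j') 1 ∧ MInd Z ∧ Sim Z (X j')) ∧
    ∀ j', (l.map lam).sum (s, j') = if nb Λ m j j' then 1 else 0

/-- **(P_T) over the unfolding graph** -/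
theorem pt_fam [IsAlgClosed k] (hΛ : Good M Λ) (hM : PDm (Cr M)) (φ : ℝ →+* k)
    (Y : J Λ → TOb (UG M Λ) k)
    (hF : ∀ (m : Λ) i X, hT X (FF M φ hΛ.four m (Y i)) = ∑ j ∈ nbs Λ m i, hT X (Y j))
    (hFl : ∀ (m : Λ) i a, lam (FF M φ hΛ.four m (Y i)) a = ∑ j ∈ nbs Λ m i, lam (Y j) a)
    (h : S → ℝ) (hl : ∀ s, mv (Cr M) h s ≤ ∑ i, wt Λ i * (lam (Y i) (s, jz hΛ.four) : ℝ))
    (H : ∀ s X, OFam hΛ.four φ s X →
      ∃ j, wt Λ j * h s ≤ ∑ i, wt Λ i * (hT (X j) (Y i) : ℝ)) (X : TOb (UG M Λ) k) :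
    ∑ s, ∑ j, wt Λ j * h s * (lam X (s, j) : ℝ) ≤ ∑ i, wt Λ i * (hT X (Y i) : ℝ) := by
  obtain ⟨c, hc, hc1⟩ := GlU_505.exists_gam hM
  have h2 : (2 : k) ≠ 0 := by
    rw [← map_ofNat φ 2, Ne, map_eq_zero]
    norm_num
  have key := (dat hΛ φ Y hF hFl h hl c hc hc1).pt_of_D h2 (fun S' Xf hS h3 h4 h5 h6 h7 => by
    obtain ⟨⟨s, j0⟩, hs⟩ := hS
    have h8 : ∀ j, (s, j) ∈ S' := by
      intro j
      refine conn hΛ.four (fun j => (s, j) ∈ S') (fun m hm i j hij hi => ?_) hs j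
      refine h6 ⟨m, hm⟩ (s, i) hi (s, j) ?_
      change NN Λ S m (s, j) (s, i) ≠ 0
      rw [NN_ne_zero]
      exact ⟨rfl, hij.symm⟩
    obtain ⟨j, hj⟩ := H s (fun j => Xf (s, j)) ⟨fun j => h3 _ (h8 j), fun j => h4 _ (h8 j),
      fun i j => h5 _ (h8 i) _ (h8 j), fun m j => by
        obtain ⟨l, h9, h10, h11⟩ := h7 m (s, j) (h8 j)
        have h11' : ∀ t', (l.map lam).sum t' = NN Λ S m t' (s, j) := h11
        refine ⟨l, h9, fun Z hZ => ?_, fun j' => ?_⟩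
        · obtain ⟨⟨s', j'⟩, h12, h13, h14, h15⟩ := h10 Z hZ
          have h16 : NN Λ S m (s', j') (s, j) ≠ 0 := by
            rw [← h11']
            obtain ⟨l1, l2, rfl⟩ := List.append_of_mem hZ
            rw [List.map_append, List.map_cons, List.sum_append, List.sum_cons, h13]
            simp only [Pi.add_apply, Pi.single_eq_same]
            omega
          rw [NN_ne_zero] at h16
          obtain ⟨h17, h18⟩ := h16
          change s' = s at h17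
          subst h17
          exact ⟨j', h18.symm, h13, h14, h15⟩
        · rw [h11']
          unfold NN
          by_cases hn : nb Λ m j j'
          · rw [if_pos hn, if_pos ⟨rfl, hn.symm⟩]
          · rw [if_neg hn, if_neg (fun h => hn h.2.symm)]⟩
    refine ⟨(s, j), h8 j, ?_⟩
    change h s * wt Λ j ≤ ∑ i, wt Λ i * (hT (Xf (s, j)) (Y i) : ℝ)
    rw [mul_comm]
    exact hj) X
  refine le_trans (le_of_eq ?_) key
  rw [Fintype.sum_prod_type]
  refine Finset.sum_congr rfl fun s _ => Finset.sum_congr rfl fun j _ => ?_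
  change _ = h s * wt Λ j * (lam X (s, j) : ℝ)
  ring

end Crest.Agent.R175.GlueData_445
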