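import Mathlib

/-!
Row 175 (S0263), block (6) of #2434 (task 484), helper510: linear algebra of the scaling argument.
* `fit`: `T e ∈ S`, `T S ⊆ S` ⇒ `e = e₀ + e₁`, `T ^ N e₀ = 0`, `e₁ ∈ S` (finite dimension).
* `shift`: `(s · ∘ g - g ∘ ·) ^ N e₀ = 0` ⇒ `e₀` maps the generalised `l`-eigenspace of `g` to the
  generalised `s l`-eigenspace.
-/

set_option autoImplicit false

open Module

namespace Crest.Agent.R175.GrA_510

section Fit

variable {k C : Type*} [Field k] [AddCommGroup C] [Module k C] [FiniteDimensional k C]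

/-- Fitting decomposition relative to a stable subspace; it is compatible with every operator `P`
commuting with `T`. -/
theorem fit (T : End k C) (S : Submodule k C) (hS : ∀ x ∈ S, T x ∈ S) (e : C) (he : T e ∈ S) :
    ∃ (N : ℕ) (e0 e1 : C), e = e0 + e1 ∧ (T ^ N) e0 = 0 ∧ e1 ∈ S ∧
      ∀ (P : End k C) (c : k), P * T = T * P → P e = c • e → P e0 = c • e0 := by
  obtain ⟨N, hN1, hN⟩ : ∃ N : ℕ, 1 ≤ N ∧ IsCompl (LinearMap.ker (T ^ N)) (LinearMap.range (T ^ N)) := by
    obtain ⟨n, hn⟩ := Filter.eventually_atTop.1 T.eventually_isCompl_ker_pow_range_pow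
    exact ⟨max n 1, le_max_right _ _, hn _ (le_max_left _ _)⟩
  have hpow : ∀ (n : ℕ) (x : C), x ∈ S → (T ^ n) x ∈ S := by
    intro n
    induction n with
    | zero => intro x hx; simpa using hx
    | succ n ih =>
      intro x hx
      rw [pow_succ, End.mul_apply]
      exact ih _ (hS x hx)
  have hTN : (T ^ N) e ∈ S := by
    obtain ⟨m, rfl⟩ : ∃ m, N = m + 1 := ⟨N - 1, by omega⟩
    rw [pow_succ, End.mul_apply]
    exact hpow m _ he
  have htop : e ∈ LinearMap.ker (T ^ N) ⊔ LinearMap.range (T ^ N) := by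
    rw [hN.sup_eq_top]; trivial
  obtain ⟨e0, h0, e1, h1, hsum⟩ := Submodule.mem_sup.1 htop
  rw [LinearMap.mem_ker] at h0
  have hdisj : ∀ x, x ∈ LinearMap.range (T ^ N) → (T ^ N) x = 0 → x = 0 := by
    intro x hx hx0
    have : x ∈ LinearMap.ker (T ^ N) ⊓ LinearMap.range (T ^ N) := ⟨hx0, hx⟩
    rw [hN.inf_eq_bot] at this
    exact this
  -- `T ^ N` restricted to `S ⊓ range`
  let R : Submodule k C := S ⊓ LinearMap.range (T ^ N)
  have hR : ∀ x ∈ R, (T ^ N) x ∈ R := fun x hx => ⟨hpow N x hx.1, ⟨x, rfl⟩⟩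
  let f : R →ₗ[k] R := (T ^ N).restrict hR
  have hinj : Function.Injective f := by
    rw [injective_iff_map_eq_zero]
    intro x hx
    apply Subtype.ext
    have h2 : (T ^ N) (x : C) = 0 := congrArg Subtype.val hx
    exact hdisj _ x.2.2 h2
  have hsurj : Function.Surjective f := LinearMap.injective_iff_surjective.1 hinj
  have h1S : e1 ∈ S := by
    have h3 : (T ^ N) e = (T ^ N) e1 := by rw [← hsum, map_add, h0, zero_add]
    obtain ⟨y, hy⟩ := hsurj ⟨(T ^ N) e1, by rw [← h3]; exact hTN, ⟨e1, rfl⟩⟩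
    have h4 : (T ^ N) (y : C) = (T ^ N) e1 := congrArg Subtype.val hy
    have h5 : (y : C) = e1 := by
      rw [← sub_eq_zero]
      refine hdisj _ (Submodule.sub_mem _ y.2.2 h1) ?_
      rw [map_sub, h4, sub_self]
    rw [← h5]
    exact y.2.1
  refine ⟨N, e0, e1, hsum.symm, h0, h1S, ?_⟩
  intro P c hP hPe
  have hPN : ∀ x, (T ^ N) (P x) = P ((T ^ N) x) := by
    intro x
    have hc : Commute P (T ^ N) := (show Commute P T from hP).pow_right N
    exact (congrArg (fun Q : End k C => Q x) hc.eq).symm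
  have e3 : P e0 - c • e0 = c • e1 - P e1 := by
    have : P e0 + P e1 = c • e0 + c • e1 := by
      rw [← map_add, hsum, hPe, ← hsum, smul_add]
    rw [sub_eq_sub_iff_add_eq_add, this, add_comm]
  have m0 : (T ^ N) (P e0 - c • e0) = 0 := by
    rw [map_sub, map_smul, hPN, h0, map_zero, smul_zero, sub_zero]
  have m1 : P e0 - c • e0 ∈ LinearMap.range (T ^ N) := by
    rw [e3]
    refine Submodule.sub_mem _ (Submodule.smul_mem _ _ h1) ?_
    obtain ⟨z, rfl⟩ := h1
    exact ⟨P z, hPN z⟩
  exact sub_eq_zero.1 (hdisj _ m1 m0)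

end Fit

section Shift

variable {k V : Type*} [Field k] [AddCommGroup V] [Module k V]

/-- the operator `f ↦ g ∘ f - f ∘ h`. -/
def TT (g h : End k V) : End k (End k V) := LinearMap.mulLeft k g - LinearMap.mulRight k h

theorem TT_apply (g h f : End k V) : TT g h f = g * f - f * h := rfl

/-- if `g ∘ · - · ∘ h` acts nilpotently on `f`, then `f` maps the generalised eigenspaces of `h`
into those of `g`. -/
theorem shift (l : k) (g h f : End k V) (N : ℕ) (hN : (TT g h ^ N) f = 0) :
    ∀ v ∈ End.maxGenEigenspace h l, f v ∈ End.maxGenEigenspace g l := by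
  intro v hv
  rw [End.mem_maxGenEigenspace] at hv ⊢
  obtain ⟨n, hn⟩ := hv
  refine ⟨n + N, ?_⟩
  -- commuting operators on `End k V`
  let A : End k (End k V) := LinearMap.mulRight k h - l • 1
  let B : End k (End k V) := LinearMap.mulLeft k g - l • 1
  have hB : B = A + TT g h := by
    simp only [A, B, TT]
    abel
  have hc0 : Commute (LinearMap.mulRight k h) (LinearMap.mulLeft k g : End k (End k V)) :=
    (LinearMap.commute_mulLeft_right g h).symm
  have hc : Commute A (TT g h) := by
    refine Commute.sub_left ?_ (Commute.smul_left (Commute.one_left _) _)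
    exact Commute.sub_right hc0 (Commute.refl _)
  have hA : ∀ m : ℕ, ∀ φ : End k V, (A ^ m) φ v = φ (((h - l • 1) ^ m) v) := by
    intro m
    induction m with
    | zero => intro φ; simp
    | succ m ih =>
      intro φ
      rw [pow_succ, End.mul_apply, ih]
      have h2 : A φ = φ * (h - l • 1) := by
        simp only [A, LinearMap.sub_apply, LinearMap.smul_apply, LinearMap.mulRight_apply,
          Module.End.one_apply, mul_sub, mul_smul_comm, mul_one]
      rw [h2, End.mul_apply, pow_succ' (h - l • 1), End.mul_apply]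
  have hBm : ∀ m : ℕ, ∀ φ : End k V, (B ^ m) φ v = ((g - l • 1) ^ m) (φ v) := by
    intro m
    induction m with
    | zero => intro φ; simp
    | succ m ih =>
      intro φ
      rw [pow_succ, End.mul_apply, ih]
      have h2 : B φ = (g - l • 1) * φ := by
        simp only [B, LinearMap.sub_apply, LinearMap.smul_apply, LinearMap.mulLeft_apply,
          Module.End.one_apply, sub_mul, smul_mul_assoc, one_mul]
      rw [h2, End.mul_apply, pow_succ, End.mul_apply]
  rw [← hBm, hB, hc.add_pow, LinearMap.sum_apply, LinearMap.sum_apply]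
  refine Finset.sum_eq_zero fun m hm => ?_
  rw [End.mul_apply, End.mul_apply]
  have hbin : ∀ (c : ℕ) (φ : End k V), ((c : End k (End k V)) : End k (End k V)) φ = c • φ := by
    intro c φ
    simp
  rw [hbin, map_nsmul, map_nsmul]
  by_cases hmn : n ≤ m
  · rw [LinearMap.smul_apply, hA]
    obtain ⟨d, rfl⟩ := Nat.exists_eq_add_of_le hmn
    rw [pow_add (h - l • 1), ((Commute.refl (h - l • (1 : End k V))).pow_pow n d).eq,
      End.mul_apply, hn]
    simp
  · have hNm : N ≤ n + N - m := by omega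
    obtain ⟨d, hd⟩ := Nat.exists_eq_add_of_le hNm
    have hz : ((TT g h) ^ (n + N - m)) f = 0 := by
      rw [hd, add_comm N d, pow_add, End.mul_apply, hN, map_zero]
    rw [hz]
    simp

end Shift

section Fam

variable {k ι : Type*} {V : ι → Type*} [Field k] [∀ t, AddCommGroup (V t)] [∀ t, Module k (V t)]

/-- the operator `f ↦ (g t ∘ f t - f t ∘ h t)` on families. -/
def TF (g h : ∀ t, End k (V t)) : End k (∀ t, End k (V t)) :=
  LinearMap.pi fun t => TT (g t) (h t) ∘ₗ LinearMap.proj t

theorem TF_apply (g h f : ∀ t, End k (V t)) (t : ι) :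
    TF g h f t = g t * f t - f t * h t := rfl

theorem TF_pow (g h : ∀ t, End k (V t)) (N : ℕ) (f : ∀ t, End k (V t)) (t : ι) :
    (TF g h ^ N) f t = (TT (g t) (h t) ^ N) (f t) := by
  induction N generalizing f with
  | zero => simp
  | succ n ih => rw [pow_succ, pow_succ, End.mul_apply, End.mul_apply, ih]; rfl

/-- splitting of the loop component `e` along generalised eigenspaces. -/
theorem split [Finite ι] [∀ t, FiniteDimensional k (V t)] (g h e : ∀ t, End k (V t))
    (S : Submodule k (∀ t, End k (V t))) (hS : ∀ x ∈ S, TF g h x ∈ S) (he : TF g h e ∈ S) :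
    ∃ e0 e1 : ∀ t, End k (V t), e = e0 + e1 ∧ e1 ∈ S ∧
      (∀ (t : ι) (l : k), ∀ v ∈ End.maxGenEigenspace (h t) l,
        e0 t v ∈ End.maxGenEigenspace (g t) l) ∧
      ∀ (P : End k (∀ t, End k (V t))) (c : k), P * TF g h = TF g h * P → P e = c • e →
        P e0 = c • e0 := by
  obtain ⟨N, e0, e1, h1, h2, h3, h4⟩ := fit (TF g h) S hS e he
  refine ⟨e0, e1, h1, h3, fun t l v hv => ?_, h4⟩
  refine shift l (g t) (h t) (e0 t) N ?_ v hv
  rw [← TF_pow, h2]
  rfl

end Fam

end Crest.Agent.R175.GrA_510
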