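import Crest.Agent.R175.GrA_510

/-!
Row 175 (S0263), grading block (#2763 (2), (3)), helper510: the integer position operator.

`posOp F` acts on the generalised `l`-eigenspace of `F` as the integer `pos l`, where
`pos 0 = 0`, `pos (l + 1) = pos l + 1`.
Main result `grading`.
-/

set_option autoImplicit false
set_option linter.unusedSectionVars false

open Module

namespace Crest.Agent.R175.GrA_510

noncomputable section

/-! ### functional calculus -/

section FC

variable {k : Type*} [Field k] [IsAlgClosed k]
variable {V : Type*} [AddCommGroup V] [Module k V] [FiniteDimensional k V]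
variable {V' : Type*} [AddCommGroup V'] [Module k V'] [FiniteDimensional k V']

open Classical in
theorem internal_gen (g : End k V) : DirectSum.IsInternal (End.maxGenEigenspace g) := by
  rw [DirectSum.isInternal_submodule_iff_iSupIndep_and_iSup_eq_top]
  exact ⟨End.independent_maxGenEigenspace g, End.iSup_maxGenEigenspace_eq_top g⟩

open Classical in
/-- the operator acting as `c l` on the generalised `l`-eigenspace of `g`. -/
def fc (c : k → k) (g : End k V) : End k V :=
  (DirectSum.toModule k k V fun l => c l • (End.maxGenEigenspace g l).subtype) ∘ₗ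
    (LinearEquiv.ofBijective (DirectSum.coeLinearMap (End.maxGenEigenspace g))
      (internal_gen g)).symm.toLinearMap

open Classical in
theorem fc_apply (c : k → k) (g : End k V) {l : k} {v : V}
    (hv : v ∈ End.maxGenEigenspace g l) : fc c g v = c l • v := by
  have h1 : (LinearEquiv.ofBijective (DirectSum.coeLinearMap (End.maxGenEigenspace g))
      (internal_gen g)).symm v = DirectSum.lof k k _ l ⟨v, hv⟩ := by
    rw [LinearEquiv.symm_apply_eq]
    exact (DirectSum.coeLinearMap_lof (End.maxGenEigenspace g) l ⟨v, hv⟩).symm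
  show (DirectSum.toModule k k V fun l => c l • (End.maxGenEigenspace g l).subtype)
    ((LinearEquiv.ofBijective (DirectSum.coeLinearMap (End.maxGenEigenspace g))
      (internal_gen g)).symm v) = _
  rw [h1, DirectSum.toModule_lof]
  rfl

/-- linear maps which agree on the generalised eigenspaces are equal. -/
theorem ext_gen (g : End k V) {X : Type*} [AddCommGroup X] [Module k X] {f f' : V →ₗ[k] X}
    (h : ∀ l, ∀ v ∈ End.maxGenEigenspace g l, f v = f' v) : f = f' := by
  have h1 : ⨆ l, End.maxGenEigenspace g l ≤ LinearMap.eqLocus f f' :=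
    iSup_le fun l v hv => h l v hv
  rw [End.iSup_maxGenEigenspace_eq_top] at h1
  ext v
  exact h1 (Submodule.mem_top (x := v))

/-- intertwiners preserve the generalised eigenspaces. -/
theorem map_gen {g : End k V} {g' : End k V'} (f : V →ₗ[k] V') (hf : g' ∘ₗ f = f ∘ₗ g) (l : k) :
    ∀ v ∈ End.maxGenEigenspace g l, f v ∈ End.maxGenEigenspace g' l := by
  intro v hv
  rw [End.mem_maxGenEigenspace] at hv ⊢
  obtain ⟨n, hn⟩ := hv
  refine ⟨n, ?_⟩
  have h1 : ∀ m : ℕ, ∀ w, ((g' - l • 1) ^ m) (f w) = f (((g - l • 1) ^ m) w) := by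
    intro m
    induction m with
    | zero => intro w; simp
    | succ m ih =>
      intro w
      rw [pow_succ, pow_succ, End.mul_apply, End.mul_apply]
      have : (g' - l • 1) (f w) = f ((g - l • 1) w) := by
        have h2 := congrArg (fun φ : V →ₗ[k] V' => φ w) hf
        simp only [LinearMap.comp_apply] at h2
        simp only [LinearMap.sub_apply, LinearMap.smul_apply, Module.End.one_apply, map_sub,
          map_smul, h2]
      rw [this, ih]
  rw [h1, hn, map_zero]

/-- `fc` is functorial for maps `f` with `f (V_l) ⊆ V'_(σ l)`. -/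
theorem fc_map (c : k → k) {g : End k V} {g' : End k V'} (f : V →ₗ[k] V') (σ : k → k)
    (hf : ∀ l, ∀ v ∈ End.maxGenEigenspace g l, f v ∈ End.maxGenEigenspace g' (σ l)) :
    fc c g' ∘ₗ f = f ∘ₗ fc (fun l => c (σ l)) g := by
  refine ext_gen g fun l v hv => ?_
  rw [LinearMap.comp_apply, LinearMap.comp_apply, fc_apply _ _ (hf l v hv), fc_apply _ _ hv,
    map_smul]

theorem fc_comm (c : k → k) {g : End k V} {g' : End k V'} (f : V →ₗ[k] V')
    (hf : g' ∘ₗ f = f ∘ₗ g) : fc c g' ∘ₗ f = f ∘ₗ fc c g :=
  fc_map c f id (map_gen f hf)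

theorem fc_add (c d : k → k) (g : End k V) : fc (fun l => c l + d l) g = fc c g + fc d g := by
  refine ext_gen g fun l v hv => ?_
  rw [LinearMap.add_apply, fc_apply _ _ hv, fc_apply _ _ hv, fc_apply _ _ hv, add_smul]

theorem fc_one (g : End k V) : fc (fun _ => 1) g = 1 := by
  refine ext_gen g fun l v hv => ?_
  rw [fc_apply _ _ hv, one_smul, Module.End.one_apply]

/-- maps into the kernel of `g`. -/
theorem fc_comp_zero (c : k → k) (hc : c 0 = 0) {g : End k V} {X : Type*} [AddCommGroup X]
    [Module k X] (f : X →ₗ[k] V) (hf : g ∘ₗ f = 0) : fc c g ∘ₗ f = 0 := by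
  ext x
  have hx : f x ∈ End.maxGenEigenspace g 0 := by
    rw [End.mem_maxGenEigenspace]
    refine ⟨1, ?_⟩
    have := congrArg (fun φ : X →ₗ[k] V => φ x) hf
    simpa using this
  rw [LinearMap.comp_apply, fc_apply _ _ hx, hc, zero_smul, LinearMap.zero_apply]

/-- functionals killing the range of `g` vanish on `V_l`, `l ≠ 0`. -/
theorem gen_eq_zero {g : End k V} {X : Type*} [AddCommGroup X] [Module k X] (f : V →ₗ[k] X)
    (hf : f ∘ₗ g = 0) {l : k} (hl : l ≠ 0) : ∀ v ∈ End.maxGenEigenspace g l, f v = 0 := by
  intro v hv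
  rw [End.mem_maxGenEigenspace] at hv
  obtain ⟨n, hn⟩ := hv
  have h1 : ∀ m : ℕ, ∀ w, f (((g - l • 1) ^ m) w) = (-l) ^ m • f w := by
    intro m
    induction m with
    | zero => intro w; simp
    | succ m ih =>
      intro w
      rw [pow_succ, End.mul_apply, ih]
      have h2 : f (g w) = 0 := congrArg (fun φ : V →ₗ[k] X => φ w) hf
      have : f ((g - l • 1) w) = (-l) • f w := by
        simp only [LinearMap.sub_apply, LinearMap.smul_apply, Module.End.one_apply, map_sub,
          map_smul, h2, zero_sub, neg_smul]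
      rw [this, smul_smul, pow_succ]
  have h3 := h1 n v
  rw [hn, map_zero] at h3
  exact (smul_eq_zero.1 h3.symm).resolve_left (pow_ne_zero _ (neg_ne_zero.2 hl))

theorem comp_fc_zero (c : k → k) (hc : c 0 = 0) {g : End k V} {X : Type*} [AddCommGroup X]
    [Module k X] (f : V →ₗ[k] X) (hf : f ∘ₗ g = 0) : f ∘ₗ fc c g = 0 := by
  refine ext_gen g fun l v hv => ?_
  rw [LinearMap.comp_apply, fc_apply _ _ hv, map_smul, LinearMap.zero_apply]
  by_cases hl : l = 0
  · rw [hl, hc, zero_smul]
  · rw [gen_eq_zero f hf hl v hv, smul_zero]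

end FC

/-! ### the position function -/

section Pos

variable {k : Type*} [Field k] [CharZero k]

/-- `pos 0 = 0`, `pos (l + 1) = pos l + 1`. -/
theorem exists_pos : ∃ p : k → ℤ, p 0 = 0 ∧ ∀ l, p (l + 1) = p l + 1 := by
  classical
  let H : AddSubgroup k := AddSubgroup.zmultiples (1 : k)
  let r : k ⧸ H → k := fun q => if q = 0 then 0 else q.out
  have hr : ∀ l : k, l - r (QuotientAddGroup.mk l) ∈ H := by
    intro l
    simp only [r]
    split_ifs with h
    · rw [sub_zero]
      exact (QuotientAddGroup.eq_zero_iff l).1 h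
    · have h2 : (QuotientAddGroup.mk (Quotient.out (QuotientAddGroup.mk l : k ⧸ H)) : k ⧸ H) =
          QuotientAddGroup.mk l := QuotientAddGroup.out_eq' _
      have h3 := (QuotientAddGroup.eq (s := H)).1 h2
      rw [neg_add_eq_sub] at h3
      exact h3
  have hm : ∀ l : k, ∃ n : ℤ, (n : k) = l - r (QuotientAddGroup.mk l) := by
    intro l
    obtain ⟨n, hn⟩ := AddSubgroup.mem_zmultiples_iff.1 (hr l)
    exact ⟨n, by rw [← hn]; simp⟩
  choose p hp using hm
  refine ⟨p, ?_, fun l => ?_⟩
  · have h0 : r (QuotientAddGroup.mk (0 : k)) = 0 := by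
      simp [r]
    have := hp 0
    rw [h0, sub_zero] at this
    exact_mod_cast this
  · have h1 : (QuotientAddGroup.mk (l + 1) : k ⧸ H) = QuotientAddGroup.mk l := by
      rw [QuotientAddGroup.eq]
      have : -(l + 1) + l = -1 := by ring
      rw [this]
      exact H.neg_mem (AddSubgroup.mem_zmultiples _)
    have h2 := hp (l + 1)
    rw [h1] at h2
    have h3 : ((p (l + 1) : ℤ) : k) = ((p l + 1 : ℤ) : k) := by
      rw [h2]
      push_cast
      rw [hp l]
      ring
    exact_mod_cast h3

/-- the position function. -/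
def pos : k → ℤ := exists_pos.choose

theorem pos_zero : pos (0 : k) = 0 := exists_pos.choose_spec.1

theorem pos_add_one (l : k) : pos (l + 1) = pos l + 1 := exists_pos.choose_spec.2 l

end Pos

/-! ### the position operator -/

section PosOp

variable {k : Type*} [Field k] [IsAlgClosed k] [CharZero k]
variable {V : Type*} [AddCommGroup V] [Module k V] [FiniteDimensional k V]
variable {V' : Type*} [AddCommGroup V'] [Module k V'] [FiniteDimensional k V']

/-- the integer position operator of `F`. -/
def posOp (F : End k V) : End k V := fc (fun l => (pos l : k)) F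

theorem posOp_comm {F : End k V} {F' : End k V'} (f : V →ₗ[k] V') (hf : F' ∘ₗ f = f ∘ₗ F) :
    posOp F' ∘ₗ f = f ∘ₗ posOp F := fc_comm _ f hf

theorem posOp_comp_zero {F : End k V} {X : Type*} [AddCommGroup X] [Module k X] (f : X →ₗ[k] V)
    (hf : F ∘ₗ f = 0) : posOp F ∘ₗ f = 0 :=
  fc_comp_zero _ (by simp [pos_zero]) f hf

theorem comp_posOp_zero {F : End k V} {X : Type*} [AddCommGroup X] [Module k X] (f : V →ₗ[k] X)
    (hf : f ∘ₗ F = 0) : f ∘ₗ posOp F = 0 :=
  comp_fc_zero _ (by simp [pos_zero]) f hf

/-- the eigenspaces of the position operator for integers give a grading. -/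
theorem posOp_internal (F : End k V) :
    DirectSum.IsInternal fun n : ℤ => End.eigenspace (posOp F) (n : k) := by
  have hinj : Function.Injective fun n : ℤ => (n : k) := Int.cast_injective
  rw [DirectSum.isInternal_submodule_iff_iSupIndep_and_iSup_eq_top]
  refine ⟨(End.eigenspaces_iSupIndep (posOp F)).comp hinj, ?_⟩
  rw [eq_top_iff, ← End.iSup_maxGenEigenspace_eq_top F]
  refine iSup_le fun l v hv => ?_
  refine Submodule.mem_iSup_of_mem (pos l) ?_
  rw [End.mem_eigenspace_iff]
  exact fc_apply _ _ hv

/-- `e` raises the position by one if it maps `V_l` to `V_(l+1)`. -/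
theorem posOp_shift {F : End k V} {e : End k V}
    (he : ∀ l, ∀ v ∈ End.maxGenEigenspace F l, e v ∈ End.maxGenEigenspace F (l + 1)) :
    posOp F * e - e * posOp F = e := by
  have h := fc_map (fun l => (pos l : k)) e (fun l => l + 1) he
  have h1 : fc (fun l => (pos (l + 1) : k)) F = posOp F + 1 := by
    have : (fun l : k => ((pos (l + 1) : ℤ) : k)) = fun l => ((pos l : ℤ) : k) + 1 := by
      funext l
      rw [pos_add_one]
      push_cast
      rfl
    rw [this, fc_add, fc_one]
    rfl
  have h2 : posOp F * e = e * (posOp F + 1) := by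
    rw [← h1]
    exact h
  rw [h2, mul_add, mul_one]
  abel

end PosOp

/-! ### the grading theorem -/

section Main

variable {k ι : Type*} {V : ι → Type*} [Field k] [IsAlgClosed k] [CharZero k] [Finite ι]
  [∀ t, AddCommGroup (V t)] [∀ t, Module k (V t)] [∀ t, FiniteDimensional k (V t)]

theorem maxGen_add_one {W : Type*} [AddCommGroup W] [Module k W] (F : End k W) (l : k) :
    End.maxGenEigenspace (F + 1) (l + 1) = End.maxGenEigenspace F l := by
  ext v
  rw [End.mem_maxGenEigenspace, End.mem_maxGenEigenspace]
  have : F + 1 - (l + 1) • (1 : End k W) = F - l • 1 := by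
    rw [add_smul, one_smul]
    abel
  rw [this]

/-- **The grading theorem** (#2763 (2), (3)). `S` is stable under `ad F` and `[F, e] = e` modulo `S`;
then `e = e'` modulo `S` with `[posOp F, e'] = e'`; moreover `e'` inherits every symmetry `P` which
commutes with `ad F`. -/
theorem grading (F e : ∀ t, End k (V t)) (S : Submodule k (∀ t, End k (V t)))
    (hS : ∀ x ∈ S, (fun t => F t * x t - x t * F t) ∈ S)
    (he : (fun t => F t * e t - e t * F t - e t) ∈ S) :
    ∃ e' : ∀ t, End k (V t), e - e' ∈ S ∧
      (∀ t, posOp (F t) * e' t - e' t * posOp (F t) = e' t) ∧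
      ∀ (P : End k (∀ t, End k (V t))) (c : k),
        (∀ x, P (fun t => F t * x t - x t * F t) = fun t => F t * P x t - P x t * F t) →
        P e = c • e → P e' = c • e' := by
  have hTF : ∀ x, TF F (fun t => F t + 1) x = fun t => F t * x t - x t * F t - x t := by
    intro x
    funext t
    rw [TF_apply, mul_add, mul_one]
    abel
  obtain ⟨e0, e1, h1, h2, h3, h4⟩ := split F (fun t => F t + 1) e S
    (fun x hx => by
      rw [hTF]
      exact S.sub_mem (hS x hx) hx)
    (by rw [hTF]; exact he)
  refine ⟨e0, by rw [h1, add_sub_cancel_left]; exact h2, fun t => ?_, fun P c hP hPe => ?_⟩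
  · refine posOp_shift fun l v hv => ?_
    refine h3 t (l + 1) v ?_
    rw [maxGen_add_one]
    exact hv
  · refine h4 P c ?_ hPe
    ext1 x
    have e1 : P (TF F (fun t => F t + 1) x) = TF F (fun t => F t + 1) (P x) := by
      rw [hTF, hTF]
      have : (fun t => F t * x t - x t * F t - x t) = (fun t => F t * x t - x t * F t) - x := rfl
      rw [this, map_sub, hP]
      rfl
    exact e1

end Main

end

end Crest.Agent.R175.GrA_510
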