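import Mathlib

/-!
Row 175 (S0263), block GRAD, part (G1), linear algebra (helper128): semicontinuity of the rank and
of the homology in a pencil `A + s • B`.
-/

set_option autoImplicit false

open Module

namespace Crest.Agent.R175.Grad0_128

variable {k : Type*} [Field k]

section pencil

variable {E F : Type*} [AddCommGroup E] [Module k E] [AddCommGroup F] [Module k F]

/-- the polynomial `det (M + X N)`. -/
noncomputable def detP {n : ℕ} (M N : Matrix (Fin n) (Fin n) k) : Polynomial k :=
  (M.map Polynomial.C + (Polynomial.X : Polynomial k) • N.map Polynomial.C).det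

theorem eval_detP {n : ℕ} (M N : Matrix (Fin n) (Fin n) k) (s : k) :
    (detP M N).eval s = (M + s • N).det := by
  have h := (Polynomial.evalRingHom s).map_det
    (M.map Polynomial.C + (Polynomial.X : Polynomial k) • N.map Polynomial.C)
  rw [detP, ← Polynomial.coe_evalRingHom, h]
  congr 1
  ext i j
  simp
  exact mul_comm _ _

/-- the rank of `A + s B` is at least the rank of `A + B` for all but finitely many `s`. -/
theorem pencil_finite [FiniteDimensional k F] (A B : E →ₗ[k] F) :
    {s : k | finrank k (LinearMap.range (A + s • B)) <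
      finrank k (LinearMap.range (A + B))}.Finite := by
  let R := LinearMap.range (A + B)
  obtain ⟨σ, hσ⟩ := (A + B).rangeRestrict.exists_rightInverse_of_surjective
    (LinearMap.range_rangeRestrict _)
  obtain ⟨p, hp⟩ := R.subtype.exists_leftInverse_of_injective (Submodule.ker_subtype R)
  let b := Module.finBasis k R
  let M := LinearMap.toMatrix b b (p ∘ₗ A ∘ₗ σ)
  let N := LinearMap.toMatrix b b (p ∘ₗ B ∘ₗ σ)
  have hMN : ∀ s : k, M + s • N = LinearMap.toMatrix b b (p ∘ₗ (A + s • B) ∘ₗ σ) := by
    intro s
    have : p ∘ₗ (A + s • B) ∘ₗ σ = p ∘ₗ A ∘ₗ σ + s • (p ∘ₗ B ∘ₗ σ) := by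
      ext x
      simp
    rw [this, map_add, map_smul]
  have h1 : p ∘ₗ (A + (1 : k) • B) ∘ₗ σ = LinearMap.id := by
    ext x
    have h2 : (A + B) (σ x) = x.1 := by
      have := LinearMap.congr_fun hσ x
      simpa using congrArg Subtype.val this
    have h3 : p x.1 = x := LinearMap.congr_fun hp x
    simp only [one_smul, LinearMap.comp_apply, LinearMap.id_apply, h2, h3]
  have hne : detP M N ≠ 0 := by
    intro h0
    have h2 : (detP M N).eval 1 = 1 := by
      rw [eval_detP, hMN, h1, LinearMap.toMatrix_id, Matrix.det_one]
    rw [h0, Polynomial.eval_zero] at h2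
    exact zero_ne_one h2
  refine (Polynomial.finite_setOfPred_isRoot hne).subset fun s hs => ?_
  by_contra hroot
  have hdet : (M + s • N).det ≠ 0 := by
    rw [← eval_detP]; exact hroot
  rw [hMN] at hdet
  have hu : IsUnit (LinearMap.toMatrix b b (p ∘ₗ (A + s • B) ∘ₗ σ)) :=
    (Matrix.isUnit_iff_isUnit_det _).2 (isUnit_iff_ne_zero.2 hdet)
  have hinj : Function.Injective (p ∘ₗ (A + s • B) ∘ₗ σ) := by
    have : IsUnit (p ∘ₗ (A + s • B) ∘ₗ σ) := by
      have h5 := (LinearMap.toMatrixAlgEquiv b).symm.toRingEquiv.toRingHom.isUnit_map hu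
      have h6 : (LinearMap.toMatrixAlgEquiv b).symm
          (LinearMap.toMatrix b b (p ∘ₗ (A + s • B) ∘ₗ σ)) = p ∘ₗ (A + s • B) ∘ₗ σ :=
        (LinearMap.toMatrixAlgEquiv b).symm_apply_apply _
      rwa [← h6]
    exact ((Module.End.isUnit_iff _).1 this).1
  have hle : finrank k R ≤ finrank k (LinearMap.range (A + s • B)) := by
    let f : R →ₗ[k] LinearMap.range (A + s • B) := (A + s • B).rangeRestrict ∘ₗ σ
    refine LinearMap.finrank_le_finrank_of_injective (f := f) fun x y hxy => hinj ?_
    have h7 : (A + s • B) (σ x) = (A + s • B) (σ y) := by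
      simpa [f] using congrArg Subtype.val hxy
    show p ((A + s • B) (σ x)) = p ((A + s • B) (σ y))
    rw [h7]
  exact absurd hs (not_lt.2 hle)

end pencil

section homology

variable {C : Type*} [AddCommGroup C] [Module k C] [FiniteDimensional k C]

/-- the dimension of the homology of `D` with `D ∘ D = 0`. -/
theorem finrank_ker_sub (D : C →ₗ[k] C) :
    finrank k (LinearMap.ker D) - finrank k (LinearMap.range D) =
      finrank k C - 2 * finrank k (LinearMap.range D) := by
  have := LinearMap.finrank_range_add_finrank_ker D
  omega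

/-- the dimension of the homology `ker D / im D` as a quotient. -/
theorem finrank_homology (D : C →ₗ[k] C) (hD : D ∘ₗ D = 0) :
    finrank k (LinearMap.ker D ⧸ (LinearMap.range D).comap (LinearMap.ker D).subtype) +
      2 * finrank k (LinearMap.range D) = finrank k C := by
  have hle : LinearMap.range D ≤ LinearMap.ker D := by
    rintro _ ⟨x, rfl⟩
    exact LinearMap.congr_fun hD x
  have h1 := Submodule.finrank_quotient_add_finrank
    ((LinearMap.range D).comap (LinearMap.ker D).subtype)
  have h2 : finrank k ((LinearMap.range D).comap (LinearMap.ker D).subtype) =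
      finrank k (LinearMap.range D) :=
    (Submodule.comapSubtypeEquivOfLe hle).finrank_eq
  have h3 := LinearMap.finrank_range_add_finrank_ker D
  omega

/-- semicontinuity of the homology: for all but finitely many `s` the homology of `A + s B` is at
most that of `A + B`. -/
theorem homology_finite (A B : C →ₗ[k] C) :
    {s : k | finrank k C - 2 * finrank k (LinearMap.range (A + B)) <
      finrank k C - 2 * finrank k (LinearMap.range (A + s • B))}.Finite := by
  refine (pencil_finite A B).subset fun s hs => ?_
  simp only [Set.mem_ofPred_eq] at hs ⊢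
  omega

end homology

end Crest.Agent.R175.Grad0_128
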