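import Crest.Agent.R175.Semi_663

/-!
The Coxeter matrix on 116 generators used for S0264, homomorphisms out of its Artin group.
-/

set_option autoImplicit false

namespace Crest.Agent.R175.Grp_663

open Crest.GroupTheory Crest.Agent.R175.FreeC_663 Crest.Agent.R175.Semi_663

/-- the core: `(i, 0)` triangle, `(i, k)` the leaves of the `D₄` piece with centre `(i + 1, 0)` -/
abbrev Core := Fin 3 × Fin 3

/-- the 116 generators -/
inductive Gen : Type
  | core (s : Core)
  | og (i m j : Fin 3)
  | eg (i : Fin 3) (j : Fin 2)
  | vg (j : Fin 2)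
  | pad (k : Fin 72)
  deriving DecidableEq

open Gen

/-- the generators as a sum -/
def genEquiv : Gen ≃ (Core ⊕ (Fin 3 × Fin 3 × Fin 3)) ⊕ ((Fin 3 × Fin 2) ⊕ Fin 2) ⊕ Fin 72 where
  toFun
    | core s => Sum.inl (Sum.inl s)
    | og i m j => Sum.inl (Sum.inr (i, m, j))
    | eg i j => Sum.inr (Sum.inl (Sum.inl (i, j)))
    | vg j => Sum.inr (Sum.inl (Sum.inr j))
    | pad k => Sum.inr (Sum.inr k)
  invFun
    | Sum.inl (Sum.inl s) => core s
    | Sum.inl (Sum.inr (i, m, j)) => og i m j
    | Sum.inr (Sum.inl (Sum.inl (i, j))) => eg i j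
    | Sum.inr (Sum.inl (Sum.inr j)) => vg j
    | Sum.inr (Sum.inr k) => pad k
  left_inv x := by cases x <;> rfl
  right_inv x := by rcases x with (s | ⟨i, m, j⟩) | ((⟨i, j⟩ | j) | k) <;> rfl

instance : Fintype Gen := Fintype.ofEquiv _ genEquiv.symm

theorem card_gen : Fintype.card Gen = 116 := by
  rw [Fintype.card_congr genEquiv]
  simp

/-- first leaf of the pair number `m` -/
def uu (i m : Fin 3) : Core := (i, ![1, 0, 0] m)

/-- second leaf of the pair number `m` -/
def vv (i m : Fin 3) : Core := (i, ![2, 2, 1] m)

/-- one half of the relation `label 3` -/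
def h3 : Gen → Gen → Bool
  | core s, core t => decide (t = (s.1 + 1, 0))
  | _, _ => false

/-- one half of the relation `label 2` -/
def h2 : Gen → Gen → Bool
  | core s, core t => decide (s.1 = t.1)
  | og i m j, core t => if j = 0 then decide (t = vv i m) else decide (t = uu i m)
  | og i m j, og i' m' j' => decide (i = i' ∧ m = m' ∧ j = 0 ∧ j' ≠ 0)
  | eg i _, core t => decide (t = (i, 0) ∨ t = (i + 1, 0))
  | vg _, core t => decide (t.2 = 0)
  | _, _ => false

/-- the Coxeter matrix -/
def MM : CoxeterMatrix Gen where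
  M := Matrix.of fun s t => if s = t then 1 else
    if h3 s t || h3 t s then 3 else if h2 s t || h2 t s then 2 else 0
  isSymm := by
    ext s t
    simp only [Matrix.transpose_apply, Matrix.of_apply]
    by_cases h : s = t
    · subst h; rfl
    · rw [if_neg h, if_neg (Ne.symm h), Bool.or_comm (h3 t s), Bool.or_comm (h2 t s)]
  diagonal s := by simp
  off_diagonal s t h := by
    simp only [Matrix.of_apply, if_neg h]
    split_ifs <;> simp

theorem MM_apply {s t : Gen} (h : s ≠ t) : MM.M s t =
    if h3 s t || h3 t s then 3 else if h2 s t || h2 t s then 2 else 0 := by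
  show (if s = t then 1 else _) = _
  rw [if_neg h]

theorem MM_label (s t : Gen) (h : s ≠ t) : MM.M s t = 0 ∨ MM.M s t = 2 ∨ MM.M s t = 3 := by
  rw [MM_apply h]
  split_ifs <;> simp

/-- the group -/
abbrev GG := ArtinGroup MM

/-- generators -/
def gen (s : Gen) : GG := artinGen MM s

theorem alt_three {L : Type*} [Monoid L] (a b : L) : alt a b 3 = a * b * a := by
  simp [alt, mul_assoc]

/-- homomorphisms out of `GG` -/
def hom {L : Type*} [Group L] (f : Gen → L)
    (hb : ∀ s t, h3 s t = true → f s * f t * f s = f t * f s * f t)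
    (hc : ∀ s t, h2 s t = true → f s * f t = f t * f s) : GG →* L :=
  toHom MM f (by
    intro s t
    by_cases h : s = t
    · subst h; rfl
    rw [MM_apply h]
    split_ifs with h1 h2
    · rw [alt_three, alt_three]
      rw [Bool.or_eq_true] at h1
      rcases h1 with h1 | h1
      · exact hb s t h1
      · exact (hb t s h1).symm
    · rw [alt_two, alt_two]
      rw [Bool.or_eq_true] at h2
      rcases h2 with h2 | h2
      · exact hc s t h2
      · exact (hc t s h2).symm
    · rfl)

@[simp] theorem hom_gen {L : Type*} [Group L] (f : Gen → L)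
    (hb : ∀ s t, h3 s t = true → f s * f t * f s = f t * f s * f t)
    (hc : ∀ s t, h2 s t = true → f s * f t = f t * f s) (s : Gen) :
    hom f hb hc (gen s) = f s := toHom_gen MM f _ s

/-- extend by `1` outside of the core -/
def ext1 {L : Type*} [One L] (F : Core → L) : Gen → L
  | core s => F s
  | _ => 1

/-- homomorphisms given on the core, trivial on the other generators -/
def coreHom {L : Type*} [Group L] (F : Core → L)
    (hb : ∀ s : Core, F s * F (s.1 + 1, 0) * F s = F (s.1 + 1, 0) * F s * F (s.1 + 1, 0))
    (hc : ∀ s t : Core, s.1 = t.1 → F s * F t = F t * F s) : GG →* L :=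
  hom (ext1 F)
    (by
      rintro (s | _ | _ | _ | _) (t | _ | _ | _ | _) h <;> simp [h3] at h
      subst h
      exact hb s)
    (by
      rintro (s | _ | _ | _ | _) (t | _ | _ | _ | _) h <;> simp only [ext1, mul_one, one_mul]
      simp only [h2, decide_eq_true_eq] at h
      exact hc s t h)

@[simp] theorem coreHom_core {L : Type*} [Group L] (F : Core → L)
    (hb : ∀ s : Core, F s * F (s.1 + 1, 0) * F s = F (s.1 + 1, 0) * F s * F (s.1 + 1, 0))
    (hc : ∀ s t : Core, s.1 = t.1 → F s * F t = F t * F s) (s : Core) :
    coreHom F hb hc (gen (core s)) = F s := hom_gen _ _ _ _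

theorem coreHom_not {L : Type*} [Group L] (F : Core → L)
    (hb : ∀ s : Core, F s * F (s.1 + 1, 0) * F s = F (s.1 + 1, 0) * F s * F (s.1 + 1, 0))
    (hc : ∀ s t : Core, s.1 = t.1 → F s * F t = F t * F s) (s : Gen) (hs : ∀ t, s ≠ core t) :
    coreHom F hb hc (gen s) = 1 := by
  rw [coreHom, hom_gen]
  cases s with
  | core s => exact absurd rfl (hs s)
  | _ => rfl

/-- homomorphisms which fold the leaves to the triangle -/
def triHom {L : Type*} [Group L] (A : Fin 3 → L)
    (hb : ∀ i : Fin 3, A i * A (i + 1) * A i = A (i + 1) * A i * A (i + 1)) : GG →* L :=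
  coreHom (fun s => A s.1) (fun s => hb s.1) (fun s t h => by rw [h])

@[simp] theorem triHom_core {L : Type*} [Group L] (A : Fin 3 → L)
    (hb : ∀ i : Fin 3, A i * A (i + 1) * A i = A (i + 1) * A i * A (i + 1)) (s : Core) :
    triHom A hb (gen (core s)) = A s.1 := coreHom_core _ _ _ _

theorem triHom_not {L : Type*} [Group L] (A : Fin 3 → L)
    (hb : ∀ i : Fin 3, A i * A (i + 1) * A i = A (i + 1) * A i * A (i + 1)) (s : Gen)
    (hs : ∀ t, s ≠ core t) : triHom A hb (gen s) = 1 := coreHom_not _ _ _ s hs

/-- relations -/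
theorem braid {s t : Gen} (h : h3 s t = true) :
    gen s * gen t * gen s = gen t * gen s * gen t := by
  apply braid_of_three
  have hne : s ≠ t := by
    rintro rfl
    cases s with
    | core s =>
      simp only [h3, decide_eq_true_eq] at h
      have h1 := congrArg Prod.fst h
      simp at h1
    | _ => simp [h3] at h
  rw [MM_apply hne, h]
  simp

theorem braid_core (s : Core) : gen (core s) * gen (core (s.1 + 1, 0)) * gen (core s) =
    gen (core (s.1 + 1, 0)) * gen (core s) * gen (core (s.1 + 1, 0)) :=
  braid (by simp [h3])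

theorem label_two {s t : Gen} (hne : s ≠ t) (h : h2 s t = true) : MM.M s t = 2 := by
  have h3' : (h3 s t || h3 t s) = false := by
    rcases s with s | _ | _ | _ | _ <;> rcases t with t | _ | _ | _ | _ <;> simp [h3]
    simp only [h2, decide_eq_true_eq] at h
    constructor
    · intro e
      have := congrArg Prod.fst e
      simp only at this
      rw [← h] at this
      simp at this
    · intro e
      have := congrArg Prod.fst e
      simp only at this
      rw [h] at this
      simp at this
  rw [MM_apply hne, h3', h]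
  simp

theorem comm {s t : Gen} (hne : s ≠ t) (h : h2 s t = true) : gen s * gen t = gen t * gen s :=
  comm_of_two MM (label_two hne h)

theorem comm_core {s t : Core} (h : s.1 = t.1) :
    gen (core s) * gen (core t) = gen (core t) * gen (core s) := by
  by_cases hst : s = t
  · rw [hst]
  · exact comm (fun e => hst (Gen.core.inj e)) (by simpa [h2] using h)

theorem label_zero {s t : Gen} (hne : s ≠ t) (h : h3 s t = false) (h' : h3 t s = false)
    (k : h2 s t = false) (k' : h2 t s = false) : MM.M s t = 0 := by
  rw [MM_apply hne, h, h', k, k']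
  simp

end Crest.Agent.R175.Grp_663
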