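import Crest.Agent.R175.ResTU_774
import Crest.Agent.R175.Fin_788

/-!
# Field `hact` of `CatI_788.Inp` for `Fin_788.actM` (row 175, item (e) of RULING 10, helper774)
-/

set_option autoImplicit false
set_option linter.unusedSectionVars false
set_option linter.unusedVariables false

open CategoryTheory
open scoped Classical

namespace Crest.Agent.R175.Hact_774

open Crest.GroupTheory Crest.Agent.R175.PTA Crest.Agent.R175.Cls_133 Crest.Agent.R175.UG_27
open Crest.Agent.R175.Unf_109 Crest.Agent.R175.ResI_663 Crest.Agent.R175.Res4_428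
open Crest.Agent.R175.FmResU_663 Crest.Agent.R175.LResC_774 Crest.Agent.R175.VdL_527
open Crest.Agent.R175.TwcI_774 Crest.Agent.R175.Fin_788

variable {S : Type} [Fintype S] (M : CoxeterMatrix S) {Λ : Finset ℕ}

theorem fit_fib (T : Set S) [Fintype T] (t : T) :
    Fit (inc T Λ) (fun a : S × J Λ => a.1 = (t : S)) (fun a : T × J Λ => a.1 = t) where
  iff a := ⟨fun e => Subtype.ext e, fun e => congrArg Subtype.val e⟩
  out u := fun e => u.2 ((mem_range_inc T Λ u.1).2 (by rw [show u.1.1 = (t : S) from e]; exact t.2))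

/-- restriction commutes with the twist of a fibre, on classes -/
theorem rU_pF (T : Set S) [Fintype T] (t : T) (x : Cls (UG M Λ) ℂ) :
    rU M Λ T (pF M Λ (t : S) x) = pF (res M T) Λ t (rU M Λ T x) :=
  ResTU_774.rC_pU (G := UG M Λ) (inc_inj T Λ) (fib_hU M Λ (t : S)) (fib_hU (res M T) Λ t)
    (fit_fib T t) x

/-- **field `hact`** -/
theorem hact (hΛ : Good M Λ) (T : Set S) [Fintype T] (hT : Good (res M T) Λ) (t : T)
    (x : Cls (UG M Λ) ℂ) :
    rU M Λ T ((actM M hΛ).act.smul (artinGen M (t : S)) x) =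
      (actM (res M T) hT).act.smul (artinGen (res M T) t) (rU M Λ T x) := by
  rw [gen_smul, gen_smul]
  exact rU_pF M T t x

end Crest.Agent.R175.Hact_774
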