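import Mathlib
import Crest.Agent.R175.Edge_974

/-!
# R175 (S0264) : `a⁻⁶ (a b)³` has infinite order
-/

set_option autoImplicit false

namespace Crest.Agent.R175

open Grp_184 Grp_184.Gn AttB_663 Matrix

/-- upper transvection -/
def sx : SpecialLinearGroup (Fin 2) ℤ := ⟨!![1, 1; 0, 1], by simp⟩
/-- lower transvection -/
def sy : SpecialLinearGroup (Fin 2) ℤ := ⟨!![1, 0; -1, 1], by simp⟩

theorem sxy_braid : sx * sy * sx = sy * sx * sy := by decide

/-- the element `x⁻⁶ (x y)³ = -x⁻⁶` -/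
def sw : SpecialLinearGroup (Fin 2) ℤ := ⟨!![-1, 6; 0, -1], by simp⟩

theorem sw_eq : (sx ^ 6)⁻¹ * (sx * sy) ^ 3 = sw := by decide

theorem sw_pow (n : ℕ) : (sw ^ n).1 =
    !![(-1 : ℤ) ^ n, -(-1 : ℤ) ^ n * 6 * (n : ℤ); 0, (-1 : ℤ) ^ n] := by
  induction n with
  | zero =>
    have : (sw ^ 0).1 = (1 : Matrix (Fin 2) (Fin 2) ℤ) := rfl
    rw [this, Matrix.one_fin_two]
    simp
  | succ n ih =>
    have e : (sw ^ (n + 1)).1 = (sw ^ n).1 * sw.1 := by rw [pow_succ]; rfl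
    rw [e, ih]
    simp only [sw, Matrix.mul_fin_two]
    congr 1
    ext i j
    fin_cases i <;> fin_cases j <;> simp <;> ring

theorem inf_order (i : Fin 3) (n : ℕ) (hn : 0 < n) :
    ((gn (a i) ^ 6)⁻¹ * (gn (a i) * gn (a (i + 1))) ^ 3) ^ n ≠ 1 := by
  intro h
  have h1 := congrArg (edgeHom sxy_braid i) h
  simp only [map_pow, map_mul, map_inv, map_one] at h1
  rw [edgeHom_a, edgeHom_b, sw_eq] at h1
  have h2 : (sw ^ n).1 0 1 = (1 : SpecialLinearGroup (Fin 2) ℤ).1 0 1 := by rw [h1]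
  rw [sw_pow] at h2
  have h3 : (1 : SpecialLinearGroup (Fin 2) ℤ).1 0 1 = 0 := rfl
  rw [h3] at h2
  simp at h2
  omega

end Crest.Agent.R175
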