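import Mathlib
import Crest.Agent.R175.Semi_663

/-!
# The unfolding (LCM) lemma

In a monoid with elements `s 1, …, s n` satisfying the braid relations of type `A_n`, the product `o` of
the generators with odd index and the product `e` of the generators with even index satisfy the braid
relation of length `n + 1`.  Consequence: the label `m` relation for products over the unfolding.
-/

set_option autoImplicit false

namespace Crest.Agent.R175.LCM_123

open Crest.Agent.R175.Semi_663

section Basic

variable {G : Type*} [Monoid G]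

theorem alt_succ_right (m : ℕ) : ∀ a b : G,
    alt a b (m + 1) = alt a b m * (if Even m then a else b) := by
  induction m with
  | zero => intro a b; simp [alt]
  | succ m ih =>
    intro a b
    have e : alt a b (m + 1) = a * alt b a m := rfl
    have e' : alt a b (m + 1 + 1) = a * alt b a (m + 1) := rfl
    rw [e', ih b a, e, mul_assoc]
    by_cases h : Even m
    · have h1 : ¬ Even (m + 1) := by simp [h, parity_simps]
      rw [if_pos h, if_neg h1]
    · have h1 : Even (m + 1) := by simp [h, parity_simps]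
      rw [if_neg h, if_pos h1]

theorem alt_commute {a b g : G} (ha : Commute a g) (hb : Commute b g) (m : ℕ) :
    Commute (alt a b m) g ∧ Commute (alt b a m) g := by
  induction m with
  | zero => exact ⟨Commute.one_left g, Commute.one_left g⟩
  | succ m ih => exact ⟨ha.mul_left ih.2, hb.mul_left ih.1⟩

theorem alt_mul {a b c d : G} (hac : Commute a c) (had : Commute a d) (hbc : Commute b c)
    (hbd : Commute b d) (m : ℕ) : alt (a * c) (b * d) m = alt a b m * alt c d m ∧
      alt (b * d) (a * c) m = alt b a m * alt d c m := by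
  induction m with
  | zero => simp [alt]
  | succ m ih =>
    have h1 : Commute (alt b a m) c := (alt_commute hac hbc m).2
    have h2 : Commute (alt a b m) d := (alt_commute had hbd m).1
    constructor
    · change a * c * alt (b * d) (a * c) m = a * alt b a m * (c * alt d c m)
      rw [ih.2, mul_assoc a c, ← mul_assoc c, ← h1.eq]
      simp only [mul_assoc]
    · change b * d * alt (a * c) (b * d) m = b * alt a b m * (d * alt c d m)
      rw [ih.1, mul_assoc b d, ← mul_assoc d, ← h2.eq]
      simp only [mul_assoc]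

end Basic

section Braid

variable {G : Type*} [Monoid G] (s : ℕ → G)

/-- `P (c + 1)` is the product `s c * s (c - 2) * ⋯`. -/
def P : ℕ → G
  | 0 => 1
  | 1 => 1
  | c + 2 => s (c + 1) * P c

/-- `U c j = s (c + 2 j - 1) * ⋯ * s (c + 3) * s (c + 1)` -/
def U (c : ℕ) : ℕ → G
  | 0 => 1
  | j + 1 => s (c + 2 * j + 1) * U c j

/-- `D c l = s (c + l) * ⋯ * s (c + 2) * s (c + 1)` -/
def D : ℕ → ℕ → G
  | _, 0 => 1
  | c, l + 1 => D (c + 1) l * s (c + 1)

theorem P_add (c j : ℕ) : P s (c + 2 * j) = U s c j * P s c := by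
  induction j with
  | zero => simp [U]
  | succ j ih =>
    have : c + 2 * (j + 1) = c + 2 * j + 2 := by ring
    rw [this, P, ih, U, mul_assoc]

theorem P_commute {g : G} {c : ℕ} (h : ∀ i, 1 ≤ i → i < c → Commute (s i) g) : Commute (P s c) g := by
  induction c using Nat.strong_induction_on with
  | _ c ih =>
    match c with
    | 0 => exact Commute.one_left g
    | 1 => exact Commute.one_left g
    | c + 2 =>
      exact (h (c + 1) (by omega) (by omega)).mul_left (ih c (by omega) fun i hi hi' => h i hi (by omega))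

theorem U_commute {g : G} {c j : ℕ} (h : ∀ i, c + 1 ≤ i → i < c + 2 * j → Commute (s i) g) :
    Commute (U s c j) g := by
  induction j with
  | zero => exact Commute.one_left g
  | succ j ih =>
    exact (h _ (by omega) (by omega)).mul_left (ih fun i hi hi' => h i hi (by omega))

theorem D_commute {g : G} {c l : ℕ} (h : ∀ i, c + 1 ≤ i → i ≤ c + l → Commute (s i) g) :
    Commute (D s c l) g := by
  induction l generalizing c with
  | zero => exact Commute.one_left g
  | succ l ih =>
    exact (ih fun i hi hi' => h i (by omega) (by omega)).mul_left (h _ le_rfl (by omega))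

/-- the braid relations of type `A_n` -/
structure Rel (n : ℕ) : Prop where
  comm : ∀ i j, 1 ≤ i → i + 2 ≤ j → j ≤ n → Commute (s i) (s j)
  braid : ∀ i, 1 ≤ i → i + 1 ≤ n → s i * s (i + 1) * s i = s (i + 1) * s i * s (i + 1)

variable {s} in
theorem Rel.mono {n m : ℕ} (h : Rel s n) (hm : m ≤ n) : Rel s m :=
  ⟨fun i j h1 h2 h3 => h.comm i j h1 h2 (h3.trans hm), fun i h1 h2 => h.braid i h1 (h2.trans hm)⟩

variable {s} in
theorem D_shift {n : ℕ} (h : Rel s n) {c l b : ℕ} (hcl : c + l ≤ n) (hb : c + 1 ≤ b)
    (hb' : b + 1 ≤ c + l) : D s c l * s (b + 1) = s b * D s c l := by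
  induction l generalizing c b with
  | zero => omega
  | succ l ih =>
    rcases Nat.lt_or_ge (c + 1) b with h1 | h1
    · have h2 := h.comm (c + 1) (b + 1) (by omega) (by omega) (by omega)
      rw [D, mul_assoc, h2.eq, ← mul_assoc, ih (by omega) (by omega) (by omega), mul_assoc]
    · obtain rfl : b = c + 1 := by omega
      obtain ⟨k, rfl⟩ : ∃ k, l = k + 1 := ⟨l - 1, by omega⟩
      have h3 : Commute (D s (c + 1 + 1) k) (s (c + 1)) :=
        D_commute s fun i hi hi' => (h.comm (c + 1) i (by omega) (by omega) (by omega)).symm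
      have h4 := h.braid (c + 1) (by omega) (by omega)
      rw [D, D]
      calc D s (c + 1 + 1) k * s (c + 1 + 1) * s (c + 1) * s (c + 1 + 1)
          = D s (c + 1 + 1) k * (s (c + 1 + 1) * s (c + 1) * s (c + 1 + 1)) := by
            simp only [mul_assoc]
        _ = D s (c + 1 + 1) k * (s (c + 1) * s (c + 1 + 1) * s (c + 1)) := by rw [h4]
        _ = (D s (c + 1 + 1) k * s (c + 1)) * (s (c + 1 + 1) * s (c + 1)) := by
            simp only [mul_assoc]
        _ = _ := by rw [h3.eq]; simp only [mul_assoc]

variable {s} in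
theorem D_U {n : ℕ} (h : Rel s n) {c l j : ℕ} (hcl : c + l ≤ n) (hj : 2 * j ≤ l) :
    D s c l * U s (c + 1) j = U s c j * D s c l := by
  induction j with
  | zero => simp [U]
  | succ j ih =>
    rw [U, U, ← mul_assoc]
    have e : c + 1 + 2 * j + 1 = (c + 2 * j + 1) + 1 := by ring
    rw [e, D_shift h hcl (by omega) (by omega), mul_assoc, ih (by omega), mul_assoc]

/-- the letters: `X k = if Even k then P (N + 2) else P (N + 1)`, in terms of `c = N + 1 - k`. -/
theorem letter (N k c : ℕ) (hc : k + c = N) :
    ∃ i, 2 * i ≤ k + 1 ∧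
      (if Even (k + 1) then P s (N + 2) else P s (N + 1)) = U s (c + 1) i * P s (c + 1) ∧
      (if Even k then P s N else P s (N + 1)) = U s c i * P s c := by
  rcases Nat.even_or_odd' k with ⟨i, rfl | rfl⟩
  · refine ⟨i, by omega, ?_, ?_⟩
    · have : ¬ Even (2 * i + 1) := by simp [parity_simps]
      rw [if_neg this, ← P_add]
      congr 1; omega
    · rw [if_pos (by simp), ← P_add]
      congr 1; omega
  · refine ⟨i + 1, by omega, ?_, ?_⟩
    · have : Even (2 * i + 1 + 1) := by simp [parity_simps]
      rw [if_pos this, ← P_add]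
      congr 1; omega
    · have : ¬ Even (2 * i + 1) := by simp [parity_simps]
      rw [if_neg this, ← P_add]
      congr 1; omega

variable {s} in
theorem key {N : ℕ} (h : Rel s (N + 1)) (k : ℕ) : ∀ c, k + c = N →
    alt (P s (N + 2)) (P s (N + 1)) (k + 1) =
      alt (P s N) (P s (N + 1)) k * D s c (k + 1) * P s c := by
  induction k with
  | zero =>
    intro c hc
    obtain rfl : c = N := by omega
    simp [alt, P, D]
  | succ k ih =>
    intro c hc
    rw [alt_succ_right (k + 1), ih (c + 1) (by omega), alt_succ_right k]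
    obtain ⟨i, hi, h1, h2⟩ := letter s N k (c + 1) (by omega)
    rw [h1, h2]
    have c1 : Commute (P s (c + 1)) (U s (c + 1 + 1) i) :=
      P_commute s fun a ha ha' => (U_commute s fun b hb hb' =>
        (h.comm a b ha (by omega) (by omega)).symm).symm
    have c2 : Commute (D s (c + 1) (k + 1)) (P s (c + 1)) :=
      D_commute s fun b hb hb' => (P_commute s fun a ha ha' =>
        (h.comm a b ha (by omega) (by omega))).symm
    have c3 : D s (c + 1) (k + 1) * U s (c + 1 + 1) i = U s (c + 1) i * D s (c + 1) (k + 1) :=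
      D_U h (by omega) hi
    have c4 : P s (c + 1 + 1) = s (c + 1) * P s c := rfl
    have c5 : D s c (k + 1 + 1) = D s (c + 1) (k + 1) * s (c + 1) := rfl
    rw [c4, c5]
    generalize alt (P s N) (P s (N + 1)) k = R at *
    generalize D s (c + 1) (k + 1) = D' at *
    generalize U s (c + 1 + 1) i = U' at *
    generalize U s (c + 1) i = U'' at *
    calc R * D' * P s (c + 1) * (U' * (s (c + 1) * P s c))
        = R * D' * (P s (c + 1) * U') * (s (c + 1) * P s c) := by simp only [mul_assoc]
      _ = R * (D' * U') * P s (c + 1) * (s (c + 1) * P s c) := by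
          rw [c1.eq]; simp only [mul_assoc]
      _ = R * U'' * (D' * P s (c + 1)) * (s (c + 1) * P s c) := by
          rw [c3]; simp only [mul_assoc]
      _ = _ := by rw [c2.eq]; simp only [mul_assoc]

variable {s} in
/-- **LCM lemma**, `n = N` generators. -/
theorem alt_P {N : ℕ} (h : Rel s N) :
    alt (P s (N + 1)) (P s N) (N + 1) = alt (P s N) (P s (N + 1)) (N + 1) := by
  induction N with
  | zero => simp [alt, P]
  | succ N ih =>
    have h0 := ih (h.mono (Nat.le_succ N))
    have h1 := key h N 0 (by omega)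
    have h2 : alt (P s (N + 1)) (P s (N + 1 + 1)) (N + 1 + 1) =
        P s (N + 1) * alt (P s (N + 2)) (P s (N + 1)) (N + 1) := rfl
    rw [h2, alt_succ_right (N + 1), h1]
    obtain ⟨i, hi, h3, h4⟩ := letter s N N 0 (by omega)
    have h5 : P s (N + 1) * (alt (P s N) (P s (N + 1)) N * D s 0 (N + 1) * P s 0) =
        alt (P s (N + 1)) (P s N) (N + 1) * D s 0 (N + 1) := by
      change P s (N + 1) * (alt (P s N) (P s (N + 1)) N * D s 0 (N + 1) * 1) =
        P s (N + 1) * alt (P s N) (P s (N + 1)) N * D s 0 (N + 1)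
      simp only [mul_assoc, mul_one]
    rw [h5, h0, h3, alt_succ_right N (P s N), h4]
    have h6 := D_U h (c := 0) (l := N + 1) (j := i) (by omega) hi
    have h7 : P s 0 = 1 := rfl
    have h8 : P s (0 + 1) = 1 := rfl
    rw [h7, h8]
    simp only [mul_assoc, mul_one]
    rw [h6]

end Braid

section Column

variable {G : Type*} [Monoid G]

/-- two families of pairwise commuting elements which form two copies of type `A_n` (indices `1, …, n`) -/
structure Pair (n : ℕ) (x y : ℕ → G) : Prop where
  xx : ∀ i j, Commute (x i) (x j)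
  yy : ∀ i j, Commute (y i) (y j)
  xy : ∀ i j, i + 1 ≠ j → j + 1 ≠ i → Commute (x i) (y j)
  b1 : ∀ i, 1 ≤ i → i + 1 ≤ n → x i * y (i + 1) * x i = y (i + 1) * x i * y (i + 1)
  b2 : ∀ i, 1 ≤ i → i + 1 ≤ n → x (i + 1) * y i * x (i + 1) = y i * x (i + 1) * y i

theorem Pair.symm {n : ℕ} {x y : ℕ → G} (h : Pair n x y) : Pair n y x :=
  ⟨h.yy, h.xx, fun i j h1 h2 => (h.xy j i h2 h1).symm, fun i h1 h2 => (h.b2 i h1 h2).symm,
    fun i h1 h2 => (h.b1 i h1 h2).symm⟩

/-- the zigzag family: `x` at odd indices, `y` at even indices -/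
def zig (x y : ℕ → G) (i : ℕ) : G := if Even i then y i else x i

theorem P_zig (x y : ℕ → G) (c : ℕ) :
    P (zig x y) (c + 1) = if Even c then P y (c + 1) else P x (c + 1) := by
  induction c using Nat.strong_induction_on with
  | _ c ih =>
    match c with
    | 0 => simp [P]
    | 1 => simp [P, zig]
    | c + 2 =>
      have h1 : P (zig x y) (c + 2 + 1) = zig x y (c + 2) * P (zig x y) (c + 1) := rfl
      have h2 : P x (c + 2 + 1) = x (c + 2) * P x (c + 1) := rfl
      have h3 : P y (c + 2 + 1) = y (c + 2) * P y (c + 1) := rfl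
      rw [h1, ih c (by omega), h2, h3, zig]
      by_cases h : Even c
      · have h' : Even (c + 2) := by simp [h, parity_simps]
        simp only [if_pos h, if_pos h']
      · have h' : ¬ Even (c + 2) := by simp [h, parity_simps]
        simp only [if_neg h, if_neg h']

theorem Pair.rel {n : ℕ} {x y : ℕ → G} (h : Pair n x y) : Rel (zig x y) n := by
  constructor
  · intro i j h1 h2 h3
    unfold zig
    split_ifs with hi hj hj
    · exact h.yy _ _
    · refine (h.xy j i ?_ ?_).symm <;> omega
    · refine h.xy i j ?_ ?_ <;> omega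
    · exact h.xx _ _
  · intro i h1 h2
    unfold zig
    by_cases hi : Even i
    · have hi' : ¬ Even (i + 1) := by simp [hi, parity_simps]
      simp only [if_pos hi, if_neg hi']
      exact (h.b2 i h1 h2).symm
    · have hi' : Even (i + 1) := by simp [hi, parity_simps]
      simp only [if_neg hi, if_pos hi']
      exact h.b1 i h1 h2

theorem Pair.zz {n : ℕ} {x y : ℕ → G} (h : Pair n x y) (i j : ℕ) :
    Commute (zig x y i) (zig y x j) := by
  unfold zig
  split_ifs with hi hj hj
  · refine (h.xy j i ?_ ?_).symm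
    · rintro rfl; exact (Nat.even_add_one.1 hi) hj
    · rintro rfl; exact (Nat.even_add_one.1 hj) hi
  · exact h.yy _ _
  · exact h.xx _ _
  · refine h.xy i j ?_ ?_
    · rintro rfl; exact hj (Nat.even_add_one.2 hi)
    · rintro rfl; exact hi (Nat.even_add_one.2 hj)

theorem P_comm_P {x y : ℕ → G} (h : ∀ i j, Commute (x i) (y j)) (a b : ℕ) :
    Commute (P x a) (P y b) :=
  P_commute x fun i _ _ => (P_commute y fun j _ _ => (h i j).symm).symm

/-- **the label `n + 1` relation for one column** -/
theorem Pair.alt {n : ℕ} {x y : ℕ → G} (h : Pair n x y) :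
    alt (P x (n + 1) * P x n) (P y (n + 1) * P y n) (n + 1) =
      Semi_663.alt (P y (n + 1) * P y n) (P x (n + 1) * P x n) (n + 1) := by
  have hA := alt_P h.rel
  have hB := alt_P h.symm.rel
  rcases Nat.eq_zero_or_pos n with rfl | hn
  · simp [P]
  obtain ⟨k, rfl⟩ : ∃ k, n = k + 1 := ⟨n - 1, by omega⟩
  have c1 : ∀ a b, Commute (P (zig x y) a) (P (zig y x) b) := fun a b => P_comm_P h.zz a b
  have hxk : ∀ z w : ℕ → G, P (zig z w) (k + 1 + 1) * P (zig w z) (k + 1) =
      if Even k then P z (k + 1 + 1) * P z (k + 1) else P w (k + 1 + 1) * P w (k + 1) := by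
    intro z w
    rw [P_zig, P_zig]
    by_cases hk : Even k
    · have hk' : ¬ Even (k + 1) := by simp [hk, parity_simps]
      simp only [if_pos hk, if_neg hk']
    · have hk' : Even (k + 1) := by simp [hk, parity_simps]
      simp only [if_neg hk, if_pos hk']
  have e1 := alt_mul (c1 (k + 1 + 1) (k + 1)) (c1 (k + 1 + 1) (k + 1 + 1)) (c1 (k + 1) (k + 1))
    (c1 (k + 1) (k + 1 + 1)) (k + 1 + 1)
  have e2 : Semi_663.alt (P (zig x y) (k + 1 + 1) * P (zig y x) (k + 1))
      (P (zig y x) (k + 1 + 1) * P (zig x y) (k + 1)) (k + 1 + 1) =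
      Semi_663.alt (P (zig y x) (k + 1 + 1) * P (zig x y) (k + 1))
      (P (zig x y) (k + 1 + 1) * P (zig y x) (k + 1)) (k + 1 + 1) := by
    rw [← (c1 (k + 1) (k + 1 + 1)).eq, e1.1, e1.2, hA, hB]
  rw [hxk x y, hxk y x] at e2
  by_cases hk : Even k
  · simpa only [if_pos hk] using e2
  · simpa only [if_neg hk] using e2.symm

end Column

section Prod

variable {G : Type*} [Monoid G]

/-- The alternating relation is inherited by products of mutually commuting pairs. -/
theorem alt_noncommProd {K : Type*} (m : ℕ) (A B : K → G) (s : Finset K)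
    (hA : (s : Set K).Pairwise (Function.onFun Commute A))
    (hB : (s : Set K).Pairwise (Function.onFun Commute B))
    (hAB : ∀ i ∈ s, ∀ j ∈ s, i ≠ j → Commute (A i) (B j))
    (h : ∀ i ∈ s, alt (A i) (B i) m = alt (B i) (A i) m) :
    alt (s.noncommProd A hA) (s.noncommProd B hB) m =
      alt (s.noncommProd B hB) (s.noncommProd A hA) m := by
  classical
  induction s using Finset.induction_on with
  | empty => simp
  | insert a s ha ih =>
    rw [Finset.noncommProd_insert_of_notMem _ _ _ _ ha, Finset.noncommProd_insert_of_notMem _ _ _ _ ha]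
    have hA' : (s : Set K).Pairwise (Function.onFun Commute A) :=
      hA.mono (by simp [Finset.coe_insert])
    have hB' : (s : Set K).Pairwise (Function.onFun Commute B) :=
      hB.mono (by simp [Finset.coe_insert])
    have ne : ∀ b ∈ s, a ≠ b := fun b hb => by rintro rfl; exact ha hb
    have c1 : Commute (A a) (s.noncommProd A hA') :=
      Finset.noncommProd_commute _ _ _ _ fun b hb =>
        hA (by simp) (by simp [hb]) (ne b hb)
    have c2 : Commute (A a) (s.noncommProd B hB') :=
      Finset.noncommProd_commute _ _ _ _ fun b hb =>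
        hAB a (by simp) b (by simp [hb]) (ne b hb)
    have c3 : Commute (B a) (s.noncommProd A hA') :=
      Finset.noncommProd_commute _ _ _ _ fun b hb =>
        (hAB b (by simp [hb]) a (by simp) (ne b hb).symm).symm
    have c4 : Commute (B a) (s.noncommProd B hB') :=
      Finset.noncommProd_commute _ _ _ _ fun b hb =>
        hB (by simp) (by simp [hb]) (ne b hb)
    obtain ⟨e1, e2⟩ := alt_mul c1 c2 c3 c4 m
    rw [e1, e2, h a (by simp), ih hA' hB' (fun i hi j hj => hAB i (by simp [hi]) j (by simp [hj]))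
      (fun i hi => h i (by simp [hi]))]

/-- the product of the finite family of pairwise commuting elements `x` -/
noncomputable def cprod {I : Type*} [Fintype I] (x : I → G) (hx : ∀ p q, Commute (x p) (x q)) : G :=
  Finset.univ.noncommProd x fun p _ q _ _ => hx p q

theorem cprod_commute {I : Type*} [Fintype I] {x : I → G} (hx : ∀ p q, Commute (x p) (x q)) {g : G}
    (h : ∀ p, Commute g (x p)) : Commute g (cprod x hx) :=
  Finset.noncommProd_commute _ _ _ _ fun b _ => h b

theorem exists_comm.{u, v} {G : Type u} [Monoid G] {I : Type v} (x : I → G)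
    (hx : ∀ p q, Commute (x p) (x q)) :
    ∃ (N : Type u) (_ : CommMonoid N) (inc : N →* G) (x' : I → N), ∀ i, inc (x' i) = x i := by
  let N := Submonoid.closure (Set.range x)
  have hcomm : ∀ a ∈ Set.range x, ∀ b ∈ Set.range x, a * b = b * a := by
    rintro _ ⟨i, rfl⟩ _ ⟨j, rfl⟩
    exact (hx i j).eq
  have hN : IsMulCommutative N := Submonoid.isMulCommutative_closure _ hcomm
  exact ⟨N, { mul_comm := fun a b => hN.is_comm.comm a b }, N.subtype,
    fun i => ⟨x i, Submonoid.subset_closure ⟨i, rfl⟩⟩, fun i => rfl⟩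

theorem map_cprod {N : Type*} [CommMonoid N] (inc : N →* G) {I : Type*} [Fintype I] (x' : I → N)
    (x : I → G) (hx : ∀ p q, Commute (x p) (x q)) (h : ∀ i, inc (x' i) = x i) :
    cprod x hx = inc (∏ i, x' i) := by
  rw [← Finset.noncommProd_eq_prod, Finset.map_noncommProd]
  exact Finset.noncommProd_congr rfl (fun i _ => (h i).symm) _

theorem map_P {N : Type*} [Monoid N] (inc : N →* G) (x' : ℕ → N) : ∀ c : ℕ,
    inc (P x' c) = P (fun i => inc (x' i)) c
  | 0 => map_one inc
  | 1 => map_one inc
  | c + 2 => by rw [P, P, map_mul, map_P inc x' c]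

theorem prod_range_P {N : Type*} [CommMonoid N] (x : ℕ → N) (n : ℕ) :
    ∏ i ∈ Finset.range n, x (i + 1) = P x (n + 1) * P x n := by
  induction n with
  | zero => simp [P]
  | succ n ih =>
    rw [Finset.prod_range_succ, ih]
    have : P x (n + 1 + 1) = x (n + 1) * P x n := rfl
    rw [this]
    ac_rfl

/-- extension of a family indexed by `Fin n` to `ℕ` (shifted by one) -/
def ext {G : Type*} [One G] {n : ℕ} (x : Fin n → G) (i : ℕ) : G :=
  if h : 1 ≤ i ∧ i ≤ n then x ⟨i - 1, by omega⟩ else 1

theorem ext_succ {n : ℕ} (x : Fin n → G) (i : Fin n) : ext x (i + 1) = x i := by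
  have h : 1 ≤ (i : ℕ) + 1 ∧ (i : ℕ) + 1 ≤ n := ⟨by omega, i.2⟩
  rw [ext, dif_pos h]
  congr

theorem cprod_fin {n : ℕ} (x : Fin n → G) (hx : ∀ p q, Commute (x p) (x q)) :
    cprod x hx = P (ext x) (n + 1) * P (ext x) n := by
  obtain ⟨N, _, inc, x', h⟩ := exists_comm x hx
  rw [map_cprod inc x' x hx h]
  have h1 : ∏ i, x' i = P (ext x') (n + 1) * P (ext x') n := by
    rw [← prod_range_P, ← Fin.prod_univ_eq_prod_range]
    exact Finset.prod_congr rfl fun i _ => (ext_succ x' i).symm
  have h2 : (fun i => inc (ext x' i)) = ext x := by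
    funext i
    unfold ext
    split_ifs
    · exact h _
    · exact map_one inc
  rw [h1, map_mul, map_P, map_P, h2]

theorem cprod_prod {I J K : Type*} [Fintype I] [Fintype J] [Fintype K] (e : K ≃ I × J) (x : K → G)
    (hx : ∀ p q, Commute (x p) (x q)) :
    cprod x hx = cprod (fun j => cprod (fun i => x (e.symm (i, j))) fun p q => hx _ _) (fun p q =>
      cprod_commute _ fun a => (cprod_commute _ fun b => hx _ _).symm) := by
  obtain ⟨N, _, inc, x', h⟩ := exists_comm x hx
  rw [map_cprod inc x' x hx h]
  have h1 : ∀ j, inc (∏ i, x' (e.symm (i, j))) =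
      cprod (fun i => x (e.symm (i, j))) (fun p q => hx _ _) := fun j =>
    (map_cprod inc (fun i => x' (e.symm (i, j))) _ _ (fun i => h _)).symm
  rw [map_cprod inc (fun j => ∏ i, x' (e.symm (i, j))) _ _ h1]
  congr 1
  rw [Finset.prod_comm, ← Fintype.prod_prod_type' (fun i j => x' (e.symm (i, j)))]
  exact (Equiv.prod_comp e.symm x').symm

/-- adjacency in the unfolding of the label `m` edge: same column, neighbouring heights -/
def Adj {n : ℕ} {J : Type*} (p q : Fin n × J) : Prop :=
  p.2 = q.2 ∧ ((p.1 : ℕ) + 1 = q.1 ∨ (q.1 : ℕ) + 1 = p.1)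

/-- **Unfolding lemma, one column.** -/
theorem alt_cprod_fin {m : ℕ} (hm : 2 ≤ m) (x y : Fin (m - 1) → G)
    (hx : ∀ p q, Commute (x p) (x q)) (hy : ∀ p q, Commute (y p) (y q))
    (hxy : ∀ p q : Fin (m - 1), ¬ ((p : ℕ) + 1 = q ∨ (q : ℕ) + 1 = p) → Commute (x p) (y q))
    (hb : ∀ p q : Fin (m - 1), ((p : ℕ) + 1 = q ∨ (q : ℕ) + 1 = p) →
      x p * y q * x p = y q * x p * y q) :
    alt (cprod x hx) (cprod y hy) m = alt (cprod y hy) (cprod x hx) m := by
  obtain ⟨n, rfl⟩ : ∃ n, m = n + 1 := ⟨m - 1, by omega⟩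
  rw [cprod_fin, cprod_fin]
  apply Pair.alt
  have key : ∀ (z w : Fin (n + 1 - 1) → G) (R : G → G → Prop) (i j : ℕ), (∀ a, R a 1) → (∀ a, R 1 a) →
      (∀ p q : Fin (n + 1 - 1), (p : ℕ) + 1 = i → (q : ℕ) + 1 = j → R (z p) (w q)) →
      R (ext z i) (ext w j) := by
    intro z w R i j h1 h2 h3
    unfold ext
    split_ifs with hi hj hj
    · exact h3 _ _ (by simp; omega) (by simp; omega)
    · exact h1 _
    · exact h2 _
    · exact h1 _
  have val : ∀ (z : Fin (n + 1 - 1) → G) (i : ℕ) (hi : i < n), ext z (i + 1) = z ⟨i, by omega⟩ := by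
    intro z i hi
    exact ext_succ z ⟨i, by omega⟩
  constructor
  · exact fun i j => key x x Commute i j Commute.one_right Commute.one_left fun p q _ _ => hx p q
  · exact fun i j => key y y Commute i j Commute.one_right Commute.one_left fun p q _ _ => hy p q
  · refine fun i j h1 h2 => key x y Commute i j Commute.one_right Commute.one_left
      fun p q hp hq => hxy p q ?_
    omega
  · intro i h1 h2
    obtain ⟨k, rfl⟩ : ∃ k, i = k + 1 := ⟨i - 1, by omega⟩
    rw [val x k (by omega), val y (k + 1) (by omega)]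
    exact hb _ _ (Or.inl rfl)
  · intro i h1 h2
    obtain ⟨k, rfl⟩ : ∃ k, i = k + 1 := ⟨i - 1, by omega⟩
    rw [val x (k + 1) (by omega), val y k (by omega)]
    exact hb _ _ (Or.inr rfl)

/-- **Unfolding (LCM) lemma.** `x, y` : two commuting families indexed by the unfolding of one vertex;
`e` splits off the coordinate belonging to the label `m`. -/
theorem alt_cprod {I J : Type*} [Fintype I] {m : ℕ} (hm : 2 ≤ m) (e : I ≃ Fin (m - 1) × J)
    (x y : I → G) (hx : ∀ p q, Commute (x p) (x q)) (hy : ∀ p q, Commute (y p) (y q))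
    (hxy : ∀ p q, ¬ Adj (e p) (e q) → Commute (x p) (y q))
    (hb : ∀ p q, Adj (e p) (e q) → x p * y q * x p = y q * x p * y q) :
    alt (cprod x hx) (cprod y hy) m = alt (cprod y hy) (cprod x hx) m := by
  classical
  have i0 : Fin (m - 1) := ⟨0, by omega⟩
  have : Finite (Fin (m - 1) × J) := Finite.of_equiv I e
  have : Nonempty (Fin (m - 1)) := ⟨i0⟩
  have : Finite J := Finite.of_surjective (Prod.snd : Fin (m - 1) × J → J) Prod.snd_surjective
  have := Fintype.ofFinite J
  rw [cprod_prod e x, cprod_prod e y]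
  apply alt_noncommProd
  · intro i _ j _ hij
    refine cprod_commute _ fun a => (cprod_commute _ fun b => (hxy _ _ ?_).symm).symm
    rintro ⟨h, -⟩
    simp at h
    exact hij h
  · intro j _
    refine alt_cprod_fin hm _ _ _ _ (fun p q h => hxy _ _ ?_) (fun p q h => hb _ _ ?_)
    · rintro ⟨-, h'⟩
      simp at h'
      exact h h'
    · exact ⟨by simp, by simpa using h⟩

/-- label `3` with diagonal adjacency, and more generally relations along a bijection -/
theorem alt_cprod_diag {I : Type*} [Fintype I] (m : ℕ) (x y : I → G)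
    (hx : ∀ p q, Commute (x p) (x q)) (hy : ∀ p q, Commute (y p) (y q))
    (hxy : ∀ p q, p ≠ q → Commute (x p) (y q)) (hb : ∀ p, alt (x p) (y p) m = alt (y p) (x p) m) :
    alt (cprod x hx) (cprod y hy) m = alt (cprod y hy) (cprod x hx) m :=
  alt_noncommProd m x y _ _ _ (fun p _ q _ h => hxy p q h) fun p _ => hb p

/-- label `2` -/
theorem commute_cprod {I I' : Type*} [Fintype I] [Fintype I'] (x : I → G) (y : I' → G)
    (hx : ∀ p q, Commute (x p) (x q)) (hy : ∀ p q, Commute (y p) (y q))
    (hxy : ∀ p q, Commute (x p) (y q)) : Commute (cprod x hx) (cprod y hy) :=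
  cprod_commute _ fun b => (cprod_commute _ fun a => (hxy a b).symm).symm

end Prod

end Crest.Agent.R175.LCM_123
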