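import Crest.Agent.R175.Semi_663

/-!
Row 175 (S0263), labels > 3 (helper109): the bipartite braid relation of type `A_n`.

`g 0, …, g (n-1)` elements of a monoid with the braid relations of type `A_n`,
`x = g 0 g 2 g 4 ⋯`, `y = g 1 g 3 ⋯`: the alternating products `x y x ⋯ = y x y ⋯` of length `n + 1`
are equal (`braid_path`).  Elementary proof: both are `δ_n δ_{n-1} ⋯ δ_1`, `δ_k = g 0 ⋯ g (k-1)`.
-/

set_option autoImplicit false

namespace Crest.Agent.R175.Lcm_109

open Crest.Agent.R175.Semi_663

variable {G : Type*} [Monoid G]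

/-- `f a * f (a+1) * ⋯ * f (a+k-1)`. -/
def L (a k : ℕ) (f : ℕ → G) : G := ((List.range' a k).map f).prod

@[simp] theorem L_zero (a : ℕ) (f : ℕ → G) : L a 0 f = 1 := rfl

theorem L_succ (a k : ℕ) (f : ℕ → G) : L a (k + 1) f = f a * L (a + 1) k f := by
  simp [L, List.range'_succ]

theorem L_add (a k l : ℕ) (f : ℕ → G) : L a (k + l) f = L a k f * L (a + k) l f := by
  induction k generalizing a with
  | zero => simp
  | succ k ih =>
    rw [show k + 1 + l = (k + l) + 1 by ring, L_succ, L_succ, ih, mul_assoc,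
      show a + 1 + k = a + (k + 1) by ring]

theorem L_snoc (a k : ℕ) (f : ℕ → G) : L a (k + 1) f = L a k f * f (a + k) := by
  rw [L_add, L_succ, L_zero, mul_one]

theorem L_congr {a k : ℕ} {f f' : ℕ → G} (h : ∀ i, a ≤ i → i < a + k → f i = f' i) :
    L a k f = L a k f' := by
  induction k generalizing a with
  | zero => rfl
  | succ k ih =>
    rw [L_succ, L_succ, h a le_rfl (by omega), ih fun i h1 h2 => h i (by omega) (by omega)]

theorem L_shift (a b k : ℕ) (f : ℕ → G) : L (a + b) k f = L a k (fun i => f (i + b)) := by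
  induction k generalizing a with
  | zero => rfl
  | succ k ih => rw [L_succ, L_succ, ← ih, show a + b + 1 = a + 1 + b by ring]

theorem L_commute {a k : ℕ} {f : ℕ → G} {c : G} (h : ∀ i, a ≤ i → i < a + k → Commute c (f i)) :
    Commute c (L a k f) := by
  induction k generalizing a with
  | zero => exact Commute.one_right c
  | succ k ih =>
    rw [L_succ]
    exact (h a le_rfl (by omega)).mul_right (ih fun i h1 h2 => h i (by omega) (by omega))

theorem L_commute' {a k b l : ℕ} {f f' : ℕ → G}
    (h : ∀ i j, a ≤ i → i < a + k → b ≤ j → j < b + l → Commute (f i) (f' j)) :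
    Commute (L a k f) (L b l f') :=
  (L_commute fun i h1 h2 => (L_commute fun j h3 h4 => h i j h1 h2 h3 h4).symm).symm |>.symm.symm

theorem L_semiconj {a k : ℕ} {f f' : ℕ → G} {c : G}
    (h : ∀ i, a ≤ i → i < a + k → SemiconjBy c (f i) (f' i)) :
    SemiconjBy c (L a k f) (L a k f') := by
  induction k generalizing a with
  | zero => exact SemiconjBy.one_right c
  | succ k ih =>
    rw [L_succ, L_succ]
    exact (h a le_rfl (by omega)).mul_right (ih fun i h1 h2 => h i (by omega) (by omega))

/-- `g i` if `i + q` is even, else `1`. -/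
def e (g : ℕ → G) (q i : ℕ) : G := if (i + q) % 2 = 0 then g i else 1

theorem e_pos {g : ℕ → G} {q i : ℕ} (h : (i + q) % 2 = 0) : e g q i = g i := if_pos h
theorem e_neg {g : ℕ → G} {q i : ℕ} (h : (i + q) % 2 ≠ 0) : e g q i = 1 := if_neg h

theorem e_two (g : ℕ → G) (q : ℕ) : e g (q + 2) = e g q := by
  funext i
  unfold e
  have : (i + (q + 2)) % 2 = (i + q) % 2 := by omega
  rw [this]

theorem e_shift (g : ℕ → G) (q i : ℕ) : e g q (i + 1) = e (fun j => g (j + 1)) (q + 1) i := by
  unfold e
  have : (i + 1 + q) % 2 = (i + (q + 1)) % 2 := by omega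
  rw [this]

/-- the relations of type `A_n`. -/
structure Rel (n : ℕ) (g : ℕ → G) : Prop where
  comm : ∀ i j, i + 2 ≤ j → j < n → Commute (g i) (g j)
  braid : ∀ i, i + 1 < n → g i * g (i + 1) * g i = g (i + 1) * g i * g (i + 1)

theorem Rel.mono {n m : ℕ} {g : ℕ → G} (h : Rel n g) (hm : m ≤ n) : Rel m g where
  comm := fun i j h1 h2 => h.comm i j h1 (by omega)
  braid := fun i h1 => h.braid i (by omega)

theorem Rel.ecomm {n : ℕ} {g : ℕ → G} (h : Rel n g) (q q' i j : ℕ) (h1 : i + 2 ≤ j) (h2 : j < n) :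
    Commute (e g q i) (e g q' j) := by
  unfold e
  split_ifs
  · exact h.comm i j h1 h2
  · exact Commute.one_right _
  · exact Commute.one_left _
  · exact Commute.one_left _

theorem Rel.ecomm' {n : ℕ} {g : ℕ → G} (h : Rel n g) (q i j : ℕ) (h1 : i + 2 ≤ j) (h2 : j < n) :
    Commute (e g q i) (g j) := by
  unfold e
  split_ifs
  · exact h.comm i j h1 h2
  · exact Commute.one_left _

/-- `g (i+1) (g a ⋯ g (a+m)) = (g a ⋯ g (a+m)) g i`. -/
theorem Rel.shift {n : ℕ} {g : ℕ → G} (h : Rel n g) (a m : ℕ) (hm : a + m < n) :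
    ∀ i, a ≤ i → i < a + m → SemiconjBy (L a (m + 1) g) (g i) (g (i + 1)) := by
  intro i h1 h2
  obtain ⟨k, rfl⟩ := Nat.exists_eq_add_of_le h1
  obtain ⟨l, hl⟩ := Nat.exists_eq_add_of_lt h2
  have hm' : m + 1 = k + (2 + l) := by omega
  rw [hm', L_add, L_add]
  have e2 : L (a + k) 2 g = g (a + k) * g (a + k + 1) := by
    rw [L_succ, L_succ, L_zero, mul_one]
  rw [e2]
  have c1 : Commute (L (a + k + 2) l g) (g (a + k)) :=
    (L_commute fun j h3 h4 => h.comm _ j h3 (by omega)).symm
  have c2 : Commute (L a k g) (g (a + k + 1)) :=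
    (L_commute fun j h3 h4 => (h.comm j _ (by omega) (by omega)).symm).symm
  have c3 := h.braid (a + k) (by omega)
  unfold SemiconjBy
  calc L a k g * (g (a + k) * g (a + k + 1) * L (a + k + 2) l g) * g (a + k)
      = L a k g * (g (a + k) * g (a + k + 1) * (L (a + k + 2) l g * g (a + k))) := by
        simp only [mul_assoc]
    _ = L a k g * ((g (a + k) * g (a + k + 1) * g (a + k)) * L (a + k + 2) l g) := by
        rw [c1.eq]; simp only [mul_assoc]
    _ = L a k g * ((g (a + k + 1) * g (a + k) * g (a + k + 1)) * L (a + k + 2) l g) := by rw [c3]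
    _ = (L a k g * g (a + k + 1)) * (g (a + k) * g (a + k + 1) * L (a + k + 2) l g) := by
        simp only [mul_assoc]
    _ = g (a + k + 1) * (L a k g * (g (a + k) * g (a + k + 1) * L (a + k + 2) l g)) := by
        rw [c2.eq]; simp only [mul_assoc]

/-- `m` rounds starting with the parity `q`. -/
def RP (g : ℕ → G) (n q m : ℕ) : G := L q m fun s => L 0 n (e g s)

theorem RP_two (g : ℕ → G) (n q m : ℕ) : RP g n (q + 2) m = RP g n q m := by
  unfold RP
  rw [L_shift]
  congr 1
  funext s
  rw [e_two]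

/-- the key identity. -/
theorem key {n : ℕ} {g : ℕ → G} (h : Rel n g) : ∀ k r : ℕ, r + (k + 1) = n →
    RP g n r (k + 1) = L 0 r (e g r) * L r (k + 1) g * RP g (n - 1) (r + 1) k := by
  intro k
  induction k with
  | zero =>
    intro r hr
    unfold RP
    rw [L_succ, L_zero, L_zero, mul_one, mul_one, L_succ, L_zero, mul_one, ← hr, L_snoc, zero_add,
      e_pos (by omega)]
  | succ k ih =>
    intro r hr
    have h1 : RP g n r (k + 1 + 1) = L 0 n (e g r) * RP g n (r + 1) (k + 1) := by
      unfold RP; rw [L_succ]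
    rw [h1, ih (r + 1) (by omega)]
    -- split the first round
    have h2 : L 0 n (e g r) = L 0 r (e g r) * g r * L (r + 2) k (e g r) := by
      rw [← hr, L_add, zero_add, L_succ, L_succ, e_pos (by omega), e_neg (by omega), one_mul,
        mul_assoc]
    have h3 : L 0 (r + 1) (e g (r + 1)) = L 0 r (e g (r + 1)) := by
      rw [L_snoc, zero_add, e_neg (by omega), mul_one]
    have h4 : RP g (n - 1) (r + 1) (k + 1) =
        L 0 (n - 1) (e g (r + 1)) * RP g (n - 1) (r + 1 + 1) k := by
      unfold RP; rw [L_succ]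
    have h5 : L 0 (n - 1) (e g (r + 1)) = L 0 r (e g (r + 1)) * L (r + 1) k (e g (r + 1)) := by
      rw [show n - 1 = r + (1 + k) by omega, L_add, L_add, zero_add]
      have : L r 1 (e g (r + 1)) = 1 := by
        rw [L_succ, L_zero, mul_one, e_neg (by omega)]
      rw [this, one_mul]
    have c1 : Commute (L (r + 2) k (e g r)) (L 0 r (e g (r + 1))) :=
      (L_commute' fun i j h6 h7 h8 h9 => h.ecomm _ _ i j (by omega) (by omega)).symm
    have c2 : Commute (L 0 r (e g (r + 1))) (L (r + 1) (k + 1) g) :=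
      L_commute' fun i j h6 h7 h8 h9 => h.ecomm' _ i j (by omega) (by omega)
    have c3 : Commute (L 0 r (e g (r + 1))) (L (r + 1) k (e g (r + 1))) :=
      L_commute' fun i j h6 h7 h8 h9 => h.ecomm _ _ i j (by omega) (by omega)
    have c4 : SemiconjBy (L (r + 1) (k + 1) g) (L (r + 1) k (e g (r + 1)))
        (L (r + 2) k (e g r)) := by
      rw [show r + 2 = r + 1 + 1 by ring, L_shift (r + 1) 1 k]
      refine L_semiconj fun i h6 h7 => ?_
      by_cases hp : (i + (r + 1)) % 2 = 0
      · rw [e_pos hp, e_pos (by omega)]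
        exact h.shift (r + 1) k (by omega) i h6 h7
      · rw [e_neg hp, e_neg (by omega)]
        exact SemiconjBy.one_right _
    rw [h2, h3, h4, h5, L_succ r (k + 1) g]
    unfold SemiconjBy at c4
    have c1' := c1.eq
    have c2' := c2.eq
    have c3' := c3.eq
    generalize L 0 r (e g r) = A at *
    generalize L (r + 2) k (e g r) = B at *
    generalize L 0 r (e g (r + 1)) = C at *
    generalize L (r + 1) (k + 1) g = Gd at *
    generalize L (r + 1) k (e g (r + 1)) = B' at *
    generalize RP g (n - 1) (r + 1 + 1) k = R at *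
    calc A * g r * B * (C * Gd * R) = A * g r * (B * C) * Gd * R := by simp only [mul_assoc]
      _ = A * g r * C * (B * Gd) * R := by rw [c1']; simp only [mul_assoc]
      _ = A * g r * (C * Gd) * B' * R := by rw [← c4]; simp only [mul_assoc]
      _ = A * g r * Gd * (C * B') * R := by rw [c2']; simp only [mul_assoc]
      _ = A * (g r * Gd) * (C * B' * R) := by simp only [mul_assoc]

/-- both parities give the same element. -/
theorem RP_eq : ∀ (n : ℕ) (g : ℕ → G), Rel n g → RP g n 0 (n + 1) = RP g n 1 (n + 1) := by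
  intro n
  induction n with
  | zero => intro g _; simp [RP, L_succ]
  | succ n ih =>
    intro g h
    have k0 := key h n 0 (by omega)
    rw [L_zero, one_mul, Nat.add_sub_cancel] at k0
    have h1 : RP g (n + 1) 0 (n + 1 + 1) = RP g (n + 1) 0 (n + 1) * L 0 (n + 1) (e g (n + 1)) := by
      unfold RP; rw [L_snoc, zero_add]
    have h2 : L 0 (n + 1) (e g (n + 1)) = L 0 n (e g (n + 1)) := by
      rw [L_snoc, zero_add, e_neg (by omega), mul_one]
    have h3 : RP g n 1 (n + 1) = RP g n (0 + 1) n * L 0 n (e g (n + 1)) := by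
      unfold RP; rw [L_snoc, zero_add, add_comm 1 n]
    have h4 : RP g (n + 1) 1 (n + 1 + 1) = L 0 (n + 1) (e g 1) * RP g (n + 1) 0 (n + 1) := by
      rw [← RP_two g (n + 1) 0]; unfold RP; rw [L_succ]
    have h5 : RP g n 0 (n + 1) = L 0 n (e g 0) * RP g n (0 + 1) n := by
      unfold RP; rw [L_succ]
    have h6 : SemiconjBy (L 0 (n + 1) g) (L 0 n (e g 0)) (L 0 (n + 1) (e g 1)) := by
      have h7 : L 0 (n + 1) (e g 1) = L 0 n (fun i => e g 1 (i + 1)) := by
        rw [L_succ, e_neg (by omega), one_mul, L_shift]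
      rw [h7]
      refine L_semiconj fun i h8 h9 => ?_
      by_cases hp : (i + 0) % 2 = 0
      · rw [e_pos hp, e_pos (by omega)]
        exact h.shift 0 n (by omega) i h8 h9
      · rw [e_neg hp, e_neg (by omega)]
        exact SemiconjBy.one_right _
    rw [h1, h2, k0, mul_assoc, ← h3, h4, k0, ← mul_assoc, ← h6.eq, mul_assoc, ← h5,
      ih g (h.mono (by omega))]

theorem alt_eq_L (f : ℕ → G) (hf : ∀ q, f (q + 2) = f q) (m q : ℕ) :
    alt (f q) (f (q + 1)) m = L q m f := by
  induction m generalizing q with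
  | zero => rfl
  | succ m ih => rw [L_succ, ← ih (q + 1), hf]; rfl

/-- **the bipartite braid relation of type `A_n`.** -/
theorem braid_path {n : ℕ} {g : ℕ → G} (h : Rel n g) :
    alt (L 0 n (e g 0)) (L 0 n (e g 1)) (n + 1) = alt (L 0 n (e g 1)) (L 0 n (e g 0)) (n + 1) := by
  have h1 := alt_eq_L (fun s => L 0 n (e g s)) (fun q => by simp only [e_two]) (n + 1) 0
  have h2 := alt_eq_L (fun s => L 0 n (e g s)) (fun q => by simp only [e_two]) (n + 1) 1
  simp only [zero_add] at h1
  have h3 : e g (1 + 1) = e g 0 := e_two g 0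
  rw [h3] at h2
  rw [h1, h2]
  exact RP_eq n g h

end Crest.Agent.R175.Lcm_109
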