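import Crest.Agent.R175.Lev_788
import Crest.Agent.R175.FmC_180
import Crest.Agent.R175.TopAll_774

/-!
Row 175 (S0263), helper788: Perron-Frobenius on `J Λ` (from 180) and the final theorem from `Sys`.
-/

set_option autoImplicit false
set_option linter.unusedSectionVars false
set_option linter.unusedVariables false

namespace Crest.Agent.R175.Lev_788

open Crest.GroupTheory Crest.Agent.R175.Num_774 Crest.Agent.R175.CatNum_427
open Crest.Agent.R175.Unf_109

universe v

theorem nsum_eq {Λ : Finset ℕ} (m : ℕ) {N : Type*} [AddCommMonoid N] (f : J Λ → N) (i : J Λ) :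
    FmC_180.nsum Λ m f i = ∑ j ∈ nbs Λ m i, f j := by
  classical
  simp only [FmC_180.nsum, nbs, Finset.sum_filter]

theorem pfs {Λ : Finset ℕ} (h4 : ∀ m ∈ Λ, 4 ≤ m) : PFs Λ h4 := by
  intro v hv i
  refine FmC_180.eig h4 v (fun m hm i => ?_) i
  rw [nsum_eq]
  exact hv m hm i

/-- the numbers from a system of levels -/
noncomputable def Sys.num {Λ : Finset ℕ} {S : Type} [Fintype S] {M : CoxeterMatrix S}
    {h4 : ∀ m ∈ Λ, 4 ≤ m} (Z : Sys.{v} Λ M h4) (hΛ : Good M Λ) : Num M :=
  (Z.catD hΛ (pfs h4)).toNum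

/-- **S0263 from the systems of levels** -/
theorem s0263_of_sys
    (H : ∀ (n : ℕ) (M : CoxeterMatrix (Fin n)), Nonempty (Sys.{v} (lab M) M (good_lab M).four))
    (S : Type*) [Finite S] (M : CoxeterMatrix S)
    (P Q : Subgroup (ArtinGroup M)) (hP : IsParabolic M P) (hQ : IsParabolic M Q) :
    IsParabolic M (P ⊓ Q) :=
  TopAll_774.s0263_of_num (fun n M => ⟨(H n M).some.num (good_lab M)⟩) S M P Q hP hQ

end Crest.Agent.R175.Lev_788
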