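import Mathlib
import Crest.Prelude.Def_ArtinGroup

/-!
# R175 (S0264) : homomorphisms out of an Artin group with labels `0, 1, 2, 3`
-/

set_option autoImplicit false

open Crest.GroupTheory

namespace Crest.Agent.R175

variable {S : Type*} {M : CoxeterMatrix S}

theorem artin_comm {s t : S} (h : M.M s t = 2) : Commute (artinGen M s) (artinGen M t) := by
  have h1 : artinAltWord s t (M.M s t) * (artinAltWord t s (M.M s t))⁻¹ ∈ artinRelators M :=
    ⟨(s, t), rfl⟩
  have h2 := PresentedGroup.one_of_mem h1
  rw [h] at h2
  rw [map_mul, map_inv, mul_inv_eq_one] at h2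
  simp only [artinAltWord, mul_one, map_mul] at h2
  exact h2

theorem artin_braid {s t : S} (h : M.M s t = 3) :
    artinGen M s * artinGen M t * artinGen M s = artinGen M t * artinGen M s * artinGen M t := by
  have h1 : artinAltWord s t (M.M s t) * (artinAltWord t s (M.M s t))⁻¹ ∈ artinRelators M :=
    ⟨(s, t), rfl⟩
  have h2 := PresentedGroup.one_of_mem h1
  rw [h] at h2
  rw [map_mul, map_inv, mul_inv_eq_one] at h2
  simp only [artinAltWord, mul_one, map_mul, ← mul_assoc] at h2
  exact h2

/-- Homomorphisms out of an Artin group all of whose labels are `0, 1, 2, 3`. -/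
noncomputable def artinLift {L : Type*} [Group L] (f : S → L) (hM : ∀ s t, M.M s t ≤ 3)
    (h2 : ∀ s t, M.M s t = 2 → f s * f t = f t * f s)
    (h3 : ∀ s t, M.M s t = 3 → f s * f t * f s = f t * f s * f t) : ArtinGroup M →* L :=
  PresentedGroup.toGroup (f := f) (by
    rintro _ ⟨⟨s, t⟩, rfl⟩
    have hle := hM s t
    rw [map_mul, map_inv, mul_inv_eq_one]
    show FreeGroup.lift f (artinAltWord s t (M.M s t)) = FreeGroup.lift f (artinAltWord t s (M.M s t))
    have h1 : M.M s t = 1 → s = t := by
      intro h
      by_contra hne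
      exact M.off_diagonal s t hne h
    interval_cases hm : M.M s t
    · simp [artinAltWord]
    · rw [h1 rfl]
    · simp only [artinAltWord, mul_one, map_mul, FreeGroup.lift_apply_of]
      exact h2 s t hm
    · simp only [artinAltWord, mul_one, map_mul, FreeGroup.lift_apply_of, ← mul_assoc]
      exact h3 s t hm)

theorem artinLift_gen {L : Type*} [Group L] (f : S → L) (hM : ∀ s t, M.M s t ≤ 3)
    (h2 : ∀ s t, M.M s t = 2 → f s * f t = f t * f s)
    (h3 : ∀ s t, M.M s t = 3 → f s * f t * f s = f t * f s * f t) (s : S) :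
    artinLift f hM h2 h3 (artinGen M s) = f s :=
  PresentedGroup.toGroup.of _

end Crest.Agent.R175
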