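import Mathlib
import Crest.Agent.R175.PTA_534

/-!
# Restriction `X|p` of a minimal object to the vertices with `p`

`rg G p` : the graph restricted to the vertices with `p`.
`resG p X`, `resF p X` : `V u` for `¬ p u` becomes a frame at every neighbour (one copy per edge):
`W t := X.W t × (∀ (u : {u // ¬ p u}) (_ : G.E u.1 t), X.V u)`.
-/

set_option autoImplicit false
set_option linter.unusedSectionVars false
set_option linter.unusedVariables false

open CategoryTheory Module

namespace Crest.Agent.R175.ResF_663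

open Crest.Agent.R175.PTA

universe v

variable {T : Type} (G : MG T) {k : Type v} [Field k] (p : T → Prop)

/-- the restricted graph -/
def rg : MG {t // p t} where
  E s t := G.E s.1 t.1
  fin s t := G.fin s.1 t.1
  rev a := G.rev a
  rev_rev a := G.rev_rev a
  irr t := G.irr t.1

variable {G}

theorem gVV (X : Gob G k) (t : T) (x : X.V t) : X.gV t (X.gV t x) = x :=
  LinearMap.congr_fun (X.gV_sq t) x

theorem gWW (X : Gob G k) (t : T) (x : X.W t) : X.gW t (X.gW t x) = x :=
  LinearMap.congr_fun (X.gW_sq t) x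

variable [Fintype T] [DecidablePred p]

/-- the new frames at `t`: one copy of `V u` per edge `u → t` -/
abbrev NW (X : Gob G k) (t : T) : Type v :=
  ∀ (u : {u // ¬ p u}) (_ : G.E u.1 t), X.V u.1

/-- the parity of the new frames -/
def newG (X : Gob G k) (t : T) : NW p X t →ₗ[k] NW p X t :=
  LinearMap.pi fun u => LinearMap.pi fun a => X.gV u.1 ∘ₗ LinearMap.proj a ∘ₗ LinearMap.proj u

/-- restriction of a graded object -/
def resG (X : Gob G k) : Gob (rg G p) k where
  V t := X.V t.1
  W t := X.W t.1 × NW p X t.1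
  gV t := X.gV t.1
  gW t := LinearMap.prodMap (X.gW t.1) (newG p X t.1)
  gV_sq t := X.gV_sq t.1
  gW_sq t := by
    refine LinearMap.ext fun x => ?_
    refine Prod.ext ?_ ?_
    · exact gWW X t.1 x.1
    · funext u a
      exact gVV X u.1 (x.2 u a)

/-- the new frame map `V_u → V_t` -/
def newI (X : FObj G k) (t : T) : NW p X.X t →ₗ[k] X.X.V t :=
  ∑ u : {u // ¬ p u}, ∑ a : G.E u.1 t, X.B a ∘ₗ LinearMap.proj a ∘ₗ LinearMap.proj u

/-- the new coframe map -/
def newJ (X : FObj G k) (t : T) : X.X.V t →ₗ[k] NW p X.X t :=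
  LinearMap.pi fun _ => LinearMap.pi fun a => X.B (G.rev a)

variable {p}

theorem newG_apply (X : Gob G k) (t : T) (x : NW p X t) (u : {u // ¬ p u}) (a : G.E u.1 t) :
    newG p X t x u a = X.gV u.1 (x u a) := rfl

theorem newI_apply (X : FObj G k) (t : T) (x : NW p X.X t) :
    newI p X t x = ∑ u : {u // ¬ p u}, ∑ a : G.E u.1 t, X.B a (x u a) := by
  simp [newI]

theorem newJ_apply (X : FObj G k) (t : T) (x : X.X.V t) (u : {u // ¬ p u}) (a : G.E u.1 t) :
    newJ p X t x u a = X.B (G.rev a) x := rfl

/-- reversing the edges -/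
def revE (G : MG T) (s t : T) : G.E s t ≃ G.E t s where
  toFun a := G.rev a
  invFun a := G.rev a
  left_inv a := G.rev_rev a
  right_inv a := G.rev_rev a

theorem sum_split {M : Type*} [AddCommMonoid M] (F : T → M) :
    ∑ t, F t = ∑ t : {t // p t}, F t.1 + ∑ t : {t // ¬ p t}, F t.1 :=
  (Fintype.sum_subtype_add_sum_subtype p F).symm

theorem gB_app (X : FObj G k) {s t : T} (a : G.E s t) (x : X.X.V s) :
    X.X.gV t (X.B a x) = -(X.B a (X.X.gV s x)) := LinearMap.congr_fun (X.gB a) x

theorem mc_res (X : FObj G k) (t : T) :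
    (∑ s : {t // p t}, ∑ a : G.E t s.1, X.B (G.rev a) ∘ₗ X.B a) +
      (LinearMap.coprod (X.i t) (newI p X t)) ∘ₗ (LinearMap.prod (X.j t) (newJ p X t)) = 0 := by
  have h := X.mc t
  rw [sum_split (p := p)] at h
  refine LinearMap.ext fun x => ?_
  have h' := LinearMap.congr_fun h x
  have h2 : newI p X t (newJ p X t x) =
      (∑ u : {u // ¬ p u}, ∑ a : G.E t u.1, X.B (G.rev a) ∘ₗ X.B a) x := by
    rw [newI_apply, LinearMap.sum_apply]
    refine Finset.sum_congr rfl fun u _ => ?_
    rw [LinearMap.sum_apply]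
    refine (Fintype.sum_equiv (revE G t u.1) _ _ fun a => ?_).symm
    rw [newJ_apply]
    simp [revE]
  simp only [LinearMap.add_apply, LinearMap.zero_apply, LinearMap.comp_apply,
    LinearMap.coprod_apply, LinearMap.prod_apply, Function.prod] at h' ⊢
  rw [h2, ← h']
  abel

theorem gi_res (X : FObj G k) (t : T) :
    X.X.gV t ∘ₗ LinearMap.coprod (X.i t) (newI p X t) =
      -(LinearMap.coprod (X.i t) (newI p X t) ∘ₗ LinearMap.prodMap (X.X.gW t) (newG p X.X t)) := by
  refine LinearMap.ext fun x => ?_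
  have h := LinearMap.congr_fun (X.gi t) x.1
  simp only [LinearMap.comp_apply, LinearMap.neg_apply, LinearMap.coprod_apply,
    LinearMap.prodMap_apply, map_add, newI_apply, map_sum, newG_apply, gB_app,
    Finset.sum_neg_distrib] at h ⊢
  rw [h]
  abel

theorem gj_res (X : FObj G k) (t : T) :
    LinearMap.prodMap (X.X.gW t) (newG p X.X t) ∘ₗ LinearMap.prod (X.j t) (newJ p X t) =
      -(LinearMap.prod (X.j t) (newJ p X t) ∘ₗ X.X.gV t) := by
  refine LinearMap.ext fun x => Prod.ext ?_ ?_
  · exact LinearMap.congr_fun (X.gj t) x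
  · funext u a
    exact gB_app X (G.rev a) x

variable (p) in
/-- restriction of a minimal object -/
def resF (X : FObj G k) : FObj (rg G p) k where
  X := resG p X.X
  B {s t} a := X.B (s := s.1) (t := t.1) a
  i t := LinearMap.coprod (X.i t.1) (newI p X t.1)
  j t := LinearMap.prod (X.j t.1) (newJ p X t.1)
  e t := X.e t.1
  mc t := mc_res X t.1
  gB a := X.gB _
  gi t := gi_res X t.1
  gj t := gj_res X t.1
  ge t := X.ge t.1

@[simp] theorem V_resF (X : FObj G k) (t : {t // p t}) : (resF p X).X.V t = X.X.V t.1 := rfl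

theorem finrank_NW (X : Gob G k) (t : T) :
    finrank k (NW p X t) =
      ∑ u : {u // ¬ p u}, Fintype.card (G.E u.1 t) * finrank k (X.V u.1) := by
  rw [Module.finrank_pi_fintype]
  refine Finset.sum_congr rfl fun u _ => ?_
  rw [Module.finrank_pi_fintype]
  simp

/-- the number of frames of the restriction -/
theorem lam_resF (X : FObj G k) (t : {t // p t}) :
    lam (resF p X).toTOb t = lam X.toTOb t.1 +
      ∑ u : {u // ¬ p u}, Fintype.card (G.E u.1 t.1) * finrank k (X.X.V u.1) := by
  rw [← finrank_NW (p := p) X.X t.1]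
  exact Module.finrank_prod

end Crest.Agent.R175.ResF_663
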