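import Mathlib
import Crest.Agent.R175.PTA_534
import Crest.Agent.R175.MFa_663
import Crest.Agent.R175.ResF_663

/-!
# The inequality (MF)

`h(X|, Y|) + ∑_{u ∉ p} (d_u lam'_u + lam_u d'_u) + ∑_{u,u' ∉ p} #E(u,u') d_u d'_{u'}
          ≤ h(X, Y) + 2 ∑_{u ∉ p} d_u d'_u`.
-/

set_option autoImplicit false
set_option linter.unusedSectionVars false
set_option linter.unusedVariables false

open CategoryTheory Module

namespace Crest.Agent.R175.MF_663

open Crest.Agent.R175.PTA Crest.Agent.R175.MFa_663 Crest.Agent.R175.ResF_663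

universe v

variable {T : Type} {G : MG T} {k : Type v} [Field k] {p : T → Prop}
variable [Fintype T] [DecidablePred p]

/-! ### the comparison map -/

variable (p) in
/-- the part of `Hom(W', V')` on the new frames -/
def pfi (X Y : FObj G k) (f : Cp X.X Y.X) (t : T) : NW p X.X t →ₗ[k] Y.X.V t :=
  ∑ u : {u // ¬ p u}, ∑ a : G.E u.1 t, Cp.f1 f a ∘ₗ LinearMap.proj a ∘ₗ LinearMap.proj u

variable (p) in
def pfj (X Y : FObj G k) (f : Cp X.X Y.X) (t : T) : X.X.V t →ₗ[k] NW p Y.X t :=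
  LinearMap.pi fun _ => LinearMap.pi fun a => Cp.f1 f (G.rev a)

theorem pfi_apply (X Y : FObj G k) (f : Cp X.X Y.X) (t : T) (x : NW p X.X t) :
    pfi p X Y f t x = ∑ u : {u // ¬ p u}, ∑ a : G.E u.1 t, Cp.f1 f a (x u a) := by
  simp [pfi]

theorem pfj_apply (X Y : FObj G k) (f : Cp X.X Y.X) (t : T) (x : X.X.V t) (u : {u // ¬ p u})
    (a : G.E u.1 t) : pfj p X Y f t x u a = Cp.f1 f (G.rev a) x := rfl

variable (p) in
/-- the components of `Cp(X, Y)` seen by the restricted complex -/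
def pr (X Y : FObj G k) : Cp X.X Y.X →ₗ[k] Cp (resF p X).X (resF p Y).X where
  toFun f := Cp.mk (X := (resF p X).X) (Y := (resF p Y).X) (fun t => Cp.f0 f t.1)
    (fun s t a => Cp.f1 f (s := s.1) (t := t.1) a)
    (fun t => LinearMap.coprod (Cp.fi f t.1) (pfi p X Y f t.1))
    (fun t => LinearMap.prod (Cp.fj f t.1) (pfj p X Y f t.1))
    (fun t => Cp.f2 f t.1)
  map_add' f g := by
    apply Cp.ext'
    · intro t; rfl
    · intro s t a; rfl
    · intro t
      refine LinearMap.ext fun x => ?_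
      change (Cp.fi f t.1 + Cp.fi g t.1) x.1 + pfi p X Y (f + g) t.1 x.2 =
        (Cp.fi f t.1 x.1 + pfi p X Y f t.1 x.2) + (Cp.fi g t.1 x.1 + pfi p X Y g t.1 x.2)
      simp only [pfi_apply, Cp.f1_add, LinearMap.add_apply, Finset.sum_add_distrib]
      abel
    · intro t; rfl
    · intro t; rfl
  map_smul' c f := by
    apply Cp.ext'
    · intro t; rfl
    · intro s t a; rfl
    · intro t
      refine LinearMap.ext fun x => ?_
      change (c • Cp.fi f t.1) x.1 + pfi p X Y (c • f) t.1 x.2 =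
        c • (Cp.fi f t.1 x.1 + pfi p X Y f t.1 x.2)
      simp only [pfi_apply, Cp.f1_smul, LinearMap.smul_apply, smul_add, Finset.smul_sum]
    · intro t; rfl
    · intro t; rfl

/-- the subspace `f0 u = 0` for `¬ p u` -/
def Nsub (X Y : FObj G k) (p : T → Prop) : Submodule k (Cp X.X Y.X) where
  carrier := {f | ∀ u, ¬ p u → Cp.f0 f u = 0}
  add_mem' := by
    intro f g hf hg u hu; rw [Cp.f0_add, hf u hu, hg u hu, add_zero]
  zero_mem' := by intro u hu; rfl
  smul_mem' := by intro c f hf u hu; rw [Cp.f0_smul, hf u hu, smul_zero]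

/-- the length 2 part, split along `p` -/
theorem f2_aux (X Y : FObj G k) (f : Cp X.X Y.X) (t : T) (x : X.X.V t) :
    Cp.f2 (FD X Y f) t x =
      Y.e t (Cp.f0 f t x) - Y.X.gV t (Cp.f0 f t (X.X.gV t (X.e t x)))
      + (∑ s : {s // p s}, ∑ a : G.E t s.1, Y.B (G.rev a) ∘ₗ Cp.f1 f a) x
      - (∑ s : {s // p s}, ∑ a : G.E t s.1,
          (Y.X.gV t ∘ₗ Cp.f1 f (G.rev a) ∘ₗ X.X.gV s.1) ∘ₗ X.B a) x
      + (Y.i t (Cp.fj f t x) + newI p Y t (pfj p X Y f t x))
      - Y.X.gV t (Cp.fi f t (X.X.gW t (X.j t x)) +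
          pfi p X Y f t (newG p X.X t (newJ p X t x))) := by
  have h1 : newI p Y t (pfj p X Y f t x) =
      (∑ u : {u // ¬ p u}, ∑ a : G.E t u.1, Y.B (G.rev a) ∘ₗ Cp.f1 f a) x := by
    rw [newI_apply, LinearMap.sum_apply]
    refine Finset.sum_congr rfl fun u _ => ?_
    rw [LinearMap.sum_apply]
    refine (Fintype.sum_equiv (revE G t u.1) _ _ fun a => ?_).symm
    rw [pfj_apply]
    simp [revE]
  have h2 : Y.X.gV t (pfi p X Y f t (newG p X.X t (newJ p X t x))) =
      (∑ u : {u // ¬ p u}, ∑ a : G.E t u.1,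
        (Y.X.gV t ∘ₗ Cp.f1 f (G.rev a) ∘ₗ X.X.gV u.1) ∘ₗ X.B a) x := by
    rw [pfi_apply, LinearMap.sum_apply, map_sum]
    refine Finset.sum_congr rfl fun u _ => ?_
    rw [LinearMap.sum_apply, map_sum]
    refine (Fintype.sum_equiv (revE G t u.1) _ _ fun a => ?_).symm
    rw [newG_apply, newJ_apply]
    simp [revE]
  rw [f2_FD, sum_split (p := p) (fun s => ∑ a : G.E t s, Y.B (G.rev a) ∘ₗ Cp.f1 f a),
    sum_split (p := p) (fun s => ∑ a : G.E t s,
      (Y.X.gV t ∘ₗ Cp.f1 f (G.rev a) ∘ₗ X.X.gV s) ∘ₗ X.B a), map_add, h1, h2]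
  simp only [LinearMap.add_apply, LinearMap.sub_apply, LinearMap.comp_apply]
  abel

/-- `pr` is a chain map on `Nsub` -/
theorem pr_FD (X Y : FObj G k) (f : Cp X.X Y.X) (hf : f ∈ Nsub X Y p) :
    pr p X Y (FD X Y f) = FD (resF p X) (resF p Y) (pr p X Y f) := by
  apply Cp.ext'
  · intro t
    rw [f0_FD]
    exact f0_FD X Y f t.1
  · intro s t a
    rw [f1_FD]
    exact f1_FD X Y f (s := s.1) (t := t.1) a
  · intro t
    rw [fi_FD]
    refine LinearMap.ext fun x => ?_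
    change Cp.fi (FD X Y f) t.1 x.1 + pfi p X Y (FD X Y f) t.1 x.2 =
      -(Y.X.gV t.1 (Cp.f0 f t.1 (X.X.gV t.1 (X.i t.1 x.1 + newI p X t.1 x.2))))
    rw [fi_FD, pfi_apply, newI_apply]
    simp only [f1_FD, LinearMap.neg_apply, LinearMap.comp_apply, map_add, map_sum,
      LinearMap.sub_apply, Finset.sum_sub_distrib]
    have : ∀ (u : {u // ¬ p u}) (a : G.E u.1 t.1), Y.B a (Cp.f0 f u.1 (x.2 u a)) = 0 := by
      intro u a
      rw [hf u.1 u.2, LinearMap.zero_apply, map_zero]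
    simp only [this, Finset.sum_const_zero]
    abel
  · intro t
    rw [fj_FD]
    refine LinearMap.ext fun x => Prod.ext ?_ ?_
    · exact LinearMap.congr_fun (fj_FD X Y f t.1) x
    · funext u a
      change Cp.f1 (FD X Y f) (G.rev a) x = Y.B (G.rev a) (Cp.f0 f t.1 x)
      rw [f1_FD, hf u.1 u.2]
      first | (simp; done) | (simp; rfl)
  · intro t
    rw [f2_FD]
    refine LinearMap.ext fun x => ?_
    exact f2_aux X Y f t.1 x

/-! ### the two subspaces -/

open Classical in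
variable (p) in
/-- extension by zero of a family given on `¬ p` -/
def ext0 (X Y : Gob G k) : (∀ u : {u // ¬ p u}, X.V u.1 →ₗ[k] Y.V u.1) →ₗ[k]
    (∀ t, X.V t →ₗ[k] Y.V t) :=
  LinearMap.pi fun t => if h : p t then 0 else LinearMap.proj (⟨t, h⟩ : {u // ¬ p u})

theorem ext0_pos (X Y : Gob G k) (g : ∀ u : {u // ¬ p u}, X.V u.1 →ₗ[k] Y.V u.1) {t : T}
    (h : p t) : ext0 p X Y g t = 0 := by
  simp [ext0, h]

theorem ext0_neg (X Y : Gob G k) (g : ∀ u : {u // ¬ p u}, X.V u.1 →ₗ[k] Y.V u.1) {t : T}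
    (h : ¬ p t) : ext0 p X Y g t = g ⟨t, h⟩ := by
  simp [ext0, h]

variable (p) in
/-- into the length 0 part -/
def in0 (X Y : Gob G k) : (∀ u : {u // ¬ p u}, X.V u.1 →ₗ[k] Y.V u.1) →ₗ[k] Cp X Y :=
  LinearMap.inl k (∀ t, X.V t →ₗ[k] Y.V t) ((∀ s t, G.E s t → (X.V s →ₗ[k] Y.V t)) ×
  (∀ t, X.W t →ₗ[k] Y.V t) × (∀ t, X.V t →ₗ[k] Y.W t) × (∀ t, X.V t →ₗ[k] Y.V t)) ∘ₗ ext0 p X Y

variable (p) in
/-- into the length 2 part -/
def in2 (X Y : Gob G k) : (∀ u : {u // ¬ p u}, X.V u.1 →ₗ[k] Y.V u.1) →ₗ[k] Cp X Y :=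
  LinearMap.inr k (∀ t, X.V t →ₗ[k] Y.V t) ((∀ s t, G.E s t → (X.V s →ₗ[k] Y.V t)) ×
  (∀ t, X.W t →ₗ[k] Y.V t) × (∀ t, X.V t →ₗ[k] Y.W t) × (∀ t, X.V t →ₗ[k] Y.V t)) ∘ₗ
  LinearMap.inr k (∀ s t, G.E s t → (X.V s →ₗ[k] Y.V t)) (
  (∀ t, X.W t →ₗ[k] Y.V t) × (∀ t, X.V t →ₗ[k] Y.W t) × (∀ t, X.V t →ₗ[k] Y.V t)) ∘ₗ
  LinearMap.inr k (∀ t, X.W t →ₗ[k] Y.V t) ((∀ t, X.V t →ₗ[k] Y.W t) ×
    (∀ t, X.V t →ₗ[k] Y.V t)) ∘ₗ
  LinearMap.inr k (∀ t, X.V t →ₗ[k] Y.W t) (∀ t, X.V t →ₗ[k] Y.V t) ∘ₗ ext0 p X Y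

theorem in0_eq (X Y : Gob G k) (g : ∀ u : {u // ¬ p u}, X.V u.1 →ₗ[k] Y.V u.1) :
    in0 p X Y g = Cp.mk (ext0 p X Y g) 0 0 0 0 := rfl

theorem in2_eq (X Y : Gob G k) (g : ∀ u : {u // ¬ p u}, X.V u.1 →ₗ[k] Y.V u.1) :
    in2 p X Y g = Cp.mk 0 0 0 0 (ext0 p X Y g) := rfl

theorem finrank_ext (X Y : Gob G k) :
    finrank k (∀ u : {u // ¬ p u}, X.V u.1 →ₗ[k] Y.V u.1) =
      ∑ u : {u // ¬ p u}, finrank k (X.V u.1) * finrank k (Y.V u.1) := by
  rw [Module.finrank_pi_fintype]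
  simp [Module.finrank_linearMap]

theorem f1_of_pfi {X Y : FObj G k} {f : Cp X.X Y.X} {t : T} (h : pfi p X Y f t = 0)
    (u : {u // ¬ p u}) (a : G.E u.1 t) : Cp.f1 f a = 0 := by
  classical
  refine LinearMap.ext fun x => ?_
  have h1 := LinearMap.congr_fun h (Pi.single u (Pi.single a x))
  rw [pfi_apply, Finset.sum_eq_single u, Finset.sum_eq_single a] at h1
  · simpa using h1
  · intro b _ hb
    simp [hb]
  · simp
  · intro u' _ hu
    refine Finset.sum_eq_zero fun b _ => ?_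
    rw [Pi.single_eq_of_ne hu]
    simp
  · simp

theorem f1_of_pfj {X Y : FObj G k} {f : Cp X.X Y.X} {t : T} (h : pfj p X Y f t = 0)
    (u : {u // ¬ p u}) (a : G.E t u.1) : Cp.f1 f a = 0 := by
  refine LinearMap.ext fun x => ?_
  have h1 := congrFun (congrFun (LinearMap.congr_fun h x) u) (G.rev a)
  rw [pfj_apply] at h1
  simpa using h1

/-- the rank estimate -/
theorem rank_FD_le (X Y : FObj G k) (p : T → Prop) [DecidablePred p] :
    finrank k (LinearMap.range (FD X Y)) ≤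
      finrank k (LinearMap.range (FD (resF p X) (resF p Y))) +
        2 * ∑ u : {u // ¬ p u}, finrank k (X.X.V u.1) * finrank k (Y.X.V u.1) := by
  classical
  have h := rank_le_mid (FD X Y) (Nsub X Y p).subtype (pr p X Y)
    (LinearMap.range (in0 p X.X Y.X)) (LinearMap.range (in2 p X.X Y.X)) ?_ ?_
  · have h1 : finrank k (LinearMap.range (in0 p X.X Y.X)) ≤ _ := LinearMap.finrank_range_le _
    have h2 : finrank k (LinearMap.range (in2 p X.X Y.X)) ≤ _ := LinearMap.finrank_range_le _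
    rw [finrank_ext] at h1 h2
    have h3 : finrank k (LinearMap.range (pr p X Y ∘ₗ FD X Y ∘ₗ (Nsub X Y p).subtype)) ≤
        finrank k (LinearMap.range (FD (resF p X) (resF p Y))) := by
      apply Submodule.finrank_mono
      rintro _ ⟨m, rfl⟩
      exact ⟨pr p X Y m.1, (pr_FD X Y m.1 m.2).symm⟩
    omega
  · intro x
    refine ⟨⟨Cp.mk (fun t => if p t then Cp.f0 x t else 0) (fun _ _ a => Cp.f1 x a) (Cp.fi x)
      (Cp.fj x) (Cp.f2 x), fun u hu => by simp [hu]⟩, fun u => Cp.f0 x u.1, ?_⟩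
    rw [in0_eq, eq_sub_iff_add_eq]
    apply Cp.ext'
    · intro t
      by_cases ht : p t
      · simp [ext0_pos, ht]
      · simp [ext0_neg, ht]
    · intro s t a; simp
    · intro t; simp
    · intro t; simp
    · intro t; simp
  · rintro ⟨m, hm⟩ h0
    change pr p X Y (FD X Y m) = 0 at h0
    have hz0 : ∀ t, Cp.f0 m t = 0 ∨ p t := fun t => by
      by_cases ht : p t
      · exact Or.inr ht
      · exact Or.inl (hm t ht)
    refine ⟨fun u => Cp.f2 (FD X Y m) u.1, ?_⟩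
    rw [in2_eq]
    change _ = FD X Y m
    apply Cp.ext'
    · intro t; rw [f0_FD]; rfl
    · intro s t a
      rw [Cp.f1_mk]
      change 0 = Cp.f1 (FD X Y m) a
      symm
      by_cases hs : p s
      · by_cases ht : p t
        · exact congrArg (fun g => Cp.f1 g (s := (⟨s, hs⟩ : {t // p t}))
            (t := (⟨t, ht⟩ : {t // p t})) a) h0
        · have h1 : LinearMap.prod (Cp.fj (FD X Y m) s) (pfj p X Y (FD X Y m) s) = 0 :=
            congrArg (fun g => Cp.fj g (⟨s, hs⟩ : {t // p t})) h0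
          refine f1_of_pfj (p := p) (t := s) ?_ ⟨t, ht⟩ a
          refine LinearMap.ext fun x => ?_
          exact congrArg Prod.snd (LinearMap.congr_fun h1 x)
      · by_cases ht : p t
        · have h1 : LinearMap.coprod (Cp.fi (FD X Y m) t) (pfi p X Y (FD X Y m) t) = 0 :=
            congrArg (fun g => Cp.fi g (⟨t, ht⟩ : {t // p t})) h0
          refine f1_of_pfi (p := p) (t := t) ?_ ⟨s, hs⟩ a
          refine LinearMap.ext fun x => ?_
          simpa using LinearMap.congr_fun h1 (0, x)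
        · rw [f1_FD, hm s hs, hm t ht]
          simp
    · intro t
      rw [Cp.fi_mk]
      change 0 = Cp.fi (FD X Y m) t
      symm
      by_cases ht : p t
      · have h1 : LinearMap.coprod (Cp.fi (FD X Y m) t) (pfi p X Y (FD X Y m) t) = 0 :=
            congrArg (fun g => Cp.fi g (⟨t, ht⟩ : {t // p t})) h0
        refine LinearMap.ext fun x => ?_
        simpa using LinearMap.congr_fun h1 (x, 0)
      · rw [fi_FD, hm t ht]
        simp
    · intro t
      rw [Cp.fj_mk]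
      change 0 = Cp.fj (FD X Y m) t
      symm
      by_cases ht : p t
      · have h1 : LinearMap.prod (Cp.fj (FD X Y m) t) (pfj p X Y (FD X Y m) t) = 0 :=
            congrArg (fun g => Cp.fj g (⟨t, ht⟩ : {t // p t})) h0
        refine LinearMap.ext fun x => ?_
        exact congrArg Prod.fst (LinearMap.congr_fun h1 x)
      · rw [fj_FD, hm t ht]
        simp
    · intro t
      rw [Cp.f2_mk]
      by_cases ht : p t
      · rw [ext0_pos _ _ _ ht]
        exact (congrArg (fun g => Cp.f2 g (⟨t, ht⟩ : {t // p t})) h0).symm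
      · rw [ext0_neg _ _ _ ht]

/-! ### dimensions -/

theorem finrank_Cp {T : Type} {G : MG T} [Fintype T] (X Y : Gob G k) :
    finrank k (Cp X Y) = 2 * (∑ t, finrank k (X.V t) * finrank k (Y.V t)) +
      (∑ s, ∑ t, Fintype.card (G.E s t) * (finrank k (X.V s) * finrank k (Y.V t))) +
      (∑ t, finrank k (X.W t) * finrank k (Y.V t)) +
      (∑ t, finrank k (X.V t) * finrank k (Y.W t)) := by
  have h : finrank k (Cp X Y) = finrank k ((∀ t, X.V t →ₗ[k] Y.V t) ×
    (∀ s t, G.E s t → (X.V s →ₗ[k] Y.V t)) ×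
    (∀ t, X.W t →ₗ[k] Y.V t) × (∀ t, X.V t →ₗ[k] Y.W t) × (∀ t, X.V t →ₗ[k] Y.V t)) := rfl
  rw [h]
  simp only [Module.finrank_prod, Module.finrank_pi_fintype, Module.finrank_linearMap,
    Finset.sum_const, Finset.card_univ, smul_eq_mul]
  ring

theorem card_rev (G : MG T) (s t : T) : Fintype.card (G.E s t) = Fintype.card (G.E t s) :=
  Fintype.card_congr (revE G s t)

theorem dim_aux (p : T → Prop) [DecidablePred p] (c : T → T → ℕ) (hc : ∀ s t, c s t = c t s)
    (d d' l l' : T → ℕ) :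
    (2 * (∑ t, d t * d' t) + (∑ s, ∑ t, c s t * (d s * d' t)) + (∑ t, l t * d' t) +
      (∑ t, d t * l' t)) =
    (2 * (∑ t : {t // p t}, d t * d' t) +
      (∑ s : {t // p t}, ∑ t : {t // p t}, c s t * (d s * d' t)) +
      (∑ t : {t // p t}, (l t + ∑ u : {u // ¬ p u}, c u t * d u) * d' t) +
      (∑ t : {t // p t}, d t * (l' t + ∑ u : {u // ¬ p u}, c u t * d' u))) +
    (2 * (∑ u : {u // ¬ p u}, d u * d' u) + (∑ u : {u // ¬ p u}, (d u * l' u + l u * d' u)) +
      ∑ u : {u // ¬ p u}, ∑ u' : {u // ¬ p u}, c u u' * (d u * d' u')) := by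
  have e1 : ∑ s : {t // p t}, ∑ u : {u // ¬ p u}, c s u * (d s * d' u) =
      ∑ t : {t // p t}, d t * (∑ u : {u // ¬ p u}, c u t * d' u) := by
    refine Finset.sum_congr rfl fun s _ => ?_
    rw [Finset.mul_sum]
    refine Finset.sum_congr rfl fun u _ => ?_
    rw [hc s u]; ring
  have e2 : ∑ u : {u // ¬ p u}, ∑ s : {t // p t}, c u s * (d u * d' s) =
      ∑ t : {t // p t}, (∑ u : {u // ¬ p u}, c u t * d u) * d' t := by
    rw [Finset.sum_comm]
    refine Finset.sum_congr rfl fun s _ => ?_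
    rw [Finset.sum_mul]
    refine Finset.sum_congr rfl fun u _ => ?_
    ring
  rw [sum_split (p := p) (fun t => d t * d' t), sum_split (p := p) (fun t => l t * d' t),
    sum_split (p := p) (fun t => d t * l' t),
    sum_split (p := p) (fun s => ∑ t, c s t * (d s * d' t))]
  simp only [sum_split (p := p) (fun t => c _ t * (d _ * d' t)), Finset.sum_add_distrib, add_mul,
    mul_add, e1, e2]
  ring

/-- **(MF)** -/
theorem MF (X Y : FObj G k) (p : T → Prop) [DecidablePred p] :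
    hT (resF p X).toTOb (resF p Y).toTOb +
      (∑ u : {u // ¬ p u}, (finrank k (X.X.V u.1) * lam Y.toTOb u.1 +
        lam X.toTOb u.1 * finrank k (Y.X.V u.1))) +
      (∑ u : {u // ¬ p u}, ∑ u' : {u // ¬ p u}, Fintype.card (G.E u.1 u'.1) *
        (finrank k (X.X.V u.1) * finrank k (Y.X.V u'.1))) ≤
    hT X.toTOb Y.toTOb +
      2 * ∑ u : {u // ¬ p u}, finrank k (X.X.V u.1) * finrank k (Y.X.V u.1) := by
  rw [hT_eq_FD, hT_eq_FD]
  have h1 := hd_add_two_range (D := FD X Y) (FD_FD X Y)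
  have h2 := hd_add_two_range (D := FD (resF p X) (resF p Y)) (FD_FD _ _)
  have h3 := rank_FD_le X Y p
  have h4 := finrank_Cp X.X Y.X
  have h5 := finrank_Cp (resF p X).X (resF p Y).X
  have h6 := dim_aux p (fun s t => Fintype.card (G.E s t)) (card_rev G)
    (fun t => finrank k (X.X.V t)) (fun t => finrank k (Y.X.V t))
    (fun t => finrank k (X.X.W t)) (fun t => finrank k (Y.X.W t))
  have h7 : finrank k (Cp (resF p X).X (resF p Y).X) =
    (2 * (∑ t : {t // p t}, finrank k (X.X.V t.1) * finrank k (Y.X.V t.1)) +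
      (∑ s : {t // p t}, ∑ t : {t // p t}, Fintype.card (G.E s.1 t.1) *
        (finrank k (X.X.V s.1) * finrank k (Y.X.V t.1))) +
      (∑ t : {t // p t}, (finrank k (X.X.W t.1) +
        ∑ u : {u // ¬ p u}, Fintype.card (G.E u.1 t.1) * finrank k (X.X.V u.1)) *
          finrank k (Y.X.V t.1)) +
      (∑ t : {t // p t}, finrank k (X.X.V t.1) * (finrank k (Y.X.W t.1) +
        ∑ u : {u // ¬ p u}, Fintype.card (G.E u.1 t.1) * finrank k (Y.X.V u.1)))) := by
    rw [h5]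
    have hl := fun t => lam_resF (p := p) X t
    have hl' := fun t => lam_resF (p := p) Y t
    simp only [lam] at hl hl'
    simp only [hl, hl']
    rfl
  simp only [lam]
  omega

end Crest.Agent.R175.MF_663
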