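import Mathlib
import Crest.Agent.R175.Lift_974

/-!
# R175 (S0264) : the Coxeter matrix on 116 generators
-/

set_option autoImplicit false

open Crest.GroupTheory

namespace Crest.Agent.R175

/-- The generators: `core i` (`aᵢ = i`, `pᵢ = 3 + 2 i`, `qᵢ = 4 + 2 i`), for each of the nine leaf
pairs an element `s k` and a pair `r k b`, four pairs `t e b`, and isolated generators. -/
inductive V : Type
  | core (i : Fin 9)
  | s (k : Fin 9)
  | r (k : Fin 9) (b : Bool)
  | t (e : Fin 4) (b : Bool)
  | iso (i : Fin 72)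
  deriving DecidableEq

namespace V

/-- Edges of label `3`. -/
def E3 : List (Fin 9 × Fin 9) :=
  [(0, 1), (1, 2), (0, 2), (3, 1), (4, 1), (5, 2), (6, 2), (7, 0), (8, 0)]

/-- Edges of label `2`. -/
def E2 : List (Fin 9 × Fin 9) :=
  [(3, 4), (0, 3), (0, 4), (5, 6), (1, 5), (1, 6), (7, 8), (2, 7), (2, 8)]

/-- The labels of the core. -/
def cl (i j : Fin 9) : ℕ :=
  if i = j then 1 else if (i, j) ∈ E3 ∨ (j, i) ∈ E3 then 3
    else if (i, j) ∈ E2 ∨ (j, i) ∈ E2 then 2 else 0

/-- First element of the `k`-th leaf pair. -/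
def uu : Fin 9 → Fin 9 := ![0, 0, 3, 1, 1, 5, 2, 2, 7]

/-- Second element of the `k`-th leaf pair. -/
def vv : Fin 9 → Fin 9 := ![3, 4, 4, 5, 6, 6, 7, 8, 8]

/-- The link of the pair `t e`. -/
def g0 (e : Fin 4) (i : Fin 9) : Bool :=
  match e with
  | 0 => i = 0 ∨ i = 1
  | 1 => i = 1 ∨ i = 2
  | 2 => i = 2 ∨ i = 0
  | 3 => i = 0 ∨ i = 1 ∨ i = 2

/-- The labels. -/
def lab : V → V → ℕ
  | core i, core j => cl i j
  | core i, s k => if i = vv k then 2 else 0
  | s k, core i => if i = vv k then 2 else 0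
  | core i, r k _ => if i = uu k then 2 else 0
  | r k _, core i => if i = uu k then 2 else 0
  | core i, t e _ => if g0 e i then 2 else 0
  | t e _, core i => if g0 e i then 2 else 0
  | s k, s l => if k = l then 1 else 0
  | s k, r l _ => if k = l then 2 else 0
  | r l _, s k => if k = l then 2 else 0
  | r k b, r l c => if k = l ∧ b = c then 1 else 0
  | t e b, t f c => if e = f ∧ b = c then 1 else 0
  | iso i, iso j => if i = j then 1 else 0
  | _, _ => 0

theorem cl_symm : ∀ i j : Fin 9, cl i j = cl j i := by decide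

theorem cl_diag : ∀ i : Fin 9, cl i i = 1 := by decide

theorem cl_off : ∀ i j : Fin 9, i ≠ j → cl i j = 0 ∨ cl i j = 2 ∨ cl i j = 3 := by decide

theorem lab_symm (x y : V) : lab x y = lab y x := by
  cases x <;> cases y <;> simp only [lab]
  · exact cl_symm _ _
  · simp only [eq_comm]
  · congr 1; simp only [eq_comm]
  · congr 1; simp only [eq_comm]
  · simp only [eq_comm]

theorem lab_diag (x : V) : lab x x = 1 := by
  cases x <;> simp [lab, cl_diag]

theorem lab_off (x y : V) (h : x ≠ y) : lab x y = 0 ∨ lab x y = 2 ∨ lab x y = 3 := by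
  cases x <;> cases y <;> simp only [lab]
  case core.core i j => exact cl_off i j fun e => h (by rw [e])
  all_goals (try split_ifs) <;> (try simp) <;> (try (exfalso; apply h; simp_all))

theorem lab_le (x y : V) : lab x y ≤ 3 := by
  rcases eq_or_ne x y with rfl | h
  · rw [lab_diag]; norm_num
  · rcases lab_off x y h with h | h | h <;> rw [h] <;> norm_num

/-- `V` as a sum type. -/
def toSum : V ≃ Fin 9 ⊕ Fin 9 ⊕ (Fin 9 × Bool) ⊕ (Fin 4 × Bool) ⊕ Fin 72 where
  toFun
    | core i => Sum.inl i
    | s k => Sum.inr (Sum.inl k)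
    | r k b => Sum.inr (Sum.inr (Sum.inl (k, b)))
    | t e b => Sum.inr (Sum.inr (Sum.inr (Sum.inl (e, b))))
    | iso i => Sum.inr (Sum.inr (Sum.inr (Sum.inr i)))
  invFun
    | Sum.inl i => core i
    | Sum.inr (Sum.inl k) => s k
    | Sum.inr (Sum.inr (Sum.inl (k, b))) => r k b
    | Sum.inr (Sum.inr (Sum.inr (Sum.inl (e, b)))) => t e b
    | Sum.inr (Sum.inr (Sum.inr (Sum.inr i))) => iso i
  left_inv x := by cases x <;> rfl
  right_inv x := by
    rcases x with i | k | ⟨k, b⟩ | ⟨e, b⟩ | i <;> rfl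

instance : Fintype V := Fintype.ofEquiv _ toSum.symm

theorem card_V : Fintype.card V = 116 := by
  rw [Fintype.card_congr toSum]
  simp

/-- The Coxeter matrix of S0264. -/
def Mat : CoxeterMatrix V where
  M := Matrix.of lab
  isSymm := by
    ext x y
    exact lab_symm y x
  diagonal := lab_diag
  off_diagonal x y h := by
    have := lab_off x y h
    show lab x y ≠ 1
    omega

theorem Mat_apply (x y : V) : Mat.M x y = lab x y := rfl

end V

end Crest.Agent.R175
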