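import Mathlib

/-!
# R175 / (P_T): the abstract minimisation ((5) of #2434, (B) of #2527)

`PTMin T` lists what the blocks deliver (definition of framed objects, Krull-Schmidt existence,
(A) = RED on the cone of an invertible path, DUAL, cones); the conclusion is that a negative value
of `Phi` produces an indecomposable single-framed object `Z` minimising `Phi / g`, unique in its
type, with `H(Z, Z') = 0` for all minimisers `Z'`.

No definition of framed objects is used.  `Sim` = isomorphic up to a shift.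
-/

namespace Crest.Agent.R175.MinB_445

open Finset

universe u v

variable {T : Type v} [Fintype T]

/-- number of frames -/
def tot (m : T → ℕ) : ℕ := ∑ t, m t

/-- weighted number of frames -/
def wt (c : T → ℝ) (m : T → ℕ) : ℝ := ∑ t, c t * (m t : ℝ)

theorem wt_add (c : T → ℝ) (m n : T → ℕ) : wt c (m + n) = wt c m + wt c n := by
  simp only [wt, Pi.add_apply, Nat.cast_add, mul_add, Finset.sum_add_distrib]

theorem wt_zero (c : T → ℝ) : wt c (0 : T → ℕ) = 0 := by
  simp [wt]

theorem wt_single [DecidableEq T] (c : T → ℝ) (t : T) : wt c (Pi.single t 1) = c t := by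
  unfold wt
  rw [Finset.sum_eq_single t]
  · simp
  · intro b _ hb
    simp [Pi.single_eq_of_ne hb]
  · intro h
    exact absurd (Finset.mem_univ t) h

theorem wt_nonneg {c : T → ℝ} (hc : ∀ t, 0 < c t) (m : T → ℕ) : 0 ≤ wt c m :=
  Finset.sum_nonneg fun t _ => mul_nonneg (hc t).le (Nat.cast_nonneg _)

theorem wt_pos {c : T → ℝ} (hc : ∀ t, 0 < c t) {m : T → ℕ} (hm : m ≠ 0) : 0 < wt c m := by
  obtain ⟨t, ht⟩ : ∃ t, m t ≠ 0 := by
    by_contra h
    push Not at h
    exact hm (funext h)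
  refine Finset.sum_pos' (fun s _ => mul_nonneg (hc s).le (Nat.cast_nonneg _)) ⟨t, Finset.mem_univ t, ?_⟩
  exact mul_pos (hc t) (Nat.cast_pos.mpr (Nat.pos_of_ne_zero ht))

theorem wt_mono {c c' : T → ℝ} (h : ∀ t, c t ≤ c' t) (m : T → ℕ) : wt c m ≤ wt c' m :=
  Finset.sum_le_sum fun t _ => mul_le_mul_of_nonneg_right (h t) (Nat.cast_nonneg _)

theorem wt_smul (a : ℝ) (c : T → ℝ) (m : T → ℕ) : wt (fun t => a * c t) m = a * wt c m := by
  unfold wt
  rw [Finset.mul_sum]
  exact Finset.sum_congr rfl fun t _ => by ring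

/-- a dimension vector has no, one, or at least two frames -/
theorem tot_cases [DecidableEq T] (m : T → ℕ) : m = 0 ∨ (∃ t, m = Pi.single t 1) ∨ 2 ≤ tot m := by
  by_cases h0 : m = 0
  · exact Or.inl h0
  right
  by_cases h2 : 2 ≤ tot m
  · exact Or.inr h2
  left
  obtain ⟨t, ht⟩ : ∃ t, m t ≠ 0 := by
    by_contra h
    push Not at h
    exact h0 (funext h)
  have hle : m t ≤ tot m := Finset.single_le_sum (f := m) (fun _ _ => Nat.zero_le _) (Finset.mem_univ t)
  have h1 : m t = 1 := by omega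
  refine ⟨t, funext fun s => ?_⟩
  by_cases hs : s = t
  · subst hs
    simp [h1]
  · rw [Pi.single_eq_of_ne hs]
    have h3 : m t + m s ≤ tot m := by
      unfold tot
      rw [← Finset.add_sum_erase Finset.univ m (Finset.mem_univ t)]
      have := Finset.single_le_sum (f := m) (fun _ _ => Nat.zero_le _)
        (Finset.mem_erase.mpr ⟨hs, Finset.mem_univ s⟩)
      omega
    omega

/-- What the blocks of (P_T) deliver. -/
structure PTMin (T : Type v) [Fintype T] [DecidableEq T] where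
  /-- framed objects -/
  Ob : Type u
  /-- isomorphic (up to a shift) -/
  Sim : Ob → Ob → Prop
  /-- number of frames of each type -/
  lam : Ob → T → ℕ
  /-- `Phi X = h(X, Y) - h . lam X` -/
  Phi : Ob → ℝ
  /-- total dimension of the full Hom (the `H_D` of #2434, `h_full` of #2527) -/
  hf : Ob → Ob → ℕ
  /-- indecomposable -/
  Ind : Ob → Prop
  /-- `H_T(Z, Z') = 0` -/
  Hz : Ob → Ob → Prop
  /-- `g X = sum_t gam t * lam X t` -/
  gam : T → ℝ
  /-- `w X = sum_t om t * lam X t` -/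
  om : T → ℝ
  /-- lower bound -/
  K : ℝ
  gam_pos : ∀ t, 0 < gam t
  om_pos : ∀ t, 0 < om t
  hf_sim : ∀ {Z X X' : Ob}, Sim X X' → hf Z X = hf Z X'
  /-- every object is a finite sum of indecomposables -/
  dec : ∀ X, ∃ l : List Ob, (∀ Y ∈ l, Ind Y) ∧ lam X = (l.map lam).sum ∧
    Phi X = (l.map Phi).sum ∧ ∀ Z, hf Z X = (l.map (hf Z)).sum
  Phi_zero : ∀ X, lam X = 0 → 0 ≤ Phi X
  Phi_bound : ∀ X, -K * wt gam (lam X) ≤ Phi X
  /-- (A) of #2527, (4) of #2434 -/
  redA : ∀ Y, Ind Y → 2 ≤ tot (lam Y) →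
    ∃ Y', Phi Y' ≤ 2 * Phi Y ∧ wt gam (lam Y') = 2 * wt gam (lam Y) - wt om (lam Y)
  /-- discreteness of the values on single-framed objects -/
  disc : ∀ (t : T) (x : ℝ), Set.Finite {y : ℝ | y ≤ x ∧ ∃ X, lam X = Pi.single t 1 ∧ Phi X = y}
  /-- RED for a cone with `path <> 0`, and DUAL if all `path`s vanish in both directions -/
  uniq : ∀ (t : T) (Z Z' : Ob), Ind Z → Ind Z' → lam Z = Pi.single t 1 → lam Z' = Pi.single t 1 →
    ¬ Sim Z Z' → ∃ Y', Phi Y' ≤ Phi Z + Phi Z' ∧ wt gam (lam Y') = 2 * gam t - om t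
  /-- the cone of a nonzero class of `H_T(Z, Z')` (for objects of the same type only if they are
  isomorphic: `H_T -> H_D` is injective only then) -/
  nz : ∀ (t t' : T) (Z Z' : Ob), Ind Z → Ind Z' → lam Z = Pi.single t 1 → lam Z' = Pi.single t' 1 →
    (t = t' → Sim Z Z') → ¬ Hz Z Z' → ∃ U, lam U = lam Z + lam Z' ∧ Phi U ≤ Phi Z + Phi Z' ∧
      ∃ Q, hf Q U < hf Q Z + hf Q Z'

namespace PTMin

variable [DecidableEq T] (P : PTMin.{u, v} T)

/-- `g X` -/
def g (X : P.Ob) : ℝ := wt P.gam (P.lam X)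

theorem g_nonneg (X : P.Ob) : 0 ≤ P.g X := wt_nonneg P.gam_pos _

theorem g_of_zero {X : P.Ob} (h : P.lam X = 0) : P.g X = 0 := by
  rw [g, h, wt_zero]

theorem g_of_single {X : P.Ob} {t : T} (h : P.lam X = Pi.single t 1) : P.g X = P.gam t := by
  rw [g, h, wt_single]

theorem g_pos {X : P.Ob} (h : P.lam X ≠ 0) : 0 < P.g X := wt_pos P.gam_pos h

theorem wt_list_sum (c : T → ℝ) (l : List P.Ob) :
    wt c (l.map P.lam).sum = (l.map fun Y => wt c (P.lam Y)).sum := by
  induction l with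
  | nil => simp [wt_zero]
  | cons Y l ih => simp only [List.map_cons, List.sum_cons, wt_add, ih]

/-- a lower bound on indecomposables is a lower bound on all objects -/
theorem le_of_ind {a : ℝ} (h : ∀ Y, P.Ind Y → a * P.g Y ≤ P.Phi Y) (X : P.Ob) :
    a * P.g X ≤ P.Phi X := by
  obtain ⟨l, hl, h1, h2, -⟩ := P.dec X
  rw [g, h1, wt_list_sum, h2, ← List.sum_map_mul_left]
  exact List.sum_le_sum fun Y hY => h Y (hl Y hY)

/-- the gain constant of (A) -/
theorem exists_kap : ∃ kap : ℝ, 0 < kap ∧ ∀ t, 2 * kap * P.gam t ≤ P.om t := by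
  classical
  rcases isEmpty_or_nonempty T with hT | hT
  · exact ⟨1, one_pos, fun t => (hT.false t).elim⟩
  · let f : T → ℝ := fun t => P.om t / (2 * P.gam t)
    obtain ⟨t0, -, ht0⟩ := Finset.exists_min_image (Finset.univ : Finset T) f
      ⟨Classical.arbitrary T, Finset.mem_univ _⟩
    have hf0 : ∀ t, 0 < f t := fun t => div_pos (P.om_pos t) (mul_pos two_pos (P.gam_pos t))
    refine ⟨f t0, hf0 t0, fun t => ?_⟩
    have h1 : f t0 ≤ f t := ht0 t (Finset.mem_univ t)
    have h2 : (0 : ℝ) < 2 * P.gam t := mul_pos two_pos (P.gam_pos t)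
    have h3 : f t * (2 * P.gam t) = P.om t := div_mul_cancel₀ _ h2.ne'
    nlinarith

/-- (A): a lower bound on all objects improves on indecomposables with at least two frames -/
theorem improve {a : ℝ} (h : ∀ X, a * P.g X ≤ P.Phi X) {Y : P.Ob} (hY : P.Ind Y)
    (h2 : 2 ≤ tot (P.lam Y)) : a * (P.g Y - wt P.om (P.lam Y) / 2) ≤ P.Phi Y := by
  obtain ⟨Y', h3, h4⟩ := P.redA Y hY h2
  have h5 := h Y'
  rw [g, h4] at h5
  have h6 : P.g Y = wt P.gam (P.lam Y) := rfl
  rw [h6]
  nlinarith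

/-- `Z` is a minimiser of type `t` for the ratio `a` -/
structure Mz (a : ℝ) (t : T) (Z : P.Ob) : Prop where
  ind : P.Ind Z
  lam : P.lam Z = Pi.single t 1
  phi : P.Phi Z = a * P.gam t

/-- **attained**: if `Phi` is negative somewhere, the infimum of `Phi / g` is attained at an
indecomposable single-framed object -/
theorem attained {X0 : P.Ob} (hX0 : P.Phi X0 < 0) :
    ∃ a : ℝ, a < 0 ∧ (∀ X, a * P.g X ≤ P.Phi X) ∧ ∃ t Z, P.Mz a t Z := by
  classical
  have hlam0 : P.lam X0 ≠ 0 := fun h => absurd (P.Phi_zero X0 h) (not_le.mpr hX0)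
  obtain ⟨kap, hk0, hk⟩ := P.exists_kap
  -- the infimum
  set S : Set ℝ := {r | ∃ X, P.lam X ≠ 0 ∧ P.Phi X / P.g X = r} with hS
  have hSne : S.Nonempty := ⟨_, X0, hlam0, rfl⟩
  have hSbd : BddBelow S := by
    refine ⟨-P.K, ?_⟩
    rintro r ⟨X, hX, rfl⟩
    rw [le_div_iff₀ (P.g_pos hX)]
    exact P.Phi_bound X
  set th := sInf S with hth
  have hth_le : ∀ X, th * P.g X ≤ P.Phi X := by
    intro X
    by_cases hX : P.lam X = 0
    · rw [P.g_of_zero hX, mul_zero]
      exact P.Phi_zero X hX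
    · have h1 : th ≤ P.Phi X / P.g X := csInf_le hSbd ⟨X, hX, rfl⟩
      rwa [le_div_iff₀ (P.g_pos hX)] at h1
  have hth_neg : th < 0 := by
    have h1 : th ≤ P.Phi X0 / P.g X0 := csInf_le hSbd ⟨X0, hlam0, rfl⟩
    exact lt_of_le_of_lt h1 (div_neg_of_neg_of_pos hX0 (P.g_pos hlam0))
  have hbig : ∀ Y, P.Ind Y → 2 ≤ tot (P.lam Y) → (1 - kap) * th * P.g Y ≤ P.Phi Y := by
    intro Y hY h2
    have h3 := P.improve hth_le hY h2
    have h4 : 2 * kap * P.g Y ≤ wt P.om (P.lam Y) := by
      have := wt_mono hk (P.lam Y)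
      rwa [wt_smul] at this
    nlinarith
  -- any bound valid on singles and not below `(1 - kap) * th` is valid
  have hkey : ∀ b : ℝ, (∀ t Z, P.lam Z = Pi.single t 1 → b * P.gam t ≤ P.Phi Z) → b ≤ 0 →
      b ≤ th := by
    intro b hb hb0
    by_contra hlt
    push Not at hlt
    have h1 : th < (1 - kap) * th := by nlinarith
    set c := min b ((1 - kap) * th) with hc
    have hc1 : th < c := lt_min hlt h1
    have hc2 : ∀ Y, P.Ind Y → c * P.g Y ≤ P.Phi Y := by
      intro Y hY
      rcases tot_cases (P.lam Y) with h0 | ⟨t, ht⟩ | h2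
      · rw [P.g_of_zero h0, mul_zero]
        exact P.Phi_zero Y h0
      · rw [P.g_of_single ht]
        exact le_trans (mul_le_mul_of_nonneg_right (min_le_left _ _) (P.gam_pos t).le) (hb t Y ht)
      · exact le_trans (mul_le_mul_of_nonneg_right (min_le_right _ _) (P.g_nonneg Y)) (hbig Y hY h2)
    have hc3 : ∀ r ∈ S, c ≤ r := by
      rintro r ⟨X, hX, rfl⟩
      rw [le_div_iff₀ (P.g_pos hX)]
      exact P.le_of_ind hc2 X
    exact absurd (le_csInf hSne hc3) (not_le.mpr hc1)
  -- the values on singles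
  have hattain : ∃ t Z, P.lam Z = Pi.single t 1 ∧ P.Phi Z ≤ th * P.gam t := by
    by_contra hno
    push Not at hno
    -- for each type a bound better than `th`
    have hbt : ∀ t, ∃ b : ℝ, th < b ∧ b ≤ 0 ∧ ∀ Z, P.lam Z = Pi.single t 1 → b * P.gam t ≤ P.Phi Z := by
      intro t
      by_cases hneg : ∃ Z, P.lam Z = Pi.single t 1 ∧ P.Phi Z < 0
      · obtain ⟨Z1, hZ1, hZ1'⟩ := hneg
        have hfin := P.disc t 0
        set V : Set ℝ := {y : ℝ | y ≤ 0 ∧ ∃ X, P.lam X = Pi.single t 1 ∧ P.Phi X = y} with hV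
        have hVne : V.Nonempty := ⟨P.Phi Z1, hZ1'.le, Z1, hZ1, rfl⟩
        obtain ⟨y0, ⟨hy0, Z0, hZ0, hZ0'⟩, hmin⟩ := Set.exists_min_image V id hfin hVne
        simp only [id] at hmin
        have hg := P.gam_pos t
        have hlt : th * P.gam t < y0 := by
          rw [← hZ0']
          exact hno t Z0 hZ0
        refine ⟨y0 / P.gam t, ?_, ?_, ?_⟩
        · rwa [lt_div_iff₀ hg]
        · exact div_nonpos_of_nonpos_of_nonneg hy0 hg.le
        · intro Z hZ
          rw [div_mul_cancel₀ _ hg.ne']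
          by_cases hZ0 : P.Phi Z ≤ 0
          · exact hmin _ ⟨hZ0, Z, hZ, rfl⟩
          · exact le_trans hy0 (not_le.mp hZ0).le
      · push Not at hneg
        refine ⟨0, hth_neg, le_refl _, fun Z hZ => ?_⟩
        rw [zero_mul]
        exact hneg Z hZ
    choose b hb1 hb2 hb3 using hbt
    rcases isEmpty_or_nonempty T with hT | hT
    · exact absurd (funext fun t => (hT.false t).elim) hlam0
    obtain ⟨t0, -, ht0⟩ := Finset.exists_min_image (Finset.univ : Finset T) b
      ⟨Classical.arbitrary T, Finset.mem_univ _⟩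
    have h1 := hkey (b t0) (fun t Z hZ => le_trans
      (mul_le_mul_of_nonneg_right (ht0 t (Finset.mem_univ t)) (P.gam_pos t).le) (hb3 t Z hZ)) (hb2 t0)
    exact absurd h1 (not_le.mpr (hb1 t0))
  obtain ⟨t, Z, hZ, hZ'⟩ := hattain
  -- pass to the framed indecomposable summand
  obtain ⟨l, hl, h1, h2, -⟩ := P.dec Z
  refine ⟨th, hth_neg, hth_le, t, ?_⟩
  rw [hZ] at h1
  have hex : ∃ Y ∈ l, P.lam Y ≠ 0 := by
    by_contra hno
    push Not at hno
    have h3 : (l.map P.lam).sum = 0 := by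
      apply List.sum_eq_zero
      intro x hx
      obtain ⟨Y, hY, rfl⟩ := List.mem_map.mp hx
      exact hno Y hY
    rw [h3] at h1
    have h4 := congrFun h1 t
    simp at h4
  obtain ⟨Y, hY, hY0⟩ := hex
  obtain ⟨l1, l2, rfl⟩ := List.append_of_mem hY
  have hsum : Pi.single t 1 = P.lam Y + ((l1 ++ l2).map P.lam).sum := by
    rw [h1]
    simp only [List.map_append, List.map_cons, List.sum_append, List.sum_cons]
    abel
  have hphi : P.Phi Z = P.Phi Y + ((l1 ++ l2).map P.Phi).sum := by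
    rw [h2]
    simp only [List.map_append, List.map_cons, List.sum_append, List.sum_cons]
    ring
  have hYl : P.lam Y = Pi.single t 1 := by
    funext s
    have h5 := congrFun hsum s
    rw [Pi.add_apply] at h5
    by_cases hs : s = t
    · subst hs
      obtain ⟨s', hs'⟩ : ∃ s', P.lam Y s' ≠ 0 := by
        by_contra h
        push Not at h
        exact hY0 (funext h)
      by_cases hs2 : s' = s
      · subst hs2
        rw [Pi.single_eq_same] at h5 ⊢
        omega
      · have h6 := congrFun hsum s'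
        rw [Pi.add_apply, Pi.single_eq_of_ne hs2] at h6
        omega
    · rw [Pi.single_eq_of_ne hs] at h5 ⊢
      omega
  have hrest : 0 ≤ ((l1 ++ l2).map P.Phi).sum := by
    apply List.sum_nonneg
    intro x hx
    obtain ⟨X, hX, rfl⟩ := List.mem_map.mp hx
    apply P.Phi_zero
    have h6 : ((l1 ++ l2).map P.lam).sum = 0 := by
      rw [hYl] at hsum
      have := hsum
      exact (add_eq_left.mp this.symm)
    obtain ⟨l3, l4, hl34⟩ := List.append_of_mem (List.mem_map.mpr ⟨X, hX, rfl⟩ : P.lam X ∈ (l1 ++ l2).map P.lam)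
    rw [hl34] at h6
    simp only [List.sum_append, List.sum_cons] at h6
    funext s
    have h7 := congrFun h6 s
    simp only [Pi.add_apply, Pi.zero_apply] at h7 ⊢
    omega
  refine ⟨Y, hl Y hY, hYl, le_antisymm ?_ ?_⟩
  · linarith
  · have := hth_le Y
    rwa [P.g_of_single hYl] at this

section Min

variable {a : ℝ} (ha : a < 0) (hmin : ∀ X, a * P.g X ≤ P.Phi X)

include ha hmin

/-- an object with `Phi = a g` is a sum of minimisers and of unframed objects with `Phi = 0` -/
theorem pieces {X : P.Ob} (hX : P.Phi X ≤ a * P.g X) :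
    ∃ l : List P.Ob, (∀ Y ∈ l, (P.lam Y = 0 ∧ P.Phi Y = 0) ∨ ∃ t, P.Mz a t Y) ∧
      P.lam X = (l.map P.lam).sum ∧ ∀ Z, P.hf Z X = (l.map (P.hf Z)).sum := by
  obtain ⟨l, hl, h1, h2, h3⟩ := P.dec X
  refine ⟨l, ?_, h1, h3⟩
  -- equality for each piece
  have heq : ∀ Y ∈ l, P.Phi Y = a * P.g Y := by
    intro Y hY
    obtain ⟨l1, l2, rfl⟩ := List.append_of_mem hY
    have h4 : a * P.g X = a * P.g Y + ((l1 ++ l2).map fun Y => a * P.g Y).sum := by
      rw [g, h1, wt_list_sum, ← List.sum_map_mul_left]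
      simp only [List.map_append, List.map_cons, List.sum_append, List.sum_cons, g]
      ring
    have h5 : P.Phi X = P.Phi Y + ((l1 ++ l2).map P.Phi).sum := by
      rw [h2]
      simp only [List.map_append, List.map_cons, List.sum_append, List.sum_cons]
      ring
    have h6 : ((l1 ++ l2).map fun Y => a * P.g Y).sum ≤ ((l1 ++ l2).map P.Phi).sum :=
      List.sum_le_sum fun Y _ => hmin Y
    have h7 := hmin Y
    linarith
  intro Y hY
  have h4 := heq Y hY
  rcases tot_cases (P.lam Y) with h0 | ⟨t, ht⟩ | h5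
  · left
    refine ⟨h0, ?_⟩
    rw [h4, P.g_of_zero h0, mul_zero]
  · right
    exact ⟨t, hl Y hY, ht, by rw [h4, P.g_of_single ht]⟩
  · exfalso
    have h6 := P.improve hmin (hl Y hY) h5
    have h7 : P.lam Y ≠ 0 := by
      intro h0
      rw [h0] at h5
      simp [tot] at h5
    have h8 := wt_pos P.om_pos h7
    rw [h4] at h6
    nlinarith

/-- **unique** in its type -/
theorem unique {t : T} {Z Z' : P.Ob} (hZ : P.Mz a t Z) (hZ' : P.Mz a t Z') : P.Sim Z Z' := by
  by_contra hno
  obtain ⟨Y', h1, h2⟩ := P.uniq t Z Z' hZ.ind hZ'.ind hZ.lam hZ'.lam hno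
  have h3 := hmin Y'
  rw [g, h2] at h3
  rw [hZ.phi, hZ'.phi] at h1
  have h4 := P.om_pos t
  nlinarith

/-- **`H_T(Z, Z') = 0`** for all pairs of minimisers -/
theorem orth {t t' : T} {Z Z' : P.Ob} (hZ : P.Mz a t Z) (hZ' : P.Mz a t' Z') : P.Hz Z Z' := by
  classical
  by_contra hno
  obtain ⟨U, h1, h2, Q, h3⟩ := P.nz t t' Z Z' hZ.ind hZ'.ind hZ.lam hZ'.lam
    (fun h => by subst h; exact P.unique ha hmin hZ hZ') hno
  have hgU : P.g U = P.gam t + P.gam t' := by
    rw [g, h1, wt_add]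
    have e1 : wt P.gam (P.lam Z) = P.gam t := P.g_of_single hZ.lam
    have e2 : wt P.gam (P.lam Z') = P.gam t' := P.g_of_single hZ'.lam
    rw [e1, e2]
  have h4 : P.Phi U ≤ a * P.g U := by
    rw [hgU]
    rw [hZ.phi, hZ'.phi] at h2
    linarith
  obtain ⟨l, hl, h5, h6⟩ := P.pieces ha hmin h4
  -- the value of `hf Q` on the minimiser of type `s`
  let F : T → ℕ := fun s => if h : ∃ Y, P.Mz a s Y then P.hf Q h.choose else 0
  have hF : ∀ s Y, P.Mz a s Y → F s = P.hf Q Y := by
    intro s Y hY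
    have hex : ∃ Y, P.Mz a s Y := ⟨Y, hY⟩
    have e1 : F s = P.hf Q hex.choose := dif_pos hex
    rw [e1]
    exact P.hf_sim (P.unique ha hmin hex.choose_spec hY)
  have hge : ∀ l : List P.Ob, (∀ Y ∈ l, (P.lam Y = 0 ∧ P.Phi Y = 0) ∨ ∃ t, P.Mz a t Y) →
      ∑ s, (l.map P.lam).sum s * F s ≤ (l.map (P.hf Q)).sum := by
    intro l
    induction l with
    | nil => intro _; simp
    | cons Y l ih =>
      intro hl
      have ih' := ih fun X hX => hl X (List.mem_cons_of_mem _ hX)
      have hY : ∑ s, P.lam Y s * F s ≤ P.hf Q Y := by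
        rcases hl Y List.mem_cons_self with ⟨h0, -⟩ | ⟨s, hs⟩
        · rw [h0]
          simp
        · rw [hs.lam, Finset.sum_eq_single s]
          · rw [Pi.single_eq_same, one_mul, hF s Y hs]
          · intro b _ hb
            rw [Pi.single_eq_of_ne hb, zero_mul]
          · intro h
            exact absurd (Finset.mem_univ s) h
      simp only [List.map_cons, List.sum_cons, Pi.add_apply, add_mul, Finset.sum_add_distrib]
      exact Nat.add_le_add hY ih'
  have h7 := hge l hl
  rw [← h5, ← h6, h1] at h7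
  have h8 : ∑ s, (P.lam Z + P.lam Z') s * F s = F t + F t' := by
    simp only [Pi.add_apply, add_mul, Finset.sum_add_distrib]
    rw [hZ.lam, hZ'.lam]
    congr 1
    · rw [Finset.sum_eq_single t]
      · rw [Pi.single_eq_same, one_mul]
      · intro b _ hb
        rw [Pi.single_eq_of_ne hb, zero_mul]
      · intro h
        exact absurd (Finset.mem_univ t) h
    · rw [Finset.sum_eq_single t']
      · rw [Pi.single_eq_same, one_mul]
      · intro b _ hb
        rw [Pi.single_eq_of_ne hb, zero_mul]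
      · intro h
        exact absurd (Finset.mem_univ t') h
  rw [h8, hF t Z hZ, hF t' Z' hZ'] at h7
  omega

end Min

/-- **(P_T) from the analysis of the minimisers**: if a family of pairwise orthogonal
single-framed minimisers with negative `Phi` is impossible, then `Phi >= 0`. -/
theorem Phi_nonneg
    (hD : ∀ a : ℝ, a < 0 → (∀ X, a * P.g X ≤ P.Phi X) →
      (∀ t t' Z Z', P.Mz a t Z → P.Mz a t' Z' → P.Hz Z Z') →
      (∀ t Z Z', P.Mz a t Z → P.Mz a t Z' → P.Sim Z Z') →
      ∀ t Z, P.Mz a t Z → False) (X : P.Ob) : 0 ≤ P.Phi X := by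
  by_contra hneg
  push Not at hneg
  obtain ⟨a, ha, hmin, t, Z, hZ⟩ := P.attained hneg
  exact hD a ha hmin (fun t t' Z Z' hZ hZ' => P.orth ha hmin hZ hZ')
    (fun t Z Z' hZ hZ' => P.unique ha hmin hZ hZ') t Z hZ

/-- the case of simply laced `T`: it is enough that an indecomposable single-framed object with
`H_T(Z, Z) = 0` has `Phi >= 0` (it is some `E_v`) -/
theorem Phi_nonneg_of_self
    (hE : ∀ t Z, P.Ind Z → P.lam Z = Pi.single t 1 → P.Hz Z Z → 0 ≤ P.Phi Z) (X : P.Ob) :
    0 ≤ P.Phi X := by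
  refine P.Phi_nonneg (fun a ha hmin ho _ t Z hZ => ?_) X
  have h1 := hE t Z hZ.ind hZ.lam (ho t t Z Z hZ hZ)
  rw [hZ.phi] at h1
  have h2 := P.gam_pos t
  nlinarith

end PTMin

end Crest.Agent.R175.MinB_445
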