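import Crest.Agent.R175.MinB_445

/-!
# R175 / (P_T), labels > 3: the minimisers are stable under the functors `F m`

`PTMinF T` = `PTMin T` with direct sum decompositions (`IsSum X l`: `X` is isomorphic to the direct
sum of the list `l`), the separate-frame dimension `hT`, and self-adjoint functors `F m` for which
`Phi` and `gam` are eigenvectors.

Result `F_pieces`: for a minimiser `Z` of type `t`, `F m Z` is a direct sum of minimisers (no unframed
summand), with `N m t' t` of them of type `t'`.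
-/

namespace Crest.Agent.R175.MinF_445

open Finset Crest.Agent.R175.MinB_445

universe u v w

/-- `PTMin` with functors -/
structure PTMinF (T : Type v) [Fintype T] [DecidableEq T] (M : Type w) extends PTMin.{u, v} T where
  /-- `X` is isomorphic to the direct sum of the list -/
  IsSum : Ob → List Ob → Prop
  /-- dimension of `H_T(X, Y)` (frames separate) -/
  hT : Ob → Ob → ℕ
  Hz_iff : ∀ X Y, Hz X Y ↔ hT X Y = 0
  dec_sum : ∀ X, ∃ l, IsSum X l ∧ ∀ Y ∈ l, Ind Y
  sum_lam : ∀ {X l}, IsSum X l → lam X = (l.map lam).sum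
  sum_Phi : ∀ {X l}, IsSum X l → Phi X = (l.map Phi).sum
  sum_hT : ∀ {X l}, IsSum X l → ∀ Z, hT Z X = (l.map (hT Z)).sum
  /-- an unframed object is not orthogonal to itself -/
  hT_self : ∀ Q, Ind Q → lam Q = 0 → hT Q Q ≠ 0
  /-- the cone of a nonzero class `Q -> Z`, `Q` unframed: its framed summand is not `Z` -/
  orthQ : ∀ (t : T) (Q Z : Ob), lam Q = 0 → Ind Z → lam Z = Pi.single t 1 → hT Q Z ≠ 0 →
    ∃ U, lam U = lam Z ∧ Phi U ≤ Phi Q + Phi Z ∧ ∀ l, IsSum U l → ∀ Y ∈ l, ¬ Sim Y Z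
  /-- the functors -/
  F : M → Ob → Ob
  /-- the matrix of `F m` on the types -/
  N : M → T → T → ℕ
  /-- the eigenvalue -/
  del : M → ℝ
  lam_F : ∀ m X t, lam (F m X) t = ∑ t', N m t t' * lam X t'
  Phi_F : ∀ m X, Phi (F m X) = del m * Phi X
  gam_F : ∀ m t', ∑ t, gam t * (N m t t' : ℝ) = del m * gam t'
  adj : ∀ m X Y, hT (F m X) Y = hT X (F m Y)

namespace PTMinF

variable {T : Type v} [Fintype T] [DecidableEq T] {M : Type w} (P : PTMinF.{u, v, w} T M)

theorem g_F (m : M) (X : P.Ob) : P.toPTMin.g (P.F m X) = P.del m * P.toPTMin.g X := by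
  unfold PTMin.g wt
  have h1 : ∀ t, (P.lam (P.F m X) t : ℝ) = ∑ t', (P.N m t t' : ℝ) * (P.lam X t' : ℝ) := by
    intro t
    rw [P.lam_F]
    push_cast
    rfl
  simp only [h1, Finset.mul_sum]
  rw [Finset.sum_comm]
  refine Finset.sum_congr rfl fun t' _ => ?_
  have h2 := P.gam_F m t'
  calc ∑ t, P.gam t * ((P.N m t t' : ℝ) * (P.lam X t' : ℝ))
      = (∑ t, P.gam t * (P.N m t t' : ℝ)) * (P.lam X t' : ℝ) := by
        rw [Finset.sum_mul]
        exact Finset.sum_congr rfl fun t _ => by ring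
    _ = P.del m * (P.gam t' * (P.lam X t' : ℝ)) := by
        rw [h2]
        ring

section Min

variable {a : ℝ} (ha : a < 0) (hmin : ∀ X, a * P.toPTMin.g X ≤ P.Phi X)

include ha hmin

/-- the pieces of a minimal object, for a given decomposition -/
theorem pieces' {X : P.Ob} (hX : P.Phi X ≤ a * P.toPTMin.g X) {l : List P.Ob}
    (hs : P.IsSum X l) (hl : ∀ Y ∈ l, P.Ind Y) :
    ∀ Y ∈ l, (P.lam Y = 0 ∧ P.Phi Y = 0) ∨ ∃ t, P.toPTMin.Mz a t Y := by
  have h1 := P.sum_lam hs
  have h2 := P.sum_Phi hs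
  -- equality for each piece
  have heq : ∀ Y ∈ l, P.Phi Y = a * P.toPTMin.g Y := by
    intro Y hY
    obtain ⟨l1, l2, rfl⟩ := List.append_of_mem hY
    have h4 : a * P.toPTMin.g X =
        a * P.toPTMin.g Y + ((l1 ++ l2).map fun Y => a * P.toPTMin.g Y).sum := by
      rw [PTMin.g, h1, PTMin.wt_list_sum, ← List.sum_map_mul_left]
      simp only [List.map_append, List.map_cons, List.sum_append, List.sum_cons, PTMin.g]
      ring
    have h5 : P.Phi X = P.Phi Y + ((l1 ++ l2).map P.Phi).sum := by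
      rw [h2]
      simp only [List.map_append, List.map_cons, List.sum_append, List.sum_cons]
      ring
    have h6 : ((l1 ++ l2).map fun Y => a * P.toPTMin.g Y).sum ≤ ((l1 ++ l2).map P.Phi).sum :=
      List.sum_le_sum fun Y _ => hmin Y
    have h7 := hmin Y
    linarith
  intro Y hY
  have h4 := heq Y hY
  rcases tot_cases (P.lam Y) with h0 | ⟨t, ht⟩ | h5
  · left
    refine ⟨h0, ?_⟩
    rw [h4, P.toPTMin.g_of_zero h0, mul_zero]
  · right
    exact ⟨t, hl Y hY, ht, by rw [h4, P.toPTMin.g_of_single ht]⟩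
  · exfalso
    have h6 := P.toPTMin.improve hmin (hl Y hY) h5
    have h7 : P.lam Y ≠ 0 := by
      intro h0
      rw [h0] at h5
      simp [tot] at h5
    have h8 := wt_pos P.om_pos h7
    rw [h4] at h6
    nlinarith

/-- an unframed object with `Phi <= 0` is left orthogonal to the minimisers -/
theorem orth_unframed {Q Z : P.Ob} {t : T} (hQ : P.lam Q = 0) (hQ' : P.Phi Q ≤ 0)
    (hZ : P.toPTMin.Mz a t Z) : P.hT Q Z = 0 := by
  by_contra hne
  obtain ⟨U, h1, h2, h3⟩ := P.orthQ t Q Z hQ hZ.ind hZ.lam hne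
  have hgU : P.toPTMin.g U = P.gam t := by
    rw [PTMin.g, h1]
    exact P.toPTMin.g_of_single hZ.lam
  have hU : P.Phi U ≤ a * P.toPTMin.g U := by
    rw [hgU, ← hZ.phi]
    linarith
  obtain ⟨l, hl, hind⟩ := P.dec_sum U
  have h4 := P.pieces' ha hmin hU hl hind
  have h5 := P.sum_lam hl
  rw [h1, hZ.lam] at h5
  -- a framed piece
  have hex : ∃ Y ∈ l, P.lam Y ≠ 0 := by
    by_contra hno
    push Not at hno
    have h6 : (l.map P.lam).sum = 0 := by
      apply List.sum_eq_zero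
      intro x hx
      obtain ⟨Y, hY, rfl⟩ := List.mem_map.mp hx
      exact hno Y hY
    rw [h6] at h5
    have h7 := congrFun h5 t
    simp at h7
  obtain ⟨Y, hY, hY0⟩ := hex
  rcases h4 Y hY with ⟨h6, -⟩ | ⟨s, hs⟩
  · exact hY0 h6
  · have hst : s = t := by
      by_contra hne
      obtain ⟨l1, l2, rfl⟩ := List.append_of_mem hY
      have h7 := congrFun h5 s
      simp only [List.map_append, List.map_cons, List.sum_append, List.sum_cons,
        Pi.add_apply] at h7
      rw [Pi.single_eq_of_ne hne, hs.lam, Pi.single_eq_same] at h7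
      omega
    subst hst
    exact h3 l hl Y hY (P.toPTMin.unique ha hmin hs hZ)

/-- **`F m` of a minimiser is a sum of minimisers** -/
theorem F_pieces {t : T} {Z : P.Ob} (hZ : P.toPTMin.Mz a t Z) (m : M) :
    ∃ l, P.IsSum (P.F m Z) l ∧ (∀ Y ∈ l, ∃ t', P.toPTMin.Mz a t' Y) ∧
      ∀ t', (l.map P.lam).sum t' = P.N m t' t := by
  obtain ⟨l, hl, hind⟩ := P.dec_sum (P.F m Z)
  have hF : P.Phi (P.F m Z) ≤ a * P.toPTMin.g (P.F m Z) := by
    rw [P.Phi_F, P.g_F, hZ.phi, P.toPTMin.g_of_single hZ.lam]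
    apply le_of_eq
    ring
  have h1 := P.pieces' ha hmin hF hl hind
  refine ⟨l, hl, ?_, ?_⟩
  · intro Q hQ
    rcases h1 Q hQ with ⟨h2, h3⟩ | h2
    · exfalso
      have h4 : P.lam (P.F m Q) = 0 := by
        funext s
        rw [P.lam_F, h2]
        simp
      have h5 : P.Phi (P.F m Q) ≤ 0 := by
        rw [P.Phi_F, h3, mul_zero]
      have h6 := P.orth_unframed ha hmin h4 h5 hZ
      rw [P.adj, P.sum_hT hl] at h6
      have h7 : P.hT Q Q = 0 := by
        obtain ⟨l1, l2, rfl⟩ := List.append_of_mem hQ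
        simp only [List.map_append, List.map_cons, List.sum_append, List.sum_cons] at h6
        omega
      exact P.hT_self Q (hind Q hQ) h2 h7
    · exact h2
  · intro t'
    rw [← P.sum_lam hl, P.lam_F, hZ.lam, Finset.sum_eq_single t]
    · rw [Pi.single_eq_same, mul_one]
    · intro b _ hb
      rw [Pi.single_eq_of_ne hb, mul_zero]
    · intro h
      exact absurd (Finset.mem_univ t) h

/-- the set of types of minimisers is stable -/
theorem types_stable {t t' : T} {Z : P.Ob} (hZ : P.toPTMin.Mz a t Z) (m : M)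
    (hN : P.N m t' t ≠ 0) : ∃ Z', P.toPTMin.Mz a t' Z' := by
  obtain ⟨l, hl, h1, h2⟩ := P.F_pieces ha hmin hZ m
  by_contra hno
  push Not at hno
  apply hN
  rw [← h2 t']
  have h3 : ∀ Y ∈ l, P.lam Y t' = 0 := by
    intro Y hY
    obtain ⟨s, hs⟩ := h1 Y hY
    by_cases hst : t' = s
    · subst hst
      exact absurd hs (hno Y)
    · rw [hs.lam, Pi.single_eq_of_ne hst]
  clear h1 h2 hl
  induction l with
  | nil => rfl
  | cons Y l ih =>
    simp only [List.map_cons, List.sum_cons, Pi.add_apply]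
    rw [h3 Y List.mem_cons_self, ih fun X hX => h3 X (List.mem_cons_of_mem _ hX)]

end Min

/-- **(P_T) for all labels, from the analysis of an `F`-stable orthogonal family.**
`X t`, `t ∈ S`, is the family of all minimisers (one for each type in the finite set `S` of types). -/
theorem Phi_nonneg
    (hD : ∀ (S : Set T) (X : T → P.Ob), S.Nonempty →
      (∀ t ∈ S, P.Ind (X t)) → (∀ t ∈ S, P.lam (X t) = Pi.single t 1) →
      (∀ t ∈ S, ∀ t' ∈ S, P.hT (X t) (X t') = 0) →
      (∀ m, ∀ t ∈ S, ∀ t', P.N m t' t ≠ 0 → t' ∈ S) →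
      (∀ m, ∀ t ∈ S, ∃ l, P.IsSum (P.F m (X t)) l ∧
        (∀ Y ∈ l, ∃ t' ∈ S, P.lam Y = Pi.single t' 1 ∧ P.Ind Y ∧ P.Sim Y (X t')) ∧
        ∀ t', (l.map P.lam).sum t' = P.N m t' t) →
      ∃ t ∈ S, 0 ≤ P.Phi (X t)) (X : P.Ob) : 0 ≤ P.Phi X := by
  classical
  refine P.toPTMin.Phi_nonneg (fun a ha hmin ho hu t Z hZ => ?_) X
  let S : Set T := {t | ∃ Z, P.toPTMin.Mz a t Z}
  let W : T → P.Ob := fun t => if h : ∃ Z, P.toPTMin.Mz a t Z then h.choose else Z
  have hW : ∀ t ∈ S, P.toPTMin.Mz a t (W t) := by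
    intro t ht
    have ht' : ∃ Z, P.toPTMin.Mz a t Z := ht
    have h1 : W t = ht'.choose := dif_pos ht'
    rw [h1]
    exact ht'.choose_spec
  obtain ⟨t0, ht0, h0⟩ := hD S W ⟨t, Z, hZ⟩ (fun t ht => (hW t ht).ind) (fun t ht => (hW t ht).lam)
    (fun t ht t' ht' => (P.Hz_iff _ _).mp (ho t t' _ _ (hW t ht) (hW t' ht')))
    (fun m t ht t' hN => P.types_stable ha hmin (hW t ht) m hN)
    (fun m t ht => by
      obtain ⟨l, h1, h2, h3⟩ := P.F_pieces ha hmin (hW t ht) m
      refine ⟨l, h1, fun Y hY => ?_, h3⟩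
      obtain ⟨t', ht'⟩ := h2 Y hY
      exact ⟨t', ⟨Y, ht'⟩, ht'.lam, ht'.ind, hu t' Y (W t') ht' (hW t' ⟨Y, ht'⟩)⟩)
  have h1 := (hW t0 ht0).phi
  have h2 := P.gam_pos t0
  nlinarith

end PTMinF

end Crest.Agent.R175.MinF_445
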