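import Crest.Agent.R175.OIn_184
import Crest.Agent.R175.AttB_663
import Crest.Agent.R175.B3_83

/-!
# R175 (S0264): all orthogonality inputs and infinite order facts of the concrete group
-/

set_option autoImplicit false

namespace Crest.Agent.R175.OConc_184

open Grp_184 Grp_184.Gn Tv_184 AttB_663 Geo

/-- vectors of the core. -/
def core : Fin 3 → V4
  | 0 => (1, 0, 0, 0)
  | 1 => (0, 1, 0, 0)
  | 2 => (1, 1, 0, 0)

/-- the vectors of the `(i, j)` representation. -/
def vec (i j : Fin 3) : Gn → V4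
  | a k => if a k = UU i j then core k + (0, 0, 1, 0) else core k
  | l k b => if l k b = UU i j then core k + (0, 0, 1, 0) else core k
  | u i' j' => if i' = i ∧ j' = j then (0, 0, 0, 2) else (0, 0, 0, 0)
  | _ => (0, 0, 0, 0)

lemma om_zero (v : V4) : om (0, 0, 0, 0) v = 0 := by simp [om]

lemma vaa : ∀ i j k k' : Fin 3, k ≠ k' → om (vec i j (a k)) (vec i j (a k')) ^ 2 = 1 := by decide
lemma vla3 : ∀ i j k : Fin 3, ∀ b, om (vec i j (l k b)) (vec i j (a (k + 1))) ^ 2 = 1 := by decide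
lemma vla2 : ∀ i j k : Fin 3, ∀ b, om (vec i j (l k b)) (vec i j (a k)) = 0 := by decide
lemma vll : ∀ i j k : Fin 3, ∀ b b', om (vec i j (l k b)) (vec i j (l k b')) = 0 := by decide
lemma vuV : ∀ i j i' j' : Fin 3, om (vec i j (u i' j')) (vec i j (VV i' j')) = 0 := by decide
lemma vUu : ∀ i j : Fin 3, om (vec i j (UU i j)) (vec i j (u i j)) = 2 := by decide

lemma cond_vec (i j : Fin 3) : Cond (fun x => T (vec i j x)) where
  aa k k' h := T_braid (vaa i j k k' h)
  la3 k b := T_braid (vla3 i j k b)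
  la2 k b := T_comm (vla2 i j k b)
  ll k b b' := T_comm (vll i j k b b')
  uV i' j' := T_comm (vuV i j i' j')
  rU _ _ _ := T_comm (om_zero _)
  ru _ _ _ := T_comm (om_zero _)
  s0 _ _ := T_comm (om_zero _)
  s1 _ _ := T_comm (om_zero _)
  ta _ _ := T_comm (om_zero _)

lemma comm_VU (i j : Fin 3) : Commute (gn (VV i j)) (gn (UU i j)) := by
  fin_cases j
  · exact cond_gn.la2 i false
  · exact cond_gn.la2 i true
  · exact cond_gn.ll i true false

/-- **all orthogonality inputs.** -/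
theorem odata_all (i j : Fin 3) : OData (gn (UU i j)) (gn (VV i j)) := by
  refine OIn_184.odata (u' := gn (u i j)) (r₁ := gn (r i j false)) (r₂ := gn (r i j true))
    (cond_gn.rU i j false) (cond_gn.ru i j false) (cond_gn.rU i j true) (cond_gn.ru i j true)
    (comm_VU i j) (cond_gn.uV i j).symm ?_ (mk _ (cond_vec i j)) ?_ ?_
  · intro g hg
    obtain ⟨n, k, hk, e⟩ := cent_r i j g hg.symm
    exact ⟨n, k, hk, e⟩
  · rw [mk_gn]; exact T_zero
  · rw [mk_gn, mk_gn]
    exact two_T_injective (vUu i j)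

/-- length, killing everything outside of the core. -/
def len : Gn → Multiplicative ℤ
  | a _ => Multiplicative.ofAdd 1
  | l _ _ => Multiplicative.ofAdd 1
  | _ => 1

lemma cond_len : Cond len where
  aa _ _ _ := rfl
  la3 _ _ := rfl
  la2 _ _ := rfl
  ll _ _ _ := rfl
  uV _ _ := mul_comm _ _
  rU _ _ _ := mul_comm _ _
  ru _ _ _ := mul_comm _ _
  s0 _ _ := mul_comm _ _
  s1 _ _ := mul_comm _ _
  ta _ _ := mul_comm _ _

/-- the length homomorphism. -/
noncomputable def lenHom : GG →* Multiplicative ℤ := mk len cond_len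

lemma ofAdd_pow_ne {z : ℤ} (hz : z ≠ 0) {n : ℕ} (hn : 0 < n) :
    (Multiplicative.ofAdd z) ^ n ≠ 1 := by
  intro h0
  have h1 := congrArg Multiplicative.toAdd h0
  rw [toAdd_pow, toAdd_ofAdd, toAdd_one, nsmul_eq_mul, mul_eq_zero] at h1
  rcases h1 with h | h
  · rw [Nat.cast_eq_zero] at h; omega
  · exact hz h

theorem dd_pow_ne (i : Fin 3) {n : ℕ} (hn : 0 < n) :
    D4Rel.dd (gn (a i)) (gn (a (i + 1))) (gn (l i false)) (gn (l i true)) ^ n ≠ 1 := by
  intro h
  have h1 := congrArg lenHom h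
  rw [map_pow, map_one] at h1
  have h2 : lenHom (D4Rel.dd (gn (a i)) (gn (a (i + 1))) (gn (l i false)) (gn (l i true))) =
      Multiplicative.ofAdd 12 := by
    simp only [D4Rel.dd, D4Rel.gg, map_mul, lenHom, mk_gn, len]
    rfl
  rw [h2] at h1
  exact ofAdd_pow_ne (by norm_num) hn h1

theorem d4rel (i : Fin 3) :
    D4Rel (gn (a i)) (gn (a (i + 1))) (gn (l i false)) (gn (l i true)) where
  am := cond_gn.aa i (i + 1) (by revert i; decide)
  pm := cond_gn.la3 i false
  qm := cond_gn.la3 i true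
  ap := (cond_gn.la2 i false).symm
  aq := (cond_gn.la2 i true).symm
  pq := cond_gn.ll i false true

/-- **the `D₄` input.** -/
theorem d4data (i : Fin 3) : D4Data (gn (a i)) (gn (a (i + 1))) :=
  ⟨gn (l i false), gn (l i true), d4rel i, odata_all i 0, odata_all i 1, odata_all i 2,
    fun _ hn => dd_pow_ne i hn⟩

theorem a_pow_ne (i : Fin 3) {n : ℕ} (hn : 0 < n) : gn (a i) ^ n ≠ 1 := by
  intro h
  have h1 := congrArg lenHom h
  rw [map_pow, map_one, lenHom, mk_gn] at h1
  exact ofAdd_pow_ne one_ne_zero hn h1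

theorem ab_pow_ne (i : Fin 3) {n : ℕ} (hn : 0 < n) :
    ((gn (a i) ^ 6)⁻¹ * (gn (a i) * gn (a (i + 1))) ^ 3) ^ n ≠ 1 := by
  intro h
  have h1 := congrArg (edgeHom B3_83.braid i) h
  rw [map_pow, map_mul, map_inv, map_pow, map_pow, map_mul, edgeHom_a, edgeHom_b, map_one,
    B3_83.sa_mul_sb, pow_three' B3_83.Y, B3_83.Y_cube, mul_one, inv_pow, inv_eq_one, ← pow_mul] at h1
  have h2 := B3_83.sa_pow_mem (n := 6 * n) (by positivity)
  rw [h1, FirstLet_83.mem_st, inv_one, one_smul, FirstLet_83.lst_empty] at h2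
  exact absurd h2 (by simp)

end Crest.Agent.R175.OConc_184
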