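import Crest.Agent.R175.Tv_184
import Crest.Agent.R175.FirstLet_83
import Crest.Agent.R175.Geo7_974

/-!
# R175 (S0264): the orthogonality input (4-cycle lemma), abstract form
-/

set_option autoImplicit false

namespace Crest.Agent.R175.OIn_184

open Monoid Tv_184 FirstLet_83 Geo

variable {G Q : Type*} [Group G] [Group Q]

lemma two_false (x y : G) (n : Multiplicative ℤ) :
    two x y (CoprodI.of (i := false) n) = x ^ n.toAdd := by
  simp [two]

lemma two_true (x y : G) (n : Multiplicative ℤ) :
    two x y (CoprodI.of (i := true) n) = y ^ n.toAdd := by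
  simp [two]

lemma map_two (T : G →* Q) (x y : G) (w : ZZ) : T (two x y w) = two (T x) (T y) w := by
  have h : T.comp (two x y) = two (T x) (T y) := by
    refine CoprodI.ext_hom _ _ fun b => ?_
    ext
    cases b <;> simp [two]
  rw [← h]; rfl

lemma closure_le_range (x y : G) : Subgroup.closure {x, y} ≤ (two x y).range := by
  rw [Subgroup.closure_le]
  rintro g (rfl | hg)
  · exact ⟨CoprodI.of (i := false) (Multiplicative.ofAdd 1), by rw [two_false]; simp⟩
  · rw [Set.mem_singleton_iff] at hg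
    subst hg
    exact ⟨CoprodI.of (i := true) (Multiplicative.ofAdd 1), by rw [two_true]; simp⟩

/-- **O-lemma**. -/
theorem odata {u v u' r₁ r₂ : G} (c1 : Commute r₁ u) (c2 : Commute r₁ u') (c3 : Commute r₂ u)
    (c4 : Commute r₂ u') (c5 : Commute v u) (c6 : Commute v u')
    (A1 : ∀ g, Commute (r₁ * r₂ * r₁⁻¹ * r₂⁻¹) g → ∃ n : ℤ, ∃ k ∈ Subgroup.closure {u, u'},
      g = (r₁ * r₂ * r₁⁻¹ * r₂⁻¹) ^ n * k)
    (T : G →* Q) (Tr : T r₁ = 1) (inj : Function.Injective (two (T u) (T u'))) : OData u v := by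
  classical
  set h := r₁ * r₂ * r₁⁻¹ * r₂⁻¹ with hh
  have Th : T h = 1 := by
    rw [hh]; simp [Tr]
  have hu : Commute h u := (((c1.mul_left c3).mul_left c1.inv_left).mul_left c3.inv_left)
  have hu' : Commute h u' := (((c2.mul_left c4).mul_left c2.inv_left).mul_left c4.inv_left)
  set J := two (T u) (T u') with hJ
  -- image of the centraliser
  have him : ∀ g : G, Commute h g → T g ∈ J.range := by
    intro g hg
    obtain ⟨n, k, hk, rfl⟩ := A1 g hg
    rw [map_mul, map_zpow, Th, one_zpow, one_mul]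
    obtain ⟨w, rfl⟩ := closure_le_range u u' hk
    exact ⟨w, (map_two T u u' w).symm⟩
  have hcen : ∀ g : Subgroup.centralizer {h}, Commute h (g : G) := by
    intro g
    exact Subgroup.mem_centralizer_iff.1 g.2 h rfl
  let θ₀ : Subgroup.centralizer {h} →* J.range :=
    (T.comp (Subgroup.centralizer {h}).subtype).codRestrict J.range (fun g => him g (hcen g))
  let θ : Subgroup.centralizer {h} →* ZZ := (MonoidHom.ofInjective inj).symm.toMonoidHom.comp θ₀
  have hθ : ∀ g, J (θ g) = T g := by
    intro g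
    have : (MonoidHom.ofInjective inj) (θ g) = θ₀ g := by simp [θ]
    exact congrArg Subtype.val this
  have hmu : u ∈ Subgroup.centralizer {h} := by
    rw [Subgroup.mem_centralizer_iff]
    rintro _ rfl; exact hu
  have hmu' : u' ∈ Subgroup.centralizer {h} := by
    rw [Subgroup.mem_centralizer_iff]
    rintro _ rfl; exact hu'
  have hmg : u' * u * u'⁻¹ ∈ Subgroup.centralizer {h} :=
    mul_mem (mul_mem hmu' hmu) (inv_mem hmu')
  have eu : θ ⟨u, hmu⟩ = CoprodI.of (i := false) (Multiplicative.ofAdd 1) := by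
    apply inj
    rw [hθ, hJ, two_false]; simp
  have eg : θ ⟨u' * u * u'⁻¹, hmg⟩ = CoprodI.of (i := true) (Multiplicative.ofAdd 1) *
      CoprodI.of (i := false) (Multiplicative.ofAdd 1) *
      (CoprodI.of (i := true) (Multiplicative.ofAdd 1))⁻¹ := by
    apply inj
    rw [hθ, map_mul, map_mul, map_inv, map_mul, map_mul, map_inv, hJ, two_false, two_true]; simp
  have hpow : ∀ n : ℕ, 0 < n → (Multiplicative.ofAdd (1:ℤ)) ^ n ≠ 1 := by
    intro n hn h0
    have h1 := congrArg Multiplicative.toAdd h0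
    rw [toAdd_pow, toAdd_ofAdd, toAdd_one] at h1
    simp at h1
    omega
  refine ⟨u', r₁, r₂, _, c1, c2, c3, c4, c5, c6, div_of_hom (Set.finite_singleton h) θ ?_ ?_
    hmu hmg false ?_ ?_⟩
  · intro g hg
    obtain ⟨n, k, hk, e⟩ := A1 g (hcen g)
    have h1 : T (g : G) = 1 := by rw [← hθ, hg, map_one]
    obtain ⟨w, rfl⟩ := closure_le_range u u' hk
    rw [e, map_mul, map_zpow, Th, one_zpow, one_mul, map_two] at h1
    have h2 : w = 1 := inj (by rw [map_one]; exact h1)
    refine ⟨n, ?_⟩
    rw [e, h2, map_one, mul_one]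
  · rintro e ⟨k, rfl⟩ g hg
    exact (hg h rfl).zpow_left k
  · intro n hn
    rw [eu, ← map_pow]
    exact st_of (hpow n hn)
  · intro n hn
    rw [eg]
    exact st_disjoint (by decide) (st_conj_pow (by decide) (hpow n hn)
      (by simp))

end Crest.Agent.R175.OIn_184
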