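import Mathlib
import Crest.Agent.R175.Free_974
import Crest.Agent.R175.Geo7_974

/-!
# R175 (S0264) : the orthogonality input `OData`
-/

set_option autoImplicit false

namespace Crest.Agent.R175

open Geo Free
open FreeGroup (of)

/-- The input for orthogonality from the centraliser of `h = r₁ r₂ r₁⁻¹ r₂⁻¹` and a homomorphism
that makes `u` and `s` free generators. -/
theorem odata_of {G L : Type*} [Group G] [Group L] (π : G →* L) (u v s r₁ r₂ : G)
    (h1 : Commute r₁ u) (h2 : Commute r₁ s) (h3 : Commute r₂ u) (h4 : Commute r₂ s)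
    (h5 : Commute v u) (h6 : Commute v s) (hr₁ : π r₁ = 1) (hr₂ : π r₂ = 1)
    (hinj : Function.Injective (FreeGroup.lift (fun b : Bool => if b then π u else π s)))
    (hA : ∀ g : G, Commute (r₁ * r₂ * r₁⁻¹ * r₂⁻¹) g → ∃ n : ℤ, ∃ k ∈ Subgroup.closure {u, s},
      g = (r₁ * r₂ * r₁⁻¹ * r₂⁻¹) ^ n * k) :
    OData u v := by
  classical
  set c := r₁ * r₂ * r₁⁻¹ * r₂⁻¹ with hc
  set J : FreeGroup Bool →* G := FreeGroup.lift (fun b : Bool => if b then u else s) with hJ
  have hJπ : ∀ w, π (J w) = FreeGroup.lift (fun b : Bool => if b then π u else π s) w := by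
    intro w
    have : π.comp J = FreeGroup.lift (fun b : Bool => if b then π u else π s) := by
      ext b
      rw [MonoidHom.comp_apply, hJ, FreeGroup.lift_apply_of, FreeGroup.lift_apply_of]
      split_ifs <;> rfl
    rw [← this]; rfl
  have hπc : π c = 1 := by simp [hc, hr₁, hr₂]
  have hJt : J (of true) = u := by rw [hJ, FreeGroup.lift_apply_of]; rfl
  have hJf : J (of false) = s := by rw [hJ, FreeGroup.lift_apply_of]; rfl
  have hrange : ∀ k ∈ Subgroup.closure {u, s}, ∃ w, k = J w := by
    intro k hk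
    have hle : Subgroup.closure {u, s} ≤ J.range := by
      rw [Subgroup.closure_le]
      rintro y (rfl | hy)
      · exact ⟨of true, hJt⟩
      · rw [Set.mem_singleton_iff] at hy
        exact ⟨of false, by rw [hJf, hy]⟩
    obtain ⟨w, hw⟩ := hle hk
    exact ⟨w, hw.symm⟩
  have cu : Commute c u := (((h1.mul_left h3).mul_left h1.inv_left).mul_left h3.inv_left)
  have cs : Commute c s := (((h2.mul_left h4).mul_left h2.inv_left).mul_left h4.inv_left)
  have cJ : ∀ w, Commute c (J w) := by
    intro w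
    induction w using FreeGroup.induction_on with
    | C1 => rw [map_one]; exact Commute.one_right c
    | of x => cases x with
      | true => rw [hJt]; exact cu
      | false => rw [hJf]; exact cs
    | inv_of x hx => rw [map_inv]; exact hx.inv_right
    | mul x y hx hy => rw [map_mul]; exact hx.mul_right hy
  -- uniqueness of the free part
  have huniq : ∀ (n n' : ℤ) (w w' : FreeGroup Bool), c ^ n * J w = c ^ n' * J w' → w = w' := by
    intro n n' w w' h
    have h' := congrArg π h
    rw [map_mul, map_mul, map_zpow, map_zpow, hπc, one_zpow, one_zpow, one_mul, one_mul,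
      hJπ, hJπ] at h'
    exact hinj h'
  set U : Set G := {g | ∃ n : ℤ, ∃ w : FreeGroup Bool, g = c ^ n * J w ∧ st w} with hU
  refine ⟨s, r₁, r₂, U, h1, h2, h3, h4, h5, h6, ?_⟩
  refine ⟨Set.finite_singleton _, ?_, ?_, ?_, ?_, ?_, ?_⟩
  · intro f hf
    rw [Set.mem_singleton_iff] at hf
    rw [hf]; exact cu
  · intro f hf
    rw [Set.mem_singleton_iff] at hf
    rw [hf]; exact (cs.mul_right cu).mul_right cs.inv_right
  · rintro e ⟨k, rfl⟩ g hg
    exact (hg _ (Set.mem_singleton _)).zpow_left k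
  · intro n hn
    exact ⟨0, of true ^ n, by rw [zpow_zero, one_mul, map_pow, hJt], st_pow hn⟩
  · rintro n hn ⟨m, w, hw, hst⟩
    have e : (s * u * s⁻¹) ^ n = c ^ (0 : ℤ) * J (of false * of true ^ n * (of false)⁻¹) := by
      rw [zpow_zero, one_mul, map_mul, map_mul, map_inv, map_pow, hJt, hJf, conj_pow]
    rw [e] at hw
    have := huniq _ _ _ _ hw
    rw [← this] at hst
    exact not_st_conj hn hst
  · intro f hf
    obtain ⟨m, k₀, hk₀, hf0⟩ := hA f (hf c (Set.mem_singleton _))
    obtain ⟨w₀, rfl⟩ := hrange k₀ hk₀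
    refine ⟨J '' {w | st w ∧ ¬ st (w * w₀)}, (finite_bad w₀).image J, ?_⟩
    rintro g hg ⟨n, w, rfl, hw⟩ hgf
    refine ⟨J w, ⟨w, ⟨hw, fun hst => hgf ?_⟩, rfl⟩, c ^ n, ⟨n, rfl⟩, ?_⟩
    · refine ⟨n + m, w * w₀, ?_, hst⟩
      rw [hf0, map_mul, zpow_add]
      have := ((cJ w).zpow_left m).eq
      calc c ^ n * J w * (c ^ m * J w₀) = c ^ n * (J w * c ^ m) * J w₀ := by
            simp only [mul_assoc]
        _ = c ^ n * (c ^ m * J w) * J w₀ := by rw [this]
        _ = c ^ n * c ^ m * (J w * J w₀) := by simp only [mul_assoc]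
    · exact ((cJ w).zpow_left n).eq

end Crest.Agent.R175
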