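import Crest.Agent.R175.PTB_450

/-!
# T-framed objects (row 175, helper450): elimination, extensions, cones, direct sums, shift
-/

set_option autoImplicit false
set_option linter.unusedSectionVars false
set_option linter.unusedVariables false
set_option linter.unusedSimpArgs false

open CategoryTheory Module LinearMap

namespace Crest.Agent.R175.PTA

universe u v

variable {T : Type u} {G : MG T} {k : Type v} [Field k] [Fintype T]

/-- object level Gaussian elimination / perturbation lemma: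
`s` odd, `s s = 0`, `s d s = s`, a retract `r : C ⟶ X`, `q : X ⟶ C` (even) with
`r q = 1`, `r s = 0`, `s q = 0` and `q r + s a + b s = 1`.
The new object is `C` with `d_C = r (d - d s d) q`, and `X ≃ (C, d_C)`. -/
structure ElimData (X : TOb G k) where
  /-- the new object -/
  C : Gob G k
  /-- inclusion -/
  r : C ⟶ X.X
  /-- projection -/
  q : X.X ⟶ C
  /-- contraction -/
  s : X.X ⟶ X.X
  /-- auxiliary -/
  a : X.X ⟶ X.X
  /-- auxiliary -/
  b : X.X ⟶ X.X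
  hr : bar r = r
  hq : bar q = q
  hs : bar s = -s
  rq : r ≫ q = 𝟙 C
  rs : r ≫ s = 0
  sq : s ≫ q = 0
  ss : s ≫ s = 0
  sds : s ≫ X.d ≫ s = s
  one : q ≫ r + s ≫ a + b ≫ s = 𝟙 X.X

namespace ElimData

variable {X : TOb G k} (E : ElimData X)

/-- modified inclusion `r (1 - d s)` -/
def R : E.C ⟶ X.X := E.r - E.r ≫ X.d ≫ E.s

/-- modified projection `(1 - s d) q` -/
def Q : X.X ⟶ E.C := E.q - E.s ≫ X.d ≫ E.q

theorem assoc_ss {Z : Gob G k} (g : X.X ⟶ Z) : E.s ≫ E.s ≫ g = 0 := by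
  rw [← Category.assoc, E.ss, Limits.zero_comp]

theorem assoc_rs {Z : Gob G k} (g : X.X ⟶ Z) : E.r ≫ E.s ≫ g = 0 := by
  rw [← Category.assoc, E.rs, Limits.zero_comp]

theorem assoc_sq {Z : Gob G k} (g : E.C ⟶ Z) : E.s ≫ E.q ≫ g = 0 := by
  rw [← Category.assoc, E.sq, Limits.zero_comp]

theorem assoc_rq {Z : Gob G k} (g : E.C ⟶ Z) : E.r ≫ E.q ≫ g = g := by
  rw [← Category.assoc, E.rq, Category.id_comp]

theorem assoc_sds {Z : Gob G k} (g : X.X ⟶ Z) : E.s ≫ X.d ≫ E.s ≫ g = E.s ≫ g := by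
  have := E.sds
  calc E.s ≫ X.d ≫ E.s ≫ g = (E.s ≫ X.d ≫ E.s) ≫ g := by simp only [Category.assoc]
    _ = _ := by rw [this]

theorem R_Q : E.R ≫ E.Q = 𝟙 E.C := by
  unfold R Q
  simp only [Preadditive.sub_comp, Preadditive.comp_sub, Category.assoc, E.rq, E.rs, E.sq,
    E.assoc_rs, E.assoc_sq, E.assoc_ss, Limits.comp_zero, sub_zero]

theorem Q_R : E.Q ≫ E.R = 𝟙 X.X - E.s ≫ X.d - X.d ≫ E.s := by
  have e1 : (𝟙 X.X - E.s ≫ X.d) ≫ E.s = 0 := by
    rw [Preadditive.sub_comp, Category.assoc, E.sds, Category.id_comp, sub_self]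
  have e2 : E.s ≫ (𝟙 X.X - X.d ≫ E.s) = 0 := by
    rw [Preadditive.comp_sub, E.sds, Category.comp_id, sub_self]
  have e3 : E.Q = (𝟙 X.X - E.s ≫ X.d) ≫ E.q := by
    unfold Q; rw [Preadditive.sub_comp, Category.id_comp, Category.assoc]
  have e4 : E.R = E.r ≫ (𝟙 X.X - X.d ≫ E.s) := by
    unfold R; rw [Preadditive.comp_sub, Category.comp_id]
  have e5 : E.q ≫ E.r = 𝟙 X.X - E.s ≫ E.a - E.b ≫ E.s := by
    rw [← E.one]; abel
  have e6 : (𝟙 X.X - E.s ≫ X.d) ≫ (𝟙 X.X - X.d ≫ E.s) =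
      𝟙 X.X - E.s ≫ X.d - X.d ≫ E.s := by
    rw [Preadditive.sub_comp, Category.id_comp, Preadditive.comp_sub, Category.comp_id,
      Category.assoc, X.dd_assoc, Limits.comp_zero, sub_zero]
    abel
  rw [← e6]
  generalize 𝟙 X.X - E.s ≫ X.d = U at *
  generalize 𝟙 X.X - X.d ≫ E.s = V at *
  calc E.Q ≫ E.R = U ≫ (E.q ≫ E.r) ≫ V := by
        rw [e3, e4]; simp only [Category.assoc]
    _ = U ≫ V - (U ≫ E.s) ≫ E.a ≫ V - U ≫ E.b ≫ (E.s ≫ V) := by
        rw [e5]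
        simp only [Preadditive.sub_comp, Preadditive.comp_sub, Category.assoc,
          Category.id_comp]
    _ = _ := by
        rw [e1, e2, Limits.zero_comp, Limits.comp_zero, Limits.comp_zero, sub_zero, sub_zero]

/-- the new differential -/
def dC : E.C ⟶ E.C := E.r ≫ (X.d - X.d ≫ E.s ≫ X.d) ≫ E.q

theorem R_d : E.R ≫ X.d = E.dC ≫ E.R := by
  have h1 : E.R ≫ X.d ≫ E.Q ≫ E.R = E.R ≫ X.d := by
    rw [E.Q_R]
    unfold R
    simp only [Preadditive.sub_comp, Preadditive.comp_sub, Category.assoc,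
      Category.comp_id, TOb.dd_assoc, E.rs, E.assoc_rs, E.assoc_ss, E.assoc_sds, E.sds,
      Limits.comp_zero, sub_zero]
    abel
  have h2 : E.R ≫ X.d ≫ E.Q = E.dC := by
    unfold R Q dC
    simp only [Preadditive.sub_comp, Preadditive.comp_sub, Category.assoc, E.assoc_sds,
      TOb.dd_assoc, Limits.comp_zero, sub_zero]
    abel
  rw [← h1, ← h2]
  simp only [Category.assoc]

theorem R_d_Q : E.R ≫ X.d ≫ E.Q = E.dC := by
  rw [← Category.assoc, R_d, Category.assoc, R_Q, Category.comp_id]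

theorem d_Q : X.d ≫ E.Q = E.Q ≫ E.dC := by
  have h1 : E.Q ≫ E.R ≫ X.d ≫ E.Q = X.d ≫ E.Q := by
    rw [← Category.assoc, E.Q_R]
    unfold Q
    simp only [Preadditive.sub_comp, Preadditive.comp_sub, Category.assoc,
      Category.id_comp, TOb.dd_assoc, E.sq, E.assoc_sq, E.assoc_ss, E.assoc_sds, E.sds,
      Limits.comp_zero, sub_zero]
    abel
  rw [← h1, R_d_Q]

theorem bar_R : bar E.R = E.R := by
  unfold R
  rw [bar_sub, bar_comp, bar_comp, E.hr, E.hs, X.bar_d]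
  simp

theorem bar_Q : bar E.Q = E.Q := by
  unfold Q
  rw [bar_sub, bar_comp, bar_comp, E.hq, E.hs, X.bar_d]
  simp

theorem bar_dC : bar E.dC = -E.dC := by
  rw [← R_d_Q, bar_comp, bar_comp, bar_R, bar_Q, X.bar_d, Preadditive.neg_comp,
    Preadditive.comp_neg]

/-- the eliminated object -/
@[reducible] def tob : TOb G k where
  X := E.C
  d := E.dC
  dg := by
    have h := E.bar_dC
    rw [bar] at h
    calc E.dC ≫ gam E.C = gam E.C ≫ (gam E.C ≫ E.dC ≫ gam E.C) := by simp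
      _ = _ := by rw [h, Preadditive.comp_neg]
  dd := by
    have h : E.R ≫ X.d ≫ X.d = 0 := by rw [X.dd, Limits.comp_zero]
    have h2 : E.dC ≫ E.dC ≫ E.R = 0 := by
      rw [← R_d, ← Category.assoc, ← R_d, Category.assoc, h]
    calc E.dC ≫ E.dC = (E.dC ≫ E.dC ≫ E.R) ≫ E.Q := by
          simp only [Category.assoc, E.R_Q, Category.comp_id]
      _ = 0 := by rw [h2, Limits.zero_comp]
  dW t := by simp [dC]

theorem D_R : D E.tob X E.R = 0 := by
  rw [D_apply, E.bar_R]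
  change E.R ≫ X.d - E.dC ≫ E.R = 0
  rw [R_d, sub_self]

theorem D_Q : D X E.tob E.Q = 0 := by
  rw [D_apply, E.bar_Q]
  change E.Q ≫ E.dC - X.d ≫ E.Q = 0
  rw [d_Q, sub_self]

/-- the homotopy equivalence -/
def he : HEquiv X E.tob where
  p := E.Q
  q := E.R
  s := -E.s
  r := 0
  bp := E.bar_Q
  bq := E.bar_R
  Dp := E.D_Q
  Dq := E.D_R
  pq := by
    rw [E.Q_R, D_apply, bar_neg, E.hs, Preadditive.neg_comp, neg_neg]
    abel
  qp := by rw [map_zero, add_zero]; exact E.R_Q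

theorem hiso : HIso X E.tob := ⟨E.he⟩

end ElimData

/-- `Y → Z → X`: extension of T-framed objects, split in `Gob`;
`bar i = β i`, `bar p = α p`. -/
structure Ext (Y Z X : TOb G k) (β α : k) where
  /-- inclusion -/
  i : Y.X ⟶ Z.X
  /-- projection -/
  p : Z.X ⟶ X.X
  /-- retraction of `i` -/
  r : Z.X ⟶ Y.X
  /-- section of `p` -/
  σ : X.X ⟶ Z.X
  hβ : β * β = 1
  hα : α * α = 1
  hi : bar i = β • i
  hp : bar p = α • p
  hr : bar r = β • r
  hσ : bar σ = α • σ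
  Di : D Y Z i = 0
  Dp : D Z X p = 0
  ir : i ≫ r = 𝟙 Y.X
  σp : σ ≫ p = 𝟙 X.X
  ip : i ≫ p = 0
  σr : σ ≫ r = 0
  one : r ≫ i + p ≫ σ = 𝟙 Z.X

theorem ne_zero_of_sq {a : k} (h : a * a = 1) : a ≠ 0 := by
  rintro rfl
  rw [zero_mul] at h
  exact zero_ne_one h

namespace Ext

variable {Y Z X : TOb G k} {β α : k} (E : Ext Y Z X β α)

/-- connecting map `X → Y` -/
def g : X.X ⟶ Y.X := E.σ ≫ Z.d ≫ E.r

theorem bar_g : bar E.g = -(α * β) • E.g := by
  unfold g
  rw [bar_comp, bar_comp, E.hσ, E.hr, Z.bar_d]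
  simp only [Linear.smul_comp, Linear.comp_smul, Preadditive.neg_comp, Preadditive.comp_neg,
    smul_smul, smul_neg, neg_smul, mul_comm β α]

theorem i_d : E.i ≫ Z.d = β • (Y.d ≫ E.i) := by
  have := E.Di
  rw [D_apply, E.hi, Linear.comp_smul, sub_eq_zero] at this
  exact this

theorem d_p : Z.d ≫ E.p = α • (E.p ≫ X.d) := by
  have := E.Dp
  rw [D_apply, E.hp, Linear.comp_smul, sub_eq_zero] at this
  rw [this, smul_smul, E.hα, one_smul]

/-- `σ d = ± d σ + g i` -/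
theorem σ_d : E.σ ≫ Z.d = α • (X.d ≫ E.σ) + E.g ≫ E.i := by
  have h1 : E.σ ≫ Z.d = E.σ ≫ Z.d ≫ (E.r ≫ E.i + E.p ≫ E.σ) := by
    rw [E.one, Category.comp_id]
  rw [h1, Preadditive.comp_add, Preadditive.comp_add]
  have h2 : E.σ ≫ Z.d ≫ E.p ≫ E.σ = α • (X.d ≫ E.σ) := by
    calc E.σ ≫ Z.d ≫ E.p ≫ E.σ = E.σ ≫ (Z.d ≫ E.p) ≫ E.σ := by
          simp only [Category.assoc]
      _ = _ := by
          rw [E.d_p, Linear.smul_comp, Linear.comp_smul, Category.assoc,
            ← Category.assoc E.σ, E.σp, Category.id_comp]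
  rw [h2]
  unfold g
  simp only [Category.assoc]
  abel

theorem d_r : Z.d ≫ E.r = β • (E.r ≫ Y.d) + E.p ≫ E.g := by
  have h1 : Z.d ≫ E.r = (E.r ≫ E.i + E.p ≫ E.σ) ≫ Z.d ≫ E.r := by
    rw [E.one, Category.id_comp]
  rw [h1, Preadditive.add_comp]
  have h2 : (E.r ≫ E.i) ≫ Z.d ≫ E.r = β • (E.r ≫ Y.d) := by
    calc (E.r ≫ E.i) ≫ Z.d ≫ E.r = E.r ≫ (E.i ≫ Z.d) ≫ E.r := by
          simp only [Category.assoc]
      _ = _ := by
          rw [E.i_d, Linear.smul_comp, Linear.comp_smul, Category.assoc, E.ir,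
            Category.comp_id]
  rw [h2]
  unfold g
  simp only [Category.assoc]

variable (J : Idl G k)

include E in
theorem dim_right (W : Gob G k) : finrank k (J.I W Z.X) =
    finrank k (J.I W Y.X) + finrank k (J.I W X.X) := by
  rw [← Module.finrank_prod]
  refine LinearEquiv.finrank_eq
    { toFun := fun f => (⟨f.1 ≫ E.r, J.comp_right _ f.2⟩, ⟨f.1 ≫ E.p, J.comp_right _ f.2⟩)
      map_add' := ?_
      map_smul' := ?_
      invFun := fun f => ⟨f.1.1 ≫ E.i + f.2.1 ≫ E.σ,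
        Submodule.add_mem _ (J.comp_right _ f.1.2) (J.comp_right _ f.2.2)⟩
      left_inv := ?_
      right_inv := ?_ }
  · intro f g
    refine Prod.ext (Subtype.ext ?_) (Subtype.ext ?_) <;> exact Preadditive.add_comp ..
  · intro c f
    refine Prod.ext (Subtype.ext ?_) (Subtype.ext ?_) <;> exact Linear.smul_comp ..
  · intro f
    apply Subtype.ext
    change (f.1 ≫ E.r) ≫ E.i + (f.1 ≫ E.p) ≫ E.σ = f.1
    rw [Category.assoc, Category.assoc, ← Preadditive.comp_add, E.one, Category.comp_id]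
  · rintro ⟨f, g⟩
    refine Prod.ext (Subtype.ext ?_) (Subtype.ext ?_)
    · change (f.1 ≫ E.i + g.1 ≫ E.σ) ≫ E.r = f.1
      rw [Preadditive.add_comp, Category.assoc, Category.assoc, E.ir, E.σr, Category.comp_id,
        Limits.comp_zero, add_zero]
    · change (f.1 ≫ E.i + g.1 ≫ E.σ) ≫ E.p = g.1
      rw [Preadditive.add_comp, Category.assoc, Category.assoc, E.ip, E.σp, Category.comp_id,
        Limits.comp_zero, zero_add]

include E in
theorem dim_left (W : Gob G k) : finrank k (J.I Z.X W) =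
    finrank k (J.I Y.X W) + finrank k (J.I X.X W) := by
  rw [← Module.finrank_prod]
  refine LinearEquiv.finrank_eq
    { toFun := fun f => (⟨E.i ≫ f.1, J.comp_left _ f.2⟩, ⟨E.σ ≫ f.1, J.comp_left _ f.2⟩)
      map_add' := ?_
      map_smul' := ?_
      invFun := fun f => ⟨E.r ≫ f.1.1 + E.p ≫ f.2.1,
        Submodule.add_mem _ (J.comp_left _ f.1.2) (J.comp_left _ f.2.2)⟩
      left_inv := ?_
      right_inv := ?_ }
  · intro f g
    refine Prod.ext (Subtype.ext ?_) (Subtype.ext ?_) <;> exact Preadditive.comp_add ..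
  · intro c f
    refine Prod.ext (Subtype.ext ?_) (Subtype.ext ?_) <;> exact Linear.comp_smul ..
  · intro f
    apply Subtype.ext
    change E.r ≫ E.i ≫ f.1 + E.p ≫ E.σ ≫ f.1 = f.1
    rw [← Category.assoc, ← Category.assoc, ← Preadditive.add_comp, E.one, Category.id_comp]
  · rintro ⟨f, g⟩
    refine Prod.ext (Subtype.ext ?_) (Subtype.ext ?_)
    · change E.i ≫ (E.r ≫ f.1 + E.p ≫ g.1) = f.1
      rw [Preadditive.comp_add, ← Category.assoc, ← Category.assoc, E.ir, E.ip,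
        Category.id_comp, Limits.zero_comp, add_zero]
    · change E.σ ≫ (E.r ≫ f.1 + E.p ≫ g.1) = g.1
      rw [Preadditive.comp_add, ← Category.assoc, ← Category.assoc, E.σr, E.σp,
        Category.id_comp, Limits.zero_comp, zero_add]

/-- maps out of `W` -/
def rI (W : Gob G k) : J.I W Y.X →ₗ[k] J.I W Z.X :=
  (Linear.rightComp k W E.i).restrict (fun _ h => J.comp_right _ h)

/-- maps out of `W` -/
def rP (W : Gob G k) : J.I W Z.X →ₗ[k] J.I W X.X :=
  (Linear.rightComp k W E.p).restrict (fun _ h => J.comp_right _ h)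

/-- maps into `W` -/
def lI (W : Gob G k) : J.I Z.X W →ₗ[k] J.I Y.X W :=
  (Linear.leftComp k W E.i).restrict (fun _ h => J.comp_left _ h)

/-- maps into `W` -/
def lP (W : Gob G k) : J.I X.X W →ₗ[k] J.I Z.X W :=
  (Linear.leftComp k W E.p).restrict (fun _ h => J.comp_left _ h)

theorem rI_inj (W : Gob G k) : Function.Injective (E.rI J W) := by
  intro x y hxy
  apply Subtype.ext
  have h : (x : W ⟶ Y.X) ≫ E.i = (y : W ⟶ Y.X) ≫ E.i := congrArg Subtype.val hxy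
  have h2 := congrArg (· ≫ E.r) h
  simpa only [Category.assoc, E.ir, Category.comp_id] using h2

theorem rP_surj (W : Gob G k) : Function.Surjective (E.rP J W) := by
  intro x
  refine ⟨⟨x.1 ≫ E.σ, J.comp_right _ x.2⟩, Subtype.ext ?_⟩
  change (x.1 ≫ E.σ) ≫ E.p = x.1
  rw [Category.assoc, E.σp, Category.comp_id]

theorem r_ex (W : Gob G k) (x : J.I W Z.X) : E.rP J W x = 0 ↔ ∃ y, E.rI J W y = x := by
  constructor
  · intro h
    have h' : x.1 ≫ E.p = 0 := congrArg Subtype.val h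
    refine ⟨⟨x.1 ≫ E.r, J.comp_right _ x.2⟩, Subtype.ext ?_⟩
    change (x.1 ≫ E.r) ≫ E.i = x.1
    calc (x.1 ≫ E.r) ≫ E.i = x.1 ≫ (E.r ≫ E.i + E.p ≫ E.σ) := by
          rw [Preadditive.comp_add, Category.assoc, ← Category.assoc x.1 E.p, h',
            Limits.zero_comp, add_zero]
      _ = _ := by rw [E.one, Category.comp_id]
  · rintro ⟨y, rfl⟩
    apply Subtype.ext
    change (y.1 ≫ E.i) ≫ E.p = 0
    rw [Category.assoc, E.ip, Limits.comp_zero]

theorem lP_inj (W : Gob G k) : Function.Injective (E.lP J W) := by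
  intro x y hxy
  apply Subtype.ext
  have h : E.p ≫ (x : X.X ⟶ W) = E.p ≫ (y : X.X ⟶ W) := congrArg Subtype.val hxy
  have h2 := congrArg (E.σ ≫ ·) h
  simpa only [← Category.assoc, E.σp, Category.id_comp] using h2

theorem lI_surj (W : Gob G k) : Function.Surjective (E.lI J W) := by
  intro x
  refine ⟨⟨E.r ≫ x.1, J.comp_left _ x.2⟩, Subtype.ext ?_⟩
  change E.i ≫ (E.r ≫ x.1) = x.1
  rw [← Category.assoc, E.ir, Category.id_comp]

theorem l_ex (W : Gob G k) (x : J.I Z.X W) : E.lI J W x = 0 ↔ ∃ y, E.lP J W y = x := by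
  constructor
  · intro h
    have h' : E.i ≫ x.1 = 0 := congrArg Subtype.val h
    refine ⟨⟨E.σ ≫ x.1, J.comp_left _ x.2⟩, Subtype.ext ?_⟩
    change E.p ≫ (E.σ ≫ x.1) = x.1
    calc E.p ≫ (E.σ ≫ x.1) = (E.r ≫ E.i + E.p ≫ E.σ) ≫ x.1 := by
          rw [Preadditive.add_comp, Category.assoc, h', Limits.comp_zero, zero_add,
            Category.assoc]
      _ = _ := by rw [E.one, Category.id_comp]
  · rintro ⟨y, rfl⟩
    apply Subtype.ext
    change E.i ≫ (E.p ≫ y.1) = 0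
    rw [← Category.assoc, E.ip, Limits.zero_comp]

theorem rI_D (W : TOb G k) (x : J.I W.X Y.X) :
    J.Dr W Z (E.rI J W.X x) = β • E.rI J W.X (J.Dr W Y x) := by
  apply Subtype.ext
  change D W Z (x.1 ≫ E.i) = β • (D W Y x.1 ≫ E.i)
  rw [D_comp_rightε _ E.hi E.Di]

theorem rP_D (W : TOb G k) (x : J.I W.X Z.X) :
    J.Dr W X (E.rP J W.X x) = α • E.rP J W.X (J.Dr W Z x) := by
  apply Subtype.ext
  change D W X (x.1 ≫ E.p) = α • (D W Z x.1 ≫ E.p)
  rw [D_comp_rightε _ E.hp E.Dp]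

theorem lP_D (W : TOb G k) (x : J.I X.X W.X) :
    J.Dr Z W (E.lP J W.X x) = (1 : k) • E.lP J W.X (J.Dr X W x) := by
  rw [one_smul]
  apply Subtype.ext
  change D Z W (E.p ≫ x.1) = E.p ≫ D X W x.1
  rw [D_comp_left E.Dp]

theorem lI_D (W : TOb G k) (x : J.I Z.X W.X) :
    J.Dr Y W (E.lI J W.X x) = (1 : k) • E.lI J W.X (J.Dr Z W x) := by
  rw [one_smul]
  apply Subtype.ext
  change D Y W (E.i ≫ x.1) = E.i ≫ D Z W x.1
  rw [D_comp_left E.Di]

include E in
/-- subadditivity in the second variable -/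
theorem h_right_le (W : TOb G k) : J.h W Z ≤ J.h W Y + J.h W X :=
  DS_450.hd_ses_le (J.Dr_Dr W Z) (J.Dr_Dr W Y) (J.Dr_Dr W X) (E.rI J W.X) (E.rP J W.X)
    (E.rI_inj J W.X) (E.rP_surj J W.X) (E.r_ex J W.X) β α (ne_zero_of_sq E.hβ)
    (ne_zero_of_sq E.hα) (E.rI_D J W) (E.rP_D J W)

include E in
/-- subadditivity in the first variable -/
theorem h_left_le (W : TOb G k) : J.h Z W ≤ J.h X W + J.h Y W :=
  DS_450.hd_ses_le (J.Dr_Dr Z W) (J.Dr_Dr X W) (J.Dr_Dr Y W) (E.lP J W.X) (E.lI J W.X)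
    (E.lP_inj J W.X) (E.lI_surj J W.X) (E.l_ex J W.X) 1 1 one_ne_zero one_ne_zero
    (E.lP_D J W) (E.lI_D J W)

include E in
theorem h_right_parity (W : TOb G k) : J.h W Z % 2 = (J.h W Y + J.h W X) % 2 :=
  DS_450.hd_ses_parity (J.Dr_Dr W Z) (J.Dr_Dr W Y) (J.Dr_Dr W X) (E.dim_right J W.X)

include E in
theorem h_left_parity (W : TOb G k) : J.h Z W % 2 = (J.h X W + J.h Y W) % 2 := by
  rw [add_comm]
  exact DS_450.hd_ses_parity (J.Dr_Dr Z W) (J.Dr_Dr Y W) (J.Dr_Dr X W) (E.dim_left J W.X)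

/-- `D (f σ) = f g i` for closed `f : W → X` -/
theorem D_comp_σ {W : TOb G k} {f : W.X ⟶ X.X} (hf : D W X f = 0) :
    D W Z (f ≫ E.σ) = f ≫ E.g ≫ E.i := by
  have h2 : f ≫ X.d = W.d ≫ bar f := by
    rw [D_apply, sub_eq_zero] at hf; exact hf
  rw [D_apply, bar_comp, Category.assoc, E.σ_d, E.hσ, Preadditive.comp_add,
    Linear.comp_smul, ← Category.assoc f, h2, Linear.comp_smul, Linear.comp_smul]
  simp only [Category.assoc]
  abel

/-- the obstruction to lifting a closed `f : W → X` to `Z` is `f g` -/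
theorem lift_iff (W : TOb G k) (f : J.I W.X X.X) (hf : D W X f.1 = 0) :
    (∃ x : J.I W.X Z.X, D W Z x.1 = 0 ∧ x.1 ≫ E.p = f.1) ↔
      ∃ y : J.I W.X Y.X, D W Y y.1 = f.1 ≫ E.g := by
  have h1 := E.D_comp_σ hf
  constructor
  · rintro ⟨x, hx, hxp⟩
    have h3 : x.1 = (x.1 ≫ E.r) ≫ E.i + f.1 ≫ E.σ := by
      calc x.1 = x.1 ≫ (E.r ≫ E.i + E.p ≫ E.σ) := by rw [E.one, Category.comp_id]
        _ = _ := by
            rw [Preadditive.comp_add, ← Category.assoc, ← Category.assoc x.1 E.p, hxp]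
    have h4 : β • (D W Y (x.1 ≫ E.r) ≫ E.i) + f.1 ≫ E.g ≫ E.i = 0 := by
      rw [← h1, ← D_comp_rightε _ E.hi E.Di, ← map_add, ← h3, hx]
    have h5 : β • D W Y (x.1 ≫ E.r) + f.1 ≫ E.g = 0 := by
      have := congrArg (· ≫ E.r) h4
      simpa only [Preadditive.add_comp, Linear.smul_comp, Category.assoc, E.ir,
        Category.comp_id, Limits.zero_comp] using this
    refine ⟨⟨-(β • (x.1 ≫ E.r)), Submodule.neg_mem _ (Submodule.smul_mem _ _
      (J.comp_right _ x.2))⟩, ?_⟩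
    change D W Y (-(β • (x.1 ≫ E.r))) = _
    rw [map_neg, map_smul]
    exact neg_eq_of_add_eq_zero_right h5
  · rintro ⟨y, hy⟩
    refine ⟨⟨-(β • (y.1 ≫ E.i)) + f.1 ≫ E.σ, Submodule.add_mem _
      (Submodule.neg_mem _ (Submodule.smul_mem _ _ (J.comp_right _ y.2)))
      (J.comp_right _ f.2)⟩, ?_, ?_⟩
    · change D W Z (-(β • (y.1 ≫ E.i)) + f.1 ≫ E.σ) = 0
      rw [map_add, map_neg, map_smul, h1, D_comp_rightε _ E.hi E.Di, smul_smul, E.hβ,
        one_smul, hy, Category.assoc]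
      abel
    · change (-(β • (y.1 ≫ E.i)) + f.1 ≫ E.σ) ≫ E.p = f.1
      rw [Preadditive.add_comp, Preadditive.neg_comp, Linear.smul_comp, Category.assoc,
        E.ip, Limits.comp_zero, smul_zero, neg_zero, zero_add, Category.assoc, E.σp,
        Category.comp_id]

/-- strict inequality: if `f g` is not a coboundary for some cocycle `f : W → X` -/
theorem h_right_lt (W : TOb G k) (f : J.I W.X X.X) (hf : D W X f.1 = 0)
    (hno : ∀ y : J.I W.X Y.X, D W Y y.1 ≠ f.1 ≫ E.g) :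
    J.h W Z + 2 ≤ J.h W Y + J.h W X := by
  refine DS_450.hd_ses_lt (J.Dr_Dr W Z) (J.Dr_Dr W Y) (J.Dr_Dr W X) (E.rI J W.X)
    (E.rP J W.X) (E.rI_inj J W.X) (E.rP_surj J W.X) (E.r_ex J W.X) β α
    (ne_zero_of_sq E.hβ) (ne_zero_of_sq E.hα) (E.rI_D J W) (E.rP_D J W)
    ⟨f, Subtype.ext hf, ?_⟩
  intro x hx hxp
  obtain ⟨y, hy⟩ := (E.lift_iff J W f hf).1
    ⟨x, congrArg Subtype.val hx, congrArg Subtype.val hxp⟩
  exact hno y hy

/-- equality if `f g` is a coboundary for all cocycles `f : W → X` -/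
theorem h_right_eq (W : TOb G k)
    (hall : ∀ f : J.I W.X X.X, D W X f.1 = 0 →
      ∃ y : J.I W.X Y.X, D W Y y.1 = f.1 ≫ E.g) :
    J.h W Z = J.h W Y + J.h W X := by
  refine DS_450.hd_ses_eq (J.Dr_Dr W Z) (J.Dr_Dr W Y) (J.Dr_Dr W X) (E.rI J W.X)
    (E.rP J W.X) (E.rI_inj J W.X) (E.rP_surj J W.X) (E.r_ex J W.X) β α
    (ne_zero_of_sq E.hβ) (ne_zero_of_sq E.hα) (E.rI_D J W) (E.rP_D J W) ?_
  intro f hf
  have hf' : D W X f.1 = 0 := congrArg Subtype.val hf
  obtain ⟨x, hx, hxp⟩ := (E.lift_iff J W f hf').2 (hall f hf')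
  exact ⟨x, Subtype.ext hx, Subtype.ext hxp⟩

/-- the obstruction to extending a closed `f : Y → W` to `Z` is `g f` -/
theorem ext_iff' (W : TOb G k) (f : J.I Y.X W.X) (hf : D Y W f.1 = 0) :
    (∃ x : J.I Z.X W.X, D Z W x.1 = 0 ∧ E.i ≫ x.1 = f.1) ↔
      ∃ y : J.I X.X W.X, D X W y.1 = E.g ≫ f.1 := by
  -- D (r f) = r D f + D r bar f ; D r = r d_Y - d_Z (β r) = - β p g
  have h0 : D Z Y E.r = -β • (E.p ≫ E.g) := by
    rw [D_apply, E.hr, Linear.comp_smul, E.d_r, smul_add, smul_smul, E.hβ, one_smul,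
      neg_smul]
    abel
  have hbf : D Y W (bar f.1) = 0 := by rw [D_bar, hf, bar_zero, neg_zero]
  have h1 : D Z W (E.r ≫ bar f.1) = -β • (E.p ≫ E.g ≫ f.1) := by
    rw [D_comp, hbf, Limits.comp_zero, zero_add, bar_bar, h0, Linear.smul_comp,
      Category.assoc]
  have h1' : D Z W (E.r ≫ f.1) = -β • (E.p ≫ E.g ≫ bar f.1) := by
    rw [D_comp, hf, Limits.comp_zero, zero_add, h0, Linear.smul_comp, Category.assoc]
  constructor
  · rintro ⟨x, hx, hxi⟩
    have h3 : x.1 = E.r ≫ f.1 + E.p ≫ (E.σ ≫ x.1) := by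
      calc x.1 = (E.r ≫ E.i + E.p ≫ E.σ) ≫ x.1 := by rw [E.one, Category.id_comp]
        _ = _ := by
            rw [Preadditive.add_comp, Category.assoc, Category.assoc, hxi]
    have h4 : -β • (E.p ≫ E.g ≫ bar f.1) + E.p ≫ D X W (E.σ ≫ x.1) = 0 := by
      rw [← h1', ← D_comp_left E.Dp, ← map_add, ← h3, hx]
    have h5 : -β • (E.g ≫ bar f.1) + D X W (E.σ ≫ x.1) = 0 := by
      have := congrArg (E.σ ≫ ·) h4
      simpa only [Preadditive.comp_add, Linear.comp_smul, ← Category.assoc, E.σp,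
        Category.id_comp, Limits.comp_zero] using this
    -- apply bar
    have h6 : D X W (E.σ ≫ x.1) = β • (E.g ≫ bar f.1) := by
      have := neg_eq_of_add_eq_zero_right h5
      rw [← this, neg_smul, neg_neg]
    have h7 : D X W (bar (E.σ ≫ x.1)) = α • (E.g ≫ f.1) := by
      rw [D_bar, h6, bar_smul, bar_comp, bar_bar, E.bar_g, Linear.smul_comp, smul_smul,
        ← neg_smul]
      congr 1
      have := E.hβ
      linear_combination α * this
    refine ⟨⟨α • bar (E.σ ≫ x.1), Submodule.smul_mem _ _ (J.bar_mem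
      (J.comp_left _ x.2))⟩, ?_⟩
    change D X W (α • bar (E.σ ≫ x.1)) = _
    rw [map_smul, h7, smul_smul, E.hα, one_smul]
  · rintro ⟨y, hy⟩
    -- x = r f + p y', with D y' = β g bar f ; y' = - β bar y * sign
    have hby : D X W (bar y.1) = (α * β) • (E.g ≫ bar f.1) := by
      rw [D_bar, hy, bar_comp, E.bar_g, Linear.smul_comp, neg_smul, neg_neg]
    refine ⟨⟨E.r ≫ f.1 + E.p ≫ (α • bar y.1), Submodule.add_mem _ (J.comp_left _ f.2)
      (J.comp_left _ (Submodule.smul_mem _ _ (J.bar_mem y.2)))⟩, ?_, ?_⟩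
    · change D Z W (E.r ≫ f.1 + E.p ≫ (α • bar y.1)) = 0
      rw [map_add, h1', D_comp_left E.Dp, map_smul, hby, smul_smul, ← mul_assoc, E.hα,
        one_mul, Linear.comp_smul, neg_smul]
      abel
    · change E.i ≫ (E.r ≫ f.1 + E.p ≫ (α • bar y.1)) = f.1
      rw [Preadditive.comp_add, ← Category.assoc, ← Category.assoc, E.ir, E.ip,
        Category.id_comp, Limits.zero_comp, add_zero]

/-- strict inequality, first variable -/
theorem h_left_lt (W : TOb G k) (f : J.I Y.X W.X) (hf : D Y W f.1 = 0)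
    (hno : ∀ y : J.I X.X W.X, D X W y.1 ≠ E.g ≫ f.1) :
    J.h Z W + 2 ≤ J.h X W + J.h Y W := by
  refine DS_450.hd_ses_lt (J.Dr_Dr Z W) (J.Dr_Dr X W) (J.Dr_Dr Y W) (E.lP J W.X)
    (E.lI J W.X) (E.lP_inj J W.X) (E.lI_surj J W.X) (E.l_ex J W.X) 1 1 one_ne_zero
    one_ne_zero (E.lP_D J W) (E.lI_D J W) ⟨f, Subtype.ext hf, ?_⟩
  intro x hx hxi
  obtain ⟨y, hy⟩ := (E.ext_iff' J W f hf).1
    ⟨x, congrArg Subtype.val hx, congrArg Subtype.val hxi⟩
  exact hno y hy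

/-- equality, first variable -/
theorem h_left_eq (W : TOb G k)
    (hall : ∀ f : J.I Y.X W.X, D Y W f.1 = 0 →
      ∃ y : J.I X.X W.X, D X W y.1 = E.g ≫ f.1) :
    J.h Z W = J.h X W + J.h Y W := by
  refine DS_450.hd_ses_eq (J.Dr_Dr Z W) (J.Dr_Dr X W) (J.Dr_Dr Y W) (E.lP J W.X)
    (E.lI J W.X) (E.lP_inj J W.X) (E.lI_surj J W.X) (E.l_ex J W.X) 1 1 one_ne_zero
    one_ne_zero (E.lP_D J W) (E.lI_D J W) ?_
  intro f hf
  have hf' : D Y W f.1 = 0 := congrArg Subtype.val hf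
  obtain ⟨x, hx, hxi⟩ := (E.ext_iff' J W f hf').2 (hall f hf')
  exact ⟨x, Subtype.ext hx, Subtype.ext hxi⟩

end Ext

end Crest.Agent.R175.PTA
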