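import Crest.Agent.R175.GlueE_505
import Crest.Agent.R175.GlueData_445

/-!
Row 175 (S0263), block (D) (helper505): `Lev.PT` for a level given by classes of `TOb (UG M Λ) k`,
from GLUE-PT (`GlueData_445.pt_fam`) and the existence of `r ∈ A_M` for orthogonal `F`-stable
families of minimisers (`Orb`, GlueD_180).
-/

set_option autoImplicit false
set_option linter.unusedSectionVars false
set_option linter.unusedVariables false

open scoped Classical
open CategoryTheory Module

namespace Crest.Agent.R175.PTC_505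

open Crest.GroupTheory Crest.Agent.R175.Num_774 Crest.Agent.R175.CatNum_427
open Crest.Agent.R175.Unf_109 Crest.Agent.R175.Lev_788 Crest.Agent.R175.UG_27
open Crest.Agent.R175.PTA Crest.Agent.R175.GluePT_445 Crest.Agent.R175.GlB_445
open Crest.Agent.R175.Fm_27 Crest.Agent.R175.Pos_418 Crest.Agent.R175.FmC_180
open Crest.Agent.R175.GlueData_445

universe v w

variable {S : Type} [Fintype S] {M : CoxeterMatrix S} {Λ : Finset ℕ} {k : Type v} [Field k]

/-- the objects of a level: `q X` is the class of `X` -/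
structure Rep (hΛ : ∀ m ∈ Λ, 4 ≤ m) (φ : ℝ →+* k) (L : Lev.{w} Λ M) where
  q : TOb (UG M Λ) k → L.Ob
  surj : Function.Surjective q
  h : ∀ X Y, L.h (q X) (q Y) = hT X Y
  lam : ∀ X s j, L.lam (q X) s j = PTA.lam X (s, j)
  fr : ∀ s j, L.fr s j = q (frm (UG M Λ) k (s, j))
  F : ∀ (m : Λ) X, L.F m (q X) = q (FF M φ hΛ m X)

/-- **Orb**: an orthogonal `F`-stable family of minimisers over one fibre: some `r ∈ A_M` takes one
of its members to a frame of the fibre (up to a shift) -/
def Orb {hΛ : ∀ m ∈ Λ, 4 ≤ m} {φ : ℝ →+* k} {L : Lev.{w} Λ M} (R : Rep hΛ φ L) : Prop :=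
  ∀ (s : S) (X : J Λ → TOb (UG M Λ) k), OFam hΛ φ s X →
    ∃ (r : ArtinGroup M) (j : J Λ), r • R.q (X j) = R.q (frm (UG M Λ) k (s, j)) ∨
      r • R.q (X j) = R.q (sh (frm (UG M Λ) k (s, j)))

/-- **block (D)**: `Lev.PT` of a level over classes of objects -/
theorem pt_of_orb [IsAlgClosed k] (hΛ : Good M Λ) (hM : PDm (Cr M)) {φ : ℝ →+* k}
    {L : Lev.{w} Λ M} (R : Rep hΛ.four φ L) (hO : Orb R) : L.PT hΛ.four := by
  intro Y0 hY0 h h0 hl hd X0
  choose Y hYq using fun i => R.surj (Y0 i)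
  obtain ⟨X, rfl⟩ := R.surj X0
  have hYe : Y0 = fun i => R.q (Y i) := funext fun i => (hYq i).symm
  subst hYe
  have hF : ∀ (m : Λ) i Z, hT Z (FF M φ hΛ.four m (Y i)) = ∑ j ∈ nbs Λ m i, hT Z (Y j) := by
    intro m i Z
    rw [← R.h, ← R.F, hY0 m.1 m.2 i, L.h_sum]
    exact Finset.sum_congr rfl fun j _ => R.h _ _
  have hFl : ∀ (m : Λ) i a, PTA.lam (FF M φ hΛ.four m (Y i)) a
      = ∑ j ∈ nbs Λ m i, PTA.lam (Y j) a := by
    intro m i a
    have h1 : ∀ Z, PTA.lam Z a = L.lam (R.q Z) a.1 a.2 := fun Z => (R.lam Z a.1 a.2).symm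
    rw [h1, ← R.F, hY0 m.1 m.2 i, L.lam_sum]
    exact Finset.sum_congr rfl fun j _ => (h1 _).symm
  have key := pt_fam hΛ hM φ Y hF hFl h (fun s => by
    have h1 := hl s
    simp only [R.lam] at h1
    exact h1) (fun s Xf hX => by
      obtain ⟨r, j, hr⟩ := hO s Xf hX
      refine ⟨j, ?_⟩
      have hlast := GlueE_505.last L hΛ.four hY0 hd (R.q (Xf j)) r s j (fun z => by
        obtain ⟨Z, rfl⟩ := R.surj z
        unfold Lev.d
        rw [R.fr]
        rcases hr with hr | hr
        · rw [hr]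
        · rw [hr, R.h, R.h]
          exact hT_sh_left _ _)
      simp only [R.h] at hlast
      linarith) X
  simp only [R.lam, R.h]
  exact key

end Crest.Agent.R175.PTC_505
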