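import Mathlib

/-!
Row 175 (S0263), block (D): the end game, abstract part (helper175; form of helper4's #2634).

`Ob` is the set of (families of) graded minimal framed objects, `A` the Artin group acting on it by
the twists.  `lo a X` / `hi b X`: `X` lives in degrees `≥ a` / `≤ b`; `cb s n X`: some
`coker b_(s,i)^n` (`i` in the fibre over `s`) is non zero; `ka s n X`: some `ker a_(s,i)^n ≠ 0`.
-/

set_option autoImplicit false

namespace Crest.Agent.R175.PTD1_175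

open CoxeterSystem

variable {T W A Ob : Type*} [Group W] [Group A] [MulAction A Ob]
variable {M : CoxeterMatrix T} (cs : CoxeterSystem M W)

/-- A positive section of `W` for the elements `g : T → A` of a group. -/
structure Sec (g : T → A) where
  pos : W → A
  pos_one : pos 1 = 1
  pos_mul : ∀ (s : T) (w : W), cs.length (cs.simple s * w) = cs.length w + 1 →
    pos (cs.simple s * w) = g s * pos w

variable {cs}

/-- Any `w` is obtained from `1` by length increasing left multiplications. -/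
theorem Sec.induction {g : T → A} (σ : Sec cs g) {P : Ob → Prop} {X : Ob} (h1 : P X)
    (hs : ∀ s Y, P Y → P (g s • Y)) (w : W) : P (σ.pos w • X) := by
  obtain ⟨n, hn⟩ : ∃ n, cs.length w = n := ⟨_, rfl⟩
  induction n generalizing w with
  | zero =>
    rw [cs.length_eq_zero_iff] at hn
    subst hn
    simpa [σ.pos_one] using h1
  | succ n ih =>
    have hw : w ≠ 1 := by
      rintro rfl
      simp at hn
    obtain ⟨s, hs'⟩ := cs.exists_leftDescent_of_ne_one hw
    rw [cs.isLeftDescent_iff] at hs'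
    have hlen : cs.length (cs.simple s * w) = n := by omega
    have hww : w = cs.simple s * (cs.simple s * w) := by simp
    have hpos : σ.pos w = g s * σ.pos (cs.simple s * w) := by
      conv_lhs => rw [hww]
      exact σ.pos_mul s _ (by rw [← hww]; omega)
    rw [hpos, mul_smul]
    exact hs s _ (ih _ hlen)

/-- The one-sided step (helper4): among the `w` such that `w⁺ X` keeps the lower bound take one of
maximal length; then the upper bound improves. -/
theorem step [Finite W] {g : T → A} (σ : Sec cs g) (L H H' rig : Ob → Prop) (c k : T → Ob → Prop)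
    (hK : ∀ X s, rig X → L X → H X → c s X → ¬ k s X)
    (hN : ∀ X, H X → ¬ H' X → ∃ s, c s X)
    (hP0 : ∀ X s, rig X → rig (g s • X))
    (hP1 : ∀ X s, H X → H (g s • X))
    (hP2 : ∀ X s, L X → ¬ k s X → L (g s • X))
    (hP3 : ∀ X s, H X → ¬ c s (g s • X))
    {X : Ob} (hr : rig X) (hL : L X) (hH : H X) :
    ∃ w : W, L (σ.pos w • X) ∧ H' (σ.pos w • X) := by
  classical
  have hne : ({w : W | L (σ.pos w • X)} : Set W).Nonempty :=
    ⟨1, by simpa [σ.pos_one] using hL⟩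
  obtain ⟨w, hw, hmax⟩ := Set.exists_max_image _ cs.length (Set.toFinite _) hne
  refine ⟨w, hw, ?_⟩
  by_contra hcon
  have hHZ : ∀ v : W, H (σ.pos v • X) := fun v => σ.induction hH (fun s Y hY => hP1 Y s hY) v
  have hrZ : rig (σ.pos w • X) := σ.induction hr (fun s Y hY => hP0 Y s hY) w
  obtain ⟨s, hs⟩ := hN _ (hHZ w) hcon
  have hk := hK _ s hrZ hw (hHZ w) hs
  have hLs := hP2 _ s hw hk
  rcases cs.length_simple_mul w s with h | h
  · have := hmax (cs.simple s * w) (by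
      change L _
      rw [σ.pos_mul s w h, mul_smul]
      exact hLs)
    omega
  · have hww : w = cs.simple s * (cs.simple s * w) := by simp
    have hpos : σ.pos w = g s * σ.pos (cs.simple s * w) := by
      conv_lhs => rw [hww]
      exact σ.pos_mul s _ (by rw [← hww]; omega)
    rw [hpos, mul_smul] at hs
    exact hP3 _ s (hHZ _) hs

/-- The fields of the end game. -/
structure Amp (g : T → A) (lo hi : ℤ → Ob → Prop) (cb ka : T → ℤ → Ob → Prop)
    (rig : Ob → Prop) : Prop where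
  rig_gen : ∀ X s, rig X → rig (g s • X)
  rig_inv : ∀ X s, rig X → rig ((g s)⁻¹ • X)
  exists_lo : ∀ X, ∃ n : ℕ, lo (-n) X
  exists_hi : ∀ X, ∃ n : ℕ, hi n X
  K : ∀ X s (a b : ℤ), a ≤ 0 → 0 ≤ b → rig X → lo a X → hi b X → cb s b X → ¬ ka s a X
  Nb : ∀ X (b : ℤ), 0 < b → hi b X → ¬ hi (b - 1) X → ∃ s, cb s b X
  Na : ∀ X (a : ℤ), a < 0 → lo a X → ¬ lo (a + 1) X → ∃ s, ka s a X
  P1 : ∀ X s (b : ℤ), 0 ≤ b → hi b X → hi b (g s • X)
  P2 : ∀ X s (a : ℤ), a ≤ 0 → lo a X → ¬ ka s a X → lo a (g s • X)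
  P3 : ∀ X s (b : ℤ), 0 ≤ b → hi b X → ¬ cb s b (g s • X)
  M1 : ∀ X s (a : ℤ), a ≤ 0 → lo a X → lo a ((g s)⁻¹ • X)
  M2 : ∀ X s (b : ℤ), 0 ≤ b → hi b X → ¬ cb s b X → hi b ((g s)⁻¹ • X)
  M3 : ∀ X s (a : ℤ), a ≤ 0 → lo a X → ¬ ka s a ((g s)⁻¹ • X)

namespace Amp

variable {g : T → A} {lo hi : ℤ → Ob → Prop} {cb ka : T → ℤ → Ob → Prop} {rig : Ob → Prop}

theorem rig_pos (h : Amp g lo hi cb ka rig) (σ : Sec cs g) {X : Ob} (hr : rig X) (w : W) :
    rig (σ.pos w • X) := σ.induction hr (fun s Y hY => h.rig_gen Y s hY) w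

theorem rig_neg (h : Amp g lo hi cb ka rig) (σ : Sec cs (fun s => (g s)⁻¹)) {X : Ob} (hr : rig X)
    (w : W) : rig (σ.pos w • X) := σ.induction hr (fun s Y hY => h.rig_inv Y s hY) w

/-- Lower the upper bound to `0`. -/
theorem lower [Finite W] (h : Amp g lo hi cb ka rig) (σ : Sec cs g) (a : ℤ) (ha : a ≤ 0) (n : ℕ)
    {X : Ob} (hr : rig X) (hL : lo a X) (hH : hi n X) :
    ∃ r : A, rig (r • X) ∧ lo a (r • X) ∧ hi 0 (r • X) := by
  induction n generalizing X with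
  | zero => exact ⟨1, by simpa using hr, by simpa using hL, by simpa using hH⟩
  | succ n ih =>
    obtain ⟨w, h1, h2⟩ := step σ (lo a) (hi (n + 1 : ℕ)) (hi n) rig
      (fun s Y => cb s (n + 1 : ℕ) Y) (fun s Y => ka s a Y)
      (fun X s hr hL hH hc => h.K X s a _ ha (by positivity) hr hL hH hc)
      (fun X hH hn => h.Nb X _ (by positivity) hH (by simpa using hn))
      h.rig_gen (fun X s => h.P1 X s _ (by positivity)) (fun X s => h.P2 X s a ha)
      (fun X s => h.P3 X s _ (by positivity)) hr hL hH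
    obtain ⟨r, h3, h4, h5⟩ := ih (h.rig_pos σ hr w) h1 h2
    exact ⟨r * σ.pos w, by simpa [mul_smul] using h3, by simpa [mul_smul] using h4,
      by simpa [mul_smul] using h5⟩

/-- Raise the lower bound to `0`. -/
theorem raise [Finite W] (h : Amp g lo hi cb ka rig) (σ : Sec cs (fun s => (g s)⁻¹)) (b : ℤ)
    (hb : 0 ≤ b) (n : ℕ) {X : Ob} (hr : rig X) (hL : lo (-n) X) (hH : hi b X) :
    ∃ r : A, rig (r • X) ∧ lo 0 (r • X) ∧ hi b (r • X) := by
  induction n generalizing X with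
  | zero => exact ⟨1, by simpa using hr, by simpa using hL, by simpa using hH⟩
  | succ n ih =>
    obtain ⟨w, h1, h2⟩ := step σ (hi b) (lo (-((n + 1 : ℕ) : ℤ))) (lo (-n)) rig
      (fun s Y => ka s (-((n + 1 : ℕ) : ℤ)) Y) (fun s Y => cb s b Y)
      (fun X s hr hL hH hc hc' => h.K X s _ b (by omega) hb hr hH hL hc' hc)
      (fun X hH hn => h.Na X _ (by omega) hH (by
        have e : (-((n + 1 : ℕ) : ℤ)) + 1 = -n := by push_cast; ring
        rw [e]; exact hn))
      h.rig_inv (fun X s => h.M1 X s _ (by omega)) (fun X s => h.M2 X s b hb)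
      (fun X s => h.M3 X s _ (by omega)) hr hH hL
    obtain ⟨r, h3, h4, h5⟩ := ih (h.rig_neg σ hr w) h2 h1
    exact ⟨r * σ.pos w, by simpa [mul_smul] using h3, by simpa [mul_smul] using h4,
      by simpa [mul_smul] using h5⟩

/-- A rigid object can be moved to amplitude `[0,0]`. -/
theorem exists_zero [Finite W] (h : Amp g lo hi cb ka rig) (σ : Sec cs g)
    (σ' : Sec cs (fun s => (g s)⁻¹)) {X : Ob} (hr : rig X) :
    ∃ r : A, rig (r • X) ∧ lo 0 (r • X) ∧ hi 0 (r • X) := by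
  obtain ⟨m, hm⟩ := h.exists_lo X
  obtain ⟨n, hn⟩ := h.exists_hi X
  obtain ⟨r, h1, h2, h3⟩ := h.lower σ (-m) (by simp) n hr hm hn
  obtain ⟨r', h4, h5, h6⟩ := h.raise σ' 0 le_rfl m h1 h2 h3
  exact ⟨r' * r, by simpa [mul_smul] using h4, by simpa [mul_smul] using h5,
    by simpa [mul_smul] using h6⟩

/-- **The end game.**  `tot` is the weighted total dimension, `mu s` the weighted weight at `s`. -/
theorem exists_dominant [Finite W] (h : Amp g lo hi cb ka rig) (σ : Sec cs g)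
    (σ' : Sec cs (fun s => (g s)⁻¹)) (tot : Ob → ℝ) (mu : T → Ob → ℝ)
    (hwf : ∀ P : Ob → Prop, (∃ X, P X) → ∃ X, P X ∧ ∀ Y, P Y → tot X ≤ tot Y)
    (hE1 : ∀ X s, rig X → lo 0 X → hi 0 X → ¬ ka s 0 X → mu s X < 0 →
      hi 0 (g s • X) ∧ lo 0 (g s • X) ∧ tot (g s • X) < tot X)
    (hE2 : ∀ X s, rig X → lo 0 X → hi 0 X → ¬ cb s 0 X → mu s X < 0 →
      hi 0 ((g s)⁻¹ • X) ∧ lo 0 ((g s)⁻¹ • X) ∧ tot ((g s)⁻¹ • X) < tot X)
    {X : Ob} (hr : rig X) :
    ∃ r : A, rig (r • X) ∧ lo 0 (r • X) ∧ hi 0 (r • X) ∧ ∀ s, 0 ≤ mu s (r • X) := by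
  obtain ⟨r, h1, h2, h3⟩ := h.exists_zero σ σ' hr
  obtain ⟨Z, ⟨r', hZ, h4, h5, h6⟩, hmin⟩ := hwf
    (fun Z => ∃ r : A, Z = r • X ∧ rig Z ∧ lo 0 Z ∧ hi 0 Z) ⟨_, r, rfl, h1, h2, h3⟩
  refine ⟨r', hZ ▸ h4, hZ ▸ h5, hZ ▸ h6, fun s => ?_⟩
  rw [← hZ]
  by_contra hneg
  rw [not_le] at hneg
  by_cases hc : cb s 0 Z
  · have hk := h.K Z s 0 0 le_rfl le_rfl h4 h5 h6 hc
    obtain ⟨e1, e2, e3⟩ := hE1 Z s h4 h5 h6 hk hneg
    have := hmin (g s • Z) ⟨g s * r', by rw [hZ, mul_smul], h.rig_gen Z s h4, e2, e1⟩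
    linarith
  · obtain ⟨e1, e2, e3⟩ := hE2 Z s h4 h5 h6 hc hneg
    have := hmin ((g s)⁻¹ • Z) ⟨(g s)⁻¹ * r', by rw [hZ, mul_smul], h.rig_inv Z s h4, e2, e1⟩
    linarith

end Amp

/-- Well-foundedness of weighted dimensions with positive real weights. -/
theorem exists_min_weighted {I Ob : Type*} [Fintype I] (w : I → ℝ) (hw : ∀ i, 0 < w i)
    (d : I → Ob → ℕ) (P : Ob → Prop) (hP : ∃ X, P X) :
    ∃ X, P X ∧ ∀ Y, P Y → ∑ i, w i * d i X ≤ ∑ i, w i * d i Y := by
  classical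
  obtain ⟨X0, hX0⟩ := hP
  set B : ℝ := ∑ i, w i * d i X0 with hB
  -- the dimension vectors with total at most `B`
  have hfin : ({v : I → ℕ | ∑ i, w i * (v i : ℝ) ≤ B} : Set (I → ℕ)).Finite := by
    have : ({v : I → ℕ | ∑ i, w i * (v i : ℝ) ≤ B} : Set (I → ℕ)) ⊆
        Set.Icc 0 (fun i => ⌈B / w i⌉₊) := by
      intro v hv
      refine ⟨fun i => Nat.zero_le _, fun i => ?_⟩
      have h1 : w i * (v i : ℝ) ≤ B := by
        refine le_trans ?_ hv
        exact Finset.single_le_sum (f := fun j => w j * (v j : ℝ))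
          (fun j _ => mul_nonneg (hw j).le (Nat.cast_nonneg _)) (Finset.mem_univ i)
      have h2 : (v i : ℝ) ≤ B / w i := by
        rw [le_div_iff₀ (hw i)]
        linarith [mul_comm (w i) (v i : ℝ)]
      exact_mod_cast h2.trans (Nat.le_ceil _)
    exact (Set.finite_Icc _ _).subset this
  have hfin' : ({v : I → ℕ | (∑ i, w i * (v i : ℝ) ≤ B) ∧ ∃ X, P X ∧ ∀ i, d i X = v i} :
      Set (I → ℕ)).Finite := hfin.subset (fun v hv => hv.1)
  obtain ⟨v, hv, hmin⟩ := Set.exists_min_image _ (fun v : I → ℕ => ∑ i, w i * (v i : ℝ)) hfin'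
    ⟨fun i => d i X0, by exact le_rfl, X0, hX0, fun i => rfl⟩
  obtain ⟨hvB, X, hX, hdX⟩ := hv
  refine ⟨X, hX, fun Y hY => ?_⟩
  have e1 : ∑ i, w i * (d i X : ℝ) = ∑ i, w i * (v i : ℝ) := by
    simp only [hdX]
  rw [e1]
  by_cases hYB : ∑ i, w i * (d i Y : ℝ) ≤ B
  · exact hmin (fun i => d i Y) ⟨hYB, Y, hY, fun i => rfl⟩
  · rw [not_le] at hYB
    exact hvB.trans hYB.le

end Crest.Agent.R175.PTD1_175
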