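import Crest.Agent.R175.PTK_175
import Crest.Agent.R175.PTM_450
import Crest.Agent.R175.FrmHd_988
import Crest.Agent.R175.PTD_4

/-!
Row 175 (S0263), helper175: the Euler inequality, `toQM`, and the fields `K`, `euler` of
`PTQ_4.Dom` for rigid T-framed objects.
-/

set_option autoImplicit false
set_option linter.unusedSectionVars false
set_option linter.unusedSimpArgs false

open CategoryTheory Module Crest.Agent.R175.PTA Crest.Agent.R175.PTH Crest.Agent.R175.PTQ_4

namespace Crest.Agent.R175.PTE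

universe u v

/-! ### the Euler inequality -/

section F
variable {T : Type u} {k : Type v} [Field k] [Fintype T] {G : MG T}

theorem finrank_Cp (X Y : Gob G k) :
    finrank k (Cp X Y) = 2 * (∑ t, finrank k (X.V t) * finrank k (Y.V t)) +
      (∑ s, ∑ t, Fintype.card (G.E s t) * (finrank k (X.V s) * finrank k (Y.V t))) +
      (∑ t, finrank k (X.W t) * finrank k (Y.V t)) +
      (∑ t, finrank k (X.V t) * finrank k (Y.W t)) := by
  have h : finrank k (Cp X Y) = finrank k ((∀ t, X.V t →ₗ[k] Y.V t) ×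
    (∀ s t, G.E s t → (X.V s →ₗ[k] Y.V t)) ×
    (∀ t, X.W t →ₗ[k] Y.V t) × (∀ t, X.V t →ₗ[k] Y.W t) × (∀ t, X.V t →ₗ[k] Y.V t)) := rfl
  rw [h]
  simp only [Module.finrank_prod, Module.finrank_pi_fintype, Module.finrank_linearMap,
    Finset.sum_const, Finset.card_univ, smul_eq_mul]
  ring

/-- auxiliary map whose range contains the range of the differential -/
def Xi (X Y : FObj G k) : ((∀ t, X.X.V t →ₗ[k] Y.X.V t) × (∀ t, X.X.V t →ₗ[k] Y.X.V t)) →ₗ[k]
    Cp X.X Y.X where
  toFun g := Cp.mk (fun _ => 0)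
    (fun s t a => Y.B a ∘ₗ g.1 s - (Y.X.gV t ∘ₗ g.1 t ∘ₗ X.X.gV t) ∘ₗ X.B a)
    (fun t => -((Y.X.gV t ∘ₗ g.1 t ∘ₗ X.X.gV t) ∘ₗ X.i t))
    (fun t => Y.j t ∘ₗ g.1 t) g.2
  map_add' f g := by
    apply Cp.ext'
    · intro t; simp
    · intro s t a
      simp only [Cp.f1_mk, Cp.f1_add, Prod.fst_add, Pi.add_apply, LinearMap.comp_add,
        LinearMap.add_comp]
      abel
    · intro t
      simp only [Cp.fi_mk, Cp.fi_add, Prod.fst_add, Pi.add_apply, LinearMap.comp_add,
        LinearMap.add_comp]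
      abel
    · intro t
      simp only [Cp.fj_mk, Cp.fj_add, Prod.fst_add, Pi.add_apply, LinearMap.comp_add]
    · intro t
      simp
  map_smul' c f := by
    apply Cp.ext'
    · intro t; simp
    · intro s t a
      simp only [Cp.f1_mk, Cp.f1_smul, Prod.smul_fst, Pi.smul_apply, LinearMap.comp_smul,
        LinearMap.smul_comp, RingHom.id_apply, smul_sub]
    · intro t
      simp only [Cp.fi_mk, Cp.fi_smul, Prod.smul_fst, Pi.smul_apply, LinearMap.comp_smul,
        LinearMap.smul_comp, RingHom.id_apply, smul_neg]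
    · intro t
      simp only [Cp.fj_mk, Cp.fj_smul, Prod.smul_fst, Pi.smul_apply, LinearMap.comp_smul,
        RingHom.id_apply]
    · intro t
      simp

theorem range_FD_le (X Y : FObj G k) : LinearMap.range (FD X Y) ≤ LinearMap.range (Xi X Y) := by
  rintro _ ⟨f, rfl⟩
  refine ⟨(fun t => Cp.f0 f t, fun t => Cp.f2 (FD X Y f) t), ?_⟩
  apply Cp.ext'
  · intro t; rw [f0_FD]; rfl
  · intro s t a; rw [f1_FD]; rfl
  · intro t; rw [fi_FD]; rfl
  · intro t; rw [fj_FD]; rfl
  · intro t; rfl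

theorem finrank_range_FD (X Y : FObj G k) : finrank k (LinearMap.range (FD X Y)) ≤
    2 * ∑ t, finrank k (X.X.V t) * finrank k (Y.X.V t) := by
  refine (Submodule.finrank_mono (range_FD_le X Y)).trans ((LinearMap.finrank_range_le _).trans ?_)
  simp only [Module.finrank_prod, Module.finrank_pi_fintype, Module.finrank_linearMap]
  omega

/-- Euler inequality for minimal objects -/
theorem euler_F (X Y : FObj G k) :
    (∑ s, ∑ t, Fintype.card (G.E s t) * (finrank k (X.X.V s) * finrank k (Y.X.V t))) +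
      (∑ t, finrank k (X.X.W t) * finrank k (Y.X.V t)) +
      (∑ t, finrank k (X.X.V t) * finrank k (Y.X.W t)) ≤
    hT X.toTOb Y.toTOb + 2 * ∑ t, finrank k (X.X.V t) * finrank k (Y.X.V t) := by
  have h1 := hd_add_two_range (D := FD X Y) (FD_FD X Y)
  rw [finrank_Cp, ← hT_eq_FD] at h1
  have h2 := finrank_range_FD X Y
  omega

end F

section X
variable {T : Type u} {k : Type v} [Field k] [Fintype T] {G : MG T}

theorem finrank_Hv (X : TOb G k) (t : T) : finrank k (Hv X t) = hd (c0 X.d t) := by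
  have h1 : finrank k (Hv X t) + finrank k (bdr X t) = finrank k (LinearMap.ker (c0 X.d t)) :=
    Submodule.finrank_quotient_add_finrank (bdr X t)
  have h2 : finrank k (bdr X t) = finrank k (LinearMap.range (c0 X.d t)) :=
    (Submodule.comapSubtypeEquivOfLe (range_le_ker (dd0 X t))).finrank_eq
  have h3 := hd_add_range (D := c0 X.d t) (dd0 X t)
  omega

theorem finrank_Hv_eq_dT [DecidableEq T] (X : TOb G k) (t : T) :
    finrank k (Hv X t) = dT X t := by
  rw [finrank_Hv, ← Res_988.dT_hd]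

theorem finrank_Hv_F (F : FObj G k) (t : T) :
    finrank k (Hv F.toTOb t) = finrank k (F.X.V t) := by
  rw [finrank_Hv, hd]
  have h : c0 F.toTOb.d t = 0 := rfl
  rw [h, LinearMap.ker_zero, LinearMap.range_zero, finrank_top, finrank_bot, Nat.sub_zero]

theorem finrank_Hv_congr {X Y : TOb G k} (h : HIso X Y) (t : T) :
    finrank k (Hv X t) = finrank k (Hv Y t) := by
  classical
  rw [finrank_Hv_eq_dT, finrank_Hv_eq_dT, h.dT_eq]

/-- **Euler inequality** -/
theorem euler_le (h2 : (2 : k) ≠ 0) (X Y : TOb G k) :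
    (∑ s, ∑ t, Fintype.card (G.E s t) * (finrank k (Hv X s) * finrank k (Hv Y t))) +
      (∑ t, finrank k (X.X.W t) * finrank k (Hv Y t)) +
      (∑ t, finrank k (Hv X t) * finrank k (Y.X.W t)) ≤
    hT X Y + 2 * ∑ t, finrank k (Hv X t) * finrank k (Hv Y t) := by
  obtain ⟨F, hF⟩ := exists_min h2 X
  obtain ⟨F', hF'⟩ := exists_min h2 Y
  have h := euler_F F F'
  rw [← hF.hT_left, ← hF'.hT_right] at h
  have e1 : ∀ t, finrank k (F.X.V t) = finrank k (Hv X t) := fun t => by
    rw [finrank_Hv_congr hF, finrank_Hv_F]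
  have e2 : ∀ t, finrank k (F'.X.V t) = finrank k (Hv Y t) := fun t => by
    rw [finrank_Hv_congr hF', finrank_Hv_F]
  have e3 : ∀ t, finrank k (F.X.W t) = finrank k (X.X.W t) := fun t => (hF.lam_eq t).symm
  have e4 : ∀ t, finrank k (F'.X.W t) = finrank k (Y.X.W t) := fun t => (hF'.lam_eq t).symm
  simpa only [e1, e2, e3, e4] using h

end X

/-! ### cohomology data -/

section qm
variable {T : Type u} {k : Type v} [Field k] [Fintype T] {G : MG T}

/-- The cohomology data of a T-framed object with an Euler operator. -/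
def toQM (X : TOb G k) {p : X.X ⟶ X.X} (hp : Eul X p) : QM G k where
  H := Hv X
  W := X.X.W
  A := Hp hp
  B := fun _ _ a => HB X a
  i := Hi X
  j := Hj X
  AB := fun _ _ a v => Hp_HB hp a v
  Ai := fun s w => Hp_Hi hp s w
  jA := fun s v => Hj_Hp hp s v
  MC := fun s v => Hmc X s v

/-- **(K)** in the form of `Dom`. -/
theorem K_toQM {X : TOb G k} {p : X.X ⟶ X.X} (hp : Eul X p) (hX : hT X X = 0) {ht : k → ℤ}
    (ht_add : ∀ μ, ht (μ + 1) = ht μ + 1) (t : T) (a b : ℤ) (hlo : lo ht (toQM X hp) a)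
    (hhi : hi ht (toQM X hp) b) (hcb : cb ht (toQM X hp) t b) : ¬ ka ht (toQM X hp) t a := by
  rintro ⟨μ, hμ, ξ, hξ, hA, hk⟩
  obtain ⟨ν, hν, η, hη, hAη, hU⟩ := hcb
  rw [QM.mem_kerA] at hk
  refine PTK.no_both hp hX (s := t) (μ := μ) (ν := ν) (fun ζ hζ => ?_) (fun ζ hζ => ?_) hξ hA
    hk.1 hk.2 hη hAη (fun u a ζ => hU _ (QM.B_mem_imB (X := toQM X hp) a ζ))
    (fun w => hU _ (QM.i_mem_imB (X := toQM X hp) w))
  · by_contra hne
    have h1 := hlo t (μ - 1) ζ hne hζ
    have h2 := ht_add (μ - 1)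
    rw [sub_add_cancel] at h2
    omega
  · by_contra hne
    have h1 := hhi t (ν + 1) ζ hne hζ
    have h2 := ht_add ν
    omega

/-- **Euler** in the form of `Dom`. -/
theorem euler_toQM (h2 : (2 : k) ≠ 0) {X : TOb G k} {p : X.X ⟶ X.X} (hp : Eul X p)
    (hX : hT X X = 0) : ∑ t, (finrank k ((toQM X hp).H t) : ℤ) *
      (muv (toQM X hp) t + finrank k ((toQM X hp).W t)) ≤ 0 := by
  have h := euler_le h2 X X
  rw [hX, zero_add] at h
  have h' : ((∑ s, ∑ t, (Fintype.card (G.E s t) : ℤ) * (finrank k (Hv X s) * finrank k (Hv X t))) +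
      (∑ t, (finrank k (X.X.W t) : ℤ) * finrank k (Hv X t)) +
      (∑ t, (finrank k (Hv X t) : ℤ) * finrank k (X.X.W t))) ≤
      2 * ∑ t, (finrank k (Hv X t) : ℤ) * finrank k (Hv X t) := by exact_mod_cast h
  have e : ∑ t, (finrank k ((toQM X hp).H t) : ℤ) *
      (muv (toQM X hp) t + finrank k ((toQM X hp).W t)) =
      ((∑ s, ∑ t, (Fintype.card (G.E s t) : ℤ) * (finrank k (Hv X s) * finrank k (Hv X t))) +
      (∑ t, (finrank k (X.X.W t) : ℤ) * finrank k (Hv X t)) +
      (∑ t, (finrank k (Hv X t) : ℤ) * finrank k (X.X.W t))) -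
      2 * ∑ t, (finrank k (Hv X t) : ℤ) * finrank k (Hv X t) := by
    rw [Finset.mul_sum, ← Finset.sum_add_distrib, ← Finset.sum_add_distrib,
      ← Finset.sum_sub_distrib]
    refine Finset.sum_congr rfl fun t _ => ?_
    have e1 : (∑ u, (Fintype.card (G.E t u) : ℤ) * (finrank k (Hv X t) * finrank k (Hv X u))) =
        (finrank k (Hv X t) : ℤ) * ∑ u, (Fintype.card (G.E t u) : ℤ) * finrank k (Hv X u) := by
      rw [Finset.mul_sum]
      exact Finset.sum_congr rfl fun u _ => by ring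
    rw [e1]
    unfold muv nb
    change (finrank k (Hv X t) : ℤ) * (((∑ u, Fintype.card (G.E t u) * finrank k (Hv X u) +
      finrank k (X.X.W t) : ℕ) : ℤ) - 2 * (finrank k (Hv X t) : ℤ) + finrank k (X.X.W t)) = _
    push_cast
    ring
  rw [e]
  linarith

end qm

end Crest.Agent.R175.PTE
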