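import Crest.Agent.R175.PTH_175

/-!
Row 175 (S0263): (K) for rigid T-framed objects (helper175): a lowest eigenvector killed by all
`B, j` and a highest eigenfunctional killing all `B, i` at the same vertex cannot coexist.
-/

set_option autoImplicit false
set_option linter.unusedSectionVars false
set_option linter.unusedSimpArgs false

open CategoryTheory Crest.Agent.R175.PTA Crest.Agent.R175.PTH

namespace Crest.Agent.R175.PTH2

universe u v

variable {T : Type u} {k : Type v} [Field k] [Fintype T] {G : MG T}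

/-! ### sums over the arrows leaving `s` -/

/-- `m ↦ ∑ B (rev a) m_a` -/
def bS (X : TOb G k) (s : T) : (∀ u, G.E s u → X.X.V u) →ₗ[k] X.X.V s :=
  ∑ u, ∑ a : G.E s u, c1 X.d (G.rev a) ∘ₗ LinearMap.proj a ∘ₗ LinearMap.proj u

theorem bS_apply (X : TOb G k) (s : T) (m : ∀ u, G.E s u → X.X.V u) :
    bS X s m = ∑ u, ∑ a : G.E s u, c1 X.d (G.rev a) (m u a) := by
  simp [bS, LinearMap.sum_apply]

/-- `m ↦ ∑ p (rev a) m_a` -/
def pS {X : TOb G k} (p : X.X ⟶ X.X) (s : T) : (∀ u, G.E s u → X.X.V u) →ₗ[k] X.X.V s :=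
  ∑ u, ∑ a : G.E s u, c1 p (G.rev a) ∘ₗ LinearMap.proj a ∘ₗ LinearMap.proj u

theorem pS_apply {X : TOb G k} (p : X.X ⟶ X.X) (s : T) (m : ∀ u, G.E s u → X.X.V u) :
    pS p s m = ∑ u, ∑ a : G.E s u, c1 p (G.rev a) (m u a) := by
  simp [pS, LinearMap.sum_apply]

theorem d_bS (X : TOb G k) (s : T) (m : ∀ u, G.E s u → X.X.V u) :
    c0 X.d s (bS X s m) = -bS X s (fun u a => c0 X.d u (m u a)) := by
  rw [bS_apply, bS_apply, map_sum, ← Finset.sum_neg_distrib]
  refine Finset.sum_congr rfl fun u _ => ?_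
  rw [map_sum, ← Finset.sum_neg_distrib]
  refine Finset.sum_congr rfl fun a _ => ?_
  rw [eq_neg_iff_add_eq_zero, add_comm]
  exact dd1 X (G.rev a) (m u a)

theorem p_bS {X : TOb G k} {p : X.X ⟶ X.X} (hp : Eul X p) (s : T)
    (m : ∀ u, G.E s u → X.X.V u) :
    c0 p s (bS X s m) = bS X s (fun u a => c0 p u (m u a)) + c0 X.d s (pS p s m) -
      pS p s (fun u a => c0 X.d u (m u a)) := by
  rw [bS_apply, bS_apply, pS_apply, pS_apply, map_sum, map_sum, ← Finset.sum_add_distrib,
    ← Finset.sum_sub_distrib]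
  refine Finset.sum_congr rfl fun u _ => ?_
  rw [map_sum, map_sum, ← Finset.sum_add_distrib, ← Finset.sum_sub_distrib]
  refine Finset.sum_congr rfl fun a _ => ?_
  rw [eq_sub_iff_add_eq, add_comm, ← hp.c1]

theorem dd2' (X : TOb G k) (s : T) (x : X.X.V s) :
    c2 X.d s (c0 X.d s x) + c0 X.d s (c2 X.d s x) + bS X s (fun _ a => c1 X.d a x) +
      ci X.d s (cj X.d s x) = 0 := by
  rw [bS_apply]
  exact dd2 X s x

theorem c2' {X : TOb G k} {p : X.X ⟶ X.X} (hp : Eul X p) (t : T) (x : X.X.V t) :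
    c2 X.d t (c0 p t x) + c0 X.d t (c2 p t x) + bS X t (fun _ a => c1 p a x) +
      ci X.d t (cj p t x) =
    c2 p t (c0 X.d t x) + c0 p t (c2 X.d t x) + pS p t (fun _ a => c1 X.d a x) +
      ci p t (cj X.d t x) + c2 X.d t x := by
  rw [bS_apply, pS_apply]
  exact hp.c2 t x

/-! ### lifts of elements of `ker a_s` -/

/-- `(x, F)` is a partial cocycle `P_s → X`. -/
structure IsLift (X : TOb G k) (s : T) (x : X.X.V s) (F : ∀ u, G.E s u → X.X.V u) : Prop where
  h0 : c0 X.d s x = 0
  hj : cj X.d s x = 0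
  h1 : ∀ u (a : G.E s u), c0 X.d u (F u a) = -c1 X.d a x

section lift
variable {X : TOb G k} {s : T} {x : X.X.V s} {F : ∀ u, G.E s u → X.X.V u}

theorem IsLift.closed (h : IsLift X s x F) : c0 X.d s (c2 X.d s x + bS X s F) = 0 := by
  have h1 := dd2' X s x
  rw [h.h0, h.hj, map_zero, map_zero, zero_add, add_zero] at h1
  have h2 : bS X s (fun u a => c0 X.d u (F u a)) = -bS X s (fun _ a => c1 X.d a x) := by
    rw [← map_neg]
    congr 1
    funext u a
    exact h.h1 u a
  rw [map_add, d_bS, h2, neg_neg]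
  exact h1

/-- the secondary class -/
def R (h : IsLift X s x F) : Hv X s := mk X s (c2 X.d s x + bS X s F) h.closed

/-- the image of `b` on homology -/
def U (X : TOb G k) (s : T) : Submodule k (Hv X s) :=
  (⨆ u, ⨆ a : G.E u s, LinearMap.range (HB X a)) ⊔ LinearMap.range (Hi X s)

theorem HB_mem_U {u : T} (a : G.E u s) (ξ : Hv X u) : HB X a ξ ∈ U X s :=
  Submodule.mem_sup_left (Submodule.mem_iSup_of_mem u (Submodule.mem_iSup_of_mem a ⟨ξ, rfl⟩))

theorem Hi_mem_U (w : X.X.W s) : Hi X s w ∈ U X s :=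
  Submodule.mem_sup_right ⟨w, rfl⟩

/-- description of the elements of `U` by cycles -/
theorem mk_mem_U (m : ∀ u, G.E s u → X.X.V u) (hm : ∀ u a, c0 X.d u (m u a) = 0) (w : X.X.W s)
    (z : X.X.V s) (y : X.X.V s) (hy : c0 X.d s y = 0)
    (h : y = bS X s m + ci X.d s w + c0 X.d s z) : mk X s y hy ∈ U X s := by
  have h0 : ∀ u (a : G.E s u), c0 X.d s (c1 X.d (G.rev a) (m u a)) = 0 := by
    intro u a
    have := dd1 X (G.rev a) (m u a)
    rw [hm, map_zero, zero_add] at this
    exact this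
  have h1 : c0 X.d s (bS X s m) = 0 := by
    rw [bS_apply, map_sum]
    refine Finset.sum_eq_zero fun u _ => ?_
    rw [map_sum]
    exact Finset.sum_eq_zero fun a _ => h0 u a
  have h2 : mk X s (bS X s m) h1 = ∑ u, ∑ a : G.E s u, HB X (G.rev a) (mk X u (m u a) (hm u a)) := by
    let z : LinearMap.ker (c0 X.d s) := ∑ u, ∑ a : G.E s u,
      (⟨c1 X.d (G.rev a) (m u a), LinearMap.mem_ker.2 (h0 u a)⟩ : LinearMap.ker (c0 X.d s))
    have hz : (z : X.X.V s) = bS X s m := by
      rw [bS_apply]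
      simp only [z, Submodule.coe_sum]
    have h3 : mkL X s z = ∑ u, ∑ a : G.E s u, HB X (G.rev a) (mk X u (m u a) (hm u a)) := by
      simp only [z, map_sum]
      rfl
    rw [← h3, mkL_eq]
    exact mk_congr X _ hz.symm
  have h4 : mk X s y hy = mk X s (bS X s m) h1 + Hi X s w := by
    rw [Hi_apply, mk_add, mk_eq_iff]
    exact ⟨z, by rw [h]; abel⟩
  rw [h4, h2]
  refine Submodule.add_mem _ (Submodule.sum_mem _ fun u _ => Submodule.sum_mem _ fun a _ => ?_)
    (Hi_mem_U w)
  exact HB_mem_U _ _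

/-- conversely -/
theorem exists_of_mem_U {ξ : Hv X s} (hξ : ξ ∈ U X s) :
    ∃ m : ∀ u, G.E s u → X.X.V u, (∀ u a, c0 X.d u (m u a) = 0) ∧ ∃ w : X.X.W s,
      ∃ hy : c0 X.d s (bS X s m + ci X.d s w) = 0, ξ = mk X s (bS X s m + ci X.d s w) hy := by
  classical
  -- the set of such classes is a submodule
  have key : ∀ (m : ∀ u, G.E s u → X.X.V u) (w : X.X.W s), (∀ u a, c0 X.d u (m u a) = 0) →
      c0 X.d s (bS X s m + ci X.d s w) = 0 := by
    intro m w hm
    have : (fun u (a : G.E s u) => c0 X.d u (m u a)) = 0 := by funext u a; exact hm u a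
    rw [map_add, d_bS, ddi, this, map_zero, neg_zero, add_zero]
  let S : Submodule k (Hv X s) :=
    { carrier := {ξ | ∃ m : ∀ u, G.E s u → X.X.V u, (∀ u a, c0 X.d u (m u a) = 0) ∧
        ∃ w : X.X.W s, ∃ hy : c0 X.d s (bS X s m + ci X.d s w) = 0,
        ξ = mk X s (bS X s m + ci X.d s w) hy}
      zero_mem' := ⟨0, fun u a => by simp, 0, by simp, by
        rw [eq_comm, mk_eq_zero]; exact ⟨0, by simp⟩⟩
      add_mem' := by
        rintro _ _ ⟨m, hm, w, hy, rfl⟩ ⟨m', hm', w', hy', rfl⟩
        refine ⟨m + m', fun u a => by simp [hm, hm'], w + w',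
          key _ _ (fun u a => by simp [hm, hm']), ?_⟩
        rw [mk_add, mk_eq_iff]
        exact ⟨0, by rw [map_zero, map_add, map_add]; abel⟩
      smul_mem' := by
        rintro c _ ⟨m, hm, w, hy, rfl⟩
        refine ⟨c • m, fun u a => by simp [hm], c • w, key _ _ (fun u a => by simp [hm]), ?_⟩
        rw [mk_smul, mk_eq_iff]
        exact ⟨0, by rw [map_zero, map_smul, map_smul, smul_add, sub_self]⟩ }
  have hle : U X s ≤ S := by
    refine sup_le (iSup_le fun u => iSup_le fun a => ?_) ?_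
    · rintro _ ⟨ξ, rfl⟩
      obtain ⟨y, hy, rfl⟩ := mk_surj X ξ
      refine ⟨Pi.single u (Pi.single (G.rev a) y), ?_, 0, ?_⟩
      · intro u' a'
        by_cases h : u' = u
        · subst h
          rw [Pi.single_eq_same]
          by_cases h' : a' = G.rev a
          · subst h'
            rw [Pi.single_eq_same]
            exact hy
          · rw [Pi.single_eq_of_ne h', map_zero]
        · rw [Pi.single_eq_of_ne h]
          exact map_zero _
      · have hb : bS X s (Pi.single u (Pi.single (G.rev a) y)) = c1 X.d a y := by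
          rw [bS_apply, Finset.sum_eq_single u, Finset.sum_eq_single (G.rev a)]
          · rw [Pi.single_eq_same, Pi.single_eq_same, G.rev_rev]
          · intro a' _ h'
            rw [Pi.single_eq_same, Pi.single_eq_of_ne h', map_zero]
          · intro h; exact absurd (Finset.mem_univ _) h
          · intro u' _ h
            rw [Pi.single_eq_of_ne h]
            exact Finset.sum_eq_zero fun a' _ => map_zero _
          · intro h; exact absurd (Finset.mem_univ _) h
        have hc : c0 X.d s (c1 X.d a y) = 0 := by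
          have := dd1 X a y
          rw [hy, map_zero, zero_add] at this
          exact this
        refine ⟨by rw [map_zero, add_zero, hb]; exact hc, ?_⟩
        rw [HB_mk, mk_eq_iff]
        exact ⟨0, by rw [hb, map_zero, map_zero, add_zero, sub_self]⟩
    · rintro _ ⟨w, rfl⟩
      refine ⟨0, fun u a => by simp, w, by rw [map_zero, zero_add]; exact ddi X s w, ?_⟩
      rw [Hi_apply, mk_eq_iff]
      exact ⟨0, by rw [map_zero, map_zero, zero_add, sub_self]⟩
  exact hle hξ

/-- (II) the secondary class is well defined modulo `U`. -/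
theorem R_sub_mem {x' : X.X.V s} {F' : ∀ u, G.E s u → X.X.V u} (h : IsLift X s x F)
    (h' : IsLift X s x' F') (w : X.X.V s) (hw : c0 X.d s w = x - x') : R h - R h' ∈ U X s := by
  rw [R, R, mk_sub]
  refine mk_mem_U (F - F' - fun _ a => c1 X.d a w) ?_ (-cj X.d s w) (-c2 X.d s w) _ _ ?_
  · intro u a
    have h1 := dd1 X a w
    have h2 : c0 X.d u (c1 X.d a w) = -c1 X.d a (c0 X.d s w) := by
      rw [eq_neg_iff_add_eq_zero, add_comm]; exact h1
    simp only [Pi.sub_apply, map_sub, h.h1, h'.h1, h2, hw]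
    abel
  · have h1 := dd2' X s w
    rw [hw, map_sub] at h1
    have h2 : c2 X.d s x - c2 X.d s x' = -(c0 X.d s (c2 X.d s w)) -
        bS X s (fun _ a => c1 X.d a w) - ci X.d s (cj X.d s w) := by
      rw [← sub_eq_zero, ← h1]; abel
    have h3 : bS X s (F - F' - fun _ a => c1 X.d a w) =
        bS X s F - bS X s F' - bS X s (fun _ a => c1 X.d a w) := by
      rw [map_sub, map_sub]
    rw [h3, map_neg, map_neg]
    calc c2 X.d s x + bS X s F - (c2 X.d s x' + bS X s F')
        = (c2 X.d s x - c2 X.d s x') + (bS X s F - bS X s F') := by abel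
      _ = _ := by rw [h2]; abel

theorem IsLift.smul (h : IsLift X s x F) (c : k) : IsLift X s (c • x) (c • F) where
  h0 := by rw [map_smul, h.h0, smul_zero]
  hj := by rw [map_smul, h.hj, smul_zero]
  h1 := by intro u a; simp only [Pi.smul_apply, map_smul, h.h1, smul_neg]

theorem R_smul (h : IsLift X s x F) (c : k) : R (h.smul c) = c • R h := by
  rw [R, R, mk_smul]
  exact mk_congr X _ (by rw [map_smul, map_smul, smul_add])

variable {p : X.X ⟶ X.X} (hp : Eul X p)
include hp

/-- (I), first half: the lift of `p x`. -/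
theorem IsLift.pLift (h : IsLift X s x F) :
    IsLift X s (c0 p s x) (fun u a => c0 p u (F u a) + F u a + c1 p a x) where
  h0 := by rw [hp.c0, h.h0, map_zero, sub_zero]
  hj := by rw [hp.cj, h.h0, map_zero]
  h1 := by
    intro u a
    have h1 := hp.c1 a x
    rw [h.h0, map_zero, zero_add] at h1
    have h2 : c0 X.d u (c1 p a x) = c0 p u (c1 X.d a x) - c1 X.d a (c0 p s x) := by
      rw [← h1]; abel
    rw [map_add, map_add, h2, hp.c0, h.h1, map_neg]
    abel

/-- (I): `A R(x,F) = R(p x, ..) - R(x,F) + Hi (p_j x)`. -/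
theorem Hp_R (h : IsLift X s x F) :
    Hp hp s (R h) = R (h.pLift hp) - R h + Hi X s (cj p s x) := by
  rw [R, R, Hp_mk, Hi_apply, mk_sub, mk_add, mk_eq_iff]
  refine ⟨c2 p s x + pS p s F, ?_⟩
  have h1 := c2' hp s x
  rw [h.h0, h.hj, map_zero, map_zero, add_zero, zero_add] at h1
  have h2 := p_bS hp s F
  have h3 : pS p s (fun u a => c0 X.d u (F u a)) = -pS p s (fun _ a => c1 X.d a x) := by
    rw [← map_neg]
    congr 1
    funext u a
    exact h.h1 u a
  rw [h3, sub_neg_eq_add] at h2
  have h4 : bS X s (fun u a => c0 p u (F u a) + F u a + c1 p a x) =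
      bS X s (fun u a => c0 p u (F u a)) + bS X s F + bS X s (fun _ a => c1 p a x) := by
    rw [← map_add, ← map_add]
    rfl
  have h5 : c0 p s (c2 X.d s x) = c2 X.d s (c0 p s x) + c0 X.d s (c2 p s x) +
      bS X s (fun _ a => c1 p a x) + ci X.d s (cj p s x) - pS p s (fun _ a => c1 X.d a x) -
      c2 X.d s x := by
    rw [h1]; abel
  rw [map_add, map_add, h2, h5, h4]
  abel

end lift

end Crest.Agent.R175.PTH2
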