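import Crest.Agent.R175.PTE_175

/-!
Row 175 (S0263), helper175: (K) for pairs of rigid objects; isomorphisms of cohomology data
(`QIso`), the one given by an `HIso` of rigid objects, and transport of `TD` along them.
-/

set_option autoImplicit false
set_option linter.unusedSectionVars false
set_option linter.unusedSimpArgs false

open CategoryTheory Module Crest.Agent.R175.PTA Crest.Agent.R175.PTH Crest.Agent.R175.PTQ_4

namespace Crest.Agent.R175.PTE

universe u v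

variable {T : Type u} {k : Type v} [Field k] [Fintype T] {G : MG T}

/-! ### (K) for pairs -/

/-- **(K)** for a pair `X, Y` with `hT X Y = 0`. -/
theorem no_both2 {X Y : TOb G k} {p : X.X ⟶ X.X} {q : Y.X ⟶ Y.X} (hp : Eul X p) (hq : Eul Y q)
    (hXY : hT X Y = 0) {s : T} {μ ν : k}
    (hμ : ∀ ξ : Hv Y s, Hp hq s ξ = (μ - 1) • ξ → ξ = 0)
    (hν : ∀ ξ : Hv X s, Hp hp s ξ = (ν + 1) • ξ → ξ = 0)
    {ξ : Hv Y s} (hξ : ξ ≠ 0) (hAξ : Hp hq s ξ = μ • ξ)
    (hBξ : ∀ u (a : G.E s u), HB Y a ξ = 0) (hjξ : Hj Y s ξ = 0)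
    {η : Hv X s →ₗ[k] k} (hη : η ≠ 0) (hAη : ∀ ξ, η (Hp hp s ξ) = ν * η ξ)
    (hBη : ∀ u (a : G.E u s) ξ, η (HB X a ξ) = 0) (hiη : ∀ w, η (Hi X s w) = 0) : False := by
  obtain ⟨x, hx, rfl⟩ := mk_surj Y ξ
  obtain ⟨f, hf, hf0⟩ := PTK.existF hq hμ hx hAξ hBξ hjξ
  obtain ⟨g, hg, hg0⟩ := PTK.existG hp hν η hAη hBη hiη
  have hg' : D X (PTK.Q G k) (bar g) = 0 := by
    rw [D_apply, bar_bar, hg, Limits.comp_zero, sub_zero]
  have hcl : D X Y (bar g ≫ f) = 0 := closed_comp hg' hf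
  have hmem : bar g ≫ f ∈ Cs X.X Y.X := by
    intro t
    rw [cW_comp]
    have : cW (bar g) t = 0 := Subsingleton.elim _ _
    rw [this, LinearMap.comp_zero]
  obtain ⟨K, -, hK⟩ := exact_of_hT hXY hmem hcl
  obtain ⟨ξ', hξ'⟩ : ∃ ξ', η ξ' ≠ 0 := by
    by_contra hcon
    push Not at hcon
    exact hη (LinearMap.ext hcon)
  obtain ⟨x', hx', rfl⟩ := mk_surj X ξ'
  have h1 := Hmap_eq hcl (map_zero (D X Y)) (by rw [sub_zero, hK]) s
    (PTH.mk X s (X.X.gV s x') (PTK.gV_cycle X s hx'))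
  have h2 : c0 (bar g ≫ f) s (X.X.gV s x') = η (PTH.mk X s x' hx') • x := by
    rw [c0_comp, LinearMap.comp_apply, c0_bar]
    change c0 f s (c0 g s (X.X.gV s (X.X.gV s x'))) = _
    have h3 : X.X.gV s (X.X.gV s x') = x' := LinearMap.congr_fun (X.X.gV_sq s) x'
    rw [h3, hf0, hg0 x' hx']
  have h4 : PTH.mk Y s (η (PTH.mk X s x' hx') • x) (by rw [map_smul, hx, smul_zero]) = 0 := by
    rw [Hmap_mk, Hmap_mk] at h1
    rw [mk_congr Y _ h2] at h1
    rw [h1, mk_eq_zero]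
    exact ⟨0, by simp⟩
  rw [← mk_smul Y hx] at h4
  rcases smul_eq_zero.1 h4 with h | h
  · exact hξ' h
  · exact hξ h

/-- **(K)** for pairs, in the form of `DomF`. -/
theorem K_pair {X Y : TOb G k} {p : X.X ⟶ X.X} {q : Y.X ⟶ Y.X} (hp : Eul X p) (hq : Eul Y q)
    (hXY : hT X Y = 0) {ht : k → ℤ} (ht_add : ∀ μ, ht (μ + 1) = ht μ + 1) (t : T) (a b : ℤ)
    (hlo : lo ht (toQM Y hq) a) (hhi : hi ht (toQM X hp) b) (hcb : cb ht (toQM X hp) t b) :
    ¬ ka ht (toQM Y hq) t a := by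
  rintro ⟨μ, hμ, ξ, hξ, hA, hk⟩
  obtain ⟨ν, hν, η, hη, hAη, hU⟩ := hcb
  rw [QM.mem_kerA] at hk
  refine no_both2 hp hq hXY (s := t) (μ := μ) (ν := ν) (fun ζ hζ => ?_) (fun ζ hζ => ?_) hξ hA
    hk.1 hk.2 hη hAη (fun u a ζ => hU _ (QM.B_mem_imB (X := toQM X hp) a ζ))
    (fun w => hU _ (QM.i_mem_imB (X := toQM X hp) w))
  · by_contra hne
    have h1 := hlo t (μ - 1) ζ hne hζ
    have h2 := ht_add (μ - 1)
    rw [sub_add_cancel] at h2
    omega
  · by_contra hne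
    have h1 := hhi t (ν + 1) ζ hne hζ
    have h2 := ht_add ν
    omega

/-! ### isomorphisms of cohomology data -/

/-- isomorphism of cohomology data -/
structure QIso (X Y : QM G k) where
  φ : ∀ t, X.H t ≃ₗ[k] Y.H t
  ψ : ∀ t, X.W t ≃ₗ[k] Y.W t
  A : ∀ t v, Y.A t (φ t v) = φ t (X.A t v)
  B : ∀ s t (a : G.E s t) v, Y.B s t a (φ s v) = φ t (X.B s t a v)
  i : ∀ t w, Y.i t (ψ t w) = φ t (X.i t w)
  j : ∀ t v, Y.j t (φ t v) = ψ t (X.j t v)

namespace QIso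

variable {X Y Z : QM G k}

def refl (X : QM G k) : QIso X X where
  φ t := LinearEquiv.refl k _
  ψ t := LinearEquiv.refl k _
  A _ _ := rfl
  B _ _ _ _ := rfl
  i _ _ := rfl
  j _ _ := rfl

def symm (e : QIso X Y) : QIso Y X where
  φ t := (e.φ t).symm
  ψ t := (e.ψ t).symm
  A t v := by rw [LinearEquiv.eq_symm_apply, ← e.A, LinearEquiv.apply_symm_apply]
  B s t a v := by rw [LinearEquiv.eq_symm_apply, ← e.B, LinearEquiv.apply_symm_apply]
  i t w := by rw [LinearEquiv.eq_symm_apply, ← e.i, LinearEquiv.apply_symm_apply]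
  j t v := by rw [LinearEquiv.eq_symm_apply, ← e.j, LinearEquiv.apply_symm_apply]

def trans (e : QIso X Y) (e' : QIso Y Z) : QIso X Z where
  φ t := (e.φ t).trans (e'.φ t)
  ψ t := (e.ψ t).trans (e'.ψ t)
  A t v := by simp only [LinearEquiv.trans_apply, e.A, e'.A]
  B s t a v := by simp only [LinearEquiv.trans_apply, e.B, e'.B]
  i t w := by simp only [LinearEquiv.trans_apply, e.i, e'.i]
  j t v := by simp only [LinearEquiv.trans_apply, e.j, e'.j]

theorem mem_imB (e : QIso X Y) {s : T} {v : X.H s} (hv : v ∈ X.imB s) : e.φ s v ∈ Y.imB s := by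
  have h : X.imB s ≤ (Y.imB s).comap (e.φ s).toLinearMap := by
    refine sup_le (iSup_le fun u => iSup_le fun a => ?_) ?_
    · rintro _ ⟨ξ, rfl⟩
      rw [Submodule.mem_comap]
      change e.φ s (X.B u s a ξ) ∈ _
      rw [← e.B]
      exact QM.B_mem_imB a _
    · rintro _ ⟨w, rfl⟩
      rw [Submodule.mem_comap]
      change e.φ s (X.i s w) ∈ _
      rw [← e.i]
      exact QM.i_mem_imB _
  exact h hv

theorem mem_imB_iff (e : QIso X Y) {s : T} {v : X.H s} : e.φ s v ∈ Y.imB s ↔ v ∈ X.imB s := by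
  refine ⟨fun h => ?_, e.mem_imB⟩
  have h1 := e.symm.mem_imB h
  rwa [show e.symm.φ s (e.φ s v) = v from LinearEquiv.symm_apply_apply _ _] at h1

theorem mem_kerA (e : QIso X Y) {s : T} {v : X.H s} (hv : v ∈ X.kerA s) :
    e.φ s v ∈ Y.kerA s := by
  rw [QM.mem_kerA] at hv ⊢
  exact ⟨fun t a => by rw [e.B, hv.1, map_zero], by rw [e.j, hv.2, map_zero]⟩

theorem mem_kerA_iff (e : QIso X Y) {s : T} {v : X.H s} :
    e.φ s v ∈ Y.kerA s ↔ v ∈ X.kerA s := by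
  refine ⟨fun h => ?_, e.mem_kerA⟩
  have h1 := e.symm.mem_kerA h
  rwa [show e.symm.φ s (e.φ s v) = v from LinearEquiv.symm_apply_apply _ _] at h1

/-- transport of `TD` in the target -/
def tdRight {F : Set T} {X' X1' : QM G k} (h : TD F X X') (e : QIso X' X1') : TD F X X1' where
  κ t := (e.φ t).toLinearMap ∘ₗ h.κ t
  ω t := (h.ω t).trans (e.ψ t)
  bij t ht := (e.φ t).bijective.comp (h.bij t ht)
  nadj := h.nadj
  Aκ t ht v := by
    change X1'.A t (e.φ t (h.κ t v)) = e.φ t (h.κ t (X.A t v))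
    rw [e.A, h.Aκ t ht]
  Aκ' t ht v := by
    change X1'.A t (e.φ t (h.κ t v)) = e.φ t (h.κ t (X.A t v)) + e.φ t (h.κ t v)
    rw [e.A, h.Aκ' t ht, map_add]
  Bκ s t hs ht a v := by
    change X1'.B s t a (e.φ s (h.κ s v)) = e.φ t (h.κ t (X.B s t a v))
    rw [e.B, h.Bκ s t hs ht]
  iω t ht w := by
    change X1'.i t (e.ψ t (h.ω t w)) = e.φ t (h.κ t (X.i t w))
    rw [e.i, h.iω t ht]
  jκ t ht v := by
    change X1'.j t (e.φ t (h.κ t v)) = e.ψ t (h.ω t (X.j t v))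
    rw [e.j, h.jκ t ht]
  ker s hs v := by
    rw [← h.ker s hs v]
    exact LinearEquiv.map_eq_zero_iff (e.φ s)
  range s hs v' hv' := by
    have h1 : (e.φ s).symm v' ∈ X'.kerA s := e.symm.mem_kerA hv'
    obtain ⟨v, hv⟩ := h.range s hs _ h1
    exact ⟨v, by
      change e.φ s (h.κ s v) = v'
      rw [hv, LinearEquiv.apply_symm_apply]⟩
  range' s hs v := e.mem_kerA (h.range' s hs v)
  ba s hs v' m w h1 h2 := by
    refine h.ba s hs ((e.φ s).symm v') m w (fun t a => ?_) ?_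
    · have h3 : e.φ t (h.κ t (m t a)) = X1'.B s t a v' := h1 t a
      have h4 : X'.B s t a ((e.φ s).symm v') = (e.φ t).symm (X1'.B s t a v') := e.symm.B s t a v'
      rw [h4, ← h3, LinearEquiv.symm_apply_apply]
    · have h3 : e.ψ s (h.ω s w) = X1'.j s v' := h2
      have h4 : X'.j s ((e.φ s).symm v') = (e.ψ s).symm (X1'.j s v') := e.symm.j s v'
      rw [h4, ← h3, LinearEquiv.symm_apply_apply]
  ex s hs m w h1 := by
    obtain ⟨v', h2, h3⟩ := h.ex s hs m w h1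
    refine ⟨e.φ s v', fun t a => ?_, ?_⟩
    · change X1'.B s t a (e.φ s v') = e.φ t (h.κ t (m t a))
      rw [e.B, h2]
    · change X1'.j s (e.φ s v') = e.ψ s (h.ω s w)
      rw [e.j, h3]
  aBB s hs t t' a b v := by
    change X1'.B s t' b (X1'.B t s a (e.φ t (h.κ t v))) =
      e.φ t' (h.κ t' (X.B s t' b (X.B t s a v)))
    rw [e.B, e.B, h.aBB s hs]
  ajB s hs t a v := by
    change X1'.j s (X1'.B t s a (e.φ t (h.κ t v))) = e.ψ s (h.ω s (X.j s (X.B t s a v)))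
    rw [e.B, e.j, h.ajB s hs]
  aBi s hs t' b w := by
    change X1'.B s t' b (X1'.i s (e.ψ s (h.ω s w))) = e.φ t' (h.κ t' (X.B s t' b (X.i s w)))
    rw [e.i, e.B, h.aBi s hs]
  aji s hs w := by
    change X1'.j s (X1'.i s (e.ψ s (h.ω s w))) = e.ψ s (h.ω s (X.j s (X.i s w)))
    rw [e.i, e.j, h.aji s hs]

/-- transport of `TD` in the source -/
def tdLeft {F : Set T} {X' X1 : QM G k} (h : TD F X X') (e : QIso X1 X) : TD F X1 X' where
  κ t := h.κ t ∘ₗ (e.φ t).toLinearMap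
  ω t := (e.ψ t).trans (h.ω t)
  bij t ht := (h.bij t ht).comp (e.φ t).bijective
  nadj := h.nadj
  Aκ t ht v := by
    change X'.A t (h.κ t (e.φ t v)) = h.κ t (e.φ t (X1.A t v))
    rw [h.Aκ t ht, e.A]
  Aκ' t ht v := by
    change X'.A t (h.κ t (e.φ t v)) = h.κ t (e.φ t (X1.A t v)) + h.κ t (e.φ t v)
    rw [h.Aκ' t ht, e.A]
  Bκ s t hs ht a v := by
    change X'.B s t a (h.κ s (e.φ s v)) = h.κ t (e.φ t (X1.B s t a v))
    rw [h.Bκ s t hs ht, e.B]
  iω t ht w := by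
    change X'.i t (h.ω t (e.ψ t w)) = h.κ t (e.φ t (X1.i t w))
    rw [h.iω t ht, e.i]
  jκ t ht v := by
    change X'.j t (h.κ t (e.φ t v)) = h.ω t (e.ψ t (X1.j t v))
    rw [h.jκ t ht, e.j]
  ker s hs v := by
    rw [← e.mem_imB_iff]
    exact h.ker s hs (e.φ s v)
  range s hs v' hv' := by
    obtain ⟨v, hv⟩ := h.range s hs _ hv'
    exact ⟨(e.φ s).symm v, by
      change h.κ s (e.φ s ((e.φ s).symm v)) = v'
      rw [LinearEquiv.apply_symm_apply, hv]⟩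
  range' s hs v := h.range' s hs (e.φ s v)
  ba s hs v' m w h1 h2 := by
    have h3 := h.ba s hs v' (fun t a => e.φ t (m t a)) (e.ψ s w) h1 h2
    apply (e.φ s).injective
    rw [map_zero, map_add, map_sum, ← e.i, ← h3]
    congr 1
    refine Finset.sum_congr rfl fun t _ => ?_
    rw [map_sum]
    exact Finset.sum_congr rfl fun a _ => (e.B _ _ _ _).symm
  ex s hs m w h1 := by
    refine h.ex s hs (fun t a => e.φ t (m t a)) (e.ψ s w) ?_
    have h3 := congrArg (e.φ s) h1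
    rw [map_zero, map_add, map_sum, ← e.i] at h3
    rw [← h3]
    congr 1
    refine Finset.sum_congr rfl fun t _ => ?_
    rw [map_sum]
    exact Finset.sum_congr rfl fun a _ => e.B _ _ _ _
  aBB s hs t t' a b v := by
    change X'.B s t' b (X'.B t s a (h.κ t (e.φ t v))) = h.κ t' (e.φ t' (X1.B s t' b (X1.B t s a v)))
    rw [h.aBB s hs, e.B, e.B]
  ajB s hs t a v := by
    change X'.j s (X'.B t s a (h.κ t (e.φ t v))) = h.ω s (e.ψ s (X1.j s (X1.B t s a v)))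
    rw [h.ajB s hs, e.B, e.j]
  aBi s hs t' b w := by
    change X'.B s t' b (X'.i s (h.ω s (e.ψ s w))) = h.κ t' (e.φ t' (X1.B s t' b (X1.i s w)))
    rw [h.aBi s hs, e.i, e.B]
  aji s hs w := by
    change X'.j s (X'.i s (h.ω s (e.ψ s w))) = h.ω s (e.ψ s (X1.j s (X1.i s w)))
    rw [h.aji s hs, e.i, e.j]

/-- transport of `TD` -/
def td {F : Set T} {X X' X1 X1' : QM G k} (e : QIso X X1) (e' : QIso X' X1') (h : TD F X X') :
    TD F X1 X1' := tdRight (tdLeft h e.symm) e'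

end QIso

/-! ### the isomorphism of cohomology data of an `HIso` -/

/-- the inverse maps on homology -/
theorem Hmap_pq {X Y : TOb G k} (e : HEquiv X Y) (t : T) (ξ : Hv X t) :
    Hmap e.q e.Dq t (Hmap e.p e.Dp t ξ) = ξ := by
  have h1 := Hmap_eq (closed_comp e.Dp e.Dq) (D_id (X := X)) (K := e.s)
    (by rw [e.pq]; abel) t ξ
  rw [Hmap_comp, Hmap_id] at h1
  exact h1

/-- an equivalence of rigid objects gives an isomorphism of cohomology data -/
def qiso {X Y : TOb G k} {p : X.X ⟶ X.X} {q : Y.X ⟶ Y.X} (hp : Eul X p) (hq : Eul Y q)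
    (hXY : hT X Y = 0) (e : HEquiv X Y) : QIso (toQM X hp) (toQM Y hq) where
  φ t := LinearEquiv.ofLinearMap (Hmap e.p e.Dp t) (Hmap e.q e.Dq t)
    (LinearMap.ext fun ξ => Hmap_pq e.symm t ξ) (LinearMap.ext fun ξ => Hmap_pq e t ξ)
  ψ t := LinearEquiv.ofLinearMap (cW e.p t) (cW e.q t) (e.symm.cW_pq t) (e.cW_pq t)
  A t v := (eul_nat hp hq hXY e.Dp e.bp t v).symm
  B _ _ a v := HB_Hmap e.Dp e.bp a v
  i t w := (Hmap_Hi e.Dp e.bp t w).symm
  j t v := Hj_Hmap e.Dp e.bp t v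

theorem qiso_of_hiso {X Y : TOb G k} {p : X.X ⟶ X.X} {q : Y.X ⟶ Y.X} (hp : Eul X p)
    (hq : Eul Y q) (hX : hT X X = 0) (h : HIso X Y) :
    Nonempty (QIso (toQM X hp) (toQM Y hq)) := by
  obtain ⟨e⟩ := h
  refine ⟨qiso hp hq ?_ e⟩
  rw [← HIso.hT_right ⟨e⟩, hX]

end Crest.Agent.R175.PTE
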