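import Crest.Agent.R175.PTT_4

/-!
Row 175 (S0263), block (D): the exact triangle of the twist.
`QMof X p` : cohomology data of a TOb with position operator;
`ConeOf.td` : `TD {t | U t} (QMof X p) (QMof Y (pY p))` for `Y = cone (ε : Q_U X → X)`.
-/

set_option autoImplicit false
set_option linter.unusedSectionVars false

open CategoryTheory Crest.Agent.R175.PTA Crest.Agent.R175.PTH Crest.Agent.R175.TwG_253
open Crest.Agent.R175.PTQ_4

namespace Crest.Agent.R175.PTT_4

universe u v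

noncomputable section

section QM

variable {T : Type u} {G : MG T} {k : Type v} [Field k] [Fintype T]

/-- cohomology data of a TOb with a position operator -/
abbrev QMof (X : TOb G k) {p : X.X ⟶ X.X} (hp : Eul X p) : QM G k where
  H t := Hv X t
  W t := X.X.W t
  A t := Hp hp t
  B _ _ a := HB X a
  i t := Hi X t
  j t := Hj X t
  AB _ _ a v := Hp_HB hp a v
  Ai t w := Hp_Hi hp t w
  jA t v := Hj_Hp hp t v
  MC t v := Hmc X t v

variable {X : TOb G k} {p : X.X ⟶ X.X} {hp : Eul X p}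

theorem closed_sum {s : T} (y : ∀ t, G.E s t → X.X.V t) (hy : ∀ t a, c0 X.d t (y t a) = 0)
    (w : X.X.W s) :
    c0 X.d s (∑ t, ∑ a : G.E s t, c1 X.d (G.rev a) (y t a) + ci X.d s w) = 0 := by
  rw [map_add, map_sum, ddi, add_zero]
  refine Finset.sum_eq_zero fun t _ => ?_
  rw [map_sum]
  refine Finset.sum_eq_zero fun a _ => ?_
  have h := dd1 X (G.rev a) (y t a)
  rw [hy, map_zero, zero_add] at h
  exact h

theorem sum_mk {s : T} (y : ∀ t, G.E s t → X.X.V t) (hy : ∀ t a, c0 X.d t (y t a) = 0)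
    (w : X.X.W s) :
    ∑ t, ∑ a : G.E s t, HB X (G.rev a) (mk X t (y t a) (hy t a)) + Hi X s w =
      mk X s (∑ t, ∑ a : G.E s t, c1 X.d (G.rev a) (y t a) + ci X.d s w) (closed_sum y hy w) := by
  have h0 : ∀ t (a : G.E s t), c0 X.d s (c1 X.d (G.rev a) (y t a)) = 0 := by
    intro t a
    have h := dd1 X (G.rev a) (y t a)
    rw [hy, map_zero, zero_add] at h
    exact h
  let z : LinearMap.ker (c0 X.d s) := (∑ t, ∑ a : G.E s t,
    (⟨c1 X.d (G.rev a) (y t a), LinearMap.mem_ker.2 (h0 t a)⟩ : LinearMap.ker (c0 X.d s))) +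
      ⟨ci X.d s w, LinearMap.mem_ker.2 (ddi X s _)⟩
  have h3 : ∑ t, ∑ a : G.E s t, HB X (G.rev a) (mk X t (y t a) (hy t a)) + Hi X s w =
      mkL X s z := by
    rw [map_add, map_sum]
    simp only [map_sum]
    rfl
  have hz : (z : X.X.V s) = ∑ t, ∑ a : G.E s t, c1 X.d (G.rev a) (y t a) + ci X.d s w := by
    simp only [z, Submodule.coe_add, Submodule.coe_sum]
  rw [h3, mkL_eq]
  exact mk_congr X _ hz

/-- membership in `im b_s`, on cocycles -/
theorem mem_imB_iff {s : T} {v : X.X.V s} (hv : c0 X.d s v = 0) :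
    mk X s v hv ∈ (QMof X hp).imB s ↔ ∃ (y : ∀ t, G.E s t → X.X.V t) (w : X.X.W s)
      (z : X.X.V s), (∀ t a, c0 X.d t (y t a) = 0) ∧
      ∑ t, ∑ a : G.E s t, c1 X.d (G.rev a) (y t a) + ci X.d s w + c0 X.d s z = v := by
  rw [← TD.range_bS, LinearMap.mem_range]
  constructor
  · rintro ⟨⟨m, w⟩, hm⟩
    have h1 : ∀ t a, ∃ x, ∃ hx : c0 X.d t x = 0, mk X t x hx = m t a := fun t a =>
      mk_surj X (m t a)
    choose y hy hym using h1
    rw [TD.bS_apply] at hm
    change ∑ t, ∑ a : G.E s t, HB X (G.rev a) (m t a) + Hi X s w = _ at hm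
    have h2 : ∑ t, ∑ a : G.E s t, HB X (G.rev a) (mk X t (y t a) (hy t a)) + Hi X s w =
        mk X s v hv := by
      rw [← hm]
      congr 1
      exact Finset.sum_congr rfl fun t _ => Finset.sum_congr rfl fun a _ => by rw [hym]
    rw [sum_mk, eq_comm, mk_eq_iff] at h2
    obtain ⟨z, hz⟩ := h2
    exact ⟨y, w, z, hy, by rw [hz]; abel⟩
  · rintro ⟨y, w, z, hy, h⟩
    refine ⟨(fun t a => mk X t (y t a) (hy t a), w), ?_⟩
    rw [TD.bS_apply]
    change ∑ t, ∑ a : G.E s t, HB X (G.rev a) (mk X t (y t a) (hy t a)) + Hi X s w = _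
    rw [sum_mk, eq_comm, mk_eq_iff]
    exact ⟨z, by rw [← h]; abel⟩

end QM

/-! ### coordinates of the cone -/

section Cone

variable {T : Type v} {G : MG T} {k : Type v} [Field k] [Fintype T] {U : T → Prop}
  {X Y : TOb G k} (C : ConeOf U X Y)

namespace ConeOf

theorem comp0 {A B : Gob G k} {f g : A ⟶ B} (h : f = g) (t : T) (x : A.V t) :
    c0 f t x = c0 g t x := by rw [h]

/-- `L f = 0` kills the length 1 parts -/
theorem c1_of_L {A B : Gob G k} {f : A ⟶ B} (h : L f = 0) {s t : T} (a : G.E s t) :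
    c1 f a = 0 := by
  have := congrArg (fun g => c1 g a) h
  exact this

theorem ci_of_L {A B : Gob G k} {f : A ⟶ B} (h : L f = 0) (t : T) : ci f t = 0 := by
  have := congrArg (fun g => ci g t) h
  exact this

theorem cj_of_L {A B : Gob G k} {f : A ⟶ B} (h : L f = 0) (t : T) : cj f t = 0 := by
  have := congrArg (fun g => cj g t) h
  exact this

/-- the coordinate inclusion of `Hom(P_t, X)` -/
def ι (t : T) : HP X.X t →ₗ[k] Y.X.V t := c0 C.inl t ∘ₗ qin U X.X t

/-- the coordinate inclusion of `X` -/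
def ρ (t : T) : X.X.V t →ₗ[k] Y.X.V t := c0 C.inr t

theorem ρ_apply {t : T} (v : X.X.V t) : C.ρ t v = c0 C.inr t v := rfl
theorem ι_apply {t : T} (w : HP X.X t) : C.ι t w = c0 C.inl t (qin U X.X t w) := rfl

theorem decomp {t : T} (y : Y.X.V t) :
    ∃ (w : HP X.X t) (v : X.X.V t), y = C.ι t w + C.ρ t v := by
  refine ⟨qev U X.X t (c0 C.fst t y), c0 C.snd t y, ?_⟩
  rw [ι_apply, qin_qev, ρ_apply]
  have h := comp0 C.total t y
  simp only [c0_add, c0_comp, LinearMap.add_apply, LinearMap.comp_apply, c0_id,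
    LinearMap.id_apply] at h
  exact h.symm

theorem ι_zero {t : T} (h : ¬ U t) (w : HP X.X t) : C.ι t w = 0 := by
  rw [ι_apply, q_zero h (qin U X.X t w), map_zero]

theorem inj {t : T} (h : U t) {w : HP X.X t} {v : X.X.V t} (e : C.ι t w + C.ρ t v = 0) :
    w = 0 ∧ v = 0 := by
  constructor
  · have h1 := congrArg (c0 C.fst t) e
    rw [map_add, map_zero, ι_apply, ρ_apply] at h1
    have h2 := comp0 C.inl_fst t (qin U X.X t w)
    have h3 := comp0 C.inr_fst t v
    simp only [c0_comp, LinearMap.comp_apply, c0_id, LinearMap.id_apply, c0_zero,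
      LinearMap.zero_apply] at h2 h3
    rw [h2, h3, add_zero] at h1
    rw [← qev_qin h w, h1, map_zero]
  · have h1 := congrArg (c0 C.snd t) e
    rw [map_add, map_zero, ι_apply, ρ_apply] at h1
    have h2 := comp0 C.inl_snd t (qin U X.X t w)
    have h3 := comp0 C.inr_snd t v
    simp only [c0_comp, LinearMap.comp_apply, c0_id, LinearMap.id_apply, c0_zero,
      LinearMap.zero_apply] at h2 h3
    rw [h2, h3, zero_add] at h1
    exact h1

theorem ρ_inj {t : T} {v : X.X.V t} (e : C.ρ t v = 0) : v = 0 := by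
  have h3 := comp0 C.inr_snd t v
  simp only [c0_comp, LinearMap.comp_apply, c0_id, LinearMap.id_apply] at h3
  rw [← h3, ← ρ_apply, e, map_zero]

theorem d_ι {t : T} (w : HP X.X t) :
    c0 Y.d t (C.ι t w) = -C.ι t (hmap X.d t (qev U X.X t (qin U X.X t w))) +
      C.ρ t (qev U X.X t (qin U X.X t w)).1 := by
  have h := comp0 C.d_inl t (qin U X.X t w)
  simp only [c0_comp, LinearMap.comp_apply, c0_add, c0_neg, LinearMap.add_apply,
    LinearMap.neg_apply, c0_mG, c0_eps] at h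
  exact h

theorem d_ι' {t : T} (h : U t) (w : HP X.X t) :
    c0 Y.d t (C.ι t w) = -C.ι t (hmap X.d t w) + C.ρ t w.1 := by
  rw [d_ι, qev_qin h]

theorem d_ρ {t : T} (v : X.X.V t) : c0 Y.d t (C.ρ t v) = C.ρ t (c0 X.d t v) := by
  have h := comp0 C.d_inr t v
  simp only [c0_comp, LinearMap.comp_apply] at h
  exact h

theorem B_ι {s t : T} (h : U s) (a : G.E s t) (w : HP X.X s) :
    c1 Y.d a (C.ι s w) = C.ρ t (w.2.1 t a) := by
  have h1 := congrArg (fun g => c1 g a (qin U X.X s w)) C.d_inl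
  simp only [c1_comp, LinearMap.comp_apply, c1_add, c1_neg, LinearMap.add_apply,
    LinearMap.neg_apply, c1_of_L C.L_inl, c1_of_L C.L_inr, c1_mG, c1_eps, LinearMap.zero_apply,
    map_zero, add_zero, zero_add, neg_zero, qev_qin h] at h1
  exact h1

theorem B_ρ {s t : T} (a : G.E s t) (v : X.X.V s) :
    c1 Y.d a (C.ρ s v) = C.ρ t (c1 X.d a v) := by
  have h1 := congrArg (fun g => c1 g a v) C.d_inr
  simp only [c1_comp, LinearMap.comp_apply, LinearMap.add_apply,
    c1_of_L C.L_inr, LinearMap.zero_apply, map_zero, add_zero, zero_add] at h1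
  exact h1

theorem j_ι {t : T} (h : U t) (w : HP X.X t) :
    cj Y.d t (C.ι t w) = cW C.inr t w.2.2.1 := by
  have h1 := congrArg (fun g => cj g t (qin U X.X t w)) C.d_inl
  simp only [cj_comp, LinearMap.comp_apply, cj_add, cj_neg, LinearMap.add_apply,
    LinearMap.neg_apply, cj_of_L C.L_inl, cj_of_L C.L_inr, cj_mG, cj_eps, LinearMap.zero_apply,
    map_zero, add_zero, zero_add, neg_zero, qev_qin h, Y.dW] at h1
  exact h1

theorem j_ρ {t : T} (v : X.X.V t) : cj Y.d t (C.ρ t v) = cW C.inr t (cj X.d t v) := by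
  have h1 := congrArg (fun g => cj g t v) C.d_inr
  simp only [cj_comp, LinearMap.comp_apply, LinearMap.add_apply,
    cj_of_L C.L_inr, LinearMap.zero_apply, map_zero, add_zero, zero_add, Y.dW] at h1
  exact h1

theorem i_ω {t : T} (w : X.X.W t) : ci Y.d t (cW C.inr t w) = C.ρ t (ci X.d t w) := by
  have h1 := congrArg (fun g => ci g t w) C.d_inr
  simp only [ci_comp, LinearMap.comp_apply, LinearMap.add_apply,
    ci_of_L C.L_inr, LinearMap.zero_apply, map_zero, add_zero, zero_add, X.dW] at h1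
  exact h1

theorem pY_ι {t : T} (h : U t) (p : X.X ⟶ X.X) (w : HP X.X t) :
    c0 (C.pY p) t (C.ι t w) = C.ι t (hmap p t w + hL X.X t w - w) := by
  have h1 := comp0 (C.inl_pY p) t (qin U X.X t w)
  simp only [c0_comp, LinearMap.comp_apply, c0_add, c0_sub, LinearMap.add_apply,
    LinearMap.sub_apply, c0_mG, c0_lq, c0_id, LinearMap.id_apply, qev_qin h] at h1
  rw [ι_apply, ι_apply, h1, map_sub (qin U X.X t), map_add (qin U X.X t)]

theorem pY_ρ {t : T} (p : X.X ⟶ X.X) (v : X.X.V t) :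
    c0 (C.pY p) t (C.ρ t v) = C.ρ t (c0 p t v) := by
  have h1 := comp0 (C.inr_pY p) t v
  simp only [c0_comp, LinearMap.comp_apply] at h1
  exact h1

/-- the frames -/
def ω (t : T) : X.X.W t ≃ₗ[k] Y.X.W t :=
  LinearEquiv.ofLinearMap (cW C.inr t) (cW C.snd t)
    (by
      have h1 := congrArg (fun g => cW g t) C.total
      simp only [cW_add, cW_comp, cW_id] at h1
      have h2 : cW C.fst t = 0 := by
        apply LinearMap.ext; intro x; exact Subsingleton.elim _ _
      rw [h2, LinearMap.comp_zero, zero_add] at h1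
      exact h1)
    (by
      have h1 := congrArg (fun g => cW g t) C.inr_snd
      simpa only [cW_comp, cW_id] using h1)

theorem ω_apply {t : T} (w : X.X.W t) : C.ω t w = cW C.inr t w := rfl

theorem closed_inr : D X Y C.inr = 0 := by
  have hb : bar C.inr = C.inr := by
    rw [bar, C.g_inr, ← Category.assoc, gam_gam, Category.id_comp]
  rw [D_apply, hb, C.d_inr, sub_self]

/-- `κ` at the vertices of `U` -/
def κ1 {t : T} (h : U t) : Hv X t →ₗ[k] Hv Y t :=
  mapG (C.ι t ∘ₗ i2 X.X t)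
    (fun x hx => by
      rw [LinearMap.comp_apply, C.d_ι' h, hmap_i2, hx, map_zero, map_zero, neg_zero, i2_0,
        map_zero, add_zero])
    (fun y => ⟨-C.ι t (i2 X.X t y), by
      rw [LinearMap.comp_apply, map_neg, C.d_ι' h, hmap_i2, i2_0, map_zero, add_zero, neg_neg]⟩)

theorem κ1_mk {t : T} (h : U t) (x : X.X.V t) (hx : c0 X.d t x = 0) :
    C.κ1 h (PTH.mk X t x hx) = PTH.mk Y t (C.ι t (i2 X.X t x)) (by
      rw [C.d_ι' h, hmap_i2, hx, map_zero, map_zero, neg_zero, i2_0,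
        map_zero, add_zero]) := rfl

theorem d_ρ0 {t : T} {x : X.X.V t} (hx : c0 X.d t x = 0) : c0 Y.d t (C.ρ t x) = 0 := by
  rw [d_ρ, hx, map_zero]

open Classical in
/-- `κ` -/
def κ (t : T) : Hv X t →ₗ[k] Hv Y t :=
  if h : U t then C.κ1 h else Hmap C.inr C.closed_inr t

theorem κ_of {t : T} (h : U t) : C.κ t = C.κ1 h := by
  unfold κ; rw [dif_pos h]

theorem κ_not {t : T} (h : ¬ U t) : C.κ t = Hmap C.inr C.closed_inr t := by
  unfold κ; rw [dif_neg h]

theorem κ_not_mk {t : T} (h : ¬ U t) (x : X.X.V t) (hx : c0 X.d t x = 0) :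
    C.κ t (PTH.mk X t x hx) = PTH.mk Y t (C.ρ t x) (C.d_ρ0 hx) := by
  rw [C.κ_not h]; rfl

theorem κ_of_mk {t : T} (h : U t) (x : X.X.V t) (hx : c0 X.d t x = 0) :
    C.κ t (PTH.mk X t x hx) = PTH.mk Y t (C.ι t (i2 X.X t x)) (by
      rw [C.d_ι' h, hmap_i2, hx, map_zero, map_zero, neg_zero, i2_0,
        map_zero, add_zero]) := by
  rw [C.κ_of h]; rfl

/-- outside `U` every element comes from `X` -/
theorem eq_ρ {t : T} (h : ¬ U t) (y : Y.X.V t) : ∃ v, y = C.ρ t v := by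
  obtain ⟨w, v, rfl⟩ := C.decomp y
  exact ⟨v, by rw [C.ι_zero h, zero_add]⟩

theorem κ_bij {t : T} (h : ¬ U t) : Function.Bijective (C.κ t) := by
  constructor
  · rw [injective_iff_map_eq_zero]
    intro ξ hξ
    obtain ⟨x, hx, rfl⟩ := mk_surj X ξ
    rw [C.κ_not_mk h, mk_eq_zero] at hξ
    obtain ⟨y, hy⟩ := hξ
    obtain ⟨v, rfl⟩ := C.eq_ρ h y
    rw [mk_eq_zero]
    refine ⟨v, ?_⟩
    rw [d_ρ, ← sub_eq_zero, ← map_sub] at hy
    exact sub_eq_zero.1 (C.ρ_inj hy)
  · intro ξ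
    obtain ⟨y, hy, rfl⟩ := mk_surj Y ξ
    obtain ⟨v, rfl⟩ := C.eq_ρ h y
    have hv : c0 X.d t v = 0 := by
      rw [d_ρ] at hy
      exact C.ρ_inj hy
    exact ⟨PTH.mk X t v hv, C.κ_not_mk h v hv⟩

/-- a cocycle of the cone at a vertex of `U` -/
theorem closed_iff {t : T} (h : U t) (w : HP X.X t) (v : X.X.V t) :
    c0 Y.d t (C.ι t w + C.ρ t v) = 0 ↔ hmap X.d t w = 0 ∧ w.1 + c0 X.d t v = 0 := by
  rw [map_add, C.d_ι' h, C.d_ρ]
  constructor
  · intro e
    have e' : C.ι t (-hmap X.d t w) + C.ρ t (w.1 + c0 X.d t v) = 0 := by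
      rw [map_neg, map_add, ← add_assoc]; exact e
    obtain ⟨h1, h2⟩ := C.inj h e'
    exact ⟨neg_eq_zero.1 h1, h2⟩
  · rintro ⟨h1, h2⟩
    rw [h1, map_zero, neg_zero, zero_add, ← map_add, h2, map_zero]

/-- the components of `hmap d w = 0` -/
theorem hmap_eq_zero {t : T} {w : HP X.X t} (h : hmap X.d t w = 0) :
    c0 X.d t w.1 = 0 ∧ (∀ s a, c1 X.d a w.1 + c0 X.d s (w.2.1 s a) = 0) ∧ cj X.d t w.1 = 0 ∧
      c2 X.d t w.1 + (∑ s, ∑ a : G.E t s, c1 X.d (G.rev a) (w.2.1 s a)) + ci X.d t w.2.2.1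
      + c0 X.d t w.2.2.2 = 0 := by
  refine ⟨congrArg Prod.fst h, fun s a => ?_, ?_, ?_⟩
  · exact congrFun (congrFun (congrArg (fun x => x.2.1) h) s) a
  · have h1 := congrArg (fun x => x.2.2.1) h
    simp only [hmap_w, X.dW, LinearMap.zero_apply, add_zero] at h1
    exact h1
  · exact congrArg (fun x => x.2.2.2) h

end ConeOf

end Cone

end

end Crest.Agent.R175.PTT_4
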