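import Crest.Agent.R175.PTK_175
import Crest.Agent.R175.PTU_4

/-!
Row 175 (S0263), block (D): (K) for a pair of objects with `hT X Y = 0` (families; labels > 3),
over helper175's `existF`, `existG`.
-/

set_option autoImplicit false
set_option linter.unusedSectionVars false

open CategoryTheory Crest.Agent.R175.PTA Crest.Agent.R175.PTH Crest.Agent.R175.PTH2

namespace Crest.Agent.R175.PTK

universe u v

variable {T : Type u} {k : Type v} [Field k] [Fintype T] {G : MG T}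

/-- **(K)** for pairs: on `Y` a lowest eigenvector killed by all `B, j` and on `X` a highest
eigenfunctional killing all `B, i` at the same vertex cannot coexist if `hT X Y = 0`. -/
theorem no_both2 {X Y : TOb G k} {p : X.X ⟶ X.X} {q : Y.X ⟶ Y.X} (hp : Eul X p) (hq : Eul Y q)
    (hX : hT X Y = 0) {s : T} {μ ν : k}
    (hμ : ∀ ξ : Hv Y s, Hp hq s ξ = (μ - 1) • ξ → ξ = 0)
    (hν : ∀ ξ : Hv X s, Hp hp s ξ = (ν + 1) • ξ → ξ = 0)
    {ξ : Hv Y s} (hξ : ξ ≠ 0) (hAξ : Hp hq s ξ = μ • ξ)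
    (hBξ : ∀ u (a : G.E s u), HB Y a ξ = 0) (hjξ : Hj Y s ξ = 0)
    {η : Hv X s →ₗ[k] k} (hη : η ≠ 0) (hAη : ∀ ξ, η (Hp hp s ξ) = ν * η ξ)
    (hBη : ∀ u (a : G.E u s) ξ, η (HB X a ξ) = 0) (hiη : ∀ w, η (Hi X s w) = 0) : False := by
  obtain ⟨x, hx, rfl⟩ := mk_surj Y ξ
  obtain ⟨f, hf, hf0⟩ := existF hq hμ hx hAξ hBξ hjξ
  obtain ⟨g, hg, hg0⟩ := existG hp hν η hAη hBη hiη
  have hg' : D X (Q G k) (bar g) = 0 := by
    rw [D_apply, bar_bar, hg, Limits.comp_zero, sub_zero]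
  have hcl : D X Y (bar g ≫ f) = 0 := closed_comp hg' hf
  have hmem : bar g ≫ f ∈ Cs X.X Y.X := by
    intro t
    rw [cW_comp]
    have : cW (bar g) t = 0 := Subsingleton.elim _ _
    rw [this, LinearMap.comp_zero]
  obtain ⟨K, -, hK⟩ := exact_of_hT hX hmem hcl
  obtain ⟨ξ', hξ'⟩ : ∃ ξ', η ξ' ≠ 0 := by
    by_contra hcon
    push Not at hcon
    exact hη (LinearMap.ext hcon)
  obtain ⟨x', hx', rfl⟩ := mk_surj X ξ'
  have h1 := Hmap_eq hcl (map_zero (D X Y)) (by rw [sub_zero, hK]) s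
    (mk X s (X.X.gV s x') (gV_cycle X s hx'))
  have h2 : c0 (bar g ≫ f) s (X.X.gV s x') = η (mk X s x' hx') • x := by
    rw [c0_comp, LinearMap.comp_apply, c0_bar]
    change c0 f s (c0 g s (X.X.gV s (X.X.gV s x'))) = _
    have h3 : X.X.gV s (X.X.gV s x') = x' := LinearMap.congr_fun (X.X.gV_sq s) x'
    rw [h3, hf0, hg0 x' hx']
  have h4 : mk Y s (η (mk X s x' hx') • x) (by rw [map_smul, hx, smul_zero]) = 0 := by
    rw [Hmap_mk, Hmap_mk] at h1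
    rw [mk_congr Y _ h2] at h1
    rw [h1, mk_eq_zero]
    exact ⟨0, by simp⟩
  rw [← mk_smul Y hx] at h4
  rcases smul_eq_zero.1 h4 with h | h
  · exact hξ' h
  · exact hξ h

open Crest.Agent.R175.PTQ_4 Crest.Agent.R175.PTT_4

/-- (K) in terms of positions -/
theorem K_pair {X Y : TOb G k} {p : X.X ⟶ X.X} {q : Y.X ⟶ Y.X} (hp : Eul X p) (hq : Eul Y q)
    (hX : hT X Y = 0) {ht : k → ℤ} (hadd : ∀ μ, ht (μ + 1) = ht μ + 1) {t : T} {a b : ℤ}
    (hlo : lo ht (QMof Y hq) a) (hhi : hi ht (QMof X hp) b)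
    (hcb : cb ht (QMof X hp) t b) : ¬ ka ht (QMof Y hq) t a := by
  rintro ⟨μ, hμ, ξ, hξ, hAξ, hk⟩
  obtain ⟨ν, hν, η, hη, hAη, hi'⟩ := hcb
  rw [QM.mem_kerA] at hk
  refine no_both2 hp hq hX (s := t) (μ := μ) (ν := ν) (fun ζ hζ => ?_) (fun ζ hζ => ?_) hξ hAξ
    hk.1 hk.2 hη hAη (fun u c ζ => hi' _ (QM.B_mem_imB (X := QMof X hp) c ζ))
    (fun w => hi' _ (QM.i_mem_imB (X := QMof X hp) w))
  · by_contra h0
    have h1 := hlo t (μ - 1) ζ h0 hζ
    have h2 := hadd (μ - 1)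
    rw [sub_add_cancel] at h2
    omega
  · by_contra h0
    have h1 := hhi t (ν + 1) ζ h0 hζ
    have h2 := hadd ν
    omega

end Crest.Agent.R175.PTK
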