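import Mathlib

/-!
Row 175 (S0263), block (D): (N) of #2634.  A nonzero finite dimensional family `V s`, `s : T`,
with maps `B : V s → V t` along the edges of a finite multigraph with
`∑ B B = 0` at every vertex, has a vertex with `ker a_s ≠ 0` and a vertex with `coker b_s ≠ 0`.
The Cartan form enters only through
`hC : ∀ n : T → ℕ, (∀ s, 2 * n s ≤ ∑ t, card (E s t) * n t) → n = 0`.
-/

open Module

namespace Crest.Agent.R175.PTN_4

universe u v w z

variable {k : Type u} [Field k] {T : Type v} [Fintype T]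
  {E : T → T → Type w} [∀ s t, Fintype (E s t)]

section num

variable {V : T → Type z} [∀ s, AddCommGroup (V s)] [∀ s, Module k (V s)]
  [∀ s, FiniteDimensional k (V s)]

/-- numerical consequence of `b_s a_s = 0`, `a_s` injective, `b_s` onto. -/
theorem two_mul_le (rev : ∀ s t, E s t → E t s) (B : ∀ s t, E s t → V s →ₗ[k] V t)
    (s : T) (hMC : ∀ v, ∑ t, ∑ a : E s t, B t s (rev s t a) (B s t a v) = 0)
    (ha : ∀ v : V s, (∀ t a, B s t a v = 0) → v = 0)
    (hb : ∀ v : V s, ∃ m : ∀ t, E s t → V t, ∑ t, ∑ a : E s t, B t s (rev s t a) (m t a) = v) :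
    2 * finrank k (V s) ≤ ∑ t, Fintype.card (E s t) * finrank k (V t) := by
  classical
  let aM : V s →ₗ[k] (∀ t, E s t → V t) :=
    LinearMap.pi fun t => LinearMap.pi fun a => B s t a
  let bM : (∀ t, E s t → V t) →ₗ[k] V s :=
    ∑ t, ∑ a : E s t, B t s (rev s t a) ∘ₗ LinearMap.proj a ∘ₗ LinearMap.proj t
  have hbM : ∀ m, bM m = ∑ t, ∑ a : E s t, B t s (rev s t a) (m t a) := fun m => by
    simp [bM, LinearMap.sum_apply]
  have h1 : finrank k (∀ t, E s t → V t) = ∑ t, Fintype.card (E s t) * finrank k (V t) := by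
    rw [Module.finrank_pi_fintype]
    refine Finset.sum_congr rfl fun t _ => ?_
    rw [Module.finrank_pi_fintype, Finset.sum_const, Finset.card_univ, smul_eq_mul]
  have h2 : finrank k (LinearMap.range bM) + finrank k (LinearMap.ker bM)
      = finrank k (∀ t, E s t → V t) := LinearMap.finrank_range_add_finrank_ker _
  have h3 : finrank k (LinearMap.range bM) = finrank k (V s) := by
    rw [LinearMap.range_eq_top.2 (fun v => ?_), finrank_top]
    obtain ⟨m, hm⟩ := hb v
    exact ⟨m, by rw [hbM, hm]⟩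
  have h4 : finrank k (LinearMap.range aM) = finrank k (V s) := by
    refine LinearMap.finrank_range_of_inj ((injective_iff_map_eq_zero aM).2 fun v hv => ?_)
    exact ha v fun t a => congrFun (congrFun hv t) a
  have h5 : LinearMap.range aM ≤ LinearMap.ker bM := by
    rintro _ ⟨x, rfl⟩
    rw [LinearMap.mem_ker, hbM]
    exact hMC x
  have h6 := Submodule.finrank_mono h5
  omega

end num

section ker

variable {V : T → Type z} [∀ s, AddCommGroup (V s)] [∀ s, Module k (V s)]
  [∀ s, FiniteDimensional k (V s)]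

/-- induction step over a stable family of subspaces -/
theorem exists_ker_sub (rev : ∀ s t, E s t → E t s) (hrev : ∀ s t a, rev t s (rev s t a) = a)
    (B : ∀ s t, E s t → V s →ₗ[k] V t)
    (hC : ∀ n : T → ℕ, (∀ s, 2 * n s ≤ ∑ t, Fintype.card (E s t) * n t) → n = 0)
    (hMC : ∀ s (v : V s), ∑ t, ∑ a : E s t, B t s (rev s t a) (B s t a v) = 0) :
    ∀ (d : ℕ) (N : ∀ s, Submodule k (V s)), (∑ s, finrank k (N s) ≤ d) →
      (∀ s t a, ∀ v ∈ N s, B s t a v ∈ N t) → (∃ s, N s ≠ ⊥) →
      ∃ s, ∃ v ∈ N s, v ≠ 0 ∧ ∀ t a, B s t a v = 0 := by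
  classical
  intro d
  induction d with
  | zero =>
    intro N hd _ hne
    obtain ⟨s, hs⟩ := hne
    exfalso
    apply hs
    have h1 : finrank k (N s) ≤ ∑ s, finrank k (N s) :=
      Finset.single_le_sum (f := fun s => finrank k (N s)) (fun _ _ => Nat.zero_le _)
        (Finset.mem_univ s)
    exact Submodule.finrank_eq_zero.1 (by omega)
  | succ d ih =>
    intro N hd hN hne
    by_contra hcon
    push Not at hcon
    have ha : ∀ s, ∀ v ∈ N s, (∀ t a, B s t a v = 0) → v = 0 := by
      intro s v hv h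
      by_contra h0
      obtain ⟨t, a, hta⟩ := hcon s v hv h0
      exact hta (h t a)
    -- the image family
    let bM : ∀ s, (∀ t, E s t → V t) →ₗ[k] V s := fun s =>
      ∑ t, ∑ a : E s t, B t s (rev s t a) ∘ₗ LinearMap.proj a ∘ₗ LinearMap.proj t
    have hbM : ∀ s m, bM s m = ∑ t, ∑ a : E s t, B t s (rev s t a) (m t a) := fun s m => by
      simp [bM, LinearMap.sum_apply]
    let P : ∀ s, Submodule k (∀ t, E s t → V t) := fun s =>
      Submodule.pi Set.univ fun t => Submodule.pi Set.univ fun _ : E s t => N t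
    have hP : ∀ s m, m ∈ P s ↔ ∀ t a, m t a ∈ N t := fun s m => by
      simp [P, Submodule.mem_pi]
    let N' : ∀ s, Submodule k (V s) := fun s => (P s).map (bM s)
    have hN'N : ∀ s, N' s ≤ N s := by
      rintro s _ ⟨m, hm, rfl⟩
      rw [hbM]
      exact Submodule.sum_mem _ fun t _ => Submodule.sum_mem _ fun a _ =>
        hN t s _ _ ((hP s m).1 hm t a)
    have hin : ∀ s t a, ∀ v ∈ N s, B s t a v ∈ N' t := by
      intro s t a v hv
      refine ⟨Pi.single s (Pi.single (rev s t a) v), (hP t _).2 fun s' a' => ?_, ?_⟩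
      · by_cases hs : s' = s
        · subst hs
          rw [Pi.single_eq_same]
          by_cases ha' : a' = rev s' t a
          · subst ha'
            rw [Pi.single_eq_same]
            exact hv
          · rw [Pi.single_eq_of_ne ha']
            exact (N s').zero_mem
        · rw [Pi.single_eq_of_ne hs]
          exact (N s').zero_mem
      · rw [hbM, Finset.sum_eq_single s, Finset.sum_eq_single (rev s t a)]
        · rw [Pi.single_eq_same, Pi.single_eq_same, hrev]
        · intro a' _ ha'
          rw [Pi.single_eq_same, Pi.single_eq_of_ne ha', map_zero]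
        · intro h
          exact absurd (Finset.mem_univ _) h
        · intro s' _ hs'
          rw [Pi.single_eq_of_ne hs']
          exact Finset.sum_eq_zero fun a' _ => map_zero _
        · intro h
          exact absurd (Finset.mem_univ _) h
    have hne' : ∃ s, N' s ≠ ⊥ := by
      by_contra h
      push Not at h
      obtain ⟨s, hs⟩ := hne
      obtain ⟨v, hv, hv0⟩ := (Submodule.ne_bot_iff _).1 hs
      refine hv0 (ha s v hv fun t a => ?_)
      have h1 := hin s t a v hv
      rw [h t] at h1
      exact (Submodule.mem_bot k).1 h1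
    have hd' : ¬ ∑ s, finrank k (N' s) ≤ d := by
      intro h
      obtain ⟨s, v, hv, hv0, hv1⟩ := ih N' h
        (fun s t a v hv => hin s t a v (hN'N s hv)) hne'
      obtain ⟨t, a, hta⟩ := hcon s v (hN'N s hv) hv0
      exact hta (hv1 t a)
    have hle : ∀ s, finrank k (N' s) ≤ finrank k (N s) := fun s =>
      Submodule.finrank_mono (hN'N s)
    have heq : ∀ s, finrank k (N' s) = finrank k (N s) := by
      have h1 : ∑ s, finrank k (N' s) = ∑ s, finrank k (N s) :=
        le_antisymm (Finset.sum_le_sum fun s _ => hle s) (by omega)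
      intro s
      exact (Finset.sum_eq_sum_iff_of_le fun s _ => hle s).1 h1 s (Finset.mem_univ s)
    have hNN : ∀ s, N' s = N s := fun s => Submodule.eq_of_le_of_finrank_eq (hN'N s) (heq s)
    -- restricted family
    let B' : ∀ s t, E s t → N s →ₗ[k] N t := fun s t a =>
      (B s t a).restrict (fun v hv => hN s t a v hv)
    have hB' : ∀ s t a (v : N s), ((B' s t a v : N t) : V t) = B s t a v := fun s t a v => rfl
    have h0 : (fun s => finrank k (N s)) = 0 := by
      refine hC _ fun s => ?_
      refine two_mul_le rev B' s (fun v => ?_) (fun v hv => ?_) (fun v => ?_)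
      · apply Subtype.ext
        simp only [AddSubmonoidClass.coe_finsetSum, hB']
        exact hMC s v
      · apply Subtype.ext
        refine ha s v v.2 fun t a => ?_
        rw [← hB', hv t a]
        rfl
      · have hv : (v : V s) ∈ N' s := by rw [hNN s]; exact v.2
        obtain ⟨m, hm, hmv⟩ := hv
        refine ⟨fun t a => ⟨m t a, (hP s m).1 hm t a⟩, ?_⟩
        apply Subtype.ext
        simp only [AddSubmonoidClass.coe_finsetSum, hB']
        rw [← hmv, hbM]
    obtain ⟨s, hs⟩ := hne
    exact hs (Submodule.finrank_eq_zero.1 (congrFun h0 s))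

/-- (N), first half: some `ker a_s ≠ 0`. -/
theorem exists_ker (rev : ∀ s t, E s t → E t s) (hrev : ∀ s t a, rev t s (rev s t a) = a)
    (B : ∀ s t, E s t → V s →ₗ[k] V t)
    (hC : ∀ n : T → ℕ, (∀ s, 2 * n s ≤ ∑ t, Fintype.card (E s t) * n t) → n = 0)
    (hMC : ∀ s (v : V s), ∑ t, ∑ a : E s t, B t s (rev s t a) (B s t a v) = 0)
    (hne : ∃ s, ∃ v : V s, v ≠ 0) :
    ∃ s, ∃ v : V s, v ≠ 0 ∧ ∀ t a, B s t a v = 0 := by
  obtain ⟨s, v, _, hv0, hv1⟩ := exists_ker_sub rev hrev B hC hMC
    (∑ s, finrank k (⊤ : Submodule k (V s))) (fun s => ⊤) le_rfl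
    (fun _ _ _ _ _ => Submodule.mem_top)
    (by
      obtain ⟨s, v, hv⟩ := hne
      exact ⟨s, (Submodule.ne_bot_iff _).2 ⟨v, Submodule.mem_top, hv⟩⟩)
  exact ⟨s, v, hv0, hv1⟩

/-- (N), second half: some `coker b_s ≠ 0`, i.e. a nonzero functional on `V s` killing all
images of the maps into `V s`. -/
theorem exists_coker (rev : ∀ s t, E s t → E t s) (hrev : ∀ s t a, rev t s (rev s t a) = a)
    (B : ∀ s t, E s t → V s →ₗ[k] V t)
    (hC : ∀ n : T → ℕ, (∀ s, 2 * n s ≤ ∑ t, Fintype.card (E s t) * n t) → n = 0)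
    (hMC : ∀ s (v : V s), ∑ t, ∑ a : E s t, B t s (rev s t a) (B s t a v) = 0)
    (hne : ∃ s, ∃ v : V s, v ≠ 0) :
    ∃ s, ∃ η : V s →ₗ[k] k, η ≠ 0 ∧ ∀ t (a : E t s) (v : V t), η (B t s a v) = 0 := by
  classical
  obtain ⟨s, v, hv⟩ := hne
  have h1 : ∃ s, ∃ η : Dual k (V s), η ≠ 0 := by
    refine ⟨s, ?_⟩
    by_contra h
    push Not at h
    apply hv
    exact (Module.forall_dual_apply_eq_zero_iff k v).1 fun f => by rw [h f]; rfl
  obtain ⟨s, η, h0, h⟩ := exists_ker (k := k) (E := E) (V := fun s => Dual k (V s)) rev hrev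
    (fun s t a => (B t s (rev s t a)).dualMap) hC (fun s f => by
      ext v
      simp only [LinearMap.sum_apply, LinearMap.dualMap_apply, LinearMap.zero_apply]
      have h2 := hMC s v
      have h3 : ∑ t, ∑ a : E s t, f (B t s (rev s t a) (B s t a v)) = 0 := by
        rw [← map_zero f, ← h2, map_sum]
        exact Finset.sum_congr rfl fun t _ => (map_sum _ _ _).symm
      rw [← h3]
      refine Finset.sum_congr rfl fun t _ => Finset.sum_congr rfl fun a _ => ?_
      rw [hrev]) h1
  refine ⟨s, η, h0, fun t a v => ?_⟩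
  have h4 := LinearMap.congr_fun (h t (rev t s a)) v
  simp only [LinearMap.dualMap_apply, LinearMap.zero_apply] at h4
  rw [hrev] at h4
  exact h4

end ker

end Crest.Agent.R175.PTN_4
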