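import Crest.Agent.R175.PTN_4
import Crest.Agent.R175.PTA_534

/-!
Row 175 (S0263), block (D), post #2949: linear algebra of the cohomology data of a T-framed
object with its position operator.

`QM`: spaces `H s` (= `H(V_s, d0)`), `W s`, the position operator `A`, maps `B`, `i`, `j`.
`ht : k → ℤ` is a height function, `ht (μ + 1) = ht μ + 1`, `ht 0 = 0`; the "position" of an
eigenvalue `μ` of `A` is `ht μ`.
-/

open Module

set_option autoImplicit false
set_option linter.unusedSectionVars false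

namespace Crest.Agent.R175.PTQ_4

open Crest.Agent.R175.PTA (MG)

universe u v

variable {T : Type u} [Fintype T] {G : MG T} {k : Type v} [Field k]

/-- cohomology data of a framed object with position operator `A` -/
structure QM {T : Type u} [Fintype T] (G : MG T) (k : Type v) [Field k] where
  H : T → Type v
  W : T → Type v
  [acH : ∀ s, AddCommGroup (H s)]
  [mH : ∀ s, Module k (H s)]
  [fH : ∀ s, FiniteDimensional k (H s)]
  [acW : ∀ s, AddCommGroup (W s)]
  [mW : ∀ s, Module k (W s)]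
  [fW : ∀ s, FiniteDimensional k (W s)]
  A : ∀ s, H s →ₗ[k] H s
  B : ∀ s t, G.E s t → H s →ₗ[k] H t
  i : ∀ s, W s →ₗ[k] H s
  j : ∀ s, H s →ₗ[k] W s
  AB : ∀ s t a v, A t (B s t a v) = B s t a (A s v)
  Ai : ∀ s w, A s (i s w) = 0
  jA : ∀ s v, j s (A s v) = 0
  MC : ∀ s v, ∑ t, ∑ a : G.E s t, B t s (G.rev a) (B s t a v) + i s (j s v) = 0

attribute [instance] QM.acH QM.mH QM.fH QM.acW QM.mW QM.fW

namespace QM

variable (X : QM G k)

/-- `ker a_s` -/
def kerA (s : T) : Submodule k (X.H s) :=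
  (⨅ t, ⨅ a : G.E s t, LinearMap.ker (X.B s t a)) ⊓ LinearMap.ker (X.j s)

/-- `im b_s` -/
def imB (s : T) : Submodule k (X.H s) :=
  (⨆ t, ⨆ a : G.E t s, LinearMap.range (X.B t s a)) ⊔ LinearMap.range (X.i s)

variable {X}

theorem mem_kerA {s : T} {v : X.H s} : v ∈ X.kerA s ↔ (∀ t a, X.B s t a v = 0) ∧ X.j s v = 0 := by
  simp [kerA, Submodule.mem_iInf]

theorem B_mem_imB {s t : T} (a : G.E t s) (v : X.H t) : X.B t s a v ∈ X.imB s :=
  Submodule.mem_sup_left (Submodule.mem_iSup_of_mem t (Submodule.mem_iSup_of_mem a ⟨v, rfl⟩))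

theorem i_mem_imB {s : T} (v : X.W s) : X.i s v ∈ X.imB s :=
  Submodule.mem_sup_right ⟨v, rfl⟩

theorem imB_le {s : T} {N : Submodule k (X.H s)} :
    X.imB s ≤ N ↔ (∀ t (a : G.E t s) v, X.B t s a v ∈ N) ∧ ∀ v, X.i s v ∈ N := by
  constructor
  · intro h
    exact ⟨fun t a v => h (B_mem_imB a v), fun v => h (i_mem_imB v)⟩
  · rintro ⟨h1, h2⟩
    refine sup_le (iSup_le fun t => iSup_le fun a => ?_) ?_
    · rintro _ ⟨v, rfl⟩
      exact h1 t a v
    · rintro _ ⟨v, rfl⟩
      exact h2 v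

/-- `im b_s` is stable under `A` -/
theorem A_mem_imB {s : T} {v : X.H s} (hv : v ∈ X.imB s) : X.A s v ∈ X.imB s := by
  have h : X.imB s ≤ (X.imB s).comap (X.A s) := by
    rw [imB_le]
    refine ⟨fun t a v => ?_, fun v => ?_⟩
    · rw [Submodule.mem_comap, X.AB]
      exact B_mem_imB a _
    · rw [Submodule.mem_comap, X.Ai]
      exact Submodule.zero_mem _
  exact h hv

/-- `ker a_s` is stable under `A` -/
theorem A_mem_kerA {s : T} {v : X.H s} (hv : v ∈ X.kerA s) : X.A s v ∈ X.kerA s := by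
  rw [mem_kerA] at hv ⊢
  refine ⟨fun t a => ?_, ?_⟩
  · rw [← X.AB, hv.1 t a, map_zero]
  · rw [X.jA]

end QM

/-- a stable subspace and an injective operator: membership can be pulled back. -/
theorem mem_of_op_mem {H : Type*} [AddCommGroup H] [Module k H] [FiniteDimensional k H]
    (f : H →ₗ[k] H) (hf : ∀ v, f v = 0 → v = 0) (N : Submodule k H) (hN : ∀ v ∈ N, f v ∈ N)
    {v : H} (hv : f v ∈ N) : v ∈ N := by
  have hinj : Function.Injective f := (injective_iff_map_eq_zero f).2 hf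
  let g : N →ₗ[k] N := f.restrict hN
  have hg : Function.Injective g := by
    intro x y hxy
    apply Subtype.ext
    apply hinj
    exact congrArg (fun t : N => (t : H)) hxy
  obtain ⟨x, hx⟩ := LinearMap.surjective_of_injective hg ⟨f v, hv⟩
  have h1 : f x = f v := congrArg (fun t : N => (t : H)) hx
  rw [← hinj h1]
  exact x.2

/-- same with `f - ν` -/
theorem mem_of_sub_mem' {H : Type*} [AddCommGroup H] [Module k H] [FiniteDimensional k H]
    (f : H →ₗ[k] H) (ν : k) (hf : ∀ v, f v = ν • v → v = 0) (N : Submodule k H)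
    (hN : ∀ v ∈ N, f v ∈ N) {v : H} (hv : f v - ν • v ∈ N) : v ∈ N := by
  refine mem_of_op_mem (f - ν • (LinearMap.id : H →ₗ[k] H)) (fun x hx => ?_) N (fun x hx => ?_)
    (v := v) hv
  · refine hf x ?_
    rw [LinearMap.sub_apply, LinearMap.smul_apply, LinearMap.id_apply, sub_eq_zero] at hx
    exact hx
  · rw [LinearMap.sub_apply, LinearMap.smul_apply, LinearMap.id_apply]
    exact Submodule.sub_mem _ (hN x hx) (Submodule.smul_mem _ _ hx)

/-- pull back along the quotient: if no functional killing `N` is an eigenvector for `ν`. -/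
theorem mem_of_sub_mem {H : Type*} [AddCommGroup H] [Module k H] [FiniteDimensional k H]
    (f : H →ₗ[k] H) (ν : k) (N : Submodule k H) (hN : ∀ v ∈ N, f v ∈ N)
    (hη : ∀ η : H →ₗ[k] k, (∀ v, η (f v) = ν * η v) → (∀ v ∈ N, η v = 0) → η = 0)
    {v : H} (hv : f v - ν • v ∈ N) : v ∈ N := by
  let g : (H ⧸ N) →ₗ[k] (H ⧸ N) := N.mapQ N (f - ν • LinearMap.id) (fun x hx => by
    rw [Submodule.mem_comap, LinearMap.sub_apply, LinearMap.smul_apply, LinearMap.id_apply]
    exact N.sub_mem (hN x hx) (N.smul_mem ν hx))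
  have hgm : ∀ x : H, g (N.mkQ x) = N.mkQ (f x - ν • x) := fun x => rfl
  have hsurj : Function.Surjective g := by
    rw [← LinearMap.range_eq_top]
    by_contra hne
    obtain ⟨φ, hφ0, hφ⟩ := Submodule.exists_le_ker_of_lt_top _ (lt_top_iff_ne_top.2 hne)
    have h1 := hη (φ ∘ₗ N.mkQ) (fun x => by
      have h2 : φ (g (N.mkQ x)) = 0 := hφ ⟨_, rfl⟩
      rw [hgm, map_sub, map_smul, map_sub, map_smul, sub_eq_zero, smul_eq_mul] at h2
      exact h2) (fun x hx => by
      have h3 : N.mkQ x = 0 := (Submodule.Quotient.mk_eq_zero N).2 hx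
      rw [LinearMap.comp_apply, h3, map_zero])
    apply hφ0
    ext x
    exact LinearMap.congr_fun h1 x
  have hinj : Function.Injective g := LinearMap.injective_iff_surjective.2 hsurj
  have h0 : g (N.mkQ v) = 0 := by
    rw [hgm]
    exact (Submodule.Quotient.mk_eq_zero N).2 hv
  have h4 : N.mkQ v = 0 := hinj (h0.trans (map_zero g).symm)
  exact (Submodule.Quotient.mk_eq_zero N).1 h4

/-- an eigenfunctional gives an eigenvector -/
theorem exists_eig_of_functional {H : Type*} [AddCommGroup H] [Module k H]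
    [FiniteDimensional k H] (f : H →ₗ[k] H) (ν : k) (η : H →ₗ[k] k) (hη0 : η ≠ 0)
    (hη : ∀ v, η (f v) = ν * η v) : ∃ x, x ≠ 0 ∧ f x = ν • x := by
  have hns : ¬ Function.Surjective
      ((f - ν • (LinearMap.id : H →ₗ[k] H) : H →ₗ[k] H)) := by
    intro hsurj
    apply hη0
    ext x
    obtain ⟨y, rfl⟩ := hsurj x
    rw [LinearMap.sub_apply, LinearMap.smul_apply, LinearMap.id_apply, map_sub, map_smul,
      hη, smul_eq_mul, sub_self, LinearMap.zero_apply]
  rw [← LinearMap.injective_iff_surjective, injective_iff_map_eq_zero] at hns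
  push Not at hns
  obtain ⟨x, hx, hx0⟩ := hns
  rw [LinearMap.sub_apply, LinearMap.smul_apply, LinearMap.id_apply, sub_eq_zero] at hx
  exact ⟨x, hx0, hx⟩

/-- an eigenvector gives an eigenfunctional -/
theorem exists_functional_of_eig {H : Type*} [AddCommGroup H] [Module k H]
    [FiniteDimensional k H] (f : H →ₗ[k] H) (ν : k) {x : H} (hx0 : x ≠ 0)
    (hx : f x = ν • x) : ∃ η : H →ₗ[k] k, η ≠ 0 ∧ ∀ v, η (f v) = ν * η v := by
  by_contra hcon
  push Not at hcon
  apply hx0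
  have h := mem_of_sub_mem f ν ⊥ (fun v hv => by
    rw [Submodule.mem_bot] at hv ⊢; rw [hv, map_zero]) (fun η h1 _ => by
    by_contra h0
    obtain ⟨v, hv⟩ := hcon η h0
    exact hv (h1 v)) (v := x) (by rw [hx, sub_self]; exact Submodule.zero_mem _)
  exact (Submodule.mem_bot k).1 h

section pred

variable (ht : k → ℤ) (X : QM G k)

/-- all positions are `≥ a` -/
def lo (a : ℤ) : Prop := ∀ s μ (v : X.H s), v ≠ 0 → X.A s v = μ • v → a ≤ ht μ

/-- all positions are `≤ b` -/
def hi (b : ℤ) : Prop := ∀ s μ (v : X.H s), v ≠ 0 → X.A s v = μ • v → ht μ ≤ b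

/-- `ker a_s` is non zero in position `n` -/
def ka (s : T) (n : ℤ) : Prop :=
  ∃ μ, ht μ = n ∧ ∃ v : X.H s, v ≠ 0 ∧ X.A s v = μ • v ∧ v ∈ X.kerA s

/-- `coker b_s` is non zero in position `n` -/
def cb (s : T) (n : ℤ) : Prop :=
  ∃ μ, ht μ = n ∧ ∃ η : X.H s →ₗ[k] k, η ≠ 0 ∧ (∀ v, η (X.A s v) = μ * η v) ∧
    ∀ v ∈ X.imB s, η v = 0

end pred

/-- `X'` is obtained from `X` by the twist at the pairwise non adjacent vertices of `F`
(`ε = 1`); for the inverse twist the duals are related in this way with `ε = -1`. -/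
structure IsT (ε : k) (F : Set T) (X X' : QM G k) where
  κ : ∀ t, X.H t →ₗ[k] X'.H t
  bij : ∀ t, t ∉ F → Function.Bijective (κ t)
  nadj : ∀ s ∈ F, ∀ t ∈ F, IsEmpty (G.E s t)
  Aκ : ∀ t, t ∉ F → ∀ v, X'.A t (κ t v) = κ t (X.A t v)
  Aκ' : ∀ t ∈ F, ∀ v, X'.A t (κ t v) = κ t (X.A t v) + ε • κ t v
  ker : ∀ s ∈ F, ∀ v, κ s v = 0 ↔ v ∈ X.imB s
  range : ∀ s ∈ F, ∀ v', v' ∈ X'.kerA s → ∃ v, κ s v = v'

namespace IsT

variable {ε : k} {F : Set T} {X X' : QM G k}

theorem eig (h : IsT ε F X X') {t : T} (ht : t ∉ F) {μ : k} {v' : X'.H t} (hv : v' ≠ 0)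
    (he : X'.A t v' = μ • v') : ∃ v : X.H t, v ≠ 0 ∧ X.A t v = μ • v := by
  obtain ⟨v, rfl⟩ := (h.bij t ht).2 v'
  refine ⟨v, ?_, ?_⟩
  · rintro rfl
    exact hv (map_zero _)
  · apply (h.bij t ht).1
    rw [← h.Aκ t ht, he, map_smul]

/-- vectors of `coker b_s` -/
theorem sub_mem (h : IsT ε F X X') {s : T} (hs : s ∈ F) {μ : k} {v : X.H s}
    (he : X'.A s (h.κ s v) = μ • h.κ s v) : X.A s v - (μ - ε) • v ∈ X.imB s := by
  rw [← h.ker s hs, map_sub, map_smul, sub_smul, ← he, h.Aκ' s hs]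
  abel

/-- an eigenvector of `X'` at `s ∈ F` for a value which is neither `0` nor an eigenvalue of `X`
outside `F` is in `ker a_s`, so comes from `coker b_s`. -/
theorem exists_pre (h : IsT ε F X X') {s : T} (hs : s ∈ F) {μ : k} {v' : X'.H s}
    (he : X'.A s v' = μ • v') (h1 : μ ≠ 0)
    (hno : ∀ t (v : X.H t), X.A t v = μ • v → v = 0) :
    ∃ v, h.κ s v = v' ∧ X.A s v - (μ - ε) • v ∈ X.imB s := by
  have hk : v' ∈ X'.kerA s := by
    rw [QM.mem_kerA]
    constructor
    · intro t a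
      by_contra h0
      have htF : t ∉ F := fun htF => (h.nadj s hs t htF).false a
      obtain ⟨v, hv0, hv⟩ := h.eig htF h0 (by
        rw [X'.AB, he, map_smul])
      exact hv0 (hno t v hv)
    · have h2 : X'.j s (X'.A s v') = μ • X'.j s v' := by rw [he, map_smul]
      rw [X'.jA] at h2
      exact (smul_eq_zero.1 h2.symm).resolve_left h1
  obtain ⟨v, rfl⟩ := h.range s hs v' hk
  exact ⟨v, rfl, h.sub_mem hs he⟩

variable {ht : k → ℤ} (hmul : ∀ μ, ht (μ - ε) = ht μ - 1) (hone : ht 0 = 0)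

include hmul hone in
theorem M1 (h : IsT ε F X X') {a : ℤ} (ha : a ≤ 0) (hX : lo ht X a) : lo ht X' a := by
  intro s μ v' hv' he
  by_contra hlt
  rw [not_le] at hlt
  by_cases hs : s ∈ F
  · obtain ⟨v, rfl, hv⟩ := h.exists_pre hs he (by
      rintro rfl
      rw [hone] at hlt
      omega) (fun t v hv => by
      by_contra h0
      exact absurd (hX t μ v h0 hv) (not_le.2 hlt))
    apply hv'
    rw [h.ker s hs]
    refine mem_of_sub_mem' (X.A s) (μ - ε) (fun x hx => ?_) (X.imB s)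
      (fun x hx => QM.A_mem_imB hx) hv
    by_contra h0
    have h1 := hX s (μ - ε) x h0 hx
    rw [hmul μ] at h1
    omega
  · obtain ⟨v, hv0, hv⟩ := h.eig hs hv' he
    exact absurd (hX s μ v hv0 hv) (not_le.2 hlt)

include hmul hone in
theorem M2 (h : IsT ε F X X') {b : ℤ} (hb : 0 ≤ b) (hX : hi ht X b)
    (hc : ∀ s ∈ F, ¬ cb ht X s b) : hi ht X' b := by
  intro s μ v' hv' he
  by_contra hlt
  rw [not_le] at hlt
  by_cases hs : s ∈ F
  · obtain ⟨v, rfl, hv⟩ := h.exists_pre hs he (by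
      rintro rfl
      rw [hone] at hlt
      omega) (fun t v hv => by
      by_contra h0
      exact absurd (hX t μ v h0 hv) (not_le.2 hlt))
    apply hv'
    rw [h.ker s hs]
    refine mem_of_sub_mem (X.A s) (μ - ε) (X.imB s) (fun x hx => QM.A_mem_imB hx)
      (fun η hη1 hη2 => ?_) hv
    by_contra hη0
    obtain ⟨x, hx0, hx⟩ := exists_eig_of_functional _ _ η hη0 hη1
    have h1 := hX s (μ - ε) x hx0 hx
    rw [hmul μ] at h1
    refine hc s hs ⟨μ - ε, ?_, η, hη0, hη1, hη2⟩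
    rw [hmul μ]
    omega
  · obtain ⟨v, hv0, hv⟩ := h.eig hs hv' he
    exact absurd (hX s μ v hv0 hv) (not_le.2 hlt)

include hmul in
theorem M3 (h : IsT ε F X X') {a : ℤ} (hX : lo ht X a) {s : T} (hs : s ∈ F) :
    ¬ ka ht X' s a := by
  rintro ⟨μ, hμ, v', hv', he, hk⟩
  obtain ⟨v, rfl⟩ := h.range s hs v' hk
  apply hv'
  rw [h.ker s hs]
  refine mem_of_sub_mem' (X.A s) (μ - ε) (fun x hx => ?_) (X.imB s)
    (fun x hx => QM.A_mem_imB hx) (h.sub_mem hs he)
  by_contra h0
  have h1 := hX s (μ - ε) x h0 hx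
  rw [hmul μ] at h1
  omega

theorem finrank_eq (h : IsT ε F X X') {t : T} (ht : t ∉ F) :
    finrank k (X'.H t) = finrank k (X.H t) :=
  (LinearEquiv.ofBijective (h.κ t) (h.bij t ht)).finrank_eq.symm

end IsT

/-! ### duality -/

namespace QM

/-- the dual data -/
def dual (X : QM G k) : QM G k where
  H s := Dual k (X.H s)
  W s := Dual k (X.W s)
  A s := (X.A s).dualMap
  B s t a := (X.B t s (G.rev a)).dualMap
  i s := (X.j s).dualMap
  j s := (X.i s).dualMap
  AB s t a f := by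
    ext v
    simp only [LinearMap.dualMap_apply, X.AB]
  Ai s f := by
    ext v
    simp only [LinearMap.dualMap_apply, X.jA, map_zero, LinearMap.zero_apply]
  jA s f := by
    ext v
    simp only [LinearMap.dualMap_apply, X.Ai, map_zero, LinearMap.zero_apply]
  MC s f := by
    ext v
    simp only [LinearMap.add_apply, LinearMap.sum_apply, LinearMap.dualMap_apply,
      LinearMap.zero_apply, G.rev_rev]
    have h := X.MC s v
    rw [← map_zero f, ← h, map_add, map_sum]
    congr 1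
    exact Finset.sum_congr rfl fun t _ => (map_sum _ _ _).symm

/-- elements of `X.dual.H s` as functionals -/
def toD {X : QM G k} {s : T} (η : X.dual.H s) : X.H s →ₗ[k] k := η

theorem mem_kerA_dual {X : QM G k} {s : T} {η : X.dual.H s} :
    η ∈ X.dual.kerA s ↔ ∀ v ∈ X.imB s, toD η v = 0 := by
  rw [mem_kerA]
  constructor
  · rintro ⟨h1, h2⟩
    have h3 : X.imB s ≤ LinearMap.ker (toD η) := by
      rw [imB_le]
      refine ⟨fun t a v => ?_, fun v => ?_⟩
      · rw [LinearMap.mem_ker]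
        have h4 := LinearMap.congr_fun (h1 t (G.rev a)) v
        change toD η (X.B t s (G.rev (G.rev a)) v) = 0 at h4
        rw [G.rev_rev] at h4
        exact h4
      · rw [LinearMap.mem_ker]
        exact LinearMap.congr_fun h2 v
    exact fun v hv => h3 hv
  · intro h
    refine ⟨fun t a => ?_, ?_⟩
    · refine LinearMap.ext fun v => ?_
      exact h _ (B_mem_imB _ v)
    · refine LinearMap.ext fun v => ?_
      exact h _ (i_mem_imB v)

theorem dual_A_eq {X : QM G k} {s : T} {η : X.dual.H s} {μ : k} :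
    X.dual.A s η = μ • η ↔ ∀ v, toD η (X.A s v) = μ * toD η v := by
  constructor
  · intro h v
    exact LinearMap.congr_fun h v
  · intro h
    exact LinearMap.ext fun v => h v

end QM

section dualpred

variable {ht : k → ℤ} {X : QM G k}

theorem ka_dual {s : T} {n : ℤ} :
    ka (fun μ => -ht μ) X.dual s (-n) ↔ cb ht X s n := by
  constructor
  · rintro ⟨μ, hμ, η, h0, h1, h2⟩
    exact ⟨μ, neg_injective hμ, η, h0, QM.dual_A_eq.1 h1, QM.mem_kerA_dual.1 h2⟩
  · rintro ⟨μ, hμ, η, h0, h1, h2⟩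
    exact ⟨μ, congrArg Neg.neg hμ, η, h0, QM.dual_A_eq.2 h1, QM.mem_kerA_dual.2 h2⟩

theorem lo_dual {b : ℤ} : lo (fun μ => -ht μ) X.dual (-b) ↔ hi ht X b := by
  constructor
  · intro h s μ v hv he
    obtain ⟨η, hη0, hη⟩ := exists_functional_of_eig (X.A s) μ hv he
    have h1 := h s μ η hη0 (QM.dual_A_eq.2 hη)
    change -b ≤ -ht μ at h1
    linarith
  · intro h s μ η hη he
    obtain ⟨v, hv0, hv⟩ := exists_eig_of_functional (X.A s) μ (QM.toD η) hη (QM.dual_A_eq.1 he)
    have h1 := h s μ v hv0 hv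
    change -b ≤ -ht μ
    linarith

theorem hi_dual {a : ℤ} : hi (fun μ => -ht μ) X.dual (-a) ↔ lo ht X a := by
  constructor
  · intro h s μ v hv he
    obtain ⟨η, hη0, hη⟩ := exists_functional_of_eig (X.A s) μ hv he
    have h1 := h s μ η hη0 (QM.dual_A_eq.2 hη)
    change -ht μ ≤ -a at h1
    linarith
  · intro h s μ η hη he
    obtain ⟨v, hv0, hv⟩ := exists_eig_of_functional (X.A s) μ (QM.toD η) hη (QM.dual_A_eq.1 he)
    have h1 := h s μ v hv0 hv
    change -ht μ ≤ -a
    linarith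

/-- `cb` of the dual is `ka` -/
theorem ka_of_cb_dual {s : T} {n : ℤ} (h : cb (fun μ => -ht μ) X.dual s (-n)) : ka ht X s n := by
  obtain ⟨μ, hμ, φ, h0, h1, h2⟩ := h
  obtain ⟨v, rfl⟩ := (Module.evalEquiv k (X.H s)).surjective φ
  refine ⟨μ, neg_injective hμ, v, ?_, ?_, ?_⟩
  · rintro rfl
    exact h0 (map_zero _)
  · rw [← sub_eq_zero]
    refine (Module.forall_dual_apply_eq_zero_iff k _).1 fun η => ?_
    rw [map_sub, map_smul, sub_eq_zero]
    exact h1 η
  · rw [QM.mem_kerA]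
    refine ⟨fun t a => ?_, ?_⟩
    · refine (Module.forall_dual_apply_eq_zero_iff k _).1 fun η => ?_
      have h3 := h2 _ (QM.B_mem_imB (X := X.dual) (G.rev a) η)
      change η (X.B s t (G.rev (G.rev a)) v) = 0 at h3
      rw [G.rev_rev] at h3
      exact h3
    · refine (Module.forall_dual_apply_eq_zero_iff k _).1 fun η => ?_
      exact h2 _ (QM.i_mem_imB (X := X.dual) η)

end dualpred

/-- relation of the inverse twist -/
def IsU (F : Set T) (X X' : QM G k) : Type (max u v) := IsT (-1 : k) F X.dual X'.dual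

namespace IsU

variable {F : Set T} {X X' : QM G k} {ht : k → ℤ} (hmul : ∀ μ, ht (μ + 1) = ht μ + 1)
  (hone : ht 0 = 0)

include hmul in
theorem hmul' (μ : k) : (fun μ => -ht μ) (μ - (-1)) = (fun μ => -ht μ) μ - 1 := by
  change -ht (μ - (-1)) = -ht μ - 1
  rw [sub_neg_eq_add, hmul]
  ring

include hmul hone in
theorem P1 (h : IsU F X X') {b : ℤ} (hb : 0 ≤ b) (hX : hi ht X b) : hi ht X' b :=
  lo_dual.1 (IsT.M1 (hmul' hmul) (by rw [hone]; rfl) h (by omega) (lo_dual.2 hX))

include hmul hone in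
theorem P2 (h : IsU F X X') {a : ℤ} (ha : a ≤ 0) (hX : lo ht X a)
    (hc : ∀ s ∈ F, ¬ ka ht X s a) : lo ht X' a :=
  hi_dual.1 (IsT.M2 (hmul' hmul) (by rw [hone]; rfl) h (by omega) (hi_dual.2 hX)
    fun s hs hcb => hc s hs (ka_of_cb_dual hcb))

include hmul in
theorem P3 (h : IsU F X X') {b : ℤ} (hX : hi ht X b) {s : T} (hs : s ∈ F) :
    ¬ cb ht X' s b := fun hcb =>
  IsT.M3 (hmul' hmul) h (lo_dual.2 hX) hs (ka_dual.2 hcb)

end IsU

/-! ### (N) -/

section N

variable {ht : k → ℤ} {X : QM G k} (hone : ht 0 = 0)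
  (hC : ∀ n : T → ℕ, (∀ s, 2 * n s ≤ ∑ t, Fintype.card (G.E s t) * n t) → n = 0)

/-- the power `(A - μ)^n` -/
def pw (X : QM G k) (s : T) (μ : k) (n : ℕ) : X.H s →ₗ[k] X.H s :=
  ((X.A s - μ • LinearMap.id : Module.End k (X.H s)) ^ n : Module.End k (X.H s))

theorem pw_zero {s : T} {μ : k} (v : X.H s) : pw X s μ 0 v = v := rfl

theorem pw_succ {s : T} {μ : k} (n : ℕ) (v : X.H s) :
    pw X s μ (n + 1) v = X.A s (pw X s μ n v) - μ • pw X s μ n v := by
  unfold pw
  rw [pow_succ']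
  rfl

theorem pw_B {s t : T} {μ : k} (a : G.E s t) (n : ℕ) (v : X.H s) :
    pw X t μ n (X.B s t a v) = X.B s t a (pw X s μ n v) := by
  induction n with
  | zero => rfl
  | succ n ih => rw [pw_succ, pw_succ, ih, X.AB, map_sub, map_smul]

theorem pw_A {s : T} {μ : k} (n : ℕ) (v : X.H s) :
    pw X s μ n (X.A s v) = X.A s (pw X s μ n v) := by
  induction n with
  | zero => rfl
  | succ n ih => rw [pw_succ, pw_succ, ih, map_sub, map_smul]

theorem j_pw {s : T} {μ : k} (n : ℕ) (v : X.H s) :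
    X.j s (pw X s μ n v) = (-μ) ^ n • X.j s v := by
  induction n with
  | zero => rw [pow_zero, one_smul]; rfl
  | succ n ih =>
    rw [pw_succ, map_sub, map_smul, X.jA, ih, zero_sub, smul_smul, ← neg_smul, pow_succ']
    congr 1
    ring

theorem pw_mem_kerA {s : T} {μ : k} (n : ℕ) {v : X.H s} (hv : v ∈ X.kerA s) :
    pw X s μ n v ∈ X.kerA s := by
  induction n with
  | zero => exact hv
  | succ n ih =>
    rw [pw_succ]
    exact Submodule.sub_mem _ (QM.A_mem_kerA ih) (Submodule.smul_mem _ _ ih)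

include hone hC in
theorem Na {a : ℤ} (ha : a < 0) (hX : lo ht X a) (hX' : ¬ lo ht X (a + 1)) :
    ∃ s, ka ht X s a := by
  classical
  unfold lo at hX'
  push Not at hX'
  obtain ⟨s0, μ, v0, hv0, he0, hlt⟩ := hX'
  have hμ : ht μ = a := by
    have := hX s0 μ v0 hv0 he0
    omega
  have hμ0 : μ ≠ 0 := by
    rintro rfl
    omega
  -- the generalised eigenspaces
  let U : ∀ s, Submodule k (X.H s) := fun s =>
    { carrier := {v | ∃ n, pw X s μ n v = 0}
      zero_mem' := ⟨0, rfl⟩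
      add_mem' := by
        rintro x y ⟨n, hn⟩ ⟨m, hm⟩
        refine ⟨n + m, ?_⟩
        have h1 : ∀ (x : X.H s) (n m : ℕ), pw X s μ n x = 0 → pw X s μ (n + m) x = 0 := by
          intro x n m h
          induction m with
          | zero => exact h
          | succ m ih => rw [← add_assoc, pw_succ, ih, map_zero, smul_zero, sub_zero]
        rw [map_add, h1 x n m hn, add_comm n m, h1 y m n hm, add_zero]
      smul_mem' := by
        rintro c x ⟨n, hn⟩
        exact ⟨n, by rw [map_smul, hn, smul_zero]⟩ }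
  have hUB : ∀ s t a, ∀ v ∈ U s, X.B s t a v ∈ U t := by
    rintro s t a v ⟨n, hn⟩
    exact ⟨n, by rw [pw_B, hn, map_zero]⟩
  have hUj : ∀ s, ∀ v ∈ U s, X.j s v = 0 := by
    rintro s v ⟨n, hn⟩
    have h1 := j_pw (X := X) (s := s) (μ := μ) n v
    rw [hn, map_zero] at h1
    exact (smul_eq_zero.1 h1.symm).resolve_left (pow_ne_zero _ (neg_ne_zero.2 hμ0))
  let B' : ∀ s t, G.E s t → U s →ₗ[k] U t := fun s t a =>
    (X.B s t a).restrict (fun v hv => hUB s t a v hv)
  have hB' : ∀ s t a (v : U s), ((B' s t a v : U t) : X.H t) = X.B s t a v := fun _ _ _ _ => rfl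
  obtain ⟨s, v, hv, hker⟩ := PTN_4.exists_ker (k := k) (E := G.E) (V := fun s => U s)
    (fun _ _ a => G.rev a) (fun _ _ a => G.rev_rev a) B' hC (fun s v => by
      apply Subtype.ext
      simp only [AddSubmonoidClass.coe_finsetSum, hB']
      have h2 := X.MC s v
      rw [hUj s v v.2, map_zero, add_zero] at h2
      exact h2)
    ⟨s0, ⟨v0, ⟨1, by rw [pw_succ, pw_zero, he0, sub_self]⟩⟩, fun h => hv0 (congrArg Subtype.val h)⟩
  have hvk : (v : X.H s) ∈ X.kerA s := by
    rw [QM.mem_kerA]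
    exact ⟨fun t a => congrArg Subtype.val (hker t a), hUj s v v.2⟩
  obtain ⟨n, hn⟩ := v.2
  have hv0' : (v : X.H s) ≠ 0 := fun h => hv (Subtype.ext h)
  have hex : ∃ n, pw X s μ n v = 0 := ⟨n, hn⟩
  have hmin : ∀ m, m < Nat.find hex → ¬ pw X s μ m v = 0 := fun m hm => Nat.find_min hex hm
  have hspec := Nat.find_spec hex
  have hpos : Nat.find hex ≠ 0 := by
    intro h0
    rw [h0] at hspec
    exact hv0' hspec
  obtain ⟨m, hm⟩ := Nat.exists_eq_succ_of_ne_zero hpos
  refine ⟨s, μ, hμ, pw X s μ m v, hmin m (by omega), ?_, pw_mem_kerA m hvk⟩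
  rw [hm, pw_succ, sub_eq_zero] at hspec
  exact hspec

include hone hC in
theorem Nb {b : ℤ} (hb : 0 < b) (hX : hi ht X b) (hX' : ¬ hi ht X (b - 1)) :
    ∃ s, cb ht X s b := by
  obtain ⟨s, hs⟩ := Na (ht := fun μ => -ht μ) (X := X.dual) (by rw [hone]; rfl) hC
    (a := -b) (by omega) (lo_dual.2 hX) (fun h => hX' (lo_dual.1 (by
      rw [neg_sub]
      rw [neg_add_eq_sub] at h
      exact h)))
  exact ⟨s, ka_dual.1 hs⟩

end N

end Crest.Agent.R175.PTQ_4
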