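import Crest.Agent.R175.PTQ_4

/-!
Row 175 (S0263), block (D): the relation `TD F X X'` between the cohomology data of `X` and of its
twist `X' = T_F X` (exact triangles `H(M_s) → H(X)_s → H(X')_s → H(M_s)`), and its consequences
for the positions of `X'` (M1-M3) and, reading it backwards, for the inverse twist (P1-P3).
-/

open Module

set_option autoImplicit false
set_option linter.unusedSectionVars false

namespace Crest.Agent.R175.PTQ_4

open Crest.Agent.R175.PTA (MG)

universe u v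

variable {T : Type u} [Fintype T] {G : MG T} {k : Type v} [Field k]

/-- `X'` is the twist of `X` at the set `F` of pairwise non adjacent vertices. -/
structure TD (F : Set T) (X X' : QM G k) where
  κ : ∀ t, X.H t →ₗ[k] X'.H t
  ω : ∀ t, X.W t ≃ₗ[k] X'.W t
  bij : ∀ t, t ∉ F → Function.Bijective (κ t)
  nadj : ∀ s ∈ F, ∀ t ∈ F, IsEmpty (G.E s t)
  Aκ : ∀ t, t ∉ F → ∀ v, X'.A t (κ t v) = κ t (X.A t v)
  Aκ' : ∀ t ∈ F, ∀ v, X'.A t (κ t v) = κ t (X.A t v) + κ t v
  Bκ : ∀ s t, s ∉ F → t ∉ F → ∀ (a : G.E s t) v, X'.B s t a (κ s v) = κ t (X.B s t a v)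
  iω : ∀ t, t ∉ F → ∀ w, X'.i t (ω t w) = κ t (X.i t w)
  jκ : ∀ t, t ∉ F → ∀ v, X'.j t (κ t v) = ω t (X.j t v)
  /-- `ker κ = im b` -/
  ker : ∀ s ∈ F, ∀ v, κ s v = 0 ↔ v ∈ X.imB s
  /-- `im κ = ker a'` -/
  range : ∀ s ∈ F, ∀ v', v' ∈ X'.kerA s → ∃ v, κ s v = v'
  range' : ∀ s ∈ F, ∀ v, κ s v ∈ X'.kerA s
  /-- `b a' = 0` -/
  ba : ∀ s ∈ F, ∀ (v' : X'.H s) (m : ∀ t, G.E s t → X.H t) (w : X.W s),
    (∀ t a, κ t (m t a) = X'.B s t a v') → ω s w = X'.j s v' →
      ∑ t, ∑ a : G.E s t, X.B t s (G.rev a) (m t a) + X.i s w = 0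
  /-- `ker b ≤ im a'` -/
  ex : ∀ s ∈ F, ∀ (m : ∀ t, G.E s t → X.H t) (w : X.W s),
    ∑ t, ∑ a : G.E s t, X.B t s (G.rev a) (m t a) + X.i s w = 0 →
      ∃ v' : X'.H s, (∀ t a, X'.B s t a v' = κ t (m t a)) ∧ X'.j s v' = ω s w
  /-- `a' b' = a b` -/
  aBB : ∀ s ∈ F, ∀ t t' (a : G.E t s) (b : G.E s t') (v : X.H t),
    X'.B s t' b (X'.B t s a (κ t v)) = κ t' (X.B s t' b (X.B t s a v))
  ajB : ∀ s ∈ F, ∀ t (a : G.E t s) (v : X.H t),
    X'.j s (X'.B t s a (κ t v)) = ω s (X.j s (X.B t s a v))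
  aBi : ∀ s ∈ F, ∀ t' (b : G.E s t') (w : X.W s),
    X'.B s t' b (X'.i s (ω s w)) = κ t' (X.B s t' b (X.i s w))
  aji : ∀ s ∈ F, ∀ (w : X.W s), X'.j s (X'.i s (ω s w)) = ω s (X.j s (X.i s w))

namespace TD

variable {F : Set T} {X X' : QM G k}

/-- forget to the relation used in `M1`-`M3` -/
def toIsT (h : TD F X X') : IsT (1 : k) F X X' where
  κ := h.κ
  bij := h.bij
  nadj := h.nadj
  Aκ := h.Aκ
  Aκ' t ht v := by rw [one_smul]; exact h.Aκ' t ht v
  ker := h.ker
  range := h.range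

/-- functionals killing `ker a_s` are in `im` of the dual maps -/
theorem mem_imB_dual {X : QM G k} {s : T} {η : X.dual.H s}
    (h : ∀ v ∈ X.kerA s, QM.toD η v = 0) : η ∈ X.dual.imB s := by
  classical
  by_contra hη
  -- separate by a vector of the double dual
  obtain ⟨φ, hφ, hφ'⟩ := Submodule.exists_le_ker_of_notMem hη
  obtain ⟨v, rfl⟩ := (Module.evalEquiv k (X.H s)).surjective φ
  apply hφ
  refine h v ?_
  rw [QM.mem_kerA]
  refine ⟨fun t a => ?_, ?_⟩
  · refine (Module.forall_dual_apply_eq_zero_iff k _).1 fun ζ => ?_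
    have h3 := hφ' (QM.B_mem_imB (X := X.dual) (G.rev a) ζ)
    change ζ (X.B s t (G.rev (G.rev a)) v) = 0 at h3
    rw [G.rev_rev] at h3
    exact h3
  · refine (Module.forall_dual_apply_eq_zero_iff k _).1 fun ζ => ?_
    exact hφ' (QM.i_mem_imB (X := X.dual) ζ)

theorem not_mem_kerA_dual {X : QM G k} {s : T} {η : X.dual.H s} (h : η ∈ X.dual.imB s) :
    ∀ v ∈ X.kerA s, QM.toD η v = 0 := by
  intro v hv
  rw [QM.mem_kerA] at hv
  let φ : X.dual.H s →ₗ[k] k := Dual.eval k (X.H s) v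
  have h3 : X.dual.imB s ≤ LinearMap.ker φ := by
    rw [QM.imB_le]
    refine ⟨fun t a ζ => ?_, fun ζ => ?_⟩
    · change QM.toD ζ (X.B s t (G.rev a) v) = 0
      rw [hv.1, map_zero]
    · let ζ' : X.W s →ₗ[k] k := ζ
      change ζ' (X.j s v) = 0
      rw [hv.2, map_zero]
  exact h3 h

/-- reading backwards: `X` is the inverse twist of `X'` -/
noncomputable def toIsU (h : TD F X X') : IsU F X' X where
  κ t := (h.κ t).dualMap
  bij t ht := by
    constructor
    · exact LinearMap.dualMap_injective_of_surjective (h.bij t ht).2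
    · exact LinearMap.dualMap_surjective_of_injective (h.bij t ht).1
  nadj := h.nadj
  Aκ t ht η := by
    refine LinearMap.ext fun v => ?_
    change QM.toD η (h.κ t (X.A t v)) = QM.toD η (X'.A t (h.κ t v))
    rw [h.Aκ t ht]
  Aκ' t ht η := by
    refine LinearMap.ext fun v => ?_
    change QM.toD η (h.κ t (X.A t v)) = QM.toD η (X'.A t (h.κ t v)) + (-1 : k) • QM.toD η (h.κ t v)
    rw [h.Aκ' t ht, map_add]
    simp
  ker s hs η := by
    constructor
    · intro h0
      refine mem_imB_dual fun v hv => ?_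
      obtain ⟨x, rfl⟩ := h.range s hs v hv
      exact LinearMap.congr_fun h0 x
    · intro hη
      refine LinearMap.ext fun v => ?_
      exact not_mem_kerA_dual hη _ (h.range' s hs v)
  range s hs η' hη' := by
    have h1 : ∀ v ∈ LinearMap.ker (h.κ s), QM.toD η' v = 0 := by
      intro v hv
      rw [LinearMap.mem_ker, h.ker s hs] at hv
      exact QM.mem_kerA_dual.1 hη' v hv
    have h2 : QM.toD η' ∈ LinearMap.range (h.κ s).dualMap := by
      rw [LinearMap.range_dualMap_eq_dualAnnihilator_ker, Submodule.mem_dualAnnihilator]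
      exact h1
    obtain ⟨η, hη⟩ := h2
    exact ⟨η, hη⟩

/-! dimensions -/

/-- the neighbour space -/
abbrev MS (X : QM G k) (s : T) : Type _ := (∀ t, G.E s t → X.H t) × X.W s

/-- `b_s` -/
noncomputable def bS (X : QM G k) (s : T) : MS X s →ₗ[k] X.H s :=
  LinearMap.coprod
    (∑ t, ∑ a : G.E s t, X.B t s (G.rev a) ∘ₗ LinearMap.proj a ∘ₗ LinearMap.proj t) (X.i s)

/-- `a_s` -/
def aS (X : QM G k) (s : T) : X.H s →ₗ[k] MS X s :=
  LinearMap.prod (LinearMap.pi fun t => LinearMap.pi fun a => X.B s t a) (X.j s)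

theorem bS_apply {X : QM G k} {s : T} (m : ∀ t, G.E s t → X.H t) (w : X.W s) :
    bS X s (m, w) = ∑ t, ∑ a : G.E s t, X.B t s (G.rev a) (m t a) + X.i s w := by
  simp [bS, LinearMap.sum_apply]

theorem range_bS {X : QM G k} {s : T} : LinearMap.range (bS X s) = X.imB s := by
  classical
  apply le_antisymm
  · rintro _ ⟨⟨m, w⟩, rfl⟩
    rw [bS_apply]
    refine Submodule.add_mem _ (Submodule.sum_mem _ fun t _ => Submodule.sum_mem _ fun a _ => ?_)
      (QM.i_mem_imB w)
    exact QM.B_mem_imB _ _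
  · rw [QM.imB_le]
    refine ⟨fun t a v => ⟨(Pi.single t (Pi.single (G.rev a) v), 0), ?_⟩, fun w => ⟨(0, w), ?_⟩⟩
    · rw [bS_apply, Finset.sum_eq_single t, Finset.sum_eq_single (G.rev a)]
      · rw [Pi.single_eq_same, Pi.single_eq_same, G.rev_rev, map_zero, add_zero]
      · intro b _ hb
        rw [Pi.single_eq_same, Pi.single_eq_of_ne hb, map_zero]
      · intro h
        exact absurd (Finset.mem_univ _) h
      · intro t' _ ht'
        rw [Pi.single_eq_of_ne ht']
        exact Finset.sum_eq_zero fun a _ => map_zero _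
      · intro h
        exact absurd (Finset.mem_univ _) h
    · rw [bS_apply]
      simp

theorem ker_aS {X : QM G k} {s : T} {v : X.H s} : aS X s v = 0 ↔ v ∈ X.kerA s := by
  rw [QM.mem_kerA]
  constructor
  · intro h
    exact ⟨fun t a => congrFun (congrFun (congrArg Prod.fst h) t) a, congrArg Prod.snd h⟩
  · rintro ⟨h1, h2⟩
    exact Prod.ext (funext fun t => funext fun a => h1 t a) h2

theorem finrank_MS (X : QM G k) (s : T) : finrank k (MS X s) =
    ∑ t, Fintype.card (G.E s t) * finrank k (X.H t) + finrank k (X.W s) := by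
  rw [Module.finrank_prod, Module.finrank_pi_fintype]
  congr 1
  refine Finset.sum_congr rfl fun t _ => ?_
  rw [Module.finrank_pi_fintype, Finset.sum_const, Finset.card_univ, smul_eq_mul]

theorem finrank_eq (h : TD F X X') {t : T} (ht : t ∉ F) :
    finrank k (X'.H t) = finrank k (X.H t) := h.toIsT.finrank_eq ht

theorem not_mem_of_edge (h : TD F X X') {s t : T} (hs : s ∈ F) (a : G.E s t) : t ∉ F :=
  fun ht => (h.nadj s hs t ht).false a

/-- `κ` on the neighbour space, bijective for `s ∈ F` -/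
noncomputable def κM (h : TD F X X') (s : T) : MS X s →ₗ[k] MS X' s :=
  LinearMap.prodMap (LinearMap.pi fun t => LinearMap.pi fun a : G.E s t =>
    h.κ t ∘ₗ LinearMap.proj a ∘ₗ LinearMap.proj t) (h.ω s).toLinearMap

theorem κM_bij (h : TD F X X') {s : T} (hs : s ∈ F) : Function.Bijective (h.κM s) := by
  constructor
  · rw [injective_iff_map_eq_zero]
    rintro ⟨m, w⟩ h0
    have h1 := congrArg Prod.fst h0
    have h2 := congrArg Prod.snd h0
    refine Prod.ext (funext fun t => funext fun a => ?_) ?_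
    · apply (h.bij t (h.not_mem_of_edge hs a)).1
      rw [Prod.fst_zero, Pi.zero_apply, Pi.zero_apply, map_zero]
      exact congrFun (congrFun h1 t) a
    · exact (LinearEquiv.map_eq_zero_iff (h.ω s)).1 h2
  · rintro ⟨m', w'⟩
    have hm : ∀ t (a : G.E s t), ∃ x, h.κ t x = m' t a := fun t a =>
      (h.bij t (h.not_mem_of_edge hs a)).2 _
    choose m hm using hm
    exact ⟨(m, (h.ω s).symm w'), Prod.ext (funext fun t => funext fun a => hm t a)
      ((h.ω s).apply_symm_apply w')⟩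

/-- `ker b = im a'` -/
theorem bS_eq_zero_iff (h : TD F X X') {s : T} (hs : s ∈ F) (m : MS X s) :
    bS X s m = 0 ↔ ∃ v', aS X' s v' = h.κM s m := by
  obtain ⟨m, w⟩ := m
  rw [bS_apply]
  constructor
  · intro h0
    obtain ⟨v', h1, h2⟩ := h.ex s hs m w h0
    exact ⟨v', Prod.ext (funext fun t => funext fun a => h1 t a) h2⟩
  · rintro ⟨v', hv'⟩
    refine h.ba s hs v' m w (fun t a => ?_) ?_
    · exact (congrFun (congrFun (congrArg Prod.fst hv') t) a).symm
    · exact (congrArg Prod.snd hv').symm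

/-- the exact triangle gives `d'_s + rank = ...`; if `b_s` is onto: `d'_s = D_s - d_s` -/
theorem finrank_add_of_top (h : TD F X X') {s : T} (hs : s ∈ F) (htop : X.imB s = ⊤) :
    finrank k (X'.H s) + finrank k (X.H s) =
      ∑ t, Fintype.card (G.E s t) * finrank k (X.H t) + finrank k (X.W s) := by
  rw [← finrank_MS]
  have h1 : ∀ v', aS X' s v' = 0 → v' = 0 := by
    intro v' h0
    rw [ker_aS] at h0
    obtain ⟨v, rfl⟩ := h.range s hs v' h0
    rw [h.ker s hs, htop]
    exact Submodule.mem_top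
  have h2 := LinearMap.finrank_range_add_finrank_ker (bS X s)
  rw [range_bS, htop, finrank_top] at h2
  have h3 : finrank k (X'.H s) = finrank k (LinearMap.ker (bS X s)) := by
    have h4 : finrank k (LinearMap.range (aS X' s)) = finrank k (X'.H s) :=
      LinearMap.finrank_range_of_inj ((injective_iff_map_eq_zero _).2 h1)
    have h5 : (LinearMap.ker (bS X s)).map (h.κM s) = LinearMap.range (aS X' s) := by
      ext x
      constructor
      · rintro ⟨m, hm, rfl⟩
        obtain ⟨v', hv'⟩ := (h.bS_eq_zero_iff hs m).1 hm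
        exact ⟨v', hv'⟩
      · rintro ⟨v', rfl⟩
        obtain ⟨m, hm⟩ := (h.κM_bij hs).2 (aS X' s v')
        exact ⟨m, (h.bS_eq_zero_iff hs m).2 ⟨v', hm.symm⟩, hm⟩
    rw [← h4, ← h5]
    exact (Submodule.equivMapOfInjective (h.κM s) (h.κM_bij hs).1 _).finrank_eq.symm
  omega

/-- backwards: if `a_s` of `X'` is injective then `d_s = D_s - d'_s` -/
theorem finrank_add_of_bot (h : TD F X X') {s : T} (hs : s ∈ F) (hbot : X'.kerA s = ⊥) :
    finrank k (X.H s) + finrank k (X'.H s) =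
      ∑ t, Fintype.card (G.E s t) * finrank k (X'.H t) + finrank k (X'.W s) := by
  have htop : X.imB s = ⊤ := by
    rw [eq_top_iff]
    intro v _
    rw [← h.ker s hs]
    have h1 := h.range' s hs v
    rw [hbot] at h1
    exact (Submodule.mem_bot k).1 h1
  have h2 := h.finrank_add_of_top hs htop
  have h3 : ∑ t, Fintype.card (G.E s t) * finrank k (X.H t) =
      ∑ t, Fintype.card (G.E s t) * finrank k (X'.H t) := by
    refine Finset.sum_congr rfl fun t _ => ?_
    by_cases ht : t ∈ F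
    · have : IsEmpty (G.E s t) := h.nadj s hs t ht
      rw [Fintype.card_eq_zero, zero_mul, zero_mul]
    · rw [h.finrank_eq ht]
  have h4 : finrank k (X.W s) = finrank k (X'.W s) := (h.ω s).finrank_eq
  omega

end TD

end Crest.Agent.R175.PTQ_4
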