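import Crest.Agent.R175.TwG_253

/-!
# Twists (row 175, helper253): `Q_U` is a spherical functor on `Gob G k`
-/

set_option autoImplicit false
set_option linter.unusedSectionVars false

open CategoryTheory

namespace Crest.Agent.R175.TwG_253

open PTA

universe v

noncomputable section

variable {T : Type v} {G : MG T} {k : Type v} [Field k] [Fintype T] (U : T → Prop)
variable {X Y Z : Gob G k}

theorem i1_map {s t : T} (b : G.E t s) (x : X.V s) (g : ∀ r, X.V r →ₗ[k] Y.V r) (r : T)
    (a : G.E t r) : g r ((i1 X b x).2.1 r a) = (i1 Y b (g s x)).2.1 r a := by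
  classical
  change g r ((Pi.single s (Pi.single b x) : ∀ r, G.E t r → X.V r) r a) =
    (Pi.single s (Pi.single b (g s x)) : ∀ r, G.E t r → Y.V r) r a
  by_cases hr : r = s
  · subst hr
    by_cases ha : a = b
    · subst ha; simp
    · simp [ha]
  · simp [hr]

section hm
variable (f : X ⟶ Y)

theorem hmap_i0 (t : T) (x : X.V t) : hmap f t (i0 X t x) = i0 Y t (c0 f t x) +
    (∑ s, ∑ a : G.E t s, i1 Y a (c1 f a x)) + iw Y t (cj f t x) + i2 Y t (c2 f t x) := by
  rw [← sum_i1 t (hmap f t (i0 X t x))]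
  simp [hmap_0, hmap_1, hmap_w, hmap_2, i0_0, i0_1, i0_w, i0_2]

theorem hmap_i1 {s t : T} (b : G.E t s) (x : X.V s) :
    hmap f t (i1 X b x) = i1 Y b (c0 f s x) + i2 Y t (c1 f (G.rev b) x) := by
  apply HP_ext
  · simp [hmap_0, i1_0, i2_0]
  · intro r a
    have := i1_map b x (fun r => c0 f r) r a
    simp only [hmap_1, i1_0, map_zero, zero_add, Prod.snd_add, Prod.fst_add, Pi.add_apply,
      i2_1, add_zero]
    exact this
  · simp [hmap_w, i1_0, i1_w, i2_w]
  · have := i1_sum b x (fun r a y => c1 f (G.rev a) y) (fun r a => map_zero _)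
    simp only [hmap_2, i1_0, map_zero, zero_add, Prod.snd_add, i2_2, i1_w, i1_2, add_zero]
    exact this

theorem hmap_iw (t : T) (x : X.W t) :
    hmap f t (iw X t x) = iw Y t (cW f t x) + i2 Y t (ci f t x) := by
  apply HP_ext
  · simp [hmap_0, iw_0, i2_0]
  · intro s a; simp [hmap_1, i2_1, iw_0, iw_1]
  · simp [hmap_w, i2_w, iw_0, iw_w]
  · simp [hmap_2, i2_2, iw_0, iw_1, iw_w, iw_2]

theorem hmap_i2 (t : T) (x : X.V t) : hmap f t (i2 X t x) = i2 Y t (c0 f t x) := by
  apply HP_ext
  · simp [hmap_0, i2_0]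
  · intro s a; simp [hmap_1, i2_1, i2_0]
  · simp [hmap_w, i2_0, i2_w]
  · simp [hmap_2, i2_0, i2_1, i2_w, i2_2]

end hm

theorem m_id (X : Gob G k) : mG U (𝟙 X) = 𝟙 (QG U X) := by
  apply hm_ext
  · intro t; apply LinearMap.ext; intro x
    rw [c0_mG, hmap_id, qin_qev, c0_id, LinearMap.id_apply]
  · intro t; apply LinearMap.ext; intro x; exact Subsingleton.elim _ _
  · intro s t a; rfl
  · intro t; rfl
  · intro t; rfl
  · intro t; rfl

theorem m_comp (f : X ⟶ Y) (g : Y ⟶ Z) : mG U (f ≫ g) = mG U f ≫ mG U g := by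
  apply hm_ext
  · intro t; apply LinearMap.ext; intro x
    apply q_ext; intro h
    simp only [c0_comp, LinearMap.comp_apply, c0_mG, hmap_comp, qev_qin h]
  · intro t; apply LinearMap.ext; intro x; exact Subsingleton.elim _ _
  · intro s t a; simp [c1_mG]
  · intro t; simp [ci_mG]
  · intro t; simp [cj_mG]
  · intro t; simp [c2_mG, c1_mG, cj_mG]

theorem m_add (f g : X ⟶ Y) : mG U (f + g) = mG U f + mG U g := by
  apply hm_ext
  · intro t; apply LinearMap.ext; intro x
    simp only [c0_add, LinearMap.add_apply, c0_mG, hmap_add, map_add]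
  · intro t; apply LinearMap.ext; intro x; exact Subsingleton.elim _ _
  · intro s t a; simp [c1_mG]
  · intro t; simp [ci_mG]
  · intro t; simp [cj_mG]
  · intro t; simp [c2_mG]

theorem eps_nat (f : X ⟶ Y) : mG U f ≫ epsG U Y = epsG U X ≫ f := by
  apply hm_ext
  · intro t; apply LinearMap.ext; intro x
    by_cases h : U t
    · simp only [c0_comp, LinearMap.comp_apply, c0_eps, c0_mG, qev_qin h, hmap_0]
    · rw [q_zero h x, map_zero, map_zero]
  · intro t; simp only [cW_comp, cW_eps, cW_mG]
    simp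
  · intro s t a; apply LinearMap.ext; intro x
    by_cases h : U s
    · simp only [c1_comp, LinearMap.add_apply, LinearMap.comp_apply, c1_eps, c0_eps, c1_mG,
        c0_mG, qev_qin h, hmap_1, LinearMap.zero_apply, map_zero, add_zero]
    · rw [q_zero h x, map_zero, map_zero]
  · intro t; simp only [ci_comp, cW_eps, cW_mG, ci_eps, ci_mG]
    simp
  · intro t; apply LinearMap.ext; intro x
    by_cases h : U t
    · simp only [cj_comp, LinearMap.add_apply, LinearMap.comp_apply, cj_eps, c0_eps, c0_mG,
        cj_mG, qev_qin h, hmap_w, LinearMap.zero_apply, map_zero, add_zero]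
    · rw [q_zero h x, map_zero, map_zero]
  · intro t; apply LinearMap.ext; intro x
    by_cases h : U t
    · simp only [c2_comp, LinearMap.add_apply, LinearMap.comp_apply, c2_eps, c0_eps,
        LinearMap.sum_apply, c1_eps, cj_eps, c0_mG, c1_mG, c2_mG, cj_mG, qev_qin h, hmap_2,
        LinearMap.zero_apply, map_zero, add_zero, Finset.sum_const_zero]
      abel
    · rw [q_zero h x, map_zero, map_zero]

theorem eta_nat (f : X ⟶ Y) : f ≫ etaG U Y = etaG U X ≫ mG U f := by
  apply hm_ext
  · intro t; apply LinearMap.ext; intro x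
    apply q_ext; intro h
    simp only [c0_comp, LinearMap.comp_apply, c0_eta, c0_mG, qev_qin h, hmap_i2]
  · intro t; apply LinearMap.ext; intro x; exact Subsingleton.elim _ _
  · intro s t a; apply LinearMap.ext; intro x
    apply q_ext; intro h
    simp only [c1_comp, LinearMap.add_apply, LinearMap.comp_apply, c1_eta, c0_eta, c1_mG, c0_mG,
      map_add, qev_qin h, LinearMap.zero_apply, zero_add, hmap_i1, MG.rev_rev]
  · intro t; apply LinearMap.ext; intro x
    apply q_ext; intro h
    simp only [ci_comp, LinearMap.add_apply, LinearMap.comp_apply, ci_eta, c0_eta,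
      ci_mG, c0_mG, map_add, qev_qin h, LinearMap.zero_apply, zero_add, hmap_iw]
  · intro t; apply LinearMap.ext; intro x; exact Subsingleton.elim _ _
  · intro t; apply LinearMap.ext; intro x
    apply q_ext; intro h
    simp only [c2_comp, LinearMap.add_apply, LinearMap.comp_apply, c2_eta, c0_eta, c1_eta,
      ci_eta, cj_eta, c1_mG, c0_mG, c2_mG, LinearMap.sum_apply,
      map_add, map_sum, qev_qin h, LinearMap.zero_apply, add_zero, zero_add, map_zero,
      hmap_i0, MG.rev_rev, Finset.sum_const_zero]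
    abel

theorem u_nat (f : X ⟶ Y) : mG U f ≫ uG U Y = uG U X ≫ mG U (mG U f) := by
  apply hm_ext
  · intro t; apply LinearMap.ext; intro x
    apply q_ext; intro h
    simp only [c0_comp, LinearMap.comp_apply, c0_u, c0_mG, qev_qin h, hmap_i0, c1_mG, cj_mG,
      c2_mG, LinearMap.zero_apply, map_zero, Finset.sum_const_zero, add_zero]
  · intro t; apply LinearMap.ext; intro x; exact Subsingleton.elim _ _
  · intro s t a; simp [c1_mG, c1_u]
  · intro t; simp [ci_mG, ci_u]
  · intro t; simp [cj_mG, cj_u]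
  · intro t; simp [c2_mG, c1_mG, cj_mG, c2_u, c1_u, cj_u]

theorem c_nat (f : X ⟶ Y) : mG U (mG U f) ≫ cG U Y = cG U X ≫ mG U f := by
  apply hm_ext
  · intro t; apply LinearMap.ext; intro x
    by_cases h : U t
    · simp only [c0_comp, LinearMap.comp_apply, c0_c, c0_mG, qev_qin h, hmap_2, c2_mG, c1_mG,
        ci_mG, LinearMap.zero_apply, Finset.sum_const_zero, add_zero, zero_add]
    · rw [q_zero h x, map_zero, map_zero]
  · intro t; apply LinearMap.ext; intro x; exact Subsingleton.elim _ _
  · intro s t a; simp [c1_mG, c1_c]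
  · intro t; simp [ci_mG, ci_c]
  · intro t; simp [cj_mG, cj_c]
  · intro t; simp [c2_mG, c1_mG, cj_mG, c2_c, c1_c, cj_c]

end

end Crest.Agent.R175.TwG_253
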