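import Crest.Agent.R175.PTH_175
import Crest.Agent.R175.TwH_253
import Crest.Agent.R175.PTR_4

/-!
Row 175 (S0263), block (D): the position operator of a twist `Y = cone (ε : Q_U X → X)`.
-/

set_option autoImplicit false
set_option linter.unusedSectionVars false

open CategoryTheory Crest.Agent.R175.PTA Crest.Agent.R175.PTH Crest.Agent.R175.TwG_253

namespace Crest.Agent.R175.PTT_4

universe v

variable {T : Type v} {G : MG T} {k : Type v} [Field k] [Fintype T]

noncomputable section

/-! ### the length operator on `Q_U X` -/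

/-- `(v₀, m, w, v₂) ↦ (0, m, w, 2 v₂)` -/
def hL (X : Gob G k) (t : T) : HP X t →ₗ[k] HP X t where
  toFun x := (0, x.2.1, x.2.2.1, (2 : k) • x.2.2.2)
  map_add' x y := by
    refine Prod.ext ?_ (Prod.ext ?_ (Prod.ext ?_ ?_))
    · simp
    · rfl
    · rfl
    · simp
  map_smul' c x := by
    refine Prod.ext ?_ (Prod.ext ?_ (Prod.ext ?_ ?_))
    · simp
    · rfl
    · rfl
    · simp [smul_comm c (2 : k)]

theorem hL_0 {X : Gob G k} {t : T} (x : HP X t) : (hL X t x).1 = 0 := rfl
theorem hL_1 {X : Gob G k} {t : T} (x : HP X t) (s : T) (a : G.E t s) :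
    (hL X t x).2.1 s a = x.2.1 s a := rfl
theorem hL_w {X : Gob G k} {t : T} (x : HP X t) : (hL X t x).2.2.1 = x.2.2.1 := rfl
theorem hL_2 {X : Gob G k} {t : T} (x : HP X t) : (hL X t x).2.2.2 = (2 : k) • x.2.2.2 := rfl

/-- derivation property -/
theorem hL_hmap {X Y : Gob G k} (f : X ⟶ Y) (t : T) (x : HP X t) :
    hL Y t (hmap f t x) = hmap (L f) t x + hmap f t (hL X t x) := by
  apply HP_ext
  · simp only [hL_0, hmap_0, Prod.fst_add, c0_L, LinearMap.zero_apply, map_zero, add_zero]
  · intro s a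
    simp only [hL_1, hmap_1, Prod.snd_add, Prod.fst_add, Pi.add_apply, c0_L, c1_L, hL_0,
      LinearMap.zero_apply, map_zero, add_zero, zero_add]
  · simp only [hL_w, hmap_w, Prod.snd_add, Prod.fst_add, cW_L, cj_L, hL_0,
      LinearMap.zero_apply, map_zero, add_zero, zero_add]
  · simp only [hL_2, hmap_2, Prod.snd_add, c0_L, c1_L, ci_L, c2_L, hL_0, hL_1, hL_w,
      LinearMap.zero_apply, map_zero, add_zero, zero_add, LinearMap.smul_apply, map_smul,
      smul_add]
    simp only [two_smul]
    abel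

variable (U : T → Prop)

/-- the length operator of `Q_U X` -/
def lq (X : Gob G k) : QG U X ⟶ QG U X :=
  mkH (fun t => qin U X t ∘ₗ hL X t ∘ₗ qev U X t) (fun _ => 0) (fun _ _ _ => 0) (fun _ => 0)
    (fun _ => 0) (fun _ => 0)

variable {X Y : Gob G k}

theorem c0_lq (t : T) (x : (QG U X).V t) :
    c0 (lq U X) t x = qin U X t (hL X t (qev U X t x)) := rfl
theorem c1_lq {s t : T} (a : G.E s t) : c1 (lq U X) a = 0 := rfl
theorem ci_lq (t : T) : ci (lq U X) t = 0 := rfl
theorem cj_lq (t : T) : cj (lq U X) t = 0 := rfl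
theorem c2_lq (t : T) : c2 (lq U X) t = 0 := rfl
theorem cW_lq (t : T) : cW (lq U X) t = 0 := rfl

theorem m_lq (f : X ⟶ Y) : mG U f ≫ lq U Y = mG U (L f) + lq U X ≫ mG U f := by
  apply hm_ext
  · intro t; apply LinearMap.ext; intro x
    apply q_ext; intro h
    simp only [c0_comp, c0_add, LinearMap.add_apply, LinearMap.comp_apply, c0_lq, c0_mG,
      map_add, qev_qin h, hL_hmap]
  · intro t; apply LinearMap.ext; intro x; exact Subsingleton.elim _ _
  · intro s t a; simp [c1_mG, c1_lq]
  · intro t; simp [ci_mG, ci_lq]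
  · intro t; simp [cj_mG, cj_lq]
  · intro t; simp [c2_mG, c1_mG, cj_mG, c2_lq, c1_lq, cj_lq]

theorem L_mG (f : X ⟶ Y) : L (mG U f) = 0 := by
  apply hm_ext
  · intro t; rfl
  · intro t; rfl
  · intro s t a; rfl
  · intro t; rfl
  · intro t; rfl
  · intro t; rw [c2_L, c2_mG, smul_zero]; rfl

theorem L_lq : L (lq U X) = 0 := by
  apply hm_ext
  · intro t; rfl
  · intro t; rfl
  · intro s t a; rfl
  · intro t; rfl
  · intro t; rfl
  · intro t; rw [c2_L, c2_lq, smul_zero]; rfl

theorem lq_eps : lq U X ≫ epsG U X = L (epsG U X) := by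
  apply hm_ext
  · intro t; apply LinearMap.ext; intro x
    by_cases h : U t
    · simp only [c0_comp, LinearMap.comp_apply, c0_eps, c0_lq, qev_qin h, hL_0, c0_L,
        LinearMap.zero_apply]
    · rw [q_zero h x, map_zero, map_zero]
  · intro t; apply LinearMap.ext; intro x
    rw [Subsingleton.elim x 0, map_zero, map_zero]
  · intro s t a; apply LinearMap.ext; intro x
    by_cases h : U s
    · simp only [c1_comp, LinearMap.add_apply, LinearMap.comp_apply, c1_eps, c0_lq, c1_lq,
        qev_qin h, hL_1, c1_L, LinearMap.zero_apply, map_zero, add_zero]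
    · rw [q_zero h x, map_zero, map_zero]
  · intro t; apply LinearMap.ext; intro x
    rw [Subsingleton.elim x 0, map_zero, map_zero]
  · intro t; apply LinearMap.ext; intro x
    by_cases h : U t
    · simp only [cj_comp, LinearMap.add_apply, LinearMap.comp_apply, cj_eps, c0_lq, cj_lq,
        qev_qin h, hL_w, cj_L, LinearMap.zero_apply, map_zero, add_zero]
    · rw [q_zero h x, map_zero, map_zero]
  · intro t; apply LinearMap.ext; intro x
    by_cases h : U t
    · simp only [c2_comp, LinearMap.add_apply, LinearMap.comp_apply, LinearMap.sum_apply,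
        c2_eps, c0_lq, c1_lq, c2_lq, cj_lq, qev_qin h, hL_2, c2_L, LinearMap.smul_apply,
        LinearMap.zero_apply, map_zero, add_zero, Finset.sum_const_zero]
    · rw [q_zero h x, map_zero, map_zero]

/-! ### the twist, as a relation of TObs -/

/-- `Y` is the cone of `ε : Q_U X → X`, on a direct sum given by maps of length `0`. -/
structure ConeOf (U : T → Prop) (X Y : TOb G k) where
  inl : QG U X.X ⟶ Y.X
  inr : X.X ⟶ Y.X
  fst : Y.X ⟶ QG U X.X
  snd : Y.X ⟶ X.X
  inl_fst : inl ≫ fst = 𝟙 _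
  inl_snd : inl ≫ snd = 0
  inr_fst : inr ≫ fst = 0
  inr_snd : inr ≫ snd = 𝟙 _
  total : fst ≫ inl + snd ≫ inr = 𝟙 _
  L_inl : L inl = 0
  L_inr : L inr = 0
  L_fst : L fst = 0
  L_snd : L snd = 0
  d_inl : inl ≫ Y.d = -(mG U X.d ≫ inl) + epsG U X.X ≫ inr
  d_inr : inr ≫ Y.d = X.d ≫ inr
  g_inl : inl ≫ gam Y.X = -(mG U (gam X.X) ≫ inl)
  g_inr : inr ≫ gam Y.X = gam X.X ≫ inr

attribute [reassoc (attr := simp)] ConeOf.inl_fst ConeOf.inl_snd ConeOf.inr_fst ConeOf.inr_snd
attribute [reassoc] ConeOf.d_inl ConeOf.d_inr ConeOf.g_inl ConeOf.g_inr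

namespace ConeOf

variable {U} {X Y : TOb G k} (C : ConeOf U X Y)

include C in
theorem ext {Z : Gob G k} {f g : Y.X ⟶ Z} (h1 : C.inl ≫ f = C.inl ≫ g)
    (h2 : C.inr ≫ f = C.inr ≫ g) : f = g := by
  rw [← Category.id_comp f, ← Category.id_comp g, ← C.total, Preadditive.add_comp,
    Preadditive.add_comp, Category.assoc, Category.assoc, Category.assoc, Category.assoc, h1, h2]

/-- the position operator of the cone -/
def pY (p : X.X ⟶ X.X) : Y.X ⟶ Y.X :=
  C.fst ≫ (mG U p + lq U X.X - 𝟙 _) ≫ C.inl + C.snd ≫ p ≫ C.inr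

@[reassoc] theorem inl_pY (p : X.X ⟶ X.X) :
    C.inl ≫ C.pY p = (mG U p + lq U X.X - 𝟙 _) ≫ C.inl := by
  simp [pY, Preadditive.comp_add]

@[reassoc] theorem inr_pY (p : X.X ⟶ X.X) : C.inr ≫ C.pY p = p ≫ C.inr := by
  simp [pY, Preadditive.comp_add]

theorem L_dY : L Y.d = C.fst ≫ L (epsG U X.X) ≫ C.inr + C.snd ≫ L X.d ≫ C.inr := by
  apply C.ext
  · have h := congrArg L C.d_inl
    rw [L_comp, C.L_inl, Limits.zero_comp, zero_add, map_add, map_neg, L_comp, L_comp, L_mG,
      C.L_inl, C.L_inr, Limits.zero_comp, Limits.comp_zero, Limits.comp_zero, zero_add, neg_zero,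
      zero_add, add_zero] at h
    rw [h]
    simp [Preadditive.comp_add]
  · have h := congrArg L C.d_inr
    rw [L_comp, C.L_inr, Limits.zero_comp, zero_add, L_comp, C.L_inr, Limits.comp_zero,
      add_zero] at h
    rw [h]
    simp [Preadditive.comp_add]

theorem bar_pY {p : X.X ⟶ X.X} (hp : bar p = p) : bar (C.pY p) = C.pY p := by
  have hg : L (gam X.X) = 0 := by
    apply hm_ext <;> intros <;> simp
  have h1 : mG U (gam X.X) ≫ lq U X.X = lq U X.X ≫ mG U (gam X.X) := by
    rw [m_lq, hg]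
    have : mG U (0 : X.X ⟶ X.X) = 0 := by
      have h := m_add U (0 : X.X ⟶ X.X) 0
      rw [add_zero] at h
      exact left_eq_add.1 h
    rw [this, zero_add]
  have h2 : mG U (gam X.X) ≫ mG U (gam X.X) = 𝟙 _ := by
    rw [← m_comp, gam_gam, m_id]
  have h3 : mG U (gam X.X) ≫ mG U p ≫ mG U (gam X.X) = mG U p := by
    rw [← m_comp, ← m_comp]
    exact congrArg (mG U) hp
  apply C.ext
  · rw [bar, C.g_inl_assoc, Preadditive.neg_comp, Category.assoc, C.inl_pY_assoc, C.inl_pY,
      C.g_inl]
    simp only [Preadditive.comp_neg, neg_neg, Preadditive.add_comp, Preadditive.sub_comp,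
      Preadditive.comp_add, Preadditive.comp_sub, Category.assoc, Category.id_comp]
    rw [← Category.assoc (mG U (gam X.X)) (lq U X.X), h1, Category.assoc,
      ← Category.assoc (mG U (gam X.X)) (mG U (gam X.X)), h2, Category.id_comp]
    have h4 := congrArg (fun z => z ≫ C.inl) h3
    simp only [Category.assoc] at h4
    rw [h4]
  · rw [bar, C.g_inr_assoc, C.inr_pY_assoc, C.inr_pY, C.g_inr]
    have h4 := congrArg (fun z => z ≫ C.inr) hp
    simp only [bar, Category.assoc] at h4
    exact h4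

theorem eul {p : X.X ⟶ X.X} (hp : Eul X p) : Eul Y (C.pY p) := by
  have hb := C.bar_pY hp.bar
  refine ⟨?_, hb, ?_⟩
  · intro t
    apply LinearMap.ext; intro x
    have h1 : cW p t = 0 := hp.mem t
    simp only [pY, cW_add, cW_comp, LinearMap.add_apply, LinearMap.comp_apply, h1,
      LinearMap.zero_apply, map_zero, add_zero]
    rw [Subsingleton.elim ((cW (mG U p + lq U X.X - 𝟙 (QG U X.X)) t) ((cW C.fst t) x)) 0,
      map_zero]
  · rw [D_apply, hb, C.L_dY]
    have hD : p ≫ X.d - X.d ≫ p = L X.d - X.d := by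
      have := hp.D
      rw [D_apply, hp.bar] at this
      exact this
    have h5 : mG U p ≫ mG U X.d - mG U X.d ≫ mG U p = mG U (L X.d) - mG U X.d := by
      have h6 : mG U (p ≫ X.d - X.d ≫ p) = mG U (L X.d - X.d) := by rw [hD]
      have hsub : ∀ f g : X.X ⟶ X.X, mG U (f - g) = mG U f - mG U g := by
        intro f g
        rw [eq_sub_iff_add_eq, ← m_add, sub_add_cancel]
      rw [hsub, hsub, m_comp, m_comp] at h6
      exact h6
    apply C.ext
    · rw [Preadditive.comp_sub, C.inl_pY_assoc, C.d_inl_assoc, C.d_inl, Preadditive.add_comp,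
        Preadditive.neg_comp, Category.assoc, Category.assoc, C.inl_pY, C.inr_pY]
      have h7 := m_lq U X.d
      have h8 := lq_eps U (X := X.X)
      have h9 := eps_nat U p
      simp only [Preadditive.comp_neg, Preadditive.neg_comp, Preadditive.add_comp,
        Preadditive.sub_comp, Preadditive.comp_add, Preadditive.comp_sub, Category.assoc,
        Category.id_comp, C.inl_fst_assoc, C.inl_snd_assoc, Limits.zero_comp, add_zero]
      have e5 := congrArg (fun z => z ≫ C.inl) h5
      have e7 := congrArg (fun z => z ≫ C.inl) h7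
      have e8 := congrArg (fun z => z ≫ C.inr) h8
      have e9 := congrArg (fun z => z ≫ C.inr) h9
      simp only [Preadditive.sub_comp, Preadditive.add_comp, Category.assoc] at e5 e7 e8 e9
      rw [C.d_inl, e8, e9]
      rw [sub_eq_iff_eq_add] at e5
      rw [e5, e7]
      abel
    · rw [Preadditive.comp_sub, C.inr_pY_assoc, C.d_inr_assoc, C.d_inr, C.inr_pY]
      simp only [Preadditive.comp_add, Preadditive.comp_sub, C.inr_fst_assoc, C.inr_snd_assoc,
        Limits.zero_comp, zero_add]
      rw [C.d_inr]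
      have e := congrArg (fun z => z ≫ C.inr) hD
      simp only [Preadditive.sub_comp, Category.assoc] at e
      exact e

end ConeOf

end

end Crest.Agent.R175.PTT_4
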