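import Crest.Agent.R175.PTU_4

/-!
Row 175 (S0263), block (D): `ConeOf.td`, the exact triangle of the twist
`H(M_s) → H(X)_s → H(Y)_s → H(M_s)`, `Y = cone (ε : Q_U X → X)`.
-/

set_option autoImplicit false
set_option linter.unusedSectionVars false

open CategoryTheory Crest.Agent.R175.PTA Crest.Agent.R175.PTH Crest.Agent.R175.TwG_253
open Crest.Agent.R175.PTQ_4

namespace Crest.Agent.R175.PTT_4

universe u v

noncomputable section

variable {T : Type v} {G : MG T} {k : Type v} [Field k] [Fintype T] {U : T → Prop}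
  {X Y : TOb G k} (C : ConeOf U X Y) {p : X.X ⟶ X.X} (hp : Eul X p)

namespace ConeOf

/-- an element of `Hom(P_t, X)` -/
abbrev el {t : T} (x0 : X.X.V t) (m : ∀ s, G.E t s → X.X.V s) (w : X.X.W t) (x2 : X.X.V t) :
    HP X.X t := (x0, m, w, x2)

theorem el_eta {t : T} (w : HP X.X t) : el w.1 w.2.1 w.2.2.1 w.2.2.2 = w := rfl

theorem hmap_el {t : T} (x0 : X.X.V t) (m : ∀ s, G.E t s → X.X.V s) (w : X.X.W t)
    (x2 : X.X.V t) : hmap X.d t (el x0 m w x2) =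
      el (c0 X.d t x0) (fun s a => c1 X.d a x0 + c0 X.d s (m s a)) (cj X.d t x0)
        (c2 X.d t x0 + (∑ s, ∑ a : G.E t s, c1 X.d (G.rev a) (m s a)) + ci X.d t w
          + c0 X.d t x2) := by
  apply HP_ext
  · rfl
  · intro s a; rfl
  · simp only [hmap_w, X.dW, LinearMap.zero_apply, add_zero]
  · rfl

theorem el_zero {t : T} : el (X := X) (t := t) 0 0 0 0 = 0 := rfl

/-- `dB = -Bd` -/
theorem dB {s t : T} (a : G.E s t) (x : X.X.V s) :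
    c0 X.d t (c1 X.d a x) = -c1 X.d a (c0 X.d s x) := by
  have := dd1 X a x
  rw [add_comm] at this
  exact eq_neg_of_add_eq_zero_left this

/-- `∑ B B + i j = -(e d + d e)` -/
theorem BBij {t : T} (x : X.X.V t) :
    (∑ s, ∑ a : G.E t s, c1 X.d (G.rev a) (c1 X.d a x)) + ci X.d t (cj X.d t x) =
      -(c2 X.d t (c0 X.d t x) + c0 X.d t (c2 X.d t x)) := by
  have := dd2 X t x
  rw [add_assoc, add_comm] at this
  exact eq_neg_of_add_eq_zero_left this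

theorem sum_d {s : T} (y : ∀ t, G.E s t → X.X.V t) :
    (∑ t, ∑ a : G.E s t, c1 X.d (G.rev a) (c0 X.d t (y t a))) =
      -c0 X.d s (∑ t, ∑ a : G.E s t, c1 X.d (G.rev a) (y t a)) := by
  rw [map_sum, ← Finset.sum_neg_distrib]
  refine Finset.sum_congr rfl fun t _ => ?_
  rw [map_sum, ← Finset.sum_neg_distrib]
  refine Finset.sum_congr rfl fun a _ => ?_
  rw [dB, neg_neg]

theorem sum_add {s : T} (y y' : ∀ t, G.E s t → X.X.V t) :
    (∑ t, ∑ a : G.E s t, c1 X.d (G.rev a) (y t a + y' t a)) =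
      (∑ t, ∑ a : G.E s t, c1 X.d (G.rev a) (y t a)) +
        ∑ t, ∑ a : G.E s t, c1 X.d (G.rev a) (y' t a) := by
  simp only [map_add, Finset.sum_add_distrib]

theorem sum_neg {s : T} (y : ∀ t, G.E s t → X.X.V t) :
    (∑ t, ∑ a : G.E s t, c1 X.d (G.rev a) (-(y t a))) =
      -(∑ t, ∑ a : G.E s t, c1 X.d (G.rev a) (y t a)) := by
  simp only [map_neg, Finset.sum_neg_distrib]

/-- `ker κ = im b` -/
theorem ker_κ {s : T} (hs : U s) (ξ : Hv X s) : C.κ s ξ = 0 ↔ ξ ∈ (QMof X hp).imB s := by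
  obtain ⟨v, hv, rfl⟩ := mk_surj X ξ
  rw [C.κ_of_mk hs, mk_eq_zero, mem_imB_iff]
  constructor
  · rintro ⟨z, hz⟩
    obtain ⟨w, x, rfl⟩ := C.decomp z
    rw [map_add, C.d_ι' hs, C.d_ρ] at hz
    have e' : C.ι s (-hmap X.d s w - i2 X.X s v) + C.ρ s (w.1 + c0 X.d s x) = 0 := by
      rw [map_sub, map_neg, map_add, ← hz]; abel
    obtain ⟨h1, h2⟩ := C.inj hs e'
    have h3 : hmap X.d s w = -i2 X.X s v := by
      rw [sub_eq_zero] at h1
      rw [← h1, neg_neg]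
    have hx0 : w.1 = -c0 X.d s x := eq_neg_of_add_eq_zero_left h2
    have g1 : ∀ t (a : G.E s t), c1 X.d a w.1 + c0 X.d t (w.2.1 t a) = 0 := fun t a => by
      have := congrFun (congrFun (congrArg (fun x => x.2.1) h3) t) a
      have e : (-i2 X.X s v).2.1 t a = 0 := neg_zero
      exact this.trans e
    have g2 : c2 X.d s w.1 + (∑ t, ∑ a : G.E s t, c1 X.d (G.rev a) (w.2.1 t a)) +
        ci X.d s w.2.2.1 + c0 X.d s w.2.2.2 = -v := congrArg (fun x => x.2.2.2) h3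
    refine ⟨fun t a => -(w.2.1 t a + c1 X.d a x), -(w.2.2.1 + cj X.d s x),
      -(w.2.2.2 + c2 X.d s x), fun t a => ?_, ?_⟩
    · rw [map_neg, map_add, dB, neg_eq_zero]
      have h4 := g1 t a
      rw [hx0, map_neg] at h4
      rw [add_comm]
      exact h4
    · rw [sum_neg, sum_add, map_neg, map_neg, map_add, map_add]
      have h5 := BBij (X := X) x
      rw [hx0, map_neg] at g2
      have h6 : -v = -(c2 X.d s (c0 X.d s x)) + (∑ t, ∑ a : G.E s t, c1 X.d (G.rev a) (w.2.1 t a))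
        + ci X.d s w.2.2.1 + c0 X.d s w.2.2.2 := g2.symm
      have h7 : v = -(-v) := (neg_neg v).symm
      rw [h7, h6]
      have h8 : (∑ s_1, ∑ a : G.E s s_1, c1 X.d (G.rev a) (c1 X.d a x)) =
          -(c2 X.d s (c0 X.d s x) + c0 X.d s (c2 X.d s x)) - ci X.d s (cj X.d s x) := by
        rw [← h5]; abel
      rw [h8]
      abel
  · rintro ⟨y, w, z, hy, h⟩
    refine ⟨-C.ι s (el 0 y w z), ?_⟩
    rw [map_neg, C.d_ι' hs, hmap_el]
    simp only [map_zero, zero_add, hy, add_zero, neg_neg]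
    rw [h]
    rfl

/-- the class of `ι w + ρ x` -/
theorem closed_of {s : T} (hs : U s) {w : HP X.X s} {x : X.X.V s}
    (h : c0 Y.d s (C.ι s w + C.ρ s x) = 0) :
    w.1 = -c0 X.d s x ∧ (∀ t a, c1 X.d a w.1 + c0 X.d t (w.2.1 t a) = 0) ∧
      c2 X.d s w.1 + (∑ t, ∑ a : G.E s t, c1 X.d (G.rev a) (w.2.1 t a)) + ci X.d s w.2.2.1
      + c0 X.d s w.2.2.2 = 0 := by
  obtain ⟨h1, h2⟩ := (C.closed_iff hs w x).1 h
  obtain ⟨_, g1, _, g2⟩ := hmap_eq_zero h1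
  exact ⟨eq_neg_of_add_eq_zero_left h2, g1, g2⟩

theorem mem_kerA_QMof {s : T} {q : Y.X ⟶ Y.X} (hq : Eul Y q) (ξ : Hv Y s) :
    ξ ∈ (QMof Y hq).kerA s ↔ (∀ t (a : G.E s t), HB Y a ξ = 0) ∧ Hj Y s ξ = 0 :=
  QM.mem_kerA (X := QMof Y hq)

/-- `ker a' ≤ im κ` -/
theorem range_κ {s : T} (hs : U s) (hU : ∀ s t, U s → U t → IsEmpty (G.E s t)) (ξ : Hv Y s)
    (hξ : (∀ t (a : G.E s t), HB Y a ξ = 0) ∧ Hj Y s ξ = 0) : ∃ v, C.κ s v = ξ := by
  obtain ⟨z, hz, rfl⟩ := mk_surj Y ξ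
  obtain ⟨w, x, rfl⟩ := C.decomp z
  obtain ⟨hx0, g1, g2⟩ := C.closed_of hs hz
  obtain ⟨hB, hj⟩ := hξ
  have hB' : ∀ t (a : G.E s t), ∃ y, c0 X.d t y = w.2.1 t a + c1 X.d a x := by
    intro t a
    have ht : ¬ U t := fun ht => (hU s t hs ht).false a
    have h1 := hB t a
    rw [HB_mk, mk_eq_zero] at h1
    obtain ⟨y', hy'⟩ := h1
    obtain ⟨y, rfl⟩ := C.eq_ρ ht y'
    refine ⟨y, ?_⟩
    rw [d_ρ, map_add, C.B_ι hs, C.B_ρ, ← map_add, ← sub_eq_zero, ← map_sub] at hy'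
    exact sub_eq_zero.1 (C.ρ_inj hy')
  choose y hy using hB'
  have hj' : w.2.2.1 + cj X.d s x = 0 := by
    rw [Hj_mk, map_add, C.j_ι hs, C.j_ρ, ← map_add, ← ω_apply] at hj
    exact (LinearEquiv.map_eq_zero_iff _).1 hj
  -- the class comes from `v2`
  set v2 : X.X.V s := w.2.2.2 + c2 X.d s x - ∑ t, ∑ a : G.E s t, c1 X.d (G.rev a) (y t a)
    with hv2
  have key : C.ι s w + C.ρ s x - c0 Y.d s (C.ι s (el x (fun t a => -(y t a)) 0 0)) =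
      C.ι s (i2 X.X s v2) := by
    rw [C.d_ι' hs, hmap_el]
    have e1 : w - (-(el (c0 X.d s x) (fun t a => c1 X.d a x + c0 X.d t (-(y t a))) (cj X.d s x)
        (c2 X.d s x + (∑ t, ∑ a : G.E s t, c1 X.d (G.rev a) (-(y t a))) + ci X.d s 0
          + c0 X.d s 0))) = i2 X.X s v2 := by
      apply HP_ext
      · change w.1 - -(c0 X.d s x) = 0
        rw [hx0]; abel
      · intro t a
        change w.2.1 t a - -(c1 X.d a x + c0 X.d t (-(y t a))) = 0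
        rw [map_neg, hy]
        abel
      · change w.2.2.1 - -(cj X.d s x) = 0
        rw [sub_neg_eq_add]
        exact hj'
      · change w.2.2.2 - -(c2 X.d s x + (∑ t, ∑ a : G.E s t, c1 X.d (G.rev a) (-(y t a)))
          + ci X.d s 0 + c0 X.d s 0) = v2
        rw [sum_neg, map_zero, map_zero, hv2]
        abel
    rw [← e1, map_sub, map_neg]
    abel
  have hcl : c0 X.d s v2 = 0 := by
    have h1 : c0 Y.d s (C.ι s (i2 X.X s v2)) = 0 := by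
      rw [← key, map_sub, hz, dd0, sub_zero]
    rw [C.d_ι' hs, hmap_i2, i2_0, map_zero, add_zero] at h1
    have h2 : C.ι s (i2 X.X s (c0 X.d s v2)) + C.ρ s 0 = 0 := by
      rw [map_zero, add_zero]; exact neg_eq_zero.1 h1
    exact congrArg (fun x => x.2.2.2) (C.inj hs h2).1
  refine ⟨PTH.mk X s v2 hcl, ?_⟩
  rw [C.κ_of_mk hs, eq_comm, mk_eq_iff]
  exact ⟨_, by rw [← key]; abel⟩

theorem range'_κ {s : T} (hs : U s) (ξ : Hv X s) :
    (∀ t (a : G.E s t), HB Y a (C.κ s ξ) = 0) ∧ Hj Y s (C.κ s ξ) = 0 := by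
  obtain ⟨v, hv, rfl⟩ := mk_surj X ξ
  rw [C.κ_of_mk hs]
  refine ⟨fun t a => ?_, ?_⟩
  · rw [HB_mk, mk_eq_zero]
    refine ⟨0, ?_⟩
    rw [map_zero, C.B_ι hs, i2_1, map_zero]
  · rw [Hj_mk, C.j_ι hs, i2_w, map_zero]

/-- `b a' = 0` -/
theorem ba_κ {s : T} (hs : U s) (hU : ∀ s t, U s → U t → IsEmpty (G.E s t)) (ξ : Hv Y s)
    (m : ∀ t, G.E s t → Hv X t) (wt : X.X.W s)
    (h1 : ∀ t a, C.κ t (m t a) = HB Y a ξ) (h2 : C.ω s wt = Hj Y s ξ) :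
    ∑ t, ∑ a : G.E s t, HB X (G.rev a) (m t a) + Hi X s wt = 0 := by
  obtain ⟨z, hz, rfl⟩ := mk_surj Y ξ
  obtain ⟨w, x, rfl⟩ := C.decomp z
  obtain ⟨hx0, g1, g2⟩ := C.closed_of hs hz
  have hm : ∀ t a, ∃ x, ∃ hx : c0 X.d t x = 0, PTH.mk X t x hx = m t a := fun t a =>
    mk_surj X (m t a)
  choose μ hμ hμm using hm
  have hB' : ∀ t (a : G.E s t), ∃ y, μ t a = w.2.1 t a + c1 X.d a x + c0 X.d t y := by
    intro t a
    have ht : ¬ U t := fun ht => (hU s t hs ht).false a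
    have h3 := h1 t a
    rw [← hμm, C.κ_not_mk ht, HB_mk, mk_eq_iff] at h3
    obtain ⟨y', hy'⟩ := h3
    obtain ⟨y, rfl⟩ := C.eq_ρ ht y'
    refine ⟨y, ?_⟩
    rw [d_ρ, map_add, C.B_ι hs, C.B_ρ, ← map_add, ← map_sub, ← sub_eq_zero, ← map_sub] at hy'
    have h4 := sub_eq_zero.1 (C.ρ_inj hy')
    rw [h4]
    abel
  choose y hy using hB'
  have hw : wt = w.2.2.1 + cj X.d s x := by
    apply (C.ω s).injective
    rw [h2, Hj_mk, map_add, C.j_ι hs, C.j_ρ, ← map_add, ← ω_apply]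
  have h5 : ∑ t, ∑ a : G.E s t, HB X (G.rev a) (m t a) + Hi X s wt =
      ∑ t, ∑ a : G.E s t, HB X (G.rev a) (PTH.mk X t (μ t a) (hμ t a)) + Hi X s wt := by
    congr 1
    exact Finset.sum_congr rfl fun t _ => Finset.sum_congr rfl fun a _ => by rw [hμm]
  rw [h5, sum_mk, mk_eq_zero]
  refine ⟨-(w.2.2.2 + c2 X.d s x + ∑ t, ∑ a : G.E s t, c1 X.d (G.rev a) (y t a)), ?_⟩
  have h6 : (∑ t, ∑ a : G.E s t, c1 X.d (G.rev a) (μ t a)) =
      (∑ t, ∑ a : G.E s t, c1 X.d (G.rev a) (w.2.1 t a)) +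
      (∑ t, ∑ a : G.E s t, c1 X.d (G.rev a) (c1 X.d a x)) +
      (∑ t, ∑ a : G.E s t, c1 X.d (G.rev a) (c0 X.d t (y t a))) := by
    rw [← sum_add, ← sum_add]
    exact Finset.sum_congr rfl fun t _ => Finset.sum_congr rfl fun a _ => by rw [hy]
  have h7 := BBij (X := X) x
  have h8 : (∑ t, ∑ a : G.E s t, c1 X.d (G.rev a) (c1 X.d a x)) =
      -(c2 X.d s (c0 X.d s x) + c0 X.d s (c2 X.d s x)) - ci X.d s (cj X.d s x) := by
    rw [← h7]; abel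
  rw [h6, h8, sum_d, hw, map_add, map_neg, map_add, map_add]
  rw [hx0, map_neg] at g2
  have h9 : c0 X.d s w.2.2.2 = c2 X.d s (c0 X.d s x) -
      (∑ t, ∑ a : G.E s t, c1 X.d (G.rev a) (w.2.1 t a)) - ci X.d s w.2.2.1 := by
    rw [← sub_eq_zero, ← g2]; abel
  rw [h9]
  abel

/-- `ker b ≤ im a'` -/
theorem ex_κ {s : T} (hs : U s) (hU : ∀ s t, U s → U t → IsEmpty (G.E s t))
    (m : ∀ t, G.E s t → Hv X t) (wt : X.X.W s)
    (h : ∑ t, ∑ a : G.E s t, HB X (G.rev a) (m t a) + Hi X s wt = 0) :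
    ∃ ξ : Hv Y s, (∀ t a, HB Y a ξ = C.κ t (m t a)) ∧ Hj Y s ξ = C.ω s wt := by
  have hm : ∀ t a, ∃ x, ∃ hx : c0 X.d t x = 0, PTH.mk X t x hx = m t a := fun t a =>
    mk_surj X (m t a)
  choose μ hμ hμm using hm
  have h5 : ∑ t, ∑ a : G.E s t, HB X (G.rev a) (m t a) + Hi X s wt =
      ∑ t, ∑ a : G.E s t, HB X (G.rev a) (PTH.mk X t (μ t a) (hμ t a)) + Hi X s wt := by
    congr 1
    exact Finset.sum_congr rfl fun t _ => Finset.sum_congr rfl fun a _ => by rw [hμm]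
  rw [h5, sum_mk, mk_eq_zero] at h
  obtain ⟨z2, hz2⟩ := h
  have hcl : c0 Y.d s (C.ι s (el 0 μ wt (-z2))) = 0 := by
    rw [C.d_ι' hs, hmap_el]
    simp only [map_zero, zero_add, hμ, map_neg, hz2, add_zero]
    have e : el (X := X) (t := s) 0 (fun _ _ => 0) 0
      (∑ t, ∑ a : G.E s t, c1 X.d (G.rev a) (μ t a) + ci X.d s wt +
        -(∑ t, ∑ a : G.E s t, c1 X.d (G.rev a) (μ t a) + ci X.d s wt)) = 0 := by
      rw [add_neg_cancel]; rfl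
    rw [e, map_zero, neg_zero]
  refine ⟨PTH.mk Y s _ hcl, fun t a => ?_, ?_⟩
  · have ht : ¬ U t := fun ht => (hU s t hs ht).false a
    rw [HB_mk, ← hμm, C.κ_not_mk ht]
    exact mk_congr Y _ (C.B_ι hs a _)
  · rw [Hj_mk, C.j_ι hs]
    rfl

theorem Aκ_not {t : T} (h : ¬ U t) (ξ : Hv X t) :
    Hp (C.eul hp) t (C.κ t ξ) = C.κ t (Hp hp t ξ) := by
  obtain ⟨x, hx, rfl⟩ := mk_surj X ξ
  rw [C.κ_not_mk h, Hp_mk, Hp_mk, C.κ_not_mk h]
  exact mk_congr Y _ (C.pY_ρ p x)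

theorem Aκ_of {t : T} (h : U t) (ξ : Hv X t) :
    Hp (C.eul hp) t (C.κ t ξ) = C.κ t (Hp hp t ξ) + C.κ t ξ := by
  rw [← map_add]
  obtain ⟨x, hx, rfl⟩ := mk_surj X ξ
  have h1 : ∃ hy, Hp hp t (PTH.mk X t x hx) + PTH.mk X t x hx =
      PTH.mk X t (c0 p t x + x) hy := ⟨_, by rw [Hp_mk, ← mk_add]⟩
  obtain ⟨hy, h1⟩ := h1
  rw [h1, C.κ_of_mk h, C.κ_of_mk h, Hp_mk]
  refine mk_congr Y _ ?_
  rw [C.pY_ι h]
  congr 1
  apply HP_ext
  · change (hmap p t (i2 X.X t x) + hL X.X t (i2 X.X t x) - i2 X.X t x).1 = 0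
    rw [hmap_i2]
    change (0 : X.X.V t) + 0 - 0 = 0
    simp
  · intro s a
    rw [hmap_i2]
    change (0 : X.X.V s) + 0 - 0 = 0
    simp
  · rw [hmap_i2]
    change (0 : X.X.W t) + 0 - 0 = 0
    simp
  · rw [hmap_i2]
    change c0 p t x + (2 : k) • x - x = c0 p t x + x
    rw [two_smul]
    abel

theorem B_κ {s t : T} (hs : ¬ U s) (ht : ¬ U t) (a : G.E s t) (ξ : Hv X s) :
    HB Y a (C.κ s ξ) = C.κ t (HB X a ξ) := by
  obtain ⟨x, hx, rfl⟩ := mk_surj X ξ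
  rw [C.κ_not_mk hs, HB_mk, HB_mk, C.κ_not_mk ht]
  exact mk_congr Y _ (C.B_ρ a x)

theorem i_κ {t : T} (ht : ¬ U t) (w : X.X.W t) :
    Hi Y t (C.ω t w) = C.κ t (Hi X t w) := by
  rw [Hi_apply, Hi_apply, C.κ_not_mk ht]
  exact mk_congr Y _ (C.i_ω w)

theorem j_κ {t : T} (ht : ¬ U t) (ξ : Hv X t) :
    Hj Y t (C.κ t ξ) = C.ω t (Hj X t ξ) := by
  obtain ⟨x, hx, rfl⟩ := mk_surj X ξ
  rw [C.κ_not_mk ht, Hj_mk, Hj_mk]
  exact C.j_ρ x

/-- the natural map `H X → H Y` at every vertex (it is `κ` outside `U`) -/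
theorem B_nat {s t : T} (a : G.E s t) {x : X.X.V s} (hx : c0 X.d s x = 0) :
    HB Y a (PTH.mk Y s (C.ρ s x) (C.d_ρ0 hx)) =
      PTH.mk Y t (C.ρ t (c1 X.d a x)) (C.d_ρ0 (by
        have h := dd1 X a x
        rw [hx, map_zero, zero_add] at h
        exact h)) := by
  rw [HB_mk]
  exact mk_congr Y _ (C.B_ρ a x)

theorem BB_κ {s : T} (hs : U s) (hU : ∀ s t, U s → U t → IsEmpty (G.E s t)) {t t' : T}
    (a : G.E t s) (b : G.E s t') (ξ : Hv X t) :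
    HB Y b (HB Y a (C.κ t ξ)) = C.κ t' (HB X b (HB X a ξ)) := by
  have ht : ¬ U t := fun ht => (hU t s ht hs).false a
  have ht' : ¬ U t' := fun ht => (hU s t' hs ht).false b
  obtain ⟨x, hx, rfl⟩ := mk_surj X ξ
  have hcl : c0 X.d s (c1 X.d a x) = 0 := by
    have h := dd1 X a x
    rw [hx, map_zero, zero_add] at h
    exact h
  rw [C.κ_not_mk ht, C.B_nat a hx, C.B_nat b hcl, HB_mk, HB_mk, C.κ_not_mk ht']

theorem jB_κ {s : T} (hs : U s) (hU : ∀ s t, U s → U t → IsEmpty (G.E s t)) {t : T}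
    (a : G.E t s) (ξ : Hv X t) :
    Hj Y s (HB Y a (C.κ t ξ)) = C.ω s (Hj X s (HB X a ξ)) := by
  have ht : ¬ U t := fun ht => (hU t s ht hs).false a
  obtain ⟨x, hx, rfl⟩ := mk_surj X ξ
  rw [C.κ_not_mk ht, C.B_nat a hx, Hj_mk, HB_mk, Hj_mk]
  exact C.j_ρ _

theorem Bi_κ {s : T} (hs : U s) (hU : ∀ s t, U s → U t → IsEmpty (G.E s t)) {t : T}
    (b : G.E s t) (w : X.X.W s) :
    HB Y b (Hi Y s (C.ω s w)) = C.κ t (HB X b (Hi X s w)) := by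
  have ht : ¬ U t := fun ht => (hU s t hs ht).false b
  have h1 : Hi Y s (C.ω s w) = PTH.mk Y s (C.ρ s (ci X.d s w)) (C.d_ρ0 (ddi X s w)) := by
    rw [Hi_apply]
    exact mk_congr Y _ (C.i_ω w)
  rw [h1, C.B_nat b (ddi X s w), Hi_apply, HB_mk, C.κ_not_mk ht]

theorem ji_κ {s : T} (w : X.X.W s) :
    Hj Y s (Hi Y s (C.ω s w)) = C.ω s (Hj X s (Hi X s w)) := by
  have h1 : Hi Y s (C.ω s w) = PTH.mk Y s (C.ρ s (ci X.d s w)) (C.d_ρ0 (ddi X s w)) := by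
    rw [Hi_apply]
    exact mk_congr Y _ (C.i_ω w)
  rw [h1, Hj_mk, Hi_apply, Hj_mk]
  exact C.j_ρ _

/-- **the exact triangle of the twist** -/
def td (hU : ∀ s t, U s → U t → IsEmpty (G.E s t)) :
    TD {t | U t} (QMof X hp) (QMof Y (C.eul hp)) where
  κ := C.κ
  ω := C.ω
  bij _ ht := C.κ_bij ht
  nadj s hs t ht := hU s t hs ht
  Aκ _ ht ξ := C.Aκ_not hp ht ξ
  Aκ' _ ht ξ := C.Aκ_of hp ht ξ
  Bκ _ _ hs ht a ξ := C.B_κ hs ht a ξ
  iω _ ht w := C.i_κ ht w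
  jκ _ ht ξ := C.j_κ ht ξ
  ker _ hs ξ := C.ker_κ hp hs ξ
  range _ hs ξ hξ := C.range_κ hs hU ξ ((mem_kerA_QMof (C.eul hp) ξ).1 hξ)
  range' _ hs ξ := (mem_kerA_QMof (C.eul hp) _).2 (C.range'_κ hs ξ)
  ba _ hs ξ m w h1 h2 := C.ba_κ hs hU ξ m w h1 h2
  ex _ hs m w h := C.ex_κ hs hU m w h
  aBB _ hs _ _ a b ξ := C.BB_κ hs hU a b ξ
  ajB _ hs _ a ξ := C.jB_κ hs hU a ξ
  aBi _ hs _ b w := C.Bi_κ hs hU b w
  aji _ _ w := C.ji_κ w

end ConeOf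

end

end Crest.Agent.R175.PTT_4
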