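import Mathlib

/-!
Row 175 (S0263), block (D): position operators (helper175).

`Spec a b p`: the endomorphism `p` is diagonalisable with integer eigenvalues in `[a,b]`.
-/

set_option autoImplicit false

namespace Crest.Agent.R175.Pos_175

open Polynomial Module

variable {k : Type*} [Field k]

/-- `∏_{n = a}^{b} (X - n)`. -/
noncomputable def box (k : Type*) [Field k] (a b : ℤ) : k[X] :=
  ∏ n ∈ Finset.Icc a b, (X - C (n : k))

variable {V V' : Type*} [AddCommGroup V] [Module k V] [AddCommGroup V'] [Module k V']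

/-- `p` is diagonalisable with integer eigenvalues in `[a,b]`. -/
def Spec (a b : ℤ) (p : Module.End k V) : Prop := aeval p (box k a b) = 0

theorem aeval_comm {p : Module.End k V} {p' : Module.End k V'} (f : V →ₗ[k] V')
    (h : ∀ x, f (p x) = p' (f x)) (q : k[X]) (x : V) :
    f (aeval p q x) = aeval p' q (f x) := by
  induction q using Polynomial.induction_on' with
  | add q₁ q₂ h1 h2 => simp [h1, h2]
  | monomial n c =>
    rw [aeval_monomial, aeval_monomial]
    simp only [Module.End.mul_apply, Module.algebraMap_end_apply, map_smul]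
    congr 1
    induction n with
    | zero => simp
    | succ n ih => rw [pow_succ', pow_succ', Module.End.mul_apply, Module.End.mul_apply, h, ih]

theorem Spec.of_injective {a b : ℤ} {p : Module.End k V} {p' : Module.End k V'} (f : V →ₗ[k] V')
    (hf : Function.Injective f) (h : ∀ x, f (p x) = p' (f x)) (hp : Spec a b p') : Spec a b p := by
  ext x
  apply hf
  rw [aeval_comm f h, hp]
  simp

theorem Spec.of_surjective {a b : ℤ} {p : Module.End k V} {p' : Module.End k V'}
    (f : V →ₗ[k] V') (hf : Function.Surjective f) (h : ∀ x, f (p x) = p' (f x))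
    (hp : Spec a b p) : Spec a b p' := by
  ext y
  obtain ⟨x, rfl⟩ := hf y
  rw [← aeval_comm f h, hp]
  simp

theorem box_dvd {a b a' b' : ℤ} (ha : a' ≤ a) (hb : b ≤ b') : box k a b ∣ box k a' b' :=
  Finset.prod_dvd_prod_of_subset _ _ _ (Finset.Icc_subset_Icc ha hb)

theorem Spec.of_dvd {a b : ℤ} {p : Module.End k V} {q : k[X]} (h : aeval p q = 0)
    (hq : q ∣ box k a b) : Spec a b p := by
  obtain ⟨r, hr⟩ := hq
  rw [Spec, hr, map_mul, h, zero_mul]

theorem Spec.mono {a b a' b' : ℤ} {p : Module.End k V} (h : Spec a b p) (ha : a' ≤ a)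
    (hb : b ≤ b') : Spec a' b' p := Spec.of_dvd h (box_dvd ha hb)

/-- Spectrum of an operator on a sub/quotient etc. is controlled by separating families of maps. -/
theorem Spec.of_family {a b : ℤ} {ι : Type*} {U : ι → Type*} [∀ i, AddCommGroup (U i)]
    [∀ i, Module k (U i)] {p : Module.End k V} (p' : ∀ i, Module.End k (U i))
    (f : ∀ i, V →ₗ[k] U i) (hf : ∀ x, (∀ i, f i x = 0) → x = 0)
    (h : ∀ i x, f i (p x) = p' i (f i x)) (hp : ∀ i, Spec a b (p' i)) : Spec a b p := by
  ext x
  apply hf
  intro i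
  rw [aeval_comm (f i) (h i), hp i]
  simp

theorem Spec.prod {a b : ℤ} {p : Module.End k (V × V')} {p₁ : Module.End k V}
    {p₂ : Module.End k V'} (h : ∀ x, p x = (p₁ x.1, p₂ x.2)) (h₁ : Spec a b p₁)
    (h₂ : Spec a b p₂) : Spec a b p := by
  have e1 : ∀ x, (aeval p (box k a b) x).1 = 0 := by
    intro x
    have := aeval_comm (LinearMap.fst k V V') (p := p) (p' := p₁) (fun x => by simp [h])
      (box k a b) x
    simpa [h₁, show aeval p₁ (box k a b) = 0 from h₁] using this
  have e2 : ∀ x, (aeval p (box k a b) x).2 = 0 := by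
    intro x
    have := aeval_comm (LinearMap.snd k V V') (p := p) (p' := p₂) (fun x => by simp [h])
      (box k a b) x
    simpa [h₂, show aeval p₂ (box k a b) = 0 from h₂] using this
  apply LinearMap.ext
  intro x
  exact Prod.ext (e1 x) (e2 x)

theorem aeval_box_apply_eigen {p : Module.End k V} {x : V} {c : k} (h : p x = c • x)
    (q : k[X]) : aeval p q x = q.eval c • x := by
  induction q using Polynomial.induction_on' with
  | add q₁ q₂ h1 h2 => simp [h1, h2, add_smul]
  | monomial n d =>
    rw [aeval_monomial, eval_monomial, Module.End.mul_apply, Module.algebraMap_end_apply,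
      mul_smul]
    congr 1
    induction n with
    | zero => simp
    | succ n ih => rw [pow_succ', Module.End.mul_apply, ih, map_smul, h, smul_smul, pow_succ]

variable [CharZero k]

theorem eval_box_ne_zero {a b n : ℤ} (h : n < a ∨ b < n) : (box k a b).eval (n : k) ≠ 0 := by
  rw [box, eval_prod, Finset.prod_ne_zero_iff]
  intro m hm
  rw [Finset.mem_Icc] at hm
  simp only [eval_sub, eval_X, eval_C]
  rw [sub_ne_zero]
  intro he
  have : n = m := by exact_mod_cast he
  omega

omit [CharZero k] in
theorem eval_box_eq_zero {a b n : ℤ} (h : a ≤ n) (h' : n ≤ b) : (box k a b).eval (n : k) = 0 := by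
  rw [box, eval_prod, Finset.prod_eq_zero_iff]
  exact ⟨n, Finset.mem_Icc.2 ⟨h, h'⟩, by simp⟩

/-- Eigenvalues lie in `[a,b]`. -/
theorem Spec.mem {a b n : ℤ} {p : Module.End k V} (hp : Spec a b p) {x : V}
    (h : p x = (n : k) • x) (hx : x ≠ 0) : a ≤ n ∧ n ≤ b := by
  by_contra hcon
  have h1 : n < a ∨ b < n := by omega
  have h2 := aeval_box_apply_eigen h (box k a b)
  rw [hp] at h2
  rw [LinearMap.zero_apply] at h2
  rcases smul_eq_zero.1 h2.symm with h3 | h3
  · exact eval_box_ne_zero h1 h3
  · exact hx h3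

theorem Spec.eq_zero {a b n : ℤ} {p : Module.End k V} (hp : Spec a b p) {x : V}
    (h : p x = (n : k) • x) (hn : n < a ∨ b < n) : x = 0 := by
  by_contra hx
  have := hp.mem h hx
  omega

omit [CharZero k] in
/-- `box a b = box a (b-1) * (X - b)`. -/
theorem box_succ_right {a b : ℤ} (h : a ≤ b) :
    box k a b = (X - C (b : k)) * box k a (b - 1) := by
  rw [box, box, ← Finset.prod_insert (s := Finset.Icc a (b - 1)) (a := b)
    (f := fun n : ℤ => X - C (n : k)) (by simp)]
  congr 1
  ext n
  simp only [Finset.mem_Icc, Finset.mem_insert]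
  omega

omit [CharZero k] in
/-- `box a b = (X - a) * box (a+1) b`. -/
theorem box_succ_left {a b : ℤ} (h : a ≤ b) :
    box k a b = (X - C (a : k)) * box k (a + 1) b := by
  rw [box, box, ← Finset.prod_insert (s := Finset.Icc (a + 1) b) (a := a)
    (f := fun n : ℤ => X - C (n : k)) (by simp)]
  congr 1
  ext n
  simp only [Finset.mem_Icc, Finset.mem_insert]
  omega

omit [CharZero k] in
/-- If `[a,b]` bounds the spectrum but `[a,b-1]` does not then `b` is an eigenvalue. -/
theorem exists_top {a b : ℤ} (hab : a ≤ b) {p : Module.End k V} (hp : Spec a b p)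
    (hn : ¬ Spec a (b - 1) p) : ∃ x : V, x ≠ 0 ∧ p x = (b : k) • x := by
  have : ∃ z, aeval p (box k a (b - 1)) z ≠ 0 := by
    by_contra hcon
    push Not at hcon
    exact hn (LinearMap.ext hcon)
  obtain ⟨z, hz⟩ := this
  refine ⟨_, hz, ?_⟩
  have h1 : aeval p (box k a b) z = 0 := by rw [hp]; rfl
  rw [box_succ_right hab, map_mul, Module.End.mul_apply] at h1
  simp only [map_sub, aeval_X, aeval_C, LinearMap.sub_apply, Module.algebraMap_end_apply] at h1
  exact sub_eq_zero.1 h1

omit [CharZero k] in
theorem exists_bot {a b : ℤ} (hab : a ≤ b) {p : Module.End k V} (hp : Spec a b p)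
    (hn : ¬ Spec (a + 1) b p) : ∃ x : V, x ≠ 0 ∧ p x = (a : k) • x := by
  have : ∃ z, aeval p (box k (a + 1) b) z ≠ 0 := by
    by_contra hcon
    push Not at hcon
    exact hn (LinearMap.ext hcon)
  obtain ⟨z, hz⟩ := this
  refine ⟨_, hz, ?_⟩
  have h1 : aeval p (box k a b) z = 0 := by rw [hp]; rfl
  rw [box_succ_left hab, map_mul, Module.End.mul_apply] at h1
  simp only [map_sub, aeval_X, aeval_C, LinearMap.sub_apply, Module.algebraMap_end_apply] at h1
  exact sub_eq_zero.1 h1

/-- The normalised polynomial of the projection to the eigenspace of `c`. -/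
noncomputable def prj (k : Type*) [Field k] (a b c : ℤ) : k[X] :=
  C ((box k a (c - 1) * box k (c + 1) b).eval (c : k))⁻¹ * (box k a (c - 1) * box k (c + 1) b)

theorem prj_eval_self (a b c : ℤ) : (prj k a b c).eval (c : k) = 1 := by
  rw [prj, eval_mul, eval_C, inv_mul_cancel₀]
  rw [eval_mul]
  exact mul_ne_zero (eval_box_ne_zero (by omega)) (eval_box_ne_zero (by omega))

omit [CharZero k] in
theorem prj_eval_ne {a b c n : ℤ} (h : a ≤ n) (h' : n ≤ b) (hn : n ≠ c) :
    (prj k a b c).eval (n : k) = 0 := by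
  have h0 : (box k a (c - 1) * box k (c + 1) b).eval (n : k) = 0 := by
    rw [eval_mul]
    rcases lt_or_gt_of_ne hn with h1 | h1
    · rw [eval_box_eq_zero h (by omega), zero_mul]
    · rw [eval_box_eq_zero (a := c + 1) (b := b) (n := n) (by omega) h', mul_zero]
  rw [prj, eval_mul, h0, mul_zero]

omit [CharZero k] in
theorem box_split {a b c : ℤ} (h : a ≤ c) (h' : c ≤ b) :
    box k a b = (X - C (c : k)) * (box k a (c - 1) * box k (c + 1) b) := by
  have h1 : box k a b = box k a (c - 1) * box k c b := by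
    rw [box, box, box, ← Finset.prod_union]
    · congr 1
      ext n
      simp only [Finset.mem_Icc, Finset.mem_union]
      omega
    · rw [Finset.disjoint_left]
      intro n hn
      simp only [Finset.mem_Icc] at hn ⊢
      omega
  rw [h1, box_succ_left h']
  ring

omit [CharZero k] in
/-- The projection lands in the eigenspace. -/
theorem prj_apply {a b c : ℤ} (h : a ≤ c) (h' : c ≤ b) {p : Module.End k V} (hp : Spec a b p)
    (x : V) : p (aeval p (prj k a b c) x) = (c : k) • aeval p (prj k a b c) x := by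
  have h1 : aeval p ((X - C (c : k)) * prj k a b c) = 0 := by
    rw [prj, mul_left_comm, ← box_split h h', map_mul, hp, mul_zero]
  have h2 : aeval p ((X - C (c : k)) * prj k a b c) x = 0 := by rw [h1]; rfl
  rw [map_mul, Module.End.mul_apply] at h2
  simp only [map_sub, aeval_X, aeval_C, LinearMap.sub_apply, Module.algebraMap_end_apply] at h2
  exact sub_eq_zero.1 h2

theorem prj_of_eigen {a b c : ℤ} {p : Module.End k V} {x : V} (hx : p x = (c : k) • x) :
    aeval p (prj k a b c) x = x := by
  rw [aeval_box_apply_eigen hx, prj_eval_self, one_smul]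

theorem prj_of_eigen_ne {a b c n : ℤ} (h : a ≤ n) (h' : n ≤ b) (hn : n ≠ c)
    {p : Module.End k V} {x : V} (hx : p x = (n : k) • x) :
    aeval p (prj k a b c) x = 0 := by
  rw [aeval_box_apply_eigen hx, prj_eval_ne h h' hn, zero_smul]

theorem box_separable (a b : ℤ) : (box k a b).Separable := by
  rw [box]
  apply separable_prod'
  · intro m hm n hn hmn
    apply isCoprime_X_sub_C_of_isUnit_sub
    rw [isUnit_iff_ne_zero, sub_ne_zero]
    exact_mod_cast hmn
  · intro n _
    exact separable_X_sub_C

variable [FiniteDimensional k V]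

omit [FiniteDimensional k V] in
/-- `p`-stable complements. -/
theorem Spec.exists_isCompl {a b : ℤ} {p : Module.End k V} (hp : Spec a b p)
    (U : Submodule k V) (hU : ∀ x ∈ U, p x ∈ U) :
    ∃ Q : Submodule k V, (∀ x ∈ Q, p x ∈ Q) ∧ IsCompl U Q := by
  have h1 : p.IsSemisimple :=
    Module.End.isSemisimple_of_squarefree_aeval_eq_zero (box_separable a b).squarefree hp
  rw [Module.End.isSemisimple_iff] at h1
  obtain ⟨Q, hQ, hc⟩ := h1 U hU
  exact ⟨Q, hQ, hc⟩

omit [FiniteDimensional k V] in
/-- A projection onto a `p`- and `g`-stable subspace commuting with `p` and `g` (`g² = 1`). -/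
theorem Spec.exists_proj {a b : ℤ} {p g : Module.End k V} (hp : Spec a b p)
    (hg : ∀ x, g (g x) = x) (hgp : ∀ x, g (p x) = p (g x))
    (U : Submodule k V) (hU : ∀ x ∈ U, p x ∈ U) (hU' : ∀ x ∈ U, g x ∈ U) :
    ∃ π : Module.End k V, (∀ x, π x ∈ U) ∧ (∀ x ∈ U, π x = x) ∧
      (∀ x, π (p x) = p (π x)) ∧ (∀ x, π (g x) = g (π x)) := by
  obtain ⟨Q, hQ, hc⟩ := hp.exists_isCompl U hU
  let π₀ : Module.End k V := U.subtype ∘ₗ Submodule.projectionOnto U Q hc
  have a1 : ∀ x, π₀ x ∈ U := fun x => (Submodule.projectionOnto U Q hc x).2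
  have a2 : ∀ x ∈ U, π₀ x = x := fun x hx => by
    have := Submodule.projectionOnto_apply_left hc ⟨x, hx⟩
    exact congrArg Subtype.val this
  have a3 : ∀ x ∈ Q, π₀ x = 0 := fun x hx => by
    have := Submodule.projectionOnto_apply_of_mem_right hc hx
    exact congrArg Subtype.val this
  have a4 : ∀ x, π₀ (p x) = p (π₀ x) := by
    intro x
    obtain ⟨u, hu, q, hq, rfl⟩ : ∃ u ∈ U, ∃ q ∈ Q, u + q = x := by
      have : x ∈ U ⊔ Q := by rw [hc.sup_eq_top]; trivial
      exact Submodule.mem_sup.1 this
    rw [map_add, map_add, map_add, a2 _ (hU u hu), a3 _ (hQ q hq), a2 _ hu, a3 _ hq, add_zero,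
      add_zero]
  refine ⟨(2 : k)⁻¹ • (π₀ + g * π₀ * g), ?_, ?_, ?_, ?_⟩
  · intro x
    exact U.smul_mem _ (U.add_mem (a1 x) (hU' _ (a1 _)))
  · intro x hx
    simp only [LinearMap.smul_apply, LinearMap.add_apply, Module.End.mul_apply, a2 _ hx,
      a2 _ (hU' _ hx), hg]
    rw [← two_smul k x, smul_smul, inv_mul_cancel₀ (two_ne_zero' k), one_smul]
  · intro x
    simp only [LinearMap.smul_apply, LinearMap.add_apply, Module.End.mul_apply, a4, hgp,
      map_smul, map_add]
  · intro x
    simp only [LinearMap.smul_apply, LinearMap.add_apply, Module.End.mul_apply, hg,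
      map_smul, map_add]
    rw [add_comm]

end Crest.Agent.R175.Pos_175
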