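import Crest.Agent.R175.PTA_534

/-!
# Quasi-isomorphism lemma for spaces with a differential (row 175)

`hd_eq` : `(C, D)`, `(C', D')` finite dimensional, `S ≤ C` stable under `D`, `q : S → C'` onto with
`q D = D' q`, `ker q` acyclic, `C / S` acyclic  ⇒  `hd D = hd D'`.
`hd_prod_zero` : a direct factor with zero differential.
-/

set_option autoImplicit false

namespace Crest.Agent.R175.QI_61

open Crest.Agent.R175.PTA

universe v w w'

variable {k : Type v} [Field k] {C : Type w} [AddCommGroup C] [Module k C] [FiniteDimensional k C]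
  {C' : Type w'} [AddCommGroup C'] [Module k C'] [FiniteDimensional k C']

/-- the homology -/
abbrev Hm (D : C →ₗ[k] C) : Type w :=
  (LinearMap.ker D) ⧸ (LinearMap.range D).submoduleOf (LinearMap.ker D)

theorem finrank_Hm {D : C →ₗ[k] C} (h : ∀ x, D (D x) = 0) : Module.finrank k (Hm D) = hd D := by
  have h1 : Module.finrank k (Hm D) + Module.finrank k ((LinearMap.range D).submoduleOf (LinearMap.ker D))
      = Module.finrank k (LinearMap.ker D) := Submodule.finrank_quotient_add_finrank _
  have h2 : Module.finrank k ((LinearMap.range D).submoduleOf (LinearMap.ker D))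
      = Module.finrank k (LinearMap.range D) :=
    (Submodule.submoduleOfEquivOfLe (range_le_ker h)).finrank_eq
  have h3 := hd_add_range h
  omega

theorem hd_eq {D : C →ₗ[k] C} {D' : C' →ₗ[k] C'} (h : ∀ x, D (D x) = 0) (h' : ∀ x, D' (D' x) = 0)
    (S : Submodule k C) (hS : ∀ x ∈ S, D x ∈ S) (q : S →ₗ[k] C')
    (hq : Function.Surjective q) (hqD : ∀ x : S, q ⟨D x, hS x x.2⟩ = D' (q x))
    (hk : ∀ x : S, q x = 0 → D x = 0 → ∃ y : S, q y = 0 ∧ D y = x)
    (hc : ∀ x, D x ∈ S → ∃ y, x - D y ∈ S) : hd D = hd D' := by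
  classical
  -- cocycles in `S`
  let Z : Submodule k C := S ⊓ LinearMap.ker D
  let φ0 : Z →ₗ[k] LinearMap.ker D := Submodule.inclusion inf_le_right
  let φ : Z →ₗ[k] Hm D := (Submodule.mkQ _) ∘ₗ φ0
  let ψ0 : Z →ₗ[k] LinearMap.ker D' := LinearMap.codRestrict _
    (q ∘ₗ Submodule.inclusion inf_le_left) (fun x => by
      have h1 := hqD (Submodule.inclusion inf_le_left x)
      have h2 : (⟨D (Submodule.inclusion (inf_le_left : Z ≤ S) x : C), hS _ (Submodule.inclusion (inf_le_left : Z ≤ S) x).2⟩ : S) = 0 :=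
        Subtype.ext x.2.2
      rw [h2, map_zero] at h1
      exact h1.symm)
  let ψ : Z →ₗ[k] Hm D' := (Submodule.mkQ _) ∘ₗ ψ0
  have hφ : Function.Surjective φ := by
    intro z
    obtain ⟨z, rfl⟩ := Submodule.mkQ_surjective _ z
    obtain ⟨y, hy⟩ := hc z (by rw [show D (z : C) = 0 from z.2]; exact S.zero_mem)
    refine ⟨⟨(z : C) - D y, hy, ?_⟩, ?_⟩
    · show D ((z : C) - D y) = 0
      rw [map_sub, h, show D (z : C) = 0 from z.2, sub_zero]
    · show Submodule.mkQ _ _ = Submodule.mkQ _ _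
      rw [← sub_eq_zero, ← map_sub, Submodule.mkQ_apply, Submodule.Quotient.mk_eq_zero]
      show (z : C) - D y - z ∈ LinearMap.range D
      exact ⟨-y, by rw [map_neg]; abel⟩
  have hψ : Function.Surjective ψ := by
    intro z
    obtain ⟨z, rfl⟩ := Submodule.mkQ_surjective _ z
    obtain ⟨x, hx⟩ := hq z
    obtain ⟨y, hy, hy2⟩ := hk ⟨D x, hS x x.2⟩ (by rw [hqD, hx]; exact z.2) (h x)
    have hy2' : D (y : C) = D (x : C) := hy2
    refine ⟨⟨(x : C) - y, S.sub_mem x.2 y.2, ?_⟩, ?_⟩
    · show D ((x : C) - y) = 0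
      rw [map_sub, hy2', sub_self]
    · show Submodule.mkQ _ _ = Submodule.mkQ _ _
      congr 1
      apply Subtype.ext
      show q (x - y) = z
      rw [map_sub, hx, hy, sub_zero]
  have hker : LinearMap.ker φ = LinearMap.ker ψ := by
    ext x
    rw [LinearMap.mem_ker, LinearMap.mem_ker]
    show Submodule.mkQ _ _ = 0 ↔ Submodule.mkQ _ _ = 0
    rw [Submodule.mkQ_apply, Submodule.Quotient.mk_eq_zero, Submodule.mkQ_apply,
      Submodule.Quotient.mk_eq_zero]
    show (x : C) ∈ LinearMap.range D ↔ q (Submodule.inclusion inf_le_left x) ∈ LinearMap.range D'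
    constructor
    · rintro ⟨y, hy⟩
      obtain ⟨y', hy'⟩ := hc y (by rw [hy]; exact x.2.1)
      refine ⟨q ⟨_, hy'⟩, ?_⟩
      rw [← hqD]
      congr 1
      apply Subtype.ext
      show D (y - D y') = x
      rw [map_sub, h, sub_zero, hy]
    · rintro ⟨y', hy'⟩
      obtain ⟨y, rfl⟩ := hq y'
      rw [← hqD] at hy'
      obtain ⟨w, hw, hw2⟩ := hk (Submodule.inclusion inf_le_left x - ⟨D y, hS y y.2⟩)
        (by rw [map_sub, hy', sub_self]) (by
          show D ((x : C) - D y) = 0
          rw [map_sub, h, sub_zero]; exact x.2.2)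
      have hw2' : D (w : C) = (x : C) - D y := hw2
      refine ⟨(y : C) + w, ?_⟩
      rw [map_add, hw2']; abel
  have e1 := LinearMap.finrank_range_add_finrank_ker φ
  have e2 := LinearMap.finrank_range_add_finrank_ker ψ
  rw [LinearMap.range_eq_top.2 hφ, finrank_top, finrank_Hm h] at e1
  rw [LinearMap.range_eq_top.2 hψ, finrank_top, finrank_Hm h'] at e2
  rw [hker] at e1
  omega

theorem hd_prod_zero {D : C →ₗ[k] C} (h : ∀ x, D (D x) = 0) :
    hd (LinearMap.prodMap D (0 : C' →ₗ[k] C')) = hd D + Module.finrank k C' := by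
  have h2 : ∀ x, (LinearMap.prodMap D (0 : C' →ₗ[k] C')) ((LinearMap.prodMap D (0 : C' →ₗ[k] C')) x) = 0 := by
    intro x
    exact Prod.ext (h x.1) rfl
  have e1 := hd_add_two_range h
  have e2 := hd_add_two_range h2
  have e3 : Module.finrank k (LinearMap.range (LinearMap.prodMap D (0 : C' →ₗ[k] C')))
      = Module.finrank k (LinearMap.range D) := by
    have : LinearMap.range (LinearMap.prodMap D (0 : C' →ₗ[k] C'))
        = (LinearMap.range D).map (LinearMap.inl k C C') := by
      ext x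
      simp only [LinearMap.mem_range, Submodule.mem_map]
      constructor
      · rintro ⟨y, rfl⟩
        exact ⟨D y.1, ⟨y.1, rfl⟩, rfl⟩
      · rintro ⟨_, ⟨y, rfl⟩, rfl⟩
        exact ⟨(y, 0), rfl⟩
    rw [this]
    exact (Submodule.equivMapOfInjective _ LinearMap.inl_injective _).finrank_eq.symm
  rw [e3, Module.finrank_prod] at e2
  omega

end Crest.Agent.R175.QI_61
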