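import Mathlib

/-!
# Row 175 (S0263): total Betti number of a finite dimensional differential module

`hh D = dim ker D - dim range D`.  Main result `hh_eq_of_zigzag`: if `S ≤ C` is `D`-stable with
acyclic quotient and `q : S → C'` is a surjective chain map with acyclic kernel then
`hh D = hh D'`.  Used for the reduction RED (see post of helper272).
-/

open Module LinearMap

namespace Crest.Agent.R175.QIso_272

variable {k : Type*} [Field k]
variable {C : Type*} [AddCommGroup C] [Module k C]
variable {C' : Type*} [AddCommGroup C'] [Module k C']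

/-- total Betti number of a differential module -/
noncomputable def hh (D : C →ₗ[k] C) : ℕ := finrank k (ker D) - finrank k (range D)

theorem range_le_ker {D : C →ₗ[k] C} (hD : ∀ x, D (D x) = 0) : range D ≤ ker D := by
  rintro _ ⟨x, rfl⟩; exact hD x

theorem hh_add [FiniteDimensional k C] {D : C →ₗ[k] C} (hD : ∀ x, D (D x) = 0) :
    hh D + finrank k (range D) = finrank k (ker D) := by
  have := Submodule.finrank_mono (range_le_ker hD)
  unfold hh; omega

theorem hh_add_two [FiniteDimensional k C] {D : C →ₗ[k] C} (hD : ∀ x, D (D x) = 0) :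
    hh D + 2 * finrank k (range D) = finrank k C := by
  have h1 := hh_add hD
  have h2 := finrank_range_add_finrank_ker D
  omega

/-- dimension of the image of a submodule -/
theorem finrank_map_add [FiniteDimensional k C] (q : C →ₗ[k] C') (A : Submodule k C) :
    finrank k (A.map q) + finrank k (A ⊓ ker q : Submodule k C) = finrank k A := by
  have h := finrank_range_add_finrank_ker (q.domRestrict A)
  have h1 : range (q.domRestrict A) = A.map q := by
    ext y; simp [Submodule.mem_map]
  have h2 : finrank k (ker (q.domRestrict A)) = finrank k (A ⊓ ker q : Submodule k C) := by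
    have h3 : (ker (q.domRestrict A)).map A.subtype = A ⊓ ker q := by
      ext y; simp [Submodule.mem_map, LinearMap.mem_ker, and_comm]
    rw [← h3]
    exact (Submodule.finrank_map_subtype_eq A _).symm
  rw [h1, h2] at h
  exact h

/-- a surjective chain map with acyclic kernel -/
theorem hh_eq_of_surj [FiniteDimensional k C] (D : C →ₗ[k] C) (D' : C' →ₗ[k] C')
    (hD : ∀ x, D (D x) = 0)
    (q : C →ₗ[k] C') (hq : Function.Surjective q) (hc : ∀ x, q (D x) = D' (q x))
    (hk : ∀ x, q x = 0 → D x = 0 → ∃ y, q y = 0 ∧ D y = x) :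
    hh D = hh D' := by
  have : FiniteDimensional k C' := Module.Finite.of_surjective q hq
  have h1 : (ker D).map q = ker D' := by
    ext y
    simp only [Submodule.mem_map, LinearMap.mem_ker]
    constructor
    · rintro ⟨x, hx, rfl⟩
      rw [← hc, hx, map_zero]
    · intro hy
      obtain ⟨x, rfl⟩ := hq y
      obtain ⟨z, hz1, hz2⟩ := hk (D x) (by rw [hc, hy]) (hD x)
      exact ⟨x - z, by rw [map_sub, hz2, sub_self], by rw [map_sub, hz1, sub_zero]⟩
  have h2 : (range D).map q = range D' := by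
    ext y
    simp only [Submodule.mem_map, LinearMap.mem_range]
    constructor
    · rintro ⟨_, ⟨x, rfl⟩, rfl⟩
      exact ⟨q x, (hc x).symm⟩
    · rintro ⟨z, rfl⟩
      obtain ⟨x, rfl⟩ := hq z
      exact ⟨D x, ⟨x, rfl⟩, hc x⟩
  have h3 : ker D ⊓ ker q = range D ⊓ ker q := by
    apply le_antisymm
    · rintro x ⟨hx1, hx2⟩
      obtain ⟨y, _, hy2⟩ := hk x hx2 hx1
      exact ⟨⟨y, hy2⟩, hx2⟩
    · exact inf_le_inf_right _ (range_le_ker hD)
  have e1 := finrank_map_add q (ker D)
  have e2 := finrank_map_add q (range D)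
  rw [h1] at e1
  rw [h2] at e2
  rw [h3] at e1
  have e3 := Submodule.finrank_mono (range_le_ker hD)
  unfold hh
  omega

/-- a `D`-stable submodule with acyclic quotient -/
theorem hh_restrict_eq [FiniteDimensional k C] (D : C →ₗ[k] C) (hD : ∀ x, D (D x) = 0)
    (S : Submodule k C) (hS : ∀ x ∈ S, D x ∈ S)
    (ha : ∀ x, D x ∈ S → ∃ y, x - D y ∈ S) :
    hh (D.restrict hS) = hh D := by
  -- kernel and range of the restriction
  have h1 : finrank k (ker (D.restrict hS)) = finrank k (ker D ⊓ S : Submodule k C) := by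
    have h3 : (ker (D.restrict hS)).map S.subtype = ker D ⊓ S := by
      ext y
      simp only [Submodule.mem_map, LinearMap.mem_ker, Submodule.mem_inf]
      constructor
      · rintro ⟨x, hx, rfl⟩
        refine ⟨?_, x.2⟩
        have := congrArg Subtype.val hx
        simpa using this
      · rintro ⟨hy1, hy2⟩
        exact ⟨⟨y, hy2⟩, by ext; simpa using hy1, rfl⟩
    rw [← h3]
    exact (Submodule.finrank_map_subtype_eq S _).symm
  have h2 : finrank k (range (D.restrict hS)) = finrank k (range D ⊓ S : Submodule k C) := by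
    have h3 : (range (D.restrict hS)).map S.subtype = range D ⊓ S := by
      ext y
      simp only [Submodule.mem_map, LinearMap.mem_range, Submodule.mem_inf]
      constructor
      · rintro ⟨_, ⟨x, rfl⟩, rfl⟩
        refine ⟨⟨x.1, rfl⟩, (D.restrict hS x).2⟩
      · rintro ⟨⟨z, rfl⟩, hy2⟩
        obtain ⟨y, hy⟩ := ha z hy2
        refine ⟨⟨D z, hy2⟩, ⟨⟨z - D y, hy⟩, ?_⟩, rfl⟩
        ext
        simp [hD]
    rw [← h3]
    exact (Submodule.finrank_map_subtype_eq S _).symm
  have h4 : (ker D).map S.mkQ = (range D).map S.mkQ := by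
    apply le_antisymm
    · rintro _ ⟨x, hx, rfl⟩
      obtain ⟨y, hy⟩ := ha x (by rw [LinearMap.mem_ker.1 hx]; exact S.zero_mem)
      refine ⟨D y, ⟨y, rfl⟩, ?_⟩
      rw [← sub_eq_zero, ← map_sub, Submodule.mkQ_apply, Submodule.Quotient.mk_eq_zero]
      rw [← neg_sub]
      exact S.neg_mem hy
    · exact Submodule.map_mono (range_le_ker hD)
  have e1 := finrank_map_add S.mkQ (ker D)
  have e2 := finrank_map_add S.mkQ (range D)
  rw [Submodule.ker_mkQ] at e1 e2
  rw [h4] at e1
  unfold hh
  rw [h1, h2]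
  have e3 := Submodule.finrank_mono (range_le_ker hD)
  have e4 : finrank k (range D ⊓ S : Submodule k C) ≤ finrank k (ker D ⊓ S : Submodule k C) :=
    Submodule.finrank_mono (inf_le_inf_right _ (range_le_ker hD))
  omega

/-- **zigzag**: `C ⊇ S → C'` with acyclic `C/S` and acyclic `ker q`. -/
theorem hh_eq_of_zigzag [FiniteDimensional k C] (D : C →ₗ[k] C) (hD : ∀ x, D (D x) = 0)
    (S : Submodule k C) (hS : ∀ x ∈ S, D x ∈ S)
    (ha : ∀ x, D x ∈ S → ∃ y, x - D y ∈ S)
    (D' : C' →ₗ[k] C') (q : S →ₗ[k] C') (hq : Function.Surjective q)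
    (hc : ∀ x : S, q ⟨D x, hS x x.2⟩ = D' (q x))
    (hk : ∀ x : S, q x = 0 → D x = 0 → ∃ y : S, q y = 0 ∧ D y = x) :
    hh D = hh D' := by
  rw [← hh_restrict_eq D hD S hS ha]
  refine hh_eq_of_surj (D.restrict hS) D' ?_ q hq ?_ ?_
  · intro x; ext; simp [hD]
  · intro x
    rw [← hc]
    rfl
  · intro x hx1 hx2
    obtain ⟨y, hy1, hy2⟩ := hk x hx1 (by simpa using congrArg Subtype.val hx2)
    exact ⟨y, hy1, by ext; simpa using hy2⟩

/-- version in which `q` is defined on all of `C` (only its values on `S` matter) and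
acyclicity of the two ends is given by explicit formulas. -/
theorem hh_eq_of_zigzag' [FiniteDimensional k C] (D : C →ₗ[k] C) (hD : ∀ x, D (D x) = 0)
    (S : Submodule k C) (hS : ∀ x ∈ S, D x ∈ S)
    (ha : ∀ x, D x ∈ S → ∃ y, x - D y ∈ S)
    (D' : C' →ₗ[k] C') (q : C →ₗ[k] C') (hq : ∀ z, ∃ x ∈ S, q x = z)
    (hc : ∀ x ∈ S, q (D x) = D' (q x))
    (hk : ∀ x ∈ S, q x = 0 → D x = 0 → ∃ y ∈ S, q y = 0 ∧ D y = x) :
    hh D = hh D' := by
  refine hh_eq_of_zigzag D hD S hS ha D' (q.domRestrict S) ?_ ?_ ?_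
  · intro z
    obtain ⟨x, hx, hz⟩ := hq z
    exact ⟨⟨x, hx⟩, hz⟩
  · intro x; exact hc x x.2
  · intro x hx1 hx2
    obtain ⟨y, hy, hy1, hy2⟩ := hk x x.2 hx1 hx2
    exact ⟨⟨y, hy⟩, hy1, hy2⟩

/-- isomorphism invariance -/
theorem hh_equiv [FiniteDimensional k C] (D : C →ₗ[k] C) (hD : ∀ x, D (D x) = 0)
    (D' : C' →ₗ[k] C') (e : C ≃ₗ[k] C') (hc : ∀ x, e (D x) = D' (e x)) : hh D = hh D' :=
  hh_eq_of_surj D D' hD e.toLinearMap e.surjective hc (fun x hx _ => ⟨0, by simp, by
    have : x = 0 := by simpa using hx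
    simp [this]⟩)

theorem hh_zero [FiniteDimensional k C] : hh (0 : C →ₗ[k] C) = finrank k C := by
  have := hh_add_two (k := k) (C := C) (D := 0) (fun x => rfl)
  rw [LinearMap.range_zero, finrank_bot] at this
  simpa using this

/-- products -/
theorem hh_prodMap [FiniteDimensional k C] [FiniteDimensional k C']
    (D : C →ₗ[k] C) (hD : ∀ x, D (D x) = 0) (D' : C' →ₗ[k] C') (hD' : ∀ x, D' (D' x) = 0) :
    hh (D.prodMap D') = hh D + hh D' := by
  have h0 : ∀ x, (D.prodMap D') ((D.prodMap D') x) = 0 := by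
    rintro ⟨x, y⟩; simp [hD, hD']
  have e1 := hh_add_two h0
  have e2 := hh_add_two hD
  have e3 := hh_add_two hD'
  rw [Module.finrank_prod] at e1
  have e4 : finrank k (range (D.prodMap D')) = finrank k (range D) + finrank k (range D') := by
    have : range (D.prodMap D') = (range D).prod (range D') := by
      ext ⟨a, b⟩
      simp only [LinearMap.mem_range, LinearMap.prodMap_apply, Prod.mk.injEq,
        Submodule.mem_prod]
      constructor
      · rintro ⟨⟨x, y⟩, h1, h2⟩
        exact ⟨⟨x, h1⟩, ⟨y, h2⟩⟩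
      · rintro ⟨⟨x, h1⟩, ⟨y, h2⟩⟩
        exact ⟨⟨x, y⟩, h1, h2⟩
    rw [this]
    let e : ((range D).prod (range D')) ≃ₗ[k] (range D) × (range D') :=
      { toFun := fun z => (⟨z.1.1, z.2.1⟩, ⟨z.1.2, z.2.2⟩)
        map_add' := fun _ _ => rfl
        map_smul' := fun _ _ => rfl
        invFun := fun z => ⟨(z.1.1, z.2.1), ⟨z.1.2, z.2.2⟩⟩
        left_inv := fun _ => rfl
        right_inv := fun _ => rfl }
    rw [e.finrank_eq, Module.finrank_prod]
  omega

end Crest.Agent.R175.QIso_272
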