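import Mathlib
import Crest.Agent.R175.PTA_534
import Crest.Agent.R175.QIso_272

/-!
# Row 175 (S0263): the reduction RED for T-framed objects (non-minimal form)

`RData C` : spaces `K t` with involution, `u t : K t → W t`, `Xi t : W t → K t` even,
`Xi u = 0`, `Xi j i u = 1`.  `RData.tob` : the reduced object `C'` (all vertices at once):
`V' t = ker (Xi j)`, `W' s = (ker Xi ⊓ ker (Xi j i)) × Π (a : s → t), K t`.

Main results: `RData.hT_tob : hT X C = hT X C' + ∑ t, dim (K t) * lam X t` for all `X`,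
`RData.lam_tob : lam C' s + 2 dim (K s) = lam C s + ∑ t, #(E s t) * dim (K t)`.
-/

set_option autoImplicit false
set_option linter.unusedSectionVars false
set_option linter.unusedVariables false
set_option linter.unusedSimpArgs false

open CategoryTheory

namespace Crest.Agent.R175.Red_272

open PTA QIso_272

universe v

variable {T : Type} [Fintype T] {G : MG T} {k : Type v} [Field k]

/-! ### elementwise identities of an object -/

section comp
variable (C : TOb G k) {s t : T}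

theorem d0d0 (x : C.X.V t) : c0 C.d t (c0 C.d t x) = 0 := by
  have h : c0 C.d t ∘ₗ c0 C.d t = 0 := congrArg (fun f => c0 f t) C.dd
  exact LinearMap.congr_fun h x

theorem Bd0 (a : G.E s t) (x : C.X.V s) :
    c1 C.d a (c0 C.d s x) + c0 C.d t (c1 C.d a x) = 0 := by
  have h : c1 C.d a ∘ₗ c0 C.d s + c0 C.d t ∘ₗ c1 C.d a = 0 := congrArg (fun f => c1 f a) C.dd
  exact LinearMap.congr_fun h x

theorem d0i (w : C.X.W t) : c0 C.d t (ci C.d t w) = 0 := by
  have h : ci C.d t ∘ₗ cW C.d t + c0 C.d t ∘ₗ ci C.d t = 0 := congrArg (fun f => ci f t) C.dd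
  rw [C.dW t, LinearMap.comp_zero, zero_add] at h
  exact LinearMap.congr_fun h w

theorem jd0 (x : C.X.V t) : cj C.d t (c0 C.d t x) = 0 := by
  have h : cj C.d t ∘ₗ c0 C.d t + cW C.d t ∘ₗ cj C.d t = 0 := congrArg (fun f => cj f t) C.dd
  rw [C.dW t, LinearMap.zero_comp, add_zero] at h
  exact LinearMap.congr_fun h x

theorem mcx (x : C.X.V t) : c2 C.d t (c0 C.d t x) + c0 C.d t (c2 C.d t x)
    + (∑ s, ∑ a : G.E t s, c1 C.d (G.rev a) (c1 C.d a x)) + ci C.d t (cj C.d t x) = 0 := by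
  have h : c2 C.d t ∘ₗ c0 C.d t + c0 C.d t ∘ₗ c2 C.d t
      + (∑ s, ∑ a : G.E t s, c1 C.d (G.rev a) ∘ₗ c1 C.d a) + ci C.d t ∘ₗ cj C.d t = 0 :=
    congrArg (fun f => c2 f t) C.dd
  have h2 := LinearMap.congr_fun h x
  simpa [LinearMap.sum_apply] using h2

theorem g0 (x : C.X.V t) : C.X.gV t (c0 C.d t x) = -c0 C.d t (C.X.gV t x) := by
  have h : C.X.gV t ∘ₗ c0 C.d t = -(c0 C.d t ∘ₗ C.X.gV t) := congrArg (fun f => c0 f t) C.dg
  exact LinearMap.congr_fun h x

theorem g1 (a : G.E s t) (x : C.X.V s) :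
    C.X.gV t (c1 C.d a x) = -c1 C.d a (C.X.gV s x) := by
  have h := congrArg (fun f => c1 f a) C.dg
  have h' : C.X.gV t ∘ₗ c1 C.d a = -(c1 C.d a ∘ₗ C.X.gV s) := by simpa using h
  exact LinearMap.congr_fun h' x

theorem gi (w : C.X.W t) : C.X.gV t (ci C.d t w) = -ci C.d t (C.X.gW t w) := by
  have h := congrArg (fun f => ci f t) C.dg
  have h' : C.X.gV t ∘ₗ ci C.d t = -(ci C.d t ∘ₗ C.X.gW t) := by simpa using h
  exact LinearMap.congr_fun h' w

theorem gj (x : C.X.V t) : C.X.gW t (cj C.d t x) = -cj C.d t (C.X.gV t x) := by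
  have h := congrArg (fun f => cj f t) C.dg
  have h' : C.X.gW t ∘ₗ cj C.d t = -(cj C.d t ∘ₗ C.X.gV t) := by simpa using h
  exact LinearMap.congr_fun h' x

theorem g2 (x : C.X.V t) : C.X.gV t (c2 C.d t x) = -c2 C.d t (C.X.gV t x) := by
  have h := congrArg (fun f => c2 f t) C.dg
  have h' : C.X.gV t ∘ₗ c2 C.d t = -(c2 C.d t ∘ₗ C.X.gV t) := by simpa using h
  exact LinearMap.congr_fun h' x

end comp

@[simp] theorem gVV (X : Gob G k) (t : T) (x : X.V t) : X.gV t (X.gV t x) = x :=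
  LinearMap.congr_fun (X.gV_sq t) x

@[simp] theorem gWW (X : Gob G k) (t : T) (x : X.W t) : X.gW t (X.gW t x) = x :=
  LinearMap.congr_fun (X.gW_sq t) x

/-- data for the reduction -/
structure RData (C : TOb G k) where
  K : T → Type v
  [K1 : ∀ t, AddCommGroup (K t)]
  [K2 : ∀ t, Module k (K t)]
  [K3 : ∀ t, FiniteDimensional k (K t)]
  gK : ∀ t, K t →ₗ[k] K t
  gK_sq : ∀ t x, gK t (gK t x) = x
  u : ∀ t, K t →ₗ[k] C.X.W t
  Xi : ∀ t, C.X.W t →ₗ[k] K t
  gu : ∀ t x, C.X.gW t (u t x) = u t (gK t x)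
  gXi : ∀ t w, Xi t (C.X.gW t w) = gK t (Xi t w)
  Xiu : ∀ t x, Xi t (u t x) = 0
  perf : ∀ t x, Xi t (cj C.d t (ci C.d t (u t x))) = x

attribute [instance] RData.K1 RData.K2 RData.K3

namespace RData

variable {C : TOb G k} (R : RData C)

/-- `v = i u` -/
def v (t : T) : R.K t →ₗ[k] C.X.V t := ci C.d t ∘ₗ R.u t
/-- `xi = Xi j` -/
def xi (t : T) : C.X.V t →ₗ[k] R.K t := R.Xi t ∘ₗ cj C.d t
/-- `eta = xi i` -/
def eta (t : T) : C.X.W t →ₗ[k] R.K t := R.xi t ∘ₗ ci C.d t

section el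
variable {s t : T}
theorem iu (x : R.K t) : ci C.d t (R.u t x) = R.v t x := rfl
theorem Xij (x : C.X.V t) : R.Xi t (cj C.d t x) = R.xi t x := rfl
theorem xii (w : C.X.W t) : R.xi t (ci C.d t w) = R.eta t w := rfl
theorem xiv (x : R.K t) : R.xi t (R.v t x) = x := R.perf t x
theorem etau (x : R.K t) : R.eta t (R.u t x) = x := R.perf t x
theorem xid0 (x : C.X.V t) : R.xi t (c0 C.d t x) = 0 := by
  show R.Xi t (cj C.d t (c0 C.d t x)) = 0
  rw [jd0, map_zero]
theorem d0v (x : R.K t) : c0 C.d t (R.v t x) = 0 := d0i C _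
theorem gv (x : R.K t) : C.X.gV t (R.v t x) = -R.v t (R.gK t x) := by
  show C.X.gV t (ci C.d t (R.u t x)) = -ci C.d t (R.u t (R.gK t x))
  rw [gi, R.gu]
theorem xig (x : C.X.V t) : R.xi t (C.X.gV t x) = -R.gK t (R.xi t x) := by
  have h := gj C x
  show R.Xi t (cj C.d t (C.X.gV t x)) = -R.gK t (R.Xi t (cj C.d t x))
  rw [← R.gXi, h, map_neg, neg_neg]
theorem etag (w : C.X.W t) : R.eta t (C.X.gW t w) = R.gK t (R.eta t w) := by
  have h := gi C w
  have h2 : ci C.d t (C.X.gW t w) = -C.X.gV t (ci C.d t w) := by rw [h, neg_neg]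
  show R.xi t (ci C.d t (C.X.gW t w)) = _
  rw [h2, map_neg, xig, neg_neg]
  rfl
end el

/-- the new `V` -/
abbrev V' (t : T) : Submodule k (C.X.V t) := LinearMap.ker (R.xi t)
/-- the old frames which survive -/
abbrev W0 (t : T) : Submodule k (C.X.W t) := LinearMap.ker (R.Xi t) ⊓ LinearMap.ker (R.eta t)

/-- projection to `V'` -/
def P (t : T) : C.X.V t →ₗ[k] R.V' t :=
  LinearMap.codRestrict _ (LinearMap.id - R.v t ∘ₗ R.xi t) (by
    intro x
    simp [LinearMap.mem_ker, R.xiv])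

theorem P_coe (t : T) (x : C.X.V t) : (R.P t x : C.X.V t) = x - R.v t (R.xi t x) := rfl

theorem P_v (t : T) (x : R.K t) : R.P t (R.v t x) = 0 := by
  apply Subtype.ext; rw [P_coe, R.xiv, sub_self]; rfl

theorem P_sub (t : T) (x : R.V' t) : R.P t x = x := by
  apply Subtype.ext; rw [P_coe, LinearMap.mem_ker.1 x.2, map_zero, sub_zero]

theorem xiP (t : T) (x : R.V' t) : R.xi t x = 0 := LinearMap.mem_ker.1 x.2

/-- a right inverse of `Xi` with values in `ker eta` -/
def w1 (t : T) : R.K t →ₗ[k] C.X.W t :=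
  cj C.d t ∘ₗ R.v t - R.u t ∘ₗ R.eta t ∘ₗ cj C.d t ∘ₗ R.v t

theorem Xiw1 (t : T) (x : R.K t) : R.Xi t (R.w1 t x) = x := by
  simp [w1, R.Xij, R.xiv, R.Xiu]

theorem etaw1 (t : T) (x : R.K t) : R.eta t (R.w1 t x) = 0 := by
  simp [w1, R.etau]

/-- projection to `W0` -/
def Q (t : T) : C.X.W t →ₗ[k] R.W0 t :=
  LinearMap.codRestrict _ (LinearMap.id - R.u t ∘ₗ R.eta t - R.w1 t ∘ₗ R.Xi t) (by
    intro x
    simp [LinearMap.mem_ker, Submodule.mem_inf, R.Xiu, R.Xiw1, R.etau, R.etaw1])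

theorem Q_coe (t : T) (w : C.X.W t) :
    (R.Q t w : C.X.W t) = w - R.u t (R.eta t w) - R.w1 t (R.Xi t w) := rfl

theorem Q_coe' (t : T) (w : C.X.W t) (h : R.Xi t w = 0) :
    (R.Q t w : C.X.W t) = w - R.u t (R.eta t w) := by
  rw [Q_coe, h, map_zero, sub_zero]

theorem Q_sub (t : T) (w : R.W0 t) : R.Q t w = w := by
  apply Subtype.ext
  have h1 : R.Xi t w = 0 := LinearMap.mem_ker.1 w.2.1
  have h2 : R.eta t w = 0 := LinearMap.mem_ker.1 w.2.2
  rw [Q_coe, h1, h2, map_zero, map_zero, sub_zero, sub_zero]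

/-- the new frames at `s` -/
abbrev KK (s : T) : Type v := (t : T) → G.E s t → R.K t

/-- the parity of the new frames -/
def gKK (s : T) : R.KK s →ₗ[k] R.KK s where
  toFun κ := fun t a => -R.gK t (κ t a)
  map_add' κ κ' := by funext t a; simp [add_comm]
  map_smul' c κ := by funext t a; simp

@[simp] theorem gKK_apply (s : T) (κ : R.KK s) (t : T) (a : G.E s t) :
    R.gKK s κ t a = -R.gK t (κ t a) := rfl

/-- maps of the new frames -/
def iKK (s : T) : R.KK s →ₗ[k] R.V' s where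
  toFun κ := ∑ t, ∑ a : G.E s t, R.P s (c1 C.d (G.rev a) (R.v t (κ t a)))
  map_add' κ κ' := by simp [Finset.sum_add_distrib]
  map_smul' c κ := by simp [Finset.smul_sum]

theorem iKK_apply (s : T) (κ : R.KK s) :
    R.iKK s κ = ∑ t, ∑ a : G.E s t, R.P s (c1 C.d (G.rev a) (R.v t (κ t a))) := rfl

/-- maps to the new frames, on all of `V` -/
def jKK (s : T) : C.X.V s →ₗ[k] R.KK s where
  toFun x := fun t a => R.xi t (c1 C.d a x)
  map_add' x y := by funext t a; simp
  map_smul' c x := by funext t a; simp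

@[simp] theorem jKK_apply (s : T) (x : C.X.V s) (t : T) (a : G.E s t) :
    R.jKK s x t a = R.xi t (c1 C.d a x) := rfl

/-- the underlying graded object -/
def gob : Gob G k where
  V t := R.V' t
  W s := R.W0 s × R.KK s
  gV t := R.P t ∘ₗ C.X.gV t ∘ₗ Submodule.subtype _
  gW s := LinearMap.prodMap (R.Q s ∘ₗ C.X.gW s ∘ₗ Submodule.subtype _) (R.gKK s)
  gV_sq t := by
    ext x
    have hx : R.xi t x = 0 := R.xiP t x
    simp [P_coe, R.xig, hx]
  gW_sq s := by
    apply LinearMap.ext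
    rintro ⟨w, κ⟩
    have h1 : R.Xi s w = 0 := LinearMap.mem_ker.1 w.2.1
    have h2 : R.eta s w = 0 := LinearMap.mem_ker.1 w.2.2
    apply Prod.ext
    · apply Subtype.ext
      simp [Q_coe, R.gXi, R.etag, h1, h2]
    · funext t a
      simp [R.gK_sq]

/-- inclusion -/
def io (t : T) : R.gob.V t →ₗ[k] C.X.V t := Submodule.subtype (R.V' t)

theorem io_inj {t : T} {x y : R.gob.V t} (h : R.io t x = R.io t y) : x = y := Subtype.ext h

theorem gV_io (t : T) (x : R.gob.V t) : R.io t (R.gob.gV t x) = C.X.gV t (R.io t x) := by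
  show (R.P t (C.X.gV t (R.io t x)) : C.X.V t) = _
  rw [P_coe, R.xig]
  have : R.xi t (R.io t x) = 0 := R.xiP t x
  rw [this, map_zero, neg_zero, map_zero, sub_zero]

theorem xi_io (t : T) (x : R.gob.V t) : R.xi t (R.io t x) = 0 := R.xiP t x

/-- projection with values in the new object -/
def pr (t : T) : C.X.V t →ₗ[k] R.gob.V t := R.P t

theorem io_pr (t : T) (x : C.X.V t) : R.io t (R.pr t x) = x - R.v t (R.xi t x) := rfl
theorem pr_io (t : T) (x : R.gob.V t) : R.pr t (R.io t x) = x := R.P_sub t x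
theorem pr_v (t : T) (x : R.K t) : R.pr t (R.v t x) = 0 := R.P_v t x

theorem pr_gV (t : T) (x : C.X.V t) : R.pr t (C.X.gV t x) = R.gob.gV t (R.pr t x) := by
  apply R.io_inj
  rw [gV_io, io_pr, io_pr, map_sub, R.xig, R.gv, map_neg, sub_neg_eq_add]

/-- the differential of the reduced object -/
def dd' : R.gob ⟶ R.gob :=
  mkH (fun t => R.pr t ∘ₗ c0 C.d t ∘ₗ R.io t) (fun _ => 0)
    (fun s t a => R.pr t ∘ₗ c1 C.d a ∘ₗ R.io s)
    (fun s => LinearMap.coprod (R.pr s ∘ₗ ci C.d s ∘ₗ Submodule.subtype (R.W0 s)) (R.iKK s))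
    (fun s => LinearMap.prod (R.Q s ∘ₗ cj C.d s ∘ₗ R.io s) (R.jKK s ∘ₗ R.io s))
    (fun t => R.pr t ∘ₗ c2 C.d t ∘ₗ R.io t)

section ddl
variable {s t : T}
theorem c0dd (x : R.gob.V t) : c0 R.dd' t x = R.pr t (c0 C.d t (R.io t x)) := rfl
theorem c1dd (a : G.E s t) (x : R.gob.V s) : c1 R.dd' a x = R.pr t (c1 C.d a (R.io s x)) := rfl
theorem c2dd (x : R.gob.V t) : c2 R.dd' t x = R.pr t (c2 C.d t (R.io t x)) := rfl
theorem cidd (w : R.W0 s) (κ : R.KK s) : ci R.dd' s (w, κ) =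
    R.pr s (ci C.d s w) + ∑ t, ∑ a : G.E s t, R.pr s (c1 C.d (G.rev a) (R.v t (κ t a))) := rfl
theorem cjdd (x : R.gob.V s) : cj R.dd' s x =
    (R.Q s (cj C.d s (R.io s x)), R.jKK s (R.io s x)) := rfl

theorem io_c0 (x : C.X.V t) : R.io t (R.pr t (c0 C.d t x)) = c0 C.d t x := by
  rw [io_pr, R.xid0, map_zero, sub_zero]

theorem c0_io_pr (x : C.X.V t) : c0 C.d t (R.io t (R.pr t x)) = c0 C.d t x := by
  rw [io_pr, map_sub, R.d0v, sub_zero]

/-- key identity for the sums -/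
theorem sum_key (s : T) (y : (t : T) → G.E s t → C.X.V t) :
    (∑ t, ∑ a : G.E s t, R.pr s (c1 C.d (G.rev a) (R.io t (R.pr t (y t a)))))
    + (∑ t, ∑ a : G.E s t, R.pr s (c1 C.d (G.rev a) (R.v t (R.xi t (y t a)))))
    = R.pr s (∑ t, ∑ a : G.E s t, c1 C.d (G.rev a) (y t a)) := by
  rw [← Finset.sum_add_distrib, map_sum]
  refine Finset.sum_congr rfl fun t _ => ?_
  rw [← Finset.sum_add_distrib, map_sum]
  refine Finset.sum_congr rfl fun a _ => ?_
  rw [← map_add, ← map_add, io_pr, sub_add_cancel]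

/-- the frame part -/
theorem i_Q (w : C.X.W t) (hw : R.Xi t w = 0) :
    R.pr t (ci C.d t (R.Q t w : C.X.W t)) = R.pr t (ci C.d t w) := by
  rw [Q_coe' _ _ _ hw, map_sub, map_sub, R.iu, R.pr_v, sub_zero]
end ddl

theorem sq_zero : R.dd' ≫ R.dd' = 0 := by
  apply hm_ext
  · intro t
    apply LinearMap.ext; intro x
    show c0 R.dd' t (c0 R.dd' t x) = 0
    rw [c0dd, c0dd, io_c0, d0d0, map_zero]
  · intro t; apply LinearMap.ext; intro x; rfl
  · intro s t a
    apply LinearMap.ext; intro x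
    show c1 R.dd' a (c0 R.dd' s x) + c0 R.dd' t (c1 R.dd' a x) = 0
    rw [c0dd, c1dd, c0dd, c1dd, io_c0, c0_io_pr, ← map_add, Bd0, map_zero]
  · intro s
    apply LinearMap.ext
    rintro ⟨w, κ⟩
    show ci R.dd' s (0 : R.gob.W s) + c0 R.dd' s (ci R.dd' s (w, κ)) = 0
    rw [map_zero, zero_add, cidd, map_add, c0dd, c0_io_pr, d0i, map_zero, zero_add, map_sum]
    refine Finset.sum_eq_zero fun t _ => ?_
    rw [map_sum]
    refine Finset.sum_eq_zero fun a _ => ?_
    rw [c0dd, c0_io_pr]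
    have h := Bd0 C (G.rev a) (R.v t (κ t a))
    rw [R.d0v, map_zero, zero_add] at h
    rw [h, map_zero]
  · intro s
    apply LinearMap.ext; intro x
    show cj R.dd' s (c0 R.dd' s x) + (0 : R.gob.V s →ₗ[k] R.gob.W s) x = 0
    rw [LinearMap.zero_apply, add_zero, cjdd, c0dd, io_c0, jd0, map_zero]
    have h : R.jKK s (c0 C.d s (R.io s x)) = 0 := by
      funext t a
      rw [jKK_apply]
      have h := Bd0 C a (R.io s x)
      rw [eq_neg_of_add_eq_zero_left h, map_neg, R.xid0, neg_zero]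
      rfl
    rw [h]; rfl
  · intro s
    apply LinearMap.ext; intro x
    have e1 : c2 (R.dd' ≫ R.dd') s x = c2 R.dd' s (c0 R.dd' s x) + c0 R.dd' s (c2 R.dd' s x)
      + (∑ t, ∑ a : G.E s t, c1 R.dd' (G.rev a) (c1 R.dd' a x)) + ci R.dd' s (cj R.dd' s x) := by
      rw [c2_comp]
      simp [LinearMap.sum_apply]
    rw [e1]
    rw [cjdd, cidd, i_Q _ _ (by rw [R.Xij]; exact R.xi_io s x)]
    simp only [c0dd, c1dd, c2dd, io_c0, c0_io_pr]
    have e2 := R.sum_key s (fun t a => c1 C.d a (R.io s x))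
    simp only [jKK_apply]
    have e3 := congrArg (R.pr s) (mcx C (R.io s x))
    rw [map_zero, map_add, map_add, map_add, ← e2] at e3
    refine Eq.trans ?_ e3
    abel

/-- **the reduced object** -/
def tob : TOb G k where
  X := R.gob
  d := R.dd'
  dd := R.sq_zero
  dW _ := rfl
  dg := by
    apply hm_ext
    · intro t
      apply LinearMap.ext; intro x
      show R.gob.gV t (c0 R.dd' t x) = -c0 R.dd' t (R.gob.gV t x)
      rw [c0dd, c0dd, gV_io, ← pr_gV, g0, map_neg]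
    · intro t
      apply LinearMap.ext; intro x
      show R.gob.gW t 0 = -0
      rw [map_zero, neg_zero]
    · intro s t a
      apply LinearMap.ext; intro x
      have : c1 (R.dd' ≫ gam R.gob) a x = R.gob.gV t (c1 R.dd' a x) := by simp
      rw [this]
      have : c1 (-(gam R.gob ≫ R.dd')) a x = -(c1 R.dd' a (R.gob.gV s x)) := by simp
      rw [this]
      rw [c1dd, c1dd, gV_io, ← pr_gV, g1, map_neg]
    · intro s
      apply LinearMap.ext
      rintro ⟨w, κ⟩
      have t1 : ci (R.dd' ≫ gam R.gob) s = R.gob.gV s ∘ₗ ci R.dd' s := by simp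
      have t2 : ci (-(gam R.gob ≫ R.dd')) s = -(ci R.dd' s ∘ₗ R.gob.gW s) := by simp
      refine (LinearMap.congr_fun t1 (w, κ)).trans
        (Eq.trans ?_ (LinearMap.congr_fun t2 (w, κ)).symm)
      show R.gob.gV s (ci R.dd' s (w, κ)) = -(ci R.dd' s (R.gob.gW s (w, κ)))
      have h1 : R.Xi s w = 0 := LinearMap.mem_ker.1 w.2.1
      have e : R.gob.gW s (w, κ) = (R.Q s (C.X.gW s w), R.gKK s κ) := rfl
      rw [e, cidd, cidd, i_Q _ _ (by rw [R.gXi, h1, map_zero]), map_add, ← pr_gV, gi, map_neg,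
        neg_add]
      congr 1
      rw [map_sum, ← Finset.sum_neg_distrib]
      refine Finset.sum_congr rfl fun t _ => ?_
      rw [map_sum, ← Finset.sum_neg_distrib]
      refine Finset.sum_congr rfl fun a _ => ?_
      rw [← pr_gV, g1, gKK_apply, R.gv]
      simp only [map_neg, neg_neg]
    · intro s
      apply LinearMap.ext; intro x
      have : cj (R.dd' ≫ gam R.gob) s x = R.gob.gW s (cj R.dd' s x) := by simp
      rw [this]
      have : cj (-(gam R.gob ≫ R.dd')) s x = -(cj R.dd' s (R.gob.gV s x)) := by simp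
      rw [this, cjdd, cjdd, gV_io]
      have e : R.gob.gW s (R.Q s (cj C.d s (R.io s x)), R.jKK s (R.io s x)) =
        (R.Q s (C.X.gW s (R.Q s (cj C.d s (R.io s x)) : C.X.W s)),
          R.gKK s (R.jKK s (R.io s x))) := rfl
      rw [e]
      have hx := R.xi_io s x
      apply Prod.ext
      · apply Subtype.ext
        have h0 : R.Xi s (cj C.d s (R.io s x)) = 0 := by rw [R.Xij, hx]
        have h1 : cj C.d s (C.X.gV s (R.io s x)) = -C.X.gW s (cj C.d s (R.io s x)) := by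
          rw [gj, neg_neg]
        show (R.Q s (C.X.gW s (R.Q s (cj C.d s (R.io s x)) : C.X.W s)) : C.X.W s) =
          -(R.Q s (cj C.d s (C.X.gV s (R.io s x))) : C.X.W s)
        rw [h1, Q_coe' _ _ (cj C.d s (R.io s x)) h0]
        rw [Q_coe' _ _ _ (by simp [R.gXi, h0, R.Xiu]), Q_coe' _ _ _ (by simp [R.gXi, h0])]
        simp only [map_sub, map_neg, R.gu, R.etag, R.etau]
        abel
      · funext t a
        show -R.gK t (R.xi t (c1 C.d a (R.io s x))) =
          -(R.xi t (c1 C.d a (C.X.gV s (R.io s x))))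
        have h1 : c1 C.d a (C.X.gV s (R.io s x)) = -C.X.gV t (c1 C.d a (R.io s x)) := by
          rw [g1, neg_neg]
        rw [h1, map_neg, R.xig, neg_neg]
    · intro t
      apply LinearMap.ext; intro x
      have : c2 (R.dd' ≫ gam R.gob) t x = R.gob.gV t (c2 R.dd' t x) := by simp
      rw [this]
      have : c2 (-(gam R.gob ≫ R.dd')) t x = -(c2 R.dd' t (R.gob.gV t x)) := by simp
      rw [this]
      rw [c2dd, c2dd, gV_io, ← pr_gV, g2, map_neg]

/-! ### the comparison map -/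

section cmp
variable (X : TOb G k)

/-- the main part of the comparison map -/
def q1 : (X.X ⟶ C.X) →ₗ[k] (X.X ⟶ R.gob) where
  toFun f := mkH (fun t => R.pr t ∘ₗ c0 f t) (fun _ => 0) (fun s t a => R.pr t ∘ₗ c1 f a)
    (fun t => R.pr t ∘ₗ ci f t)
    (fun s => LinearMap.prod (R.Q s ∘ₗ cj f s)
      (LinearMap.pi fun t => LinearMap.pi fun a => R.xi t ∘ₗ c1 f a))
    (fun t => R.pr t ∘ₗ c2 f t)
  map_add' f g := by
    apply hm_ext
    · intro t; apply LinearMap.ext; intro x; exact map_add (R.pr t) (c0 f t x) (c0 g t x)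
    · intro t; apply LinearMap.ext; intro x; exact (add_zero (0 : R.gob.W t)).symm
    · intro s t a; apply LinearMap.ext; intro x; exact map_add (R.pr t) (c1 f a x) (c1 g a x)
    · intro t; apply LinearMap.ext; intro x; exact map_add (R.pr t) (ci f t x) (ci g t x)
    · intro t; apply LinearMap.ext; intro x
      apply Prod.ext
      · exact map_add (R.Q t) (cj f t x) (cj g t x)
      · funext t' a; exact map_add (R.xi t') (c1 f a x) (c1 g a x)
    · intro t; apply LinearMap.ext; intro x; exact map_add (R.pr t) (c2 f t x) (c2 g t x)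
  map_smul' c f := by
    apply hm_ext
    · intro t; apply LinearMap.ext; intro x; exact map_smul (R.pr t) c (c0 f t x)
    · intro t; apply LinearMap.ext; intro x; exact (smul_zero (A := R.gob.W t) c).symm
    · intro s t a; apply LinearMap.ext; intro x; exact map_smul (R.pr t) c (c1 f a x)
    · intro t; apply LinearMap.ext; intro x; exact map_smul (R.pr t) c (ci f t x)
    · intro t; apply LinearMap.ext; intro x
      apply Prod.ext
      · exact map_smul (R.Q t) c (cj f t x)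
      · funext t' a; exact map_smul (R.xi t') c (c1 f a x)
    · intro t; apply LinearMap.ext; intro x; exact map_smul (R.pr t) c (c2 f t x)

section q1l
variable {X} (f : X.X ⟶ C.X) {s t : T}
theorem c0q (x : X.X.V t) : c0 (R.q1 X f) t x = R.pr t (c0 f t x) := rfl
theorem cWq (x : X.X.W t) : cW (R.q1 X f) t x = 0 := rfl
theorem c1q (a : G.E s t) (x : X.X.V s) : c1 (R.q1 X f) a x = R.pr t (c1 f a x) := rfl
theorem ciq (x : X.X.W t) : ci (R.q1 X f) t x = R.pr t (ci f t x) := rfl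
theorem cjq (x : X.X.V t) : cj (R.q1 X f) t x =
    (R.Q t (cj f t x), fun t' a => R.xi t' (c1 f a x)) := rfl
theorem c2q (x : X.X.V t) : c2 (R.q1 X f) t x = R.pr t (c2 f t x) := rfl
end q1l

/-- the subcomplex `S` -/
def S : Submodule k (Cs X.X C.X) where
  carrier := {f | ∀ t, (∀ x, R.xi t (c0 f.1 t x) = 0) ∧ (∀ x, R.Xi t (cj f.1 t x) = 0)}
  add_mem' := by
    intro f g hf hg t
    refine ⟨fun x => ?_, fun x => ?_⟩
    · show R.xi t (c0 f.1 t x + c0 g.1 t x) = 0
      rw [map_add, (hf t).1, (hg t).1, add_zero]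
    · show R.Xi t (cj f.1 t x + cj g.1 t x) = 0
      rw [map_add, (hf t).2, (hg t).2, add_zero]
  zero_mem' := by
    intro t
    exact ⟨fun x => map_zero _, fun x => map_zero _⟩
  smul_mem' := by
    intro c f hf t
    refine ⟨fun x => ?_, fun x => ?_⟩
    · show R.xi t (c • c0 f.1 t x) = 0
      rw [map_smul, (hf t).1, smul_zero]
    · show R.Xi t (cj (c • f.1) t x) = 0
      show R.Xi t (c • cj f.1 t x) = 0
      rw [map_smul, (hf t).2, smul_zero]

/-- the target of the comparison map -/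
abbrev Tg : Type v := (Cs X.X R.gob) × ((t : T) → X.X.W t →ₗ[k] R.K t)

/-- the comparison map -/
def q : Cs X.X C.X →ₗ[k] R.Tg X where
  toFun f := (⟨R.q1 X f.1, fun _ => rfl⟩, fun t => R.xi t ∘ₗ ci f.1 t)
  map_add' f g := by
    apply Prod.ext
    · apply Subtype.ext
      exact map_add (R.q1 X) f.1 g.1
    · funext t
      apply LinearMap.ext; intro x
      exact map_add (R.xi t) (ci f.1 t x) (ci g.1 t x)
  map_smul' c f := by
    apply Prod.ext
    · apply Subtype.ext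
      exact map_smul (R.q1 X) c f.1
    · funext t
      apply LinearMap.ext; intro x
      exact map_smul (R.xi t) c (ci f.1 t x)

/-! components of the differential, elementwise -/
section Dl
variable {X} {Y : TOb G k} (f : X.X ⟶ Y.X) {s t : T}
theorem c0D (x : X.X.V t) : c0 (D X Y f) t x =
    c0 Y.d t (c0 f t x) - Y.X.gV t (c0 f t (X.X.gV t (c0 X.d t x))) := by
  rw [D_apply]; simp
theorem c1D (a : G.E s t) (x : X.X.V s) : c1 (D X Y f) a x =
    c1 Y.d a (c0 f s x) + c0 Y.d t (c1 f a x)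
    - (Y.X.gV t (c1 f a (X.X.gV s (c0 X.d s x))) + Y.X.gV t (c0 f t (X.X.gV t (c1 X.d a x)))) := by
  rw [D_apply]; simp
theorem ciD (hf : ∀ t, cW f t = 0) (x : X.X.W t) : ci (D X Y f) t x =
    c0 Y.d t (ci f t x) - Y.X.gV t (c0 f t (X.X.gV t (ci X.d t x))) := by
  rw [D_apply]; simp [hf]
theorem cjD (hf : ∀ t, cW f t = 0) (x : X.X.V t) : cj (D X Y f) t x =
    cj Y.d t (c0 f t x) - Y.X.gW t (cj f t (X.X.gV t (c0 X.d t x))) := by
  rw [D_apply]; simp [hf]
theorem c2D (x : X.X.V t) : c2 (D X Y f) t x =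
    (c2 Y.d t (c0 f t x) + c0 Y.d t (c2 f t x)
      + (∑ s, ∑ a : G.E t s, c1 Y.d (G.rev a) (c1 f a x)) + ci Y.d t (cj f t x))
    - (Y.X.gV t (c2 f t (X.X.gV t (c0 X.d t x))) + Y.X.gV t (c0 f t (X.X.gV t (c2 X.d t x)))
      + (∑ s, ∑ a : G.E t s, Y.X.gV t (c1 f (G.rev a) (X.X.gV s (c1 X.d a x))))
      + Y.X.gV t (ci f t (X.X.gW t (cj X.d t x)))) := by
  rw [D_apply]; simp [LinearMap.sum_apply]
end Dl

theorem Q_u (t : T) (x : R.K t) : R.Q t (R.u t x) = 0 := by
  apply Subtype.ext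
  rw [Q_coe' _ _ _ (R.Xiu t x), R.etau, sub_self]
  rfl

theorem Q_gW (t : T) (w : C.X.W t) (h : R.Xi t w = 0) :
    R.Q t (C.X.gW t (R.Q t w : C.X.W t)) = R.Q t (C.X.gW t w) := by
  rw [Q_coe' _ _ _ h, map_sub, map_sub, R.gu, R.Q_u, sub_zero]

variable {X}

theorem q1_D (f : X.X ⟶ C.X) (hW : ∀ t, cW f t = 0) (h0 : ∀ t x, R.xi t (c0 f t x) = 0)
    (hj : ∀ t x, R.Xi t (cj f t x) = 0) : R.q1 X (D X C f) = D X R.tob (R.q1 X f) := by
  have hW' : ∀ t, cW (R.q1 X f) t = 0 := fun _ => rfl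
  have hio : ∀ t x, R.io t (R.pr t (c0 f t x)) = c0 f t x := by
    intro t x; rw [io_pr, h0, map_zero, sub_zero]
  apply hm_ext
  · intro t
    apply LinearMap.ext; intro x
    rw [c0q, c0D]
    refine Eq.trans ?_ (c0D (Y := R.tob) (R.q1 X f) x).symm
    show _ = c0 R.dd' t (c0 (R.q1 X f) t x) - R.gob.gV t (c0 (R.q1 X f) t (X.X.gV t (c0 X.d t x)))
    rw [c0q, c0q, c0dd, c0_io_pr, map_sub, pr_gV]
  · intro t
    exact (D_mem_Cs (X := X) (Y := R.tob) (f := R.q1 X f) hW' t).symm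
  · intro s t a
    apply LinearMap.ext; intro x
    rw [c1q, c1D]
    refine Eq.trans ?_ (c1D (Y := R.tob) (R.q1 X f) a x).symm
    show _ = c1 R.dd' a (c0 (R.q1 X f) s x) + c0 R.dd' t (c1 (R.q1 X f) a x)
      - (R.gob.gV t (c1 (R.q1 X f) a (X.X.gV s (c0 X.d s x)))
        + R.gob.gV t (c0 (R.q1 X f) t (X.X.gV t (c1 X.d a x))))
    simp only [c0q, c1q, c0dd, c1dd, c0_io_pr, hio, ← pr_gV, map_add, map_sub]
  · intro t
    apply LinearMap.ext; intro x
    rw [ciq, ciD f hW]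
    refine Eq.trans ?_ (ciD (Y := R.tob) (R.q1 X f) hW' x).symm
    show _ = c0 R.dd' t (ci (R.q1 X f) t x)
      - R.gob.gV t (c0 (R.q1 X f) t (X.X.gV t (ci X.d t x)))
    simp only [c0q, ciq, c0dd, c0_io_pr, ← pr_gV, map_add, map_sub]
  · intro s
    apply LinearMap.ext; intro x
    rw [cjq, cjD f hW]
    refine Eq.trans ?_ (cjD (Y := R.tob) (R.q1 X f) hW' x).symm
    show _ = cj R.dd' s (c0 (R.q1 X f) s x)
      - R.gob.gW s (cj (R.q1 X f) s (X.X.gV s (c0 X.d s x)))
    rw [c0q, cjdd, hio, cjq]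
    apply Prod.ext
    · show R.Q s (cj C.d s (c0 f s x) - C.X.gW s (cj f s (X.X.gV s (c0 X.d s x)))) =
        R.Q s (cj C.d s (c0 f s x)) -
          R.Q s (C.X.gW s (R.Q s (cj f s (X.X.gV s (c0 X.d s x))) : C.X.W s))
      rw [Q_gW _ _ _ (hj _ _), map_sub]
    · funext t a
      show R.xi t (c1 (D X C f) a x) = R.xi t (c1 C.d a (c0 f s x))
        - -R.gK t (R.xi t (c1 f a (X.X.gV s (c0 X.d s x))))
      rw [c1D, map_sub, map_add, map_add, R.xid0, R.xig, R.xig, h0, map_zero, neg_zero, add_zero,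
        add_zero]
  · intro s
    apply LinearMap.ext; intro x
    rw [c2q, c2D]
    refine Eq.trans ?_ (c2D (Y := R.tob) (R.q1 X f) x).symm
    show _ = (c2 R.dd' s (c0 (R.q1 X f) s x) + c0 R.dd' s (c2 (R.q1 X f) s x)
      + (∑ t, ∑ a : G.E s t, c1 R.dd' (G.rev a) (c1 (R.q1 X f) a x))
      + ci R.dd' s (cj (R.q1 X f) s x))
      - (R.gob.gV s (c2 (R.q1 X f) s (X.X.gV s (c0 X.d s x)))
        + R.gob.gV s (c0 (R.q1 X f) s (X.X.gV s (c2 X.d s x)))
        + (∑ t, ∑ a : G.E s t, R.gob.gV s (c1 (R.q1 X f) (G.rev a) (X.X.gV t (c1 X.d a x))))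
        + R.gob.gV s (ci (R.q1 X f) s (X.X.gW s (cj X.d s x))))
    rw [cjq, cidd, i_Q _ _ (hj _ _)]
    have e2 := R.sum_key s (fun t a => c1 f a x)
    simp only [c0q, c1q, c2q, ciq, c0dd, c1dd, c2dd, c0_io_pr, hio, ← pr_gV]
    simp only [map_sub, map_add]
    rw [← e2]
    simp only [map_sum]
    abel

/-- old frames of the new object -/
def oW (s : T) : R.gob.W s →ₗ[k] C.X.W s :=
  Submodule.subtype (R.W0 s) ∘ₗ LinearMap.fst k (R.W0 s) (R.KK s)

/-- new frames of the new object -/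
def eW (s t : T) (a : G.E s t) : R.gob.W s →ₗ[k] R.K t :=
  LinearMap.proj a ∘ₗ LinearMap.proj t ∘ₗ LinearMap.snd k (R.W0 s) (R.KK s)

theorem Xi_oW (s : T) (w : R.gob.W s) : R.Xi s (R.oW s w) = 0 := LinearMap.mem_ker.1 w.1.2.1

theorem Q_oW (s : T) (w : R.gob.W s) : R.Q s (R.oW s w) = w.1 := R.Q_sub s w.1

theorem oW_eW_ext (s : T) (w : R.gob.W s) :
    ((R.Q s (R.oW s w), fun t a => R.eW s t a w) : R.gob.W s) = w := by
  apply Prod.ext
  · exact R.Q_oW s w
  · rfl

theorem surj (g : X.X ⟶ R.gob) (hg : ∀ t, cW g t = 0) (h : ∀ t, X.X.W t →ₗ[k] R.K t) :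
    ∃ f : X.X ⟶ C.X, (∀ t, cW f t = 0) ∧ (∀ t x, R.xi t (c0 f t x) = 0) ∧
      (∀ t x, R.Xi t (cj f t x) = 0) ∧ R.q1 X f = g ∧ ∀ t x, R.xi t (ci f t x) = h t x := by
  refine ⟨mkH (fun t => R.io t ∘ₗ c0 g t) (fun _ => 0)
      (fun s t a => R.io t ∘ₗ c1 g a + R.v t ∘ₗ R.eW s t a ∘ₗ cj g s)
      (fun t => R.io t ∘ₗ ci g t + R.v t ∘ₗ h t) (fun t => R.oW t ∘ₗ cj g t)
      (fun t => R.io t ∘ₗ c2 g t), fun _ => rfl, fun t x => R.xi_io t _, fun t x => R.Xi_oW t _,
      ?_, ?_⟩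
  · apply hm_ext
    · intro t; apply LinearMap.ext; intro x
      exact R.pr_io t _
    · intro t; exact (hg t).symm
    · intro s t a; apply LinearMap.ext; intro x
      show R.pr t (R.io t (c1 g a x) + R.v t (R.eW s t a (cj g s x))) = c1 g a x
      rw [map_add, R.pr_io, R.pr_v, add_zero]
    · intro t; apply LinearMap.ext; intro x
      show R.pr t (R.io t (ci g t x) + R.v t (h t x)) = ci g t x
      rw [map_add, R.pr_io, R.pr_v, add_zero]
    · intro s; apply LinearMap.ext; intro x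
      refine Eq.trans ?_ (R.oW_eW_ext s (cj g s x))
      apply Prod.ext
      · rfl
      · funext t a
        show R.xi t (R.io t (c1 g a x) + R.v t (R.eW s t a (cj g s x))) = R.eW s t a (cj g s x)
        rw [map_add, R.xi_io, R.xiv, zero_add]
    · intro t; apply LinearMap.ext; intro x
      exact R.pr_io t _
  · intro t x
    show R.xi t (R.io t (ci g t x) + R.v t (h t x)) = h t x
    rw [map_add, R.xi_io, R.xiv, zero_add]

theorem acyc (f : X.X ⟶ C.X) (hW : ∀ t, cW f t = 0)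
    (h1 : ∀ t x, R.Xi t (cj (D X C f) t x) = 0) : ∃ z : X.X ⟶ C.X, (∀ t, cW z t = 0) ∧
      (∀ t x, R.xi t (c0 f t x - c0 (D X C z) t x) = 0) ∧
      (∀ t x, R.Xi t (cj f t x - cj (D X C z) t x) = 0) := by
  refine ⟨mkH (fun t => R.v t ∘ₗ R.Xi t ∘ₗ cj f t) (fun _ => 0) (fun _ _ _ => 0)
      (fun _ => 0) (fun _ => 0) (fun _ => 0), fun _ => rfl, fun t x => ?_, fun t x => ?_⟩
  · have h1 := h1 t x
    rw [cjD f hW, map_sub, R.Xij, R.gXi, sub_eq_zero] at h1
    rw [c0D]
    simp only [c0_mkH, LinearMap.comp_apply]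
    rw [R.d0v, R.gv, map_sub, map_sub, map_neg, R.xiv, h1]
    simp
  · rw [cjD _ (fun _ => rfl)]
    simp only [c0_mkH, cj_mkH, LinearMap.comp_apply, LinearMap.zero_apply]
    rw [map_sub, map_sub, R.Xij, R.xiv]
    simp

theorem kerq (f : X.X ⟶ C.X) (hW : ∀ t, cW f t = 0) (h0 : ∀ t x, R.xi t (c0 f t x) = 0)
    (hj : ∀ t x, R.Xi t (cj f t x) = 0) (hq1 : R.q1 X f = 0)
    (hq2 : ∀ t x, R.xi t (ci f t x) = 0) (hD1 : D X C f = 0) :
    ∃ y : X.X ⟶ C.X, (∀ t, cW y t = 0) ∧ (∀ t x, R.xi t (c0 y t x) = 0) ∧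
      (∀ t x, R.Xi t (cj y t x) = 0) ∧ R.q1 X y = 0 ∧ (∀ t x, R.xi t (ci y t x) = 0) ∧
      D X C y = f := by
  -- an element with `pr = 0`
  have hpr : ∀ t (y : C.X.V t), R.pr t y = 0 → y = R.v t (R.xi t y) := by
    intro t y hy
    have := R.io_pr t y
    rw [hy, map_zero] at this
    exact sub_eq_zero.1 this.symm
  have e0 : ∀ t x, c0 f t x = 0 := by
    intro t x
    rw [hpr t (c0 f t x) (LinearMap.congr_fun (congrArg (fun g => c0 g t) hq1) x),
      h0, map_zero]
  have e1 : ∀ s t (a : G.E s t) x, c1 f a x = 0 := by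
    intro s t a x
    have h2 : R.xi t (c1 f a x) = 0 :=
      congrArg (fun w : R.gob.W s => R.eW s t a w)
        (LinearMap.congr_fun (congrArg (fun g => cj g s) hq1) x)
    rw [hpr t (c1 f a x) (LinearMap.congr_fun (congrArg (fun g => c1 g a) hq1) x), h2,
      map_zero]
  have ei : ∀ t x, ci f t x = 0 := by
    intro t x
    rw [hpr t (ci f t x) (LinearMap.congr_fun (congrArg (fun g => ci g t) hq1) x), hq2,
      map_zero]
  have ej : ∀ t x, cj f t x = R.u t (R.eta t (cj f t x)) := by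
    intro t x
    have h2 : (R.Q t (cj f t x) : C.X.W t) = 0 :=
      congrArg (fun w : R.gob.W t => R.oW t w)
        (LinearMap.congr_fun (congrArg (fun g => cj g t) hq1) x)
    rw [Q_coe' _ _ _ (hj t x)] at h2
    exact sub_eq_zero.1 h2
  have e2 : ∀ t x, c2 f t x = R.v t (R.xi t (c2 f t x)) := by
    intro t x
    exact hpr t (c2 f t x) (LinearMap.congr_fun (congrArg (fun g => c2 g t) hq1) x)
  -- closedness
  have hc2 : ∀ t x, ci C.d t (cj f t x) = C.X.gV t (c2 f t (X.X.gV t (c0 X.d t x))) := by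
    intro t x
    have h' : c2 (D X C f) t x = 0 := LinearMap.congr_fun (congrArg (fun g => c2 g t) hD1) x
    rw [c2D] at h'
    have h3 : c0 C.d t (c2 f t x) = 0 := by rw [e2 t x, R.d0v]
    simp only [e0, e1, ei, h3, map_zero, Finset.sum_const_zero, add_zero, zero_add] at h'
    exact sub_eq_zero.1 h'
  have hcj : ∀ t x, cj f t x = -(R.u t (R.gK t (R.xi t (c2 f t (X.X.gV t (c0 X.d t x)))))) := by
    intro t x
    rw [ej t x]
    show R.u t (R.xi t (ci C.d t (cj f t x))) = _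
    rw [hc2, R.xig, map_neg]
  refine ⟨mkH (fun _ => 0) (fun _ => 0) (fun _ _ _ => 0) (fun _ => 0)
    (fun t => R.u t ∘ₗ R.xi t ∘ₗ c2 f t) (fun _ => 0), fun _ => rfl,
    fun t x => map_zero _, fun t x => R.Xiu t _, ?_, fun t x => map_zero _, ?_⟩
  · apply hm_ext
    · intro t; apply LinearMap.ext; intro x
      exact map_zero (R.pr t)
    · intro t; rfl
    · intro s t a; apply LinearMap.ext; intro x
      exact map_zero (R.pr t)
    · intro t; apply LinearMap.ext; intro x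
      exact map_zero (R.pr t)
    · intro s; apply LinearMap.ext; intro x
      apply Prod.ext
      · exact R.Q_u s _
      · funext t a
        exact map_zero (R.xi t)
    · intro t; apply LinearMap.ext; intro x
      exact map_zero (R.pr t)
  · apply hm_ext
    · intro t; apply LinearMap.ext; intro x
      rw [c0D, e0]; simp
    · intro t
      exact ((D_mem_Cs (X := X) (Y := C) (f := mkH (fun _ => 0) (fun _ => 0) (fun _ _ _ => 0)
        (fun _ => 0) (fun t => R.u t ∘ₗ R.xi t ∘ₗ c2 f t) (fun _ => 0))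
        (fun _ => rfl) t).trans (hW t).symm)
    · intro s t a; apply LinearMap.ext; intro x
      rw [c1D, e1]; simp
    · intro t; apply LinearMap.ext; intro x
      rw [ciD _ (fun _ => rfl), ei]; simp
    · intro t; apply LinearMap.ext; intro x
      rw [cjD _ (fun _ => rfl), hcj]
      simp only [c0_mkH, cj_mkH, LinearMap.comp_apply, LinearMap.zero_apply, map_zero, zero_sub,
        R.gu]
    · intro t; apply LinearMap.ext; intro x
      rw [c2D]
      simp only [c0_mkH, c1_mkH, ci_mkH, cj_mkH, c2_mkH, LinearMap.comp_apply,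
        LinearMap.zero_apply, map_zero, Finset.sum_const_zero, add_zero, zero_add, sub_zero]
      rw [R.iu, ← e2]

theorem key (X : TOb G k) : hh (DC X C) = hh ((DC X R.tob).prodMap
    (0 : ((t : T) → X.X.W t →ₗ[k] R.K t) →ₗ[k] ((t : T) → X.X.W t →ₗ[k] R.K t))) := by
  refine hh_eq_of_zigzag' (DC X C) DC_DC (R.S X) ?_ ?_ _ (R.q X) ?_ ?_ ?_
  · -- `S` is stable
    intro f hf t
    refine ⟨fun x => ?_, fun x => ?_⟩
    · show R.xi t (c0 (D X C f.1) t x) = 0
      rw [c0D, map_sub, R.xid0, R.xig, (hf t).1, map_zero, neg_zero, sub_zero]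
    · show R.Xi t (cj (D X C f.1) t x) = 0
      rw [cjD f.1 f.2, map_sub, R.Xij, (hf t).1, R.gXi, (hf t).2, map_zero, sub_zero]
  · -- `C / S` is acyclic
    intro f hf
    obtain ⟨z, hz, h1, h2⟩ := R.acyc f.1 f.2 (fun t x => (hf t).2 x)
    exact ⟨⟨z, hz⟩, fun t => ⟨fun x => h1 t x, fun x => h2 t x⟩⟩
  · -- `q` is onto
    rintro ⟨g, h⟩
    obtain ⟨f, hW, h0, hj, h1, h2⟩ := R.surj g.1 g.2 h
    refine ⟨⟨f, hW⟩, fun t => ⟨h0 t, hj t⟩, ?_⟩
    apply Prod.ext
    · apply Subtype.ext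
      exact h1
    · funext t
      apply LinearMap.ext; intro x
      exact h2 t x
  · -- chain map
    intro f hf
    apply Prod.ext
    · apply Subtype.ext
      exact R.q1_D f.1 f.2 (fun t x => (hf t).1 x) (fun t x => (hf t).2 x)
    · funext t
      apply LinearMap.ext; intro x
      show R.xi t (ci (D X C f.1) t x) = 0
      rw [ciD f.1 f.2, map_sub, R.xid0, R.xig, (hf t).1, map_zero, neg_zero, sub_zero]
  · -- the kernel of `q` is acyclic
    intro f hf hq hD
    have hq1 : R.q1 X f.1 = 0 := congrArg (fun z : R.Tg X => (z.1 : X.X ⟶ R.gob)) hq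
    have hq2 : ∀ t x, R.xi t (ci f.1 t x) = 0 := by
      intro t x
      exact LinearMap.congr_fun (congrFun (congrArg (fun z : R.Tg X => z.2) hq) t) x
    have hD1 : D X C f.1 = 0 := congrArg Subtype.val hD
    obtain ⟨y, hW, h0, hj, h1, h2, h3⟩ := R.kerq f.1 f.2 (fun t => (hf t).1) (fun t => (hf t).2)
      hq1 hq2 hD1
    refine ⟨⟨y, hW⟩, fun t => ⟨h0 t, hj t⟩, ?_, Subtype.ext h3⟩
    apply Prod.ext
    · apply Subtype.ext
      exact h1
    · funext t
      apply LinearMap.ext; intro x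
      exact h2 t x

/-- **RED**: the reduction formula -/
theorem hT_tob (X : TOb G k) :
    hT X C = hT X R.tob + ∑ t, Module.finrank k (R.K t) * lam X t := by
  have h := R.key X
  rw [hh_prodMap (DC X R.tob) DC_DC _ (fun _ => rfl), hh_zero] at h
  have e : Module.finrank k ((t : T) → X.X.W t →ₗ[k] R.K t) =
      ∑ t, Module.finrank k (R.K t) * lam X t := by
    rw [Module.finrank_pi_fintype]
    refine Finset.sum_congr rfl fun t _ => ?_
    rw [Module.finrank_linearMap, mul_comm]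
    rfl
  rw [e] at h
  exact h

end cmp

theorem finrank_W0 (s : T) : Module.finrank k (R.W0 s) + 2 * Module.finrank k (R.K s) =
    Module.finrank k (C.X.W s) := by
  have h := LinearMap.finrank_range_add_finrank_ker ((R.Xi s).prod (R.eta s))
  have h1 : LinearMap.range ((R.Xi s).prod (R.eta s)) = ⊤ := by
    rw [LinearMap.range_eq_top]
    rintro ⟨a, b⟩
    refine ⟨R.w1 s a + R.u s b, ?_⟩
    simp [R.Xiw1, R.etaw1, R.Xiu, R.etau]
  rw [h1, finrank_top, Module.finrank_prod, LinearMap.ker_prod] at h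
  have h2 : Module.finrank k (R.W0 s) =
    Module.finrank k (LinearMap.ker (R.Xi s) ⊓ LinearMap.ker (R.eta s) : Submodule k _) := rfl
  omega

theorem finrank_KK (s : T) : Module.finrank k (R.KK s) =
    ∑ t, Fintype.card (G.E s t) * Module.finrank k (R.K t) := by
  rw [Module.finrank_pi_fintype]
  refine Finset.sum_congr rfl fun t _ => ?_
  rw [Module.finrank_pi_fintype]
  simp

/-- the frames of the reduced object -/
theorem lam_tob (s : T) : lam R.tob s + 2 * Module.finrank k (R.K s) =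
    lam C s + ∑ t, Fintype.card (G.E s t) * Module.finrank k (R.K t) := by
  have h0 : lam R.tob s = Module.finrank k (R.W0 s × R.KK s) := rfl
  have h1 : lam C s = Module.finrank k (C.X.W s) := rfl
  rw [h0, h1, Module.finrank_prod, finrank_KK, ← R.finrank_W0]
  omega

theorem finrank_V (t : T) : Module.finrank k (R.tob.X.V t) + Module.finrank k (R.K t) =
    Module.finrank k (C.X.V t) := by
  have h := LinearMap.finrank_range_add_finrank_ker (R.xi t)
  have h1 : LinearMap.range (R.xi t) = ⊤ := by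
    rw [LinearMap.range_eq_top]
    intro a
    exact ⟨R.v t a, R.xiv a⟩
  rw [h1, finrank_top] at h
  have h0 : Module.finrank k (R.tob.X.V t) = Module.finrank k (LinearMap.ker (R.xi t)) := rfl
  omega

/-- the reduced object is minimal if `C` is -/
theorem c0_tob (h : ∀ t, c0 C.d t = 0) (t : T) : c0 R.tob.d t = 0 := by
  apply LinearMap.ext; intro x
  show R.pr t (c0 C.d t (R.io t x)) = 0
  rw [h t]
  exact map_zero _

end RData

end Crest.Agent.R175.Red_272
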