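import Crest.Agent.R175.Res_428
import Crest.Agent.R175.Unfr_83

/-!
# Restriction of T-framed objects, continued (row 175, S0263-RES)

* `hiso_of_equiv`, `hiso_of_finrank` : objects with `d = 0`;
* `dT_resT`, `resT_free`, `resT_frm`, `resT_prj`, `resT_frm_out`;
* `resT_resT` : restriction along `ι ∘ ι'`.
-/

set_option autoImplicit false
set_option linter.unusedSectionVars false
set_option linter.unusedVariables false
set_option linter.unusedSimpArgs false

open CategoryTheory Module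

namespace Crest.Agent.R175.Res2_428

open Crest.Agent.R175.PTA Crest.Agent.R175.ResI_663 Crest.Agent.R175.Res_428
open Crest.Agent.R175.Unfr_83

universe v

section gen

variable {T : Type} {k : Type v} [Field k] [Fintype T] {G : MG T} {X Y : TOb G k}

theorem hiso_of_equiv (hdX : X.d = 0) (hdY : Y.d = 0) (eV : ∀ t, X.X.V t ≃ₗ[k] Y.X.V t)
    (eW : ∀ t, X.X.W t ≃ₗ[k] Y.X.W t) (gV : ∀ t x, eV t (X.X.gV t x) = Y.X.gV t (eV t x))
    (gW : ∀ t x, eW t (X.X.gW t x) = Y.X.gW t (eW t x)) : HIso X Y := by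
  let p : X.X ⟶ Y.X := mkH (fun t => (eV t).toLinearMap) (fun t => (eW t).toLinearMap)
    (fun _ _ _ => 0) (fun _ => 0) (fun _ => 0) (fun _ => 0)
  have hp : IsIso p := isIso_of_bijective p (fun t => (eV t).bijective) (fun t => (eW t).bijective)
  refine ⟨ofIso p ?_ ?_⟩
  · apply hm_ext
    · intro t
      apply LinearMap.ext; intro x
      have h := LinearMap.congr_fun (Y.X.gV_sq t) (eV t x)
      simp only [LinearMap.comp_apply, LinearMap.id_apply] at h
      simp [p, gV, h]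
    · intro t
      apply LinearMap.ext; intro x
      have h := LinearMap.congr_fun (Y.X.gW_sq t) (eW t x)
      simp only [LinearMap.comp_apply, LinearMap.id_apply] at h
      simp [p, gW, h]
    · intro s t a; simp [p]
    · intro t; simp [p]
    · intro t; simp [p]
    · intro t; simp [p]
  · rw [D_apply, hdX, hdY]; simp

theorem hiso_of_finrank (hdX : X.d = 0) (hdY : Y.d = 0) (gVX : ∀ t, X.X.gV t = LinearMap.id)
    (gWX : ∀ t, X.X.gW t = LinearMap.id) (gVY : ∀ t, Y.X.gV t = LinearMap.id)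
    (gWY : ∀ t, Y.X.gW t = LinearMap.id)
    (hV : ∀ t, finrank k (X.X.V t) = finrank k (Y.X.V t))
    (hW : ∀ t, finrank k (X.X.W t) = finrank k (Y.X.W t)) : HIso X Y :=
  hiso_of_equiv hdX hdY (fun t => LinearEquiv.ofFinrankEq _ _ (hV t))
    (fun t => LinearEquiv.ofFinrankEq _ _ (hW t)) (fun t x => by rw [gVX, gVY]; rfl)
    (fun t x => by rw [gWX, gWY]; rfl)

end gen

section res

variable {T T' : Type} {k : Type v} [Field k] [Fintype T] [Fintype T'] {G : MG T}
  {ι : T' → T} (hι : Function.Injective ι)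

theorem dT_resT [DecidableEq T] [DecidableEq T'] {X : TOb G k} (hX : Ok ι X) (t : T') :
    dT (resT hι X hX) t = dT X (ι t) := by
  rw [dT_eq, dT_eq]
  rfl

theorem ok_free (m n : T → ℕ) : Ok ι (free G k m n) := fun _ => rfl

theorem resT_free (m n : T → ℕ) (m' n' : T' → ℕ) (hm : ∀ t, m (ι t) = m' t)
    (hn : ∀ t, n (ι t) + ∑ u : Out ι, Fintype.card (G.E u.1 (ι t)) * m u.1 = n' t) :
    HIso (resT hι (free G k m n) (ok_free m n)) (free (comap G ι) k m' n') := by
  apply hiso_of_finrank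
  · exact resH_zero ι
  · rfl
  · intro t; rfl
  · intro t; rfl
  · intro t; rfl
  · intro t; rfl
  · intro t
    change finrank k (Fin (m (ι t)) → k) = finrank k (Fin (m' t) → k)
    rw [hm]
  · intro t
    change finrank k ((Fin (n (ι t)) → k) × NW ι (free G k m n).X (ι t)) =
      finrank k (Fin (n' t) → k)
    rw [Module.finrank_prod, finrank_NW]
    have : ∀ u : Out ι, finrank k ((free G k m n).X.V u.1) = m u.1 := by
      intro u
      change finrank k (Fin (m u.1) → k) = m u.1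
      simp
    simp only [this]
    rw [Module.finrank_fin_fun, Module.finrank_fin_fun, hn]

variable [DecidableEq T] [DecidableEq T']

include hι in
theorem single_comp (t s : T') : (Pi.single (ι t) 1 : T → ℕ) (ι s) = (Pi.single t 1 : T' → ℕ) s := by
  by_cases h : s = t
  · subst h; simp
  · rw [Pi.single_eq_of_ne h, Pi.single_eq_of_ne (fun e => h (hι e))]

theorem resT_frm (t : T') :
    HIso (resT hι (frm G k (ι t)) (ok_free _ _)) (frm (comap G ι) k t) := by
  apply resT_free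
  · intro s; rfl
  · intro s
    rw [single_comp hι]
    simp

theorem resT_prj (t : T') :
    HIso (resT hι (prj G k (ι t)) (ok_free _ _)) (prj (comap G ι) k t) := by
  apply resT_free
  · intro s
    exact single_comp hι t s
  · intro s
    have : ∀ u : Out ι, (Pi.single (ι t) 1 : T → ℕ) u.1 = 0 := by
      intro u
      apply Pi.single_eq_of_ne
      intro h
      exact u.2 ⟨t, h.symm⟩
    simp [this]

theorem resT_frm_out (u : Out ι) :
    HIso (resT hι (frm G k u.1) (ok_free _ _)) (free (comap G ι) k 0 0) := by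
  apply resT_free
  · intro s; rfl
  · intro s
    have : (Pi.single u.1 1 : T → ℕ) (ι s) = 0 := by
      apply Pi.single_eq_of_ne
      intro h
      exact u.2 ⟨s, h⟩
    rw [this]
    simp

end res

section comp

variable {T T' T'' : Type} {k : Type v} [Field k] [Fintype T] [Fintype T'] [Fintype T'']
  {G : MG T} {ι : T' → T} (hι : Function.Injective ι) {ι' : T'' → T'}
  (hι' : Function.Injective ι')

def o1 (u : Out ι) : Out (ι ∘ ι') := ⟨u.1, fun ⟨t, ht⟩ => u.2 ⟨ι' t, ht⟩⟩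

def o2 (u : Out ι') : Out (ι ∘ ι') := ⟨ι u.1, fun ⟨t, ht⟩ => u.2 ⟨t, hι ht⟩⟩

theorem bij_o : Function.Bijective (Sum.elim (o1 (ι := ι) (ι' := ι')) (o2 hι)) := by
  constructor
  · rintro (a | a) (b | b) hab
    · have h : a.1 = b.1 := congrArg (fun z : Out (ι ∘ ι') => z.1) hab
      exact congrArg Sum.inl (Subtype.ext h)
    · have h : a.1 = ι b.1 := congrArg (fun z : Out (ι ∘ ι') => z.1) hab
      exact absurd ⟨b.1, h.symm⟩ a.2
    · have h : ι a.1 = b.1 := congrArg (fun z : Out (ι ∘ ι') => z.1) hab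
      exact absurd ⟨a.1, h⟩ b.2
    · have h : ι a.1 = ι b.1 := congrArg (fun z : Out (ι ∘ ι') => z.1) hab
      exact congrArg Sum.inr (Subtype.ext (hι h))
  · rintro ⟨v, hv⟩
    by_cases h : v ∈ Set.range ι
    · obtain ⟨t, rfl⟩ := h
      refine ⟨Sum.inr ⟨t, ?_⟩, rfl⟩
      rintro ⟨s, rfl⟩
      exact hv ⟨s, rfl⟩
    · exact ⟨Sum.inl ⟨v, h⟩, rfl⟩

theorem sum_o {M : Type*} [AddCommMonoid M] (F : Out (ι ∘ ι') → M) :
    ∑ v, F v = ∑ u : Out ι, F (o1 u) + ∑ u : Out ι', F (o2 hι u) := by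
  rw [← (bij_o hι (ι' := ι')).sum_comp F, Fintype.sum_sum_type]
  rfl

variable (ι ι') in
/-- restriction twice, over `comap G (ι ∘ ι')` -/
def resG2 (X : Gob G k) : Gob (comap G (ι ∘ ι')) k := resG ι' (resG ι X)

/-- the comparison on the frames -/
def cwQ (X : Gob G k) (t : T'') : (X.W (ι (ι' t)) × NW (ι ∘ ι') X (ι (ι' t))) →ₗ[k]
    ((X.W (ι (ι' t)) × NW ι X (ι (ι' t))) × NW ι' (resG ι X) (ι' t)) where
  toFun x := ((x.1, fun u a => x.2 (o1 u) a), fun u a => x.2 (o2 hι u) a)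
  map_add' x y := rfl
  map_smul' r x := rfl

theorem bij_cwQ (X : Gob G k) (t : T'') : Function.Bijective (cwQ hι (ι' := ι') X t) := by
  have h1 : Function.Injective (cwQ hι (ι' := ι') X t) := by
    intro x y hxy
    have e1 := congrArg (fun z => z.1.1) hxy
    have e2 := congrArg (fun z => z.1.2) hxy
    have e3 := congrArg (fun z => z.2) hxy
    apply Prod.ext
    · exact e1
    · funext v a
      obtain ⟨w, rfl⟩ := (bij_o hι (ι' := ι')).2 v
      cases w with
      | inl u => exact congrFun (congrFun e2 u) a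
      | inr u => exact congrFun (congrFun e3 u) a
  refine ⟨h1, ?_⟩
  have hf : finrank k (X.W (ι (ι' t)) × NW (ι ∘ ι') X (ι (ι' t))) =
      finrank k ((X.W (ι (ι' t)) × NW ι X (ι (ι' t))) × NW ι' (resG ι X) (ι' t)) := by
    rw [Module.finrank_prod, Module.finrank_prod, Module.finrank_prod, finrank_NW, finrank_NW,
      finrank_NW, sum_o hι]
    rw [add_assoc]
    rfl
  exact (LinearMap.injective_iff_surjective_of_finrank_eq_finrank hf).1 h1


/-- the comparison morphism `Res (ι ∘ ι') X ⟶ Res ι' (Res ι X)` -/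
noncomputable def cmpQ (X : Gob G k) : resG (ι ∘ ι') X ⟶ resG2 ι ι' X :=
  mkH (fun t => LinearMap.id) (fun t => cwQ hι X t) (fun _ _ _ => 0) (fun _ => 0) (fun _ => 0)
    (fun _ => 0)

/-- `resH` twice, over `comap G (ι ∘ ι')` -/
noncomputable def resH2 {X Y : Gob G k} (f : X ⟶ Y) : resG2 ι ι' X ⟶ resG2 ι ι' Y :=
  resH ι' (resH ι f)

theorem cmpQ_nat {X Y : Gob G k} (f : X ⟶ Y) :
    resH (ι ∘ ι') f ≫ cmpQ hι Y = cmpQ hι X ≫ resH2 f := by
  apply hm_ext
  · intro t; rfl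
  · intro t; rfl
  · intro s t a
    apply LinearMap.ext; intro x
    change (0 : _ →ₗ[k] _) (c0 f _ x) + c1 f a x = c1 f a x + c0 f _ ((0 : _ →ₗ[k] _) x)
    simp
  · intro t
    apply LinearMap.ext
    intro (x : X.W (ι (ι' t)) × NW (ι ∘ ι') X (ι (ι' t)))
    change (0 : _ →ₗ[k] Y.V (ι (ι' t))) (cWR (ι ∘ ι') f t x) + (ci f (ι (ι' t)) x.1 +
      ∑ v : Out (ι ∘ ι'), ∑ a : G.E v.1 (ι (ι' t)), c1 f a (x.2 v a)) =
      ((ci f (ι (ι' t)) x.1 + ∑ u : Out ι, ∑ a : G.E u.1 (ι (ι' t)), c1 f a (x.2 (o1 u) a)) +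
      ∑ u : Out ι', ∑ a : G.E (ι u.1) (ι (ι' t)), c1 f a (x.2 (o2 hι u) a)) +
      c0 f (ι (ι' t)) 0
    rw [sum_o hι, LinearMap.zero_apply, map_zero, zero_add, add_zero, add_assoc]
    rfl
  · intro t
    apply LinearMap.ext
    intro (x : X.V (ι (ι' t)))
    change (0 : _ →ₗ[k] _) (c0 f (ι (ι' t)) x) + cwQ hι Y t (cjR (ι ∘ ι') f t x) =
      cj (resH2 (ι' := ι') (ι := ι) f) t x + cW (resH2 (ι' := ι') (ι := ι) f) t 0
    rw [map_zero, LinearMap.zero_apply, zero_add, add_zero]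
    rfl
  · intro t
    apply LinearMap.ext
    intro (x : X.V (ι (ι' t)))
    have h3 : ∀ s (a : (comap G (ι ∘ ι')).E s t) (y : (resG (ι ∘ ι') Y).V s),
      c1 (cmpQ hι (ι' := ι') Y) a y = 0 := fun s a y => rfl
    have h6 : ∀ s (a : (comap G (ι ∘ ι')).E t s) (y : (resG (ι ∘ ι') X).V t),
      c1 (cmpQ hι (ι' := ι') X) a y = 0 := fun s a y => rfl
    have L : c2 (resH (ι ∘ ι') f ≫ cmpQ hι Y) t x = c2 f (ι (ι' t)) x := by
      refine (c2_comp_apply (resH (ι ∘ ι') f) (cmpQ hι Y) t x).trans ?_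
      simp only [h3, Finset.sum_const_zero]
      have e : (0 : Y.V (ι (ι' t)) →ₗ[k] Y.V (ι (ι' t))) (c0 f (ι (ι' t)) x) +
        c2 f (ι (ι' t)) x + 0 + (0 : Y.V (ι (ι' t))) = c2 f (ι (ι' t)) x := by simp
      exact e
    have R : c2 (cmpQ hι X ≫ resH2 (ι' := ι') f) t x = c2 f (ι (ι' t)) x := by
      refine (c2_comp_apply (cmpQ hι X) (resH2 f) t x).trans ?_
      have e0 : ∑ s, ∑ a : (comap G (ι ∘ ι')).E t s, c1 (resH2 (ι' := ι') f)
          ((comap G (ι ∘ ι')).rev a) (c1 (cmpQ hι (ι' := ι') X) a x) = 0 :=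
        Finset.sum_eq_zero fun s _ => Finset.sum_eq_zero fun a _ =>
          map_zero (c1 (resH2 (ι' := ι') f) ((comap G (ι ∘ ι')).rev a))
      rw [e0]
      have e1 : ciR ι' (resH ι f) t 0 = 0 := map_zero (ciR ι' (resH ι f) t)
      have e : ∀ z : Y.V (ι (ι' t)), z = 0 → c2 f (ι (ι' t)) x + c0 f (ι (ι' t)) 0 + 0 + z =
          c2 f (ι (ι' t)) x := by
        intro z hz
        rw [hz, map_zero, add_zero, add_zero, add_zero]
      exact e _ e1
    exact L.trans R.symm

theorem isIso_cmpQ (X : Gob G k) : IsIso (cmpQ hι (ι' := ι') X) :=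
  isIso_of_bijective _ (fun t => Function.bijective_id) (fun t => bij_cwQ hι X t)

theorem cmpQ_gam (X : Gob G k) : gam (resG (ι ∘ ι') X) ≫ cmpQ hι X =
    cmpQ hι X ≫ gam (resG2 ι ι' X) := by
  have h := cmpQ_nat hι (ι' := ι') (gam X)
  rw [resH_gam] at h
  rw [h]
  congr 1
  change resH ι' (resH ι (gam X)) = gam (resG ι' (resG ι X))
  rw [resH_gam, resH_gam]

theorem cmpQ_bar (X : Gob G k) : bar (cmpQ hι (ι' := ι') X) = cmpQ hι X := by
  rw [bar, ← Category.assoc, cmpQ_gam, Category.assoc, gam_gam, Category.comp_id]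

theorem ok_comp {X : TOb G k} (h : Ok (ι ∘ ι') X) : Ok ι X := fun u => h (o1 u)

theorem ok_res {X : TOb G k} (h : Ok (ι ∘ ι') X) : Ok ι' (resT hι X (ok_comp h)) :=
  fun u => h (o2 hι u)

/-- restriction twice, over `comap G (ι ∘ ι')` -/
noncomputable def resTT (X : TOb G k) (h : Ok (ι ∘ ι') X) : TOb (comap G (ι ∘ ι')) k :=
  (resT (G := comap G ι) (ι := ι') hι' (resT (G := G) (ι := ι) hι X (ok_comp h))
    (ok_res hι h) : TOb (comap (comap G ι) ι') k)

theorem resT_resT {X : TOb G k} (h : Ok (ι ∘ ι') X) :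
    HIso (resT (hι.comp hι') X h) (resTT hι hι' X h) := by
  refine ⟨@ofIso _ _ _ _ _ (resT (hι.comp hι') X h) (resTT hι hι' X h) (cmpQ hι X.X)
    (isIso_cmpQ hι X.X) ?_ ?_⟩
  · exact cmpQ_bar hι X.X
  · have e : cmpQ hι (ι' := ι') X.X ≫ resH2 X.d - resH (ι ∘ ι') X.d ≫ bar (cmpQ hι X.X) = 0 := by
      rw [cmpQ_bar, cmpQ_nat, sub_self]
    exact e

end comp

end Crest.Agent.R175.Res2_428
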