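import Crest.Agent.R175.Res2_428
import Crest.Agent.R175.Res3_428
import Crest.Agent.R175.TwI_253
import Crest.Agent.R175.FmU_83

/-!
# Restriction commutes with the twists (row 175, S0263-RES)

`ι : T' → T` injective, `U : T → Prop` contained in the image, `U'` its preimage:
`Cmp (Res k G ι) (Q_U) (Q_U')`.
-/

set_option autoImplicit false
set_option linter.unusedSectionVars false
set_option linter.unusedVariables false
set_option linter.unusedSimpArgs false

open CategoryTheory Module

namespace Crest.Agent.R175.Res4_428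

open Crest.Agent.R175.PTA Crest.Agent.R175.ResI_663 Crest.Agent.R175.Res_428
open Crest.Agent.R175.Unfr_83 Crest.Agent.R175.TwG_253 Crest.Agent.R175.FmU_83
open Crest.Agent.R175.TwA_253 (Tw Sph Sum2)
open Crest.Agent.R175.TwS_83 Crest.Agent.R175.Res3_428

variable {T T' : Type} {k : Type} [Field k] [Fintype T] [Fintype T'] {G : MG T}
  {ι : T' → T} (hι : Function.Injective ι)

/-- the comparison `Hom(P_(ι t), X) → Hom(P_t, Res X)` -/
def bet (ι : T' → T) (X : Gob G k) (t : T') : HP X (ι t) →ₗ[k] HP (resG ι X) t where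
  toFun x := (x.1, fun s a => x.2.1 (ι s) a, (x.2.2.1, fun u a => x.2.1 u.1 (G.rev a)), x.2.2.2)
  map_add' x y := rfl
  map_smul' r x := rfl

theorem bet_inj (X : Gob G k) (t : T') : Function.Injective (bet ι X t) := by
  intro x y h
  apply HP_ext
  · exact congrArg (fun z => z.1) h
  · intro s a
    by_cases hs : s ∈ Set.range ι
    · obtain ⟨s, rfl⟩ := hs
      exact congrFun (congrFun (congrArg (fun z => z.2.1) h) s) a
    · have := congrFun (congrFun (congrArg (fun z => z.2.2.1.2) h) ⟨s, hs⟩) (G.rev a)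
      change x.2.1 s (G.rev (G.rev a)) = y.2.1 s (G.rev (G.rev a)) at this
      rwa [G.rev_rev] at this
  · exact congrArg (fun z => z.2.2.1.1) h
  · exact congrArg (fun z => z.2.2.2) h

include hι in
theorem bet_surj (X : Gob G k) (t : T') : Function.Surjective (bet ι X t) := by
  have hf : finrank k (HP X (ι t)) = finrank k (HP (resG ι X) t) := by
    have e1 : finrank k (HP X (ι t)) = finrank k (X.V (ι t) × (∀ s, G.E (ι t) s → X.V s) ×
      X.W (ι t) × X.V (ι t)) := rfl
    have e2 : finrank k (HP (resG ι X) t) = finrank k (X.V (ι t) ×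
      (∀ s : T', G.E (ι t) (ι s) → X.V (ι s)) × (X.W (ι t) × NW ι X (ι t)) × X.V (ι t)) := rfl
    rw [e1, e2]
    simp only [Module.finrank_prod, Module.finrank_pi_fintype, Finset.sum_const,
      Finset.card_univ, smul_eq_mul]
    rw [sum_split hι]
    have e3 : ∀ u : Out ι, Fintype.card (G.E (ι t) u.1) = Fintype.card (G.E u.1 (ι t)) :=
      fun u => Fintype.card_congr (revE G _ _)
    simp only [e3]
    ring
  exact (LinearMap.injective_iff_surjective_of_finrank_eq_finrank hf).1 (bet_inj X t)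

include hι in
theorem bet_hmap {X Y : Gob G k} (f : X ⟶ Y) (t : T') (x : HP X (ι t)) :
    bet ι Y t (hmap f (ι t) x) = hmap (resH ι f) t (bet ι X t x) := by
  apply HP_ext
  · rfl
  · intro s a; rfl
  · apply Prod.ext
    · rfl
    · rfl
  · have h := sum_split hι fun s => ∑ a : G.E (ι t) s, c1 f (G.rev a) (x.2.1 s a)
    have h2 : ∀ u : Out ι, ∑ a : G.E (ι t) u.1, c1 f (G.rev a) (x.2.1 u.1 a) =
        ∑ a : G.E u.1 (ι t), c1 f a (x.2.1 u.1 (G.rev a)) := by
      intro c
      rw [← sum_rev (G := G) fun a : G.E (ι t) c.1 => c1 f (G.rev a) (x.2.1 c.1 a)]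
      simp
    simp only [h2] at h
    change c2 f (ι t) x.1 + (∑ s, ∑ a : G.E (ι t) s, c1 f (G.rev a) (x.2.1 s a)) +
      ci f (ι t) x.2.2.1 + c0 f (ι t) x.2.2.2 =
      c2 f (ι t) x.1 + (∑ s : T', ∑ a : G.E (ι t) (ι s), c1 f (G.rev a) (x.2.1 (ι s) a)) +
      (ci f (ι t) x.2.2.1 + ∑ u : Out ι, ∑ a : G.E u.1 (ι t), c1 f a (x.2.1 u.1 (G.rev a))) +
      c0 f (ι t) x.2.2.2
    rw [h]
    abel


variable {U : T → Prop} {U' : T' → Prop}

/-- `U` is contained in the image of `ι`, with preimage `U'` -/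
structure Fit (ι : T' → T) (U : T → Prop) (U' : T' → Prop) : Prop where
  iff : ∀ t, U (ι t) ↔ U' t
  out : ∀ u : Out ι, ¬ U u.1

variable (h : Fit ι U U')

include h in
theorem subW (X : Gob G k) (t : T') : Subsingleton ((resG ι (QG U X)).W t) := by
  have h1 : ∀ u : Out ι, Subsingleton ((QG U X).V u.1) :=
    fun u => ⟨fun x y => by rw [q_zero (h.out u) x, q_zero (h.out u) y]⟩
  refine ⟨fun x y => Prod.ext (Subsingleton.elim (α := PUnit) _ _) ?_⟩
  funext u a
  exact (h1 u).elim _ _

include h in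
theorem subV (X : Gob G k) (t : T') (ht : ¬ U' t) : Subsingleton ((resG ι (QG U X)).V t) := by
  have ht' : ¬ U (ι t) := fun e => ht ((h.iff t).1 e)
  exact ⟨fun (x : (QG U X).V (ι t)) (y : (QG U X).V (ι t)) => by
    rw [q_zero ht' x, q_zero ht' y]⟩

/-- the comparison `Res (Q_U X) ⟶ Q_U' (Res X)` -/
noncomputable def alph (ι : T' → T) (U : T → Prop) (U' : T' → Prop) (X : Gob G k) :
    resG ι (QG U X) ⟶ QG U' (resG ι X) :=
  lift U' (resH ι (epsG U X))

include h in
theorem alph_eps (X : Gob G k) : alph ι U U' X ≫ epsG U' (resG ι X) = resH ι (epsG U X) :=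
  lift_eps _ (fun t => subW h X t) (fun t ht => subV h X t ht)

theorem com_eps_res (X : Gob G k) (t : T') (x : (QG U X).V (ι t)) :
    com (resH ι (epsG U X)) t x = bet ι X t (qev U X (ι t) x) := rfl

theorem pu_res {X Y : Gob G k} (f : X ⟶ Y) (hf : Pu f) : Pu (resH ι f) where
  p1 s t a := hf.p1 _ _ _
  pi t := by
    apply LinearMap.ext
    intro (x : X.W (ι t) × NW ι X (ι t))
    have e : ci f (ι t) x.1 + ∑ u : Out ι, ∑ a : G.E u.1 (ι t), c1 f a (x.2 u a) = 0 := by
      simp only [hf.p1, hf.pi, LinearMap.zero_apply, Finset.sum_const_zero, add_zero]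
    exact e
  pj t := by
    apply LinearMap.ext
    intro (x : X.V (ι t))
    apply Prod.ext
    · exact LinearMap.congr_fun (hf.pj (ι t)) x
    · funext u a
      exact LinearMap.congr_fun (hf.p1 _ _ (G.rev a)) x
  p2 t := hf.p2 _

include hι h in
theorem alph_nat {X Y : Gob G k} (f : X ⟶ Y) :
    resH ι (mG U f) ≫ alph ι U U' Y = alph ι U U' X ≫ mG U' (resH ι f) := by
  apply eq_of_eps
  · exact (pu_res _ (pu_mG U f)).comp (pu_lift _ _)
  · exact (pu_lift _ _).comp (pu_mG U' _)
  · rw [Category.assoc, Category.assoc, alph_eps h, eps_nat, ← Category.assoc, alph_eps h,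
      ← resH_comp hι, ← resH_comp hι, eps_nat]

include hι h in
theorem isIso_alph (X : Gob G k) : IsIso (alph ι U U' X) := by
  apply isIso_of_bijective
  · intro t
    by_cases ht : U' t
    · have hU : U (ι t) := (h.iff t).2 ht
      constructor
      · intro (x : (QG U X).V (ι t)) (y : (QG U X).V (ι t)) hxy
        have e := congrArg (qev U' (resG ι X) t) hxy
        change qev U' (resG ι X) t (qin U' (resG ι X) t (bet ι X t (qev U X (ι t) x))) =
          qev U' (resG ι X) t (qin U' (resG ι X) t (bet ι X t (qev U X (ι t) y))) at e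
        rw [qev_qin ht, qev_qin ht] at e
        exact q_ext fun _ => bet_inj X t e
      · intro y
        obtain ⟨z, hz⟩ := bet_surj hι X t (qev U' (resG ι X) t y)
        refine ⟨qin U X (ι t) z, ?_⟩
        apply q_ext
        intro _
        change qev U' (resG ι X) t (qin U' (resG ι X) t (bet ι X t
          (qev U X (ι t) (qin U X (ι t) z)))) = _
        rw [qev_qin ht, qev_qin hU, hz]
    · constructor
      · intro x y _
        exact (subV h X t ht).elim _ _
      · intro y
        exact ⟨0, by rw [q_zero ht y, map_zero]⟩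
  · intro t
    constructor
    · intro x y _
      exact (subW h X t).elim _ _
    · intro y
      exact ⟨0, Subsingleton.elim _ _⟩


/-- the comparison of the functors `Q` along the restriction -/
noncomputable def cmp (hU : ∀ s t, U s → U t → IsEmpty (G.E s t))
    (hU' : ∀ s t, U' s → U' t → IsEmpty ((comap G ι).E s t)) :
    Cmp (Res k G hι) (sphG U hU) (sphG U' hU') where
  α A := alph ι U U' A
  β A := @inv _ _ _ _ (alph ι U U' A) (isIso_alph hι h A)
  αβ A := @IsIso.hom_inv_id _ _ _ _ (alph ι U U' A) (isIso_alph hι h A)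
  βα A := @IsIso.inv_hom_id _ _ _ _ (alph ι U U' A) (isIso_alph hι h A)
  nat f := alph_nat hι h f
  eps A := alph_eps h A

/-- **restriction commutes with the twists** (strictly, for any choice of the direct sums) -/
noncomputable def siRes (hU : ∀ s t, U s → U t → IsEmpty (G.E s t))
    (hU' : ∀ s t, U' s → U' t → IsEmpty ((comap G ι).E s t)) (X : Tw (Gob G k))
    (S : Sum2 (QG U X.X) X.X) (S' : Sum2 (QG U' (resG ι X.X)) (resG ι X.X)) :
    SI (mapTw (Res k G hι) (TwA_253.T (sphG U hU) X S))
      (TwA_253.T (sphG U' hU') (mapTw (Res k G hι) X) S') :=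
  (cmp hι h hU hU').siT X S S'

theorem indep_of (hU : ∀ s t, U s → U t → IsEmpty (G.E s t)) (h : Fit ι U U') :
    ∀ s t, U' s → U' t → IsEmpty ((comap G ι).E s t) :=
  fun s t hs ht => hU _ _ ((h.iff s).2 hs) ((h.iff t).2 ht)

include hι in
theorem fit_map (U' : T' → Prop) : Fit ι (fun s => ∃ t, ι t = s ∧ U' t) U' where
  iff t := ⟨fun ⟨s, hs, h⟩ => hι hs ▸ h, fun h => ⟨t, rfl, h⟩⟩
  out u := fun ⟨t, ht, _⟩ => u.2 ⟨t, ht⟩

include hι in
theorem fit_single (t : T') : Fit ι (fun s => s = ι t) (fun s => s = t) where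
  iff s := ⟨fun e => hι e, fun e => congrArg ι e⟩
  out u := fun e => u.2 ⟨t, e.symm⟩

end Crest.Agent.R175.Res4_428
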