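import Crest.Agent.R175.ResTU_131
import Crest.Agent.R175.ActU_131
import Crest.Agent.R175.LResC_774

/-!
Row 175: the action on the classes is compatible with restriction (field `hact` of `CatI_788.Inp`).
-/

set_option autoImplicit false
set_option linter.unusedSectionVars false
set_option linter.unusedVariables false

open CategoryTheory
open scoped Classical

namespace Crest.Agent.R175.ResTU_131

open Crest.GroupTheory Crest.Agent.R175.PTA Crest.Agent.R175.Cls_133 Crest.Agent.R175.UG_27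
open Crest.Agent.R175.Unf_109 Crest.Agent.R175.LevC_788 Crest.Agent.R175.CatNum_427
open Crest.Agent.R175.TU_788 Crest.Agent.R175.ActC_788 Crest.Agent.R175.ActU_131
open Crest.Agent.R175.Lev_788 Crest.Agent.R175.Act2_732 Crest.Agent.R175.VdL_527
open Crest.Agent.R175.ResI_663 Crest.Agent.R175.Res_428 Crest.Agent.R175.ResC_774
open Crest.Agent.R175.LResC_774 Crest.Agent.R175.LamT_788 Crest.Agent.R175.FmResU_663

variable {S : Type} [Fintype S] {M : CoxeterMatrix S} {Λ : Finset ℕ}

theorem fit_inc (T : Set S) [Fintype T] (t : T) :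
    Res4_428.Fit (inc T Λ) (fun a : S × J Λ => a.1 = (t : S)) (fun a : T × J Λ => a.1 = t) where
  iff a := ⟨fun h => Subtype.ext h, fun h => congrArg Subtype.val h⟩
  out u := fun h => u.2 ⟨(t, u.1.2), Prod.ext h.symm rfl⟩

theorem rU_TF (T : Set S) [Fintype T] (t : T) (x : TOb (UG M Λ) ℂ) (hx : Ok (inc T Λ) x) :
    rU M Λ T ⟦TF M Λ (t : S) x⟧ =
      (⟦TF (res M T) Λ t (resT (inc_inj T Λ) x hx)⟧ : Cls (UG (res M T) Λ) ℂ) := by
  have hO : Ok (inc T Λ) (TF M Λ (t : S) x) :=
    ok_TU _ (fib_hU M Λ (t : S)) x hx (fit_inc T t).out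
  rw [rU_mk T _ hO]
  exact Quotient.sound (res_TU (inc_inj T Λ) (fit_inc T t) (fib_hU M Λ (t : S))
    (fib_hU (res M T) Λ t) x hx hO)

/-- **the field `hact`** -/
theorem hact (hΛ : Good M Λ) (T : Set S) [Fintype T] (hT : Good (res M T) Λ) (t : T)
    (x : Cls (UG M Λ) ℂ) :
    rU M Λ T ((act M hΛ).act.smul (artinGen M (t : S)) x) =
      (act (res M T) hT).act.smul (artinGen (res M T) t) (rU M Λ T x) := by
  obtain ⟨X, hX, rfl⟩ := exists_ok (ι := inc T Λ) x
  rw [act_smul, act_smul, gen, rU_mk T X hX, gen]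
  exact rU_TF T t X hX

end Crest.Agent.R175.ResTU_131
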