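import Crest.Agent.R175.TUh_988
import Crest.Agent.R175.Res4_428

/-!
Row 175: restriction commutes with the twists `TU_788.TU U hU` on objects.
-/

set_option autoImplicit false
set_option linter.unusedSectionVars false
set_option linter.unusedVariables false

open CategoryTheory

namespace Crest.Agent.R175.ResTU_131

open Crest.Agent.R175.PTA Crest.Agent.R175.TwG_253 Crest.Agent.R175.TU_788
open Crest.Agent.R175.TUh_988 Crest.Agent.R175.ResI_663 Crest.Agent.R175.Res_428
open Crest.Agent.R175.Res3_428 Crest.Agent.R175.Res4_428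
open Crest.Agent.R175.TwA_253 (Tw Sum2 Sph)
open Crest.Agent.R175.TwS_83 (SI)

noncomputable section

/-- general step -/
theorem gen6 {C C' : Type*} [Category C] [Preadditive C] [Category C'] [Preadditive C']
    (R : C ⥤ C') [R.Additive] (F : Sph C) (F' : Sph C')
    (K : Cmp R F F') (A : Tw C) (S : Sum2 (F.Q A.X) A.X)
    (B : Tw C') (hB : B = mapTw R A) (S' : Sum2 (F'.Q B.X) B.X)
    (Z : Tw C) (hZ : TwA_253.HEq Z (TwA_253.T F A S)) (Z' : Tw C') (hZ' : Z' = mapTw R Z) :
    TwA_253.HEq Z' (TwA_253.T F' B S') := by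
  subst hB
  subst hZ'
  exact (mapTw_heq R hZ).trans (K.siT A S S').heq

variable {T T' : Type} {k : Type} [Field k] [Fintype T] [Fintype T'] {G : MG T}
  {ι : T' → T} (hι : Function.Injective ι)

/-- restriction of the abstract object of `X` -/
theorem toTw_resT (X : TOb G k) (h : Ok ι X) :
    toTw (resT hι X h) = mapTw (Res k G hι) (toTw X) := by
  have h1 : resH ι (gam X.X) = gam (resG ι X.X) := resH_gam ι
  unfold toTw mapTw
  congr 1
  exact h1.symm

/-- `T_U X` is minimal outside of the image -/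
theorem ok_TU (U : T → Prop) (hU : ∀ s t, U s → U t → IsEmpty (G.E s t)) (X : TOb G k)
    (h : Ok ι X) (hout : ∀ u : Out ι, ¬ U u.1) : Ok ι (TU U hU X) := by
  intro u
  change c0 (-(fst (QG U X.X) X.X ≫ mG U X.d ≫ inl (QG U X.X) X.X)
    + fst (QG U X.X) X.X ≫ epsG U X.X ≫ inr (QG U X.X) X.X
    + snd (QG U X.X) X.X ≫ X.d ≫ inr (QG U X.X) X.X) u.1 = 0
  have h0 : c0 X.d u.1 = 0 := h u
  apply LinearMap.ext
  intro x
  have h1 : c0 (fst (QG U X.X) X.X) u.1 x = 0 := q_zero (hout u) _
  simp only [c0_add, c0_neg, c0_comp, LinearMap.add_apply, LinearMap.neg_apply,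
    LinearMap.comp_apply, h1, map_zero, neg_zero, zero_add, h0, LinearMap.zero_apply]

/-- **restriction commutes with the twists** -/
theorem res_TU {U : T → Prop} {U' : T' → Prop} (hfit : Fit ι U U')
    (hU : ∀ s t, U s → U t → IsEmpty (G.E s t))
    (hU' : ∀ s t, U' s → U' t → IsEmpty ((comap G ι).E s t)) (X : TOb G k)
    (hX : Ok ι X) (hO : Ok ι (TU U hU X)) :
    HIso (resT hι (TU U hU X) hO) (TU U' hU' (resT hι X hX)) := by
  have h2 := gen6 (Res k G hι) (sphG U hU) (sphG U' hU') (cmp hι hfit hU hU') (toTw X) (sm _ _)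
    (toTw (resT hι X hX)) (toTw_resT hι X hX) (sm _ _) (toTw (TU U hU X)) (heq_TU U hU X)
    (toTw (resT hι (TU U hU X) hO)) (toTw_resT hι (TU U hU X) hO)
  exact hiso_of_heq' (h2.trans (heq_TU U' hU' (resT hι X hX)).symm)

end

end Crest.Agent.R175.ResTU_131
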