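import Crest.Agent.R175.Res4_428
import Crest.Agent.R175.TwQ_250

/-!
# Restriction and the twists `TU` (row 175, S0263-RES, helper428)

`res_TU : HIso (resT hι (TU U hU X) _) (TU U' hU' (resT hι X hX))` for `Fit ι U U'`.
-/

set_option autoImplicit false
set_option linter.unusedSectionVars false
set_option linter.unusedVariables false
set_option linter.unusedSimpArgs false

open CategoryTheory

namespace Crest.Agent.R175.ResTU_428

section abs

open Crest.Agent.R175.TwA_253 Crest.Agent.R175.TwS_83 Crest.Agent.R175.Res3_428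
open Crest.Agent.R175.TwQ_250 Crest.Agent.R175.TwB_250 Crest.Agent.R175.TwD_250

universe v u v' u'

variable {C : Type u} [Category.{v} C] [Preadditive C]
variable {C' : Type u'} [Category.{v'} C'] [Preadditive C'] (R : C ⥤ C') [R.Additive]

/-- image of a strict isomorphism -/
def mapSI {X Y : Tw C} (s : SI X Y) : SI (mapTw R X) (mapTw R Y) where
  f := R.map s.f
  g := R.map s.g
  fg := by rw [← R.map_comp, s.fg, R.map_id]
  gf := by rw [← R.map_comp, s.gf, R.map_id]
  fe := by rw [← R.map_comp, ← R.map_comp, s.fe]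
  fd := by rw [← R.map_comp, ← R.map_comp, s.fd]

theorem cmp_isT [BP C'] {F : Sph C} {F' : Sph C'} (K : Cmp R F F') {X Y : Tw C}
    {X' Y' Z : Tw C'} (h : IsT F X Y) (i : Nonempty (SI (mapTw R X) X'))
    (j : Nonempty (SI (mapTw R Y) Y')) (g : IsT F' X' Z) : TwA_253.HEq Y' Z := by
  obtain ⟨S, ⟨a⟩⟩ := h
  obtain ⟨i⟩ := i
  obtain ⟨j⟩ := j
  obtain ⟨S', ⟨b⟩⟩ := g
  have e1 : SI Y' (mapTw R (T F X S)) := j.symm.trans (mapSI R a)
  have e2 : SI Y' (T F' (mapTw R X) (s2 _ _)) := e1.trans (K.siT X S (s2 _ _))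
  have e3 : SI Y' (T F' X' S') := e2.trans (Tm_SI i _ S')
  exact (e3.trans b.symm).heq

end abs

open Crest.Agent.R175.PTA Crest.Agent.R175.ResI_663 Crest.Agent.R175.Res_428
open Crest.Agent.R175.TwG_253 Crest.Agent.R175.Res4_428 Crest.Agent.R175.Res3_428
open Crest.Agent.R175.TU_788 Crest.Agent.R175.TwQ_250
open Crest.Agent.R175.TwS_83 (SI)

noncomputable section

variable {T T' : Type} {k : Type} [Field k] [Fintype T] [Fintype T'] {G : MG T}
  {ι : T' → T} (hι : Function.Injective ι)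

/-- the differential object of the restriction -/
def siRes0 (X : TOb G k) (hX : Ok ι X) :
    SI (mapTw (Res k G hι) (toTw X)) (toTw (resT hι X hX)) where
  f := 𝟙 (resG ι X.X)
  g := 𝟙 (resG ι X.X)
  fg := Category.id_comp (𝟙 (resG ι X.X))
  gf := Category.id_comp (𝟙 (resG ι X.X))
  fe := by
    have h1 : 𝟙 (resG ι X.X) ≫ gam (resG ι X.X) = resH ι (gam X.X) ≫ 𝟙 (resG ι X.X) := by
      rw [Category.id_comp, Category.comp_id, resH_gam]
    exact h1
  fd := by
    have h1 : 𝟙 (resG ι X.X) ≫ resH ι X.d = resH ι X.d ≫ 𝟙 (resG ι X.X) := by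
      rw [Category.id_comp, Category.comp_id]
    exact h1

variable {U : T → Prop} {U' : T' → Prop} (h : Fit ι U U')
  (hU : ∀ s t, U s → U t → IsEmpty (G.E s t))
  (hU' : ∀ s t, U' s → U' t → IsEmpty ((comap G ι).E s t))

theorem d_TU (X : TOb G k) : (TU U hU X).d = -(fst (QG U X.X) X.X ≫ mG U X.d ≫ inl (QG U X.X) X.X)
    + fst (QG U X.X) X.X ≫ epsG U X.X ≫ inr (QG U X.X) X.X
    + snd (QG U X.X) X.X ≫ X.d ≫ inr (QG U X.X) X.X := rfl

theorem c0_d_TU (X : TOb G k) {t : T} (ht : ¬ U t) (hX : c0 X.d t = 0) :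
    c0 (TU U hU X).d t = 0 := by
  apply LinearMap.ext
  rintro ⟨q, x⟩
  have hq : q = 0 := q_zero ht q
  subst hq
  have e : c0 (-(fst (QG U X.X) X.X ≫ mG U X.d ≫ inl (QG U X.X) X.X)
    + fst (QG U X.X) X.X ≫ epsG U X.X ≫ inr (QG U X.X) X.X
    + snd (QG U X.X) X.X ≫ X.d ≫ inr (QG U X.X) X.X) t ((0 : (QG U X.X).V t), x) = 0 := by
    simp only [c0_add, c0_neg, c0_comp, c0_fst, c0_snd, c0_inl, c0_inr, hX, LinearMap.add_apply,
      LinearMap.neg_apply, LinearMap.comp_apply, LinearMap.fst_apply, LinearMap.snd_apply,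
      map_zero, LinearMap.zero_apply, neg_zero, add_zero]
  exact e

include h in
theorem ok_TU (X : TOb G k) (hX : Ok ι X) : Ok ι (TU U hU X) :=
  fun u => c0_d_TU hU X (h.out u) (hX u)

include h in
/-- **restriction commutes with the twists** -/
theorem res_TU (X : TOb G k) (hX : Ok ι X) (hY : Ok ι (TU U hU X)) :
    HIso (resT hι (TU U hU X) hY) (TU U' hU' (resT hι X hX)) :=
  TwQ_250.hiso_of_heq (cmp_isT (Res k G hι) (cmp hι h hU hU') (isT_TU U hU X) ⟨siRes0 hι X hX⟩
    ⟨siRes0 hι _ hY⟩ (isT_TU U' hU' _))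

end

end Crest.Agent.R175.ResTU_428
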