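import Crest.Agent.R175.TUh_988
import Crest.Agent.R175.Res4_428
import Crest.Agent.R175.TwcI_774
import Crest.Agent.R175.ResC_774

/-!
# `Res (TU U X) ≅ TU U' (Res X)` (row 175, item (e) of RULING 10, helper774)

`ok_TU`, `resT_TU`, on classes `rC_pU : rC hι (pU U hU x) = pU U' hU' (rC hι x)`.
-/

set_option autoImplicit false
set_option linter.unusedSectionVars false
set_option linter.unusedVariables false

open CategoryTheory

namespace Crest.Agent.R175.ResTU_774

open Crest.Agent.R175.PTA Crest.Agent.R175.TwG_253 Crest.Agent.R175.ResI_663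
open Crest.Agent.R175.Res_428 Crest.Agent.R175.Res3_428 Crest.Agent.R175.Res4_428
open Crest.Agent.R175.TwA_253 (Tw Sum2 Sph)
open Crest.Agent.R175.TwS_83 (SI)
open Crest.Agent.R175.TU_788 Crest.Agent.R175.TUh_988 Crest.Agent.R175.Cls_133

variable {T T' : Type} {k : Type} [Field k] [Fintype T] [Fintype T'] {G : MG T}
  {ι : T' → T} (hι : Function.Injective ι)

/-- `toTw (Res X) ≅ Res (toTw X)` by the identity -/
noncomputable def siR (X : TOb G k) (h : Ok ι X) :
    SI (toTw (resT hι X h)) (mapTw (Res k G hι) (toTw X)) where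
  f := 𝟙 (resG ι X.X)
  g := 𝟙 (resG ι X.X)
  fg := Category.id_comp _
  gf := Category.id_comp _
  fe := by
    have h1 : 𝟙 (resG ι X.X) ≫ resH ι (gam X.X) = gam (resG ι X.X) ≫ 𝟙 (resG ι X.X) := by
      rw [Category.id_comp, Category.comp_id, resH_gam]
    exact h1
  fd := by
    have h1 : 𝟙 (resG ι X.X) ≫ resH ι X.d = resH ι X.d ≫ 𝟙 (resG ι X.X) := by
      rw [Category.id_comp, Category.comp_id]
    exact h1

theorem heq_R (X : TOb G k) (h : Ok ι X) :
    TwA_253.HEq (toTw (resT hι X h)) (mapTw (Res k G hι) (toTw X)) := (siR hι X h).heq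

theorem res_gen (F : Sph (Gob G k)) (F' : Sph (Gob (comap G ι) k))
    (K : Cmp (Res k G hι) F F') (X Y : TOb G k) (hX : Ok ι X) (hY : Ok ι Y)
    (Z : TOb (comap G ι) k) (S : Sum2 (F.Q (toTw X).X) (toTw X).X)
    (S' : Sum2 (F'.Q (toTw (resT hι X hX)).X) (toTw (resT hι X hX)).X)
    (h1 : TwA_253.HEq (toTw Y) (TwA_253.T F (toTw X) S))
    (h2 : TwA_253.HEq (toTw Z) (TwA_253.T F' (toTw (resT hι X hX)) S')) :
    HIso (resT hι Y hY) Z := by
  apply hiso_of_heq'
  have e1 := (heq_R hι Y hY).trans (mapTw_heq (Res k G hι) h1)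
  have e2 := (K.siT (toTw X) S (sm _ _)).heq
  have e3 := T_heq (F := F') (heq_R hι X hX).symm (sm _ _) S'
  exact e1.trans (e2.trans (e3.trans h2.symm))

variable {U : T → Prop} {U' : T' → Prop} (hU : ∀ s t, U s → U t → IsEmpty (G.E s t))
  (hU' : ∀ s t, U' s → U' t → IsEmpty ((comap G ι).E s t))

theorem ok_TU (h : Fit ι U U') (X : TOb G k) (hX : Ok ι X) : Ok ι (TU U hU X) := by
  intro u
  have hu : ¬ U u.1 := h.out u
  apply LinearMap.ext
  intro (x : (QG U X.X).V u.1 × X.X.V u.1)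
  have hx : x = ((inr (QG U X.X) X.X : X.X ⟶ gsum (QG U X.X) X.X) |> fun f => c0 f u.1 x.2) :=
    Prod.ext (by rw [q_zero hu x.1]; rfl) rfl
  have h1 : inr (QG U X.X) X.X ≫ (tw U hU X).d = X.d ≫ inr (QG U X.X) X.X :=
    TwA_253.T_d_inr (F := sphG U hU) (X := toTw X) (S := sm _ _)
  have h2 := congrArg (fun f => c0 f u.1 x.2) h1
  rw [hx]
  refine h2.trans ?_
  change c0 (X.d ≫ inr (QG U X.X) X.X) u.1 x.2 = 0
  rw [c0_comp, hX u]
  simp

include hι in
/-- **`Res (TU U X) ≅ TU U' (Res X)`** -/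
theorem resT_TU (h : Fit ι U U') (X : TOb G k) (hX : Ok ι X) (hY : Ok ι (TU U hU X)) :
    HIso (resT hι (TU U hU X) hY) (TU U' hU' (resT hι X hX)) :=
  res_gen hι (sphG U hU) (sphG U' hU') (cmp hι h hU hU') X (TU U hU X) hX hY
    (TU U' hU' (resT hι X hX)) (sm _ _) (sm _ _) (heq_TU U hU X) (heq_TU U' hU' (resT hι X hX))

/-- **the same on classes** -/
theorem rC_pU [NeZero (2 : k)] (h : Fit ι U U') (x : Cls G k) :
    ResC_774.rC hι (TwcI_774.pU U hU x) = TwcI_774.pU U' hU' (ResC_774.rC hι x) := by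
  obtain ⟨X, hX, rfl⟩ := ResC_774.exists_ok (ι := ι) x
  have hY := ok_TU (U' := U') hU h X hX
  rw [TwcI_774.pU_mk, ResC_774.rC_mk hι _ hY, ResC_774.rC_mk hι _ hX, TwcI_774.pU_mk]
  exact Quotient.sound (resT_TU hι hU hU' h X hX hY)

end Crest.Agent.R175.ResTU_774
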