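import Crest.Agent.R175.ResTU_428
import Crest.Agent.R175.LResC_774
import Crest.Agent.R175.TwR_250
import Crest.Agent.R175.TUc_61
import Crest.Agent.R175.ActC_788

/-!
# Restriction and the twists on classes; `hact` (row 175, S0263-RES, helper428)

* `rC_TUc : rC hι (TUc U hU x) = TUc U' hU' (rC hι x)`;
* `hact_of : rU (artinGen M t • x) = artinGen (res M T) t • rU x` for the actions of `P`.
-/

set_option autoImplicit false
set_option linter.unusedSectionVars false
set_option linter.unusedVariables false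
set_option linter.unusedSimpArgs false

open CategoryTheory
open scoped Classical

namespace Crest.Agent.R175.ResTUc_428

open Crest.GroupTheory Crest.Agent.R175.PTA Crest.Agent.R175.Cls_133 Crest.Agent.R175.UG_27
open Crest.Agent.R175.Unf_109 Crest.Agent.R175.Act2_732 Crest.Agent.R175.TU_788
open Crest.Agent.R175.ResI_663 Crest.Agent.R175.Res_428 Crest.Agent.R175.ResC_774
open Crest.Agent.R175.Res4_428 Crest.Agent.R175.ResTU_428 Crest.Agent.R175.LResC_774
open Crest.Agent.R175.FmResU_663 Crest.Agent.R175.VdL_527 Crest.Agent.R175.TUc_61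
open Crest.Agent.R175.ActC_788

noncomputable section

section gen

variable {T T' : Type} {k : Type} [Field k] [NeZero (2 : k)] [Fintype T] [Fintype T'] {G : MG T}
  {ι : T' → T} (hι : Function.Injective ι) {U : T → Prop} {U' : T' → Prop} (h : Fit ι U U')
  (hU : ∀ s t, U s → U t → IsEmpty (G.E s t))
  (hU' : ∀ s t, U' s → U' t → IsEmpty ((comap G ι).E s t))

include h in
theorem rC_TU (X : TOb G k) (hX : Ok ι X) :
    rC hι (⟦TU U hU X⟧ : Cls G k) = ⟦TU U' hU' (resT hι X hX)⟧ := by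
  rw [rC_mk hι _ (ok_TU h hU X hX)]
  exact Quotient.sound (res_TU hι h hU hU' X hX _)

include h in
theorem rC_TUc (x : Cls G k) : rC hι (TUc U hU x) = TUc U' hU' (rC hι x) := by
  obtain ⟨X, hX, rfl⟩ := exists_ok (ι := ι) x
  rw [TUc_mk, rC_TU hι h hU hU' X hX, rC_mk hι X hX, TUc_mk]

end gen

section lev

variable {S : Type} [Fintype S] {M : CoxeterMatrix S} {Λ : Finset ℕ}

theorem fit_fib (T : Set S) (t : T) :
    Fit (inc T Λ) (fun a : S × J Λ => a.1 = (t : S)) (fun a : T × J Λ => a.1 = t) where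
  iff a := ⟨fun e => Subtype.ext e, fun e => congrArg Subtype.val e⟩
  out u := fun e => u.2 ⟨(t, u.1.2), Prod.ext e.symm rfl⟩

theorem unf_TF (hΛ : Good M Λ) (s : S) (X : TOb (UG M Λ) ℂ) :
    (P (UG M Λ) ℂ).unf hΛ (artinGen M s) (⟦X⟧ : Cls (UG M Λ) ℂ) = ⟦TF M Λ s X⟧ :=
  TwQ_250.unf_mk (P (UG M Λ) ℂ) (fun v X => P_mk v X) hΛ s (fib_hU M Λ s) X

theorem rU_TF (T : Set S) [Fintype T] (t : T) (X : TOb (UG M Λ) ℂ) (hX : Ok (inc T Λ) X) :
    rU M Λ T (⟦TF M Λ (t : S) X⟧ : Cls (UG M Λ) ℂ) =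
      (⟦TF (res M T) Λ t (resT (inc_inj T Λ) X hX)⟧ : Cls (UG (res M T) Λ) ℂ) :=
  rC_TU (G := UG M Λ) (inc_inj T Λ) (fit_fib T t) (fib_hU M Λ (t : S))
    (fib_hU (res M T) Λ t) X hX

/-- **field `hact`** for the actions of 61's `P` -/
theorem hact (hΛ : Good M Λ) (T : Set S) [Fintype T] (hΛ' : Good (res M T) Λ) (t : T)
    (x : Cls (UG M Λ) ℂ) :
    rU M Λ T ((P (UG M Λ) ℂ).unf hΛ (artinGen M (t : S)) x) =
      (P (UG (res M T) Λ) ℂ).unf hΛ' (artinGen (res M T) t) (rU M Λ T x) := by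
  obtain ⟨X, hX, rfl⟩ := exists_ok (ι := inc T Λ) x
  rw [unf_TF hΛ (t : S) X, rU_TF T t X hX, rU_mk T X hX]
  exact (unf_TF hΛ' t (resT (inc_inj T Λ) X hX)).symm

end lev

end

end Crest.Agent.R175.ResTUc_428
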