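import Crest.Agent.R175.PTB_534
import Crest.Agent.R175.Unfr_988
import Crest.Agent.R175.FrmHd_988

/-!
Row 175, task 486 (S0263-RES): restriction of T-framed objects along an injection `ι : T' → T`.

`cm G ι`  : the restricted graph (`E s t = G.E (ι s) (ι t)`).
`resO ι X`: `V t := X.V (ι t)`, `W t := X.W (ι t) × NW ι X (ι t)`, the new frames at `t` being one copy
            of `X.V u` for every edge `u → ι t`, `u ∉ range ι`.
`res ι f` : the functor on morphisms; `k`-linear, compatible with `gam` and `bar`.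
`resT`    : on objects with a differential (`c0 d u = 0` for `u ∉ range ι`), `resF` on minimal objects.
-/

set_option autoImplicit false
set_option linter.unusedSectionVars false
set_option linter.unusedVariables false

open CategoryTheory

namespace Crest.Agent.R175.Res_988

open Crest.Agent.R175.PTA

universe v

section graph

variable {T T' : Type} (G : MG T) (ι : T' → T)

/-- the graph restricted along `ι` -/
def cm : MG T' where
  E s t := G.E (ι s) (ι t)
  fin s t := G.fin (ι s) (ι t)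
  rev a := G.rev a
  rev_rev a := G.rev_rev a
  irr t := G.irr (ι t)

/-- the vertices outside of the range of `ι` -/
abbrev Out : Type := {u : T // u ∉ Set.range ι}

variable {G} in
/-- reversing the edges -/
def revE (s t : T) : G.E s t ≃ G.E t s where
  toFun a := G.rev a
  invFun a := G.rev a
  left_inv a := G.rev_rev a
  right_inv a := G.rev_rev a

theorem cm_comp {T'' : Type} (κ : T'' → T') : cm (cm G ι) κ = cm G (ι ∘ κ) := rfl

end graph

section sums

variable {T T' : Type} [Fintype T] [Fintype T'] {ι : T' → T}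

noncomputable instance : Fintype (Out ι) := Fintype.ofFinite _

/-- `T' ⊕ (outside) ≃ T` -/
noncomputable def splitE (hι : Function.Injective ι) : T' ⊕ Out ι ≃ T :=
  Equiv.ofBijective (Sum.elim ι Subtype.val) (by
    constructor
    · rintro (a | a) (b | b) h
      · exact congrArg _ (hι h)
      · exact absurd ⟨a, h⟩ b.2
      · exact absurd ⟨b, h.symm⟩ a.2
      · exact congrArg _ (Subtype.ext h)
    · intro t
      by_cases h : t ∈ Set.range ι
      · obtain ⟨a, ha⟩ := h
        exact ⟨Sum.inl a, ha⟩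
      · exact ⟨Sum.inr ⟨t, h⟩, rfl⟩)

/-- a sum over `T` = the sum over `T'` + the sum over the outside -/
theorem sum_split (hι : Function.Injective ι) {M : Type*} [AddCommMonoid M] (F : T → M) :
    ∑ t, F t = ∑ t : T', F (ι t) + ∑ u : Out ι, F u.1 := by
  rw [← Fintype.sum_equiv (splitE hι) (fun x => F (splitE hι x)) F fun _ => rfl,
    Fintype.sum_sum_type]
  rfl

end sums

section functor

variable {T T' : Type} {G : MG T} {k : Type v} [Field k] [Fintype T] [Fintype T']

/-- the new frames at `t`: one copy of `V u` per edge `u → t`, `u ∉ range ι` -/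
abbrev NW (ι : T' → T) (X : Gob G k) (t : T) : Type v :=
  ∀ (u : Out ι) (_ : G.E u.1 t), X.V u.1

variable (ι : T' → T) {X Y Z : Gob G k}

/-- new frames to new frames: `c0 f u` componentwise -/
def nwm (f : X ⟶ Y) (t : T) : NW ι X t →ₗ[k] NW ι Y t :=
  LinearMap.pi fun u => LinearMap.pi fun a => c0 f u.1 ∘ₗ LinearMap.proj a ∘ₗ LinearMap.proj u

/-- new frames to `V t` -/
noncomputable def nwi (f : X ⟶ Y) (t : T) : NW ι X t →ₗ[k] Y.V t :=
  ∑ u : Out ι, ∑ a : G.E u.1 t, c1 f a ∘ₗ LinearMap.proj a ∘ₗ LinearMap.proj u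

/-- `V t` to new frames -/
def nwj (f : X ⟶ Y) (t : T) : X.V t →ₗ[k] NW ι Y t :=
  LinearMap.pi fun _ => LinearMap.pi fun a => c1 f (G.rev a)

theorem nwm_apply (f : X ⟶ Y) (t : T) (x : NW ι X t) (u : Out ι) (a : G.E u.1 t) :
    nwm ι f t x u a = c0 f u.1 (x u a) := rfl

theorem nwi_apply (f : X ⟶ Y) (t : T) (x : NW ι X t) :
    nwi ι f t x = ∑ u : Out ι, ∑ a : G.E u.1 t, c1 f a (x u a) := by
  simp [nwi]

theorem nwj_apply (f : X ⟶ Y) (t : T) (x : X.V t) (u : Out ι) (a : G.E u.1 t) :
    nwj ι f t x u a = c1 f (G.rev a) x := rfl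

theorem nwm_id (t : T) : nwm ι (𝟙 X) t = LinearMap.id := rfl

theorem nwi_id (t : T) : nwi ι (𝟙 X) t = 0 := by
  refine LinearMap.ext fun x => ?_
  rw [nwi_apply]
  simp

theorem nwj_id (t : T) : nwj ι (𝟙 X) t = 0 := rfl

theorem nwm_comp (f : X ⟶ Y) (g : Y ⟶ Z) (t : T) :
    nwm ι (f ≫ g) t = nwm ι g t ∘ₗ nwm ι f t := rfl

theorem nwi_comp (f : X ⟶ Y) (g : Y ⟶ Z) (t : T) :
    nwi ι (f ≫ g) t = nwi ι g t ∘ₗ nwm ι f t + c0 g t ∘ₗ nwi ι f t := by
  refine LinearMap.ext fun x => ?_
  simp only [LinearMap.add_apply, LinearMap.comp_apply, nwi_apply, c1_comp, nwm_apply, map_sum,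
    Finset.sum_add_distrib]

theorem nwj_comp (f : X ⟶ Y) (g : Y ⟶ Z) (t : T) :
    nwj ι (f ≫ g) t = nwj ι g t ∘ₗ c0 f t + nwm ι g t ∘ₗ nwj ι f t := rfl

theorem nwi_nwj (f : X ⟶ Y) (g : Y ⟶ Z) (t : T) :
    nwi ι g t ∘ₗ nwj ι f t = ∑ u : Out ι, ∑ a : G.E t u.1, c1 g (G.rev a) ∘ₗ c1 f a := by
  refine LinearMap.ext fun x => ?_
  rw [LinearMap.comp_apply, nwi_apply, LinearMap.sum_apply]
  refine Finset.sum_congr rfl fun u _ => ?_
  rw [LinearMap.sum_apply]
  refine (Fintype.sum_equiv (revE t u.1) _ _ fun a => ?_).symm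
  rw [nwj_apply]
  simp [revE]

theorem nwm_add (f g : X ⟶ Y) (t : T) : nwm ι (f + g) t = nwm ι f t + nwm ι g t := rfl
theorem nwj_add (f g : X ⟶ Y) (t : T) : nwj ι (f + g) t = nwj ι f t + nwj ι g t := rfl
theorem nwi_add (f g : X ⟶ Y) (t : T) : nwi ι (f + g) t = nwi ι f t + nwi ι g t := by
  refine LinearMap.ext fun x => ?_
  simp [nwi_apply, Finset.sum_add_distrib]
theorem nwm_smul (c : k) (f : X ⟶ Y) (t : T) : nwm ι (c • f) t = c • nwm ι f t := rfl
theorem nwj_smul (c : k) (f : X ⟶ Y) (t : T) : nwj ι (c • f) t = c • nwj ι f t := rfl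
theorem nwi_smul (c : k) (f : X ⟶ Y) (t : T) : nwi ι (c • f) t = c • nwi ι f t := by
  refine LinearMap.ext fun x => ?_
  simp [nwi_apply, Finset.smul_sum]

theorem nwm_gam_sq (t : T) : nwm ι (gam X) t ∘ₗ nwm ι (gam X) t = LinearMap.id := by
  rw [← nwm_comp, gam_gam, nwm_id]

theorem nwi_gam (t : T) : nwi ι (gam X) t = 0 := by
  refine LinearMap.ext fun x => ?_
  rw [nwi_apply]
  simp

theorem nwj_gam (t : T) : nwj ι (gam X) t = 0 := rfl

/-- the restriction of a graded object -/
def resO (X : Gob G k) : Gob (cm G ι) k where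
  V t := X.V (ι t)
  W t := X.W (ι t) × NW ι X (ι t)
  gV t := X.gV (ι t)
  gW t := LinearMap.prodMap (X.gW (ι t)) (nwm ι (gam X) (ι t))
  gV_sq t := X.gV_sq (ι t)
  gW_sq t := by
    refine LinearMap.ext fun x => Prod.ext ?_ ?_
    · exact LinearMap.congr_fun (X.gW_sq (ι t)) x.1
    · exact LinearMap.congr_fun (nwm_gam_sq ι (ι t)) x.2

/-- the restriction of a morphism -/
noncomputable def res (f : X ⟶ Y) : resO ι X ⟶ resO ι Y :=
  mkH (X := resO ι X) (Y := resO ι Y) (fun t => c0 f (ι t))
    (fun t => LinearMap.prodMap (cW f (ι t)) (nwm ι f (ι t)))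
    (fun s t a => c1 f (s := ι s) (t := ι t) a)
    (fun t => LinearMap.coprod (ci f (ι t)) (nwi ι f (ι t)))
    (fun t => LinearMap.prod (cj f (ι t)) (nwj ι f (ι t)))
    (fun t => c2 f (ι t))

section resl
variable (f : X ⟶ Y)
@[simp] theorem c0_res (t : T') : c0 (res ι f) t = c0 f (ι t) := rfl
theorem cW_res (t : T') : cW (res ι f) t = LinearMap.prodMap (cW f (ι t)) (nwm ι f (ι t)) := rfl
@[simp] theorem c1_res {s t : T'} (a : (cm G ι).E s t) :
    c1 (res ι f) a = c1 f (s := ι s) (t := ι t) a := rfl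
theorem ci_res (t : T') : ci (res ι f) t = LinearMap.coprod (ci f (ι t)) (nwi ι f (ι t)) := rfl
theorem cj_res (t : T') : cj (res ι f) t = LinearMap.prod (cj f (ι t)) (nwj ι f (ι t)) := rfl
@[simp] theorem c2_res (t : T') : c2 (res ι f) t = c2 f (ι t) := rfl
end resl

theorem res_id : res ι (𝟙 X) = 𝟙 (resO ι X) := by
  apply hm_ext
  · intro t; rfl
  · intro t; rfl
  · intro s t a; rfl
  · intro t
    rw [ci_res, nwi_id]
    refine LinearMap.ext fun x => ?_
    exact add_zero _
  · intro t; rfl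
  · intro t; rfl

theorem res_gam : res ι (gam X) = gam (resO ι X) := by
  apply hm_ext
  · intro t; rfl
  · intro t; rfl
  · intro s t a; rfl
  · intro t
    rw [ci_res, nwi_gam]
    refine LinearMap.ext fun x => ?_
    exact add_zero _
  · intro t; rfl
  · intro t; rfl

theorem ci_aux (f : X ⟶ Y) (g : Y ⟶ Z) (t : T) (x : X.W t × NW ι X t) :
    LinearMap.coprod (ci (f ≫ g) t) (nwi ι (f ≫ g) t) x =
      LinearMap.coprod (ci g t) (nwi ι g t) (cW f t x.1, nwm ι f t x.2) +
      c0 g t (LinearMap.coprod (ci f t) (nwi ι f t) x) := by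
  rw [nwi_comp]
  simp only [ci_comp, LinearMap.coprod_apply, LinearMap.add_apply, LinearMap.comp_apply, map_add]
  abel

theorem c2_aux (hι : Function.Injective ι) (f : X ⟶ Y) (g : Y ⟶ Z) (t : T) :
    c2 (f ≫ g) t = c2 g t ∘ₗ c0 f t + c0 g t ∘ₗ c2 f t +
      (∑ s : T', ∑ a : G.E t (ι s), c1 g (G.rev a) ∘ₗ c1 f a) +
      LinearMap.coprod (ci g t) (nwi ι g t) ∘ₗ LinearMap.prod (cj f t) (nwj ι f t) := by
  rw [LinearMap.coprod_comp_prod, nwi_nwj, c2_comp, sum_split hι]
  abel

theorem res_comp (hι : Function.Injective ι) (f : X ⟶ Y) (g : Y ⟶ Z) :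
    res ι (f ≫ g) = res ι f ≫ res ι g := by
  apply hm_ext
  · intro t; rfl
  · intro t; rfl
  · intro s t a; rfl
  · intro t; exact LinearMap.ext fun x => ci_aux ι f g (ι t) x
  · intro t; rfl
  · intro t; exact c2_aux ι hι f g (ι t)

theorem res_add (f g : X ⟶ Y) : res ι (f + g) = res ι f + res ι g := by
  apply hm_ext
  · intro t; rfl
  · intro t; rfl
  · intro s t a; rfl
  · intro t
    have h : ∀ x : X.W (ι t) × NW ι X (ι t),
        LinearMap.coprod (ci (f + g) (ι t)) (nwi ι (f + g) (ι t)) x =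
        LinearMap.coprod (ci f (ι t)) (nwi ι f (ι t)) x +
        LinearMap.coprod (ci g (ι t)) (nwi ι g (ι t)) x := by
      intro x
      rw [nwi_add]
      simp only [LinearMap.add_apply, LinearMap.coprod_apply, ci_add]
      abel
    exact LinearMap.ext h
  · intro t; rfl
  · intro t; rfl

theorem res_smul (c : k) (f : X ⟶ Y) : res ι (c • f) = c • res ι f := by
  apply hm_ext
  · intro t; rfl
  · intro t; rfl
  · intro s t a; rfl
  · intro t
    have h : ∀ x : X.W (ι t) × NW ι X (ι t),
        LinearMap.coprod (ci (c • f) (ι t)) (nwi ι (c • f) (ι t)) x =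
        c • LinearMap.coprod (ci f (ι t)) (nwi ι f (ι t)) x := by
      intro x
      rw [nwi_smul]
      simp only [LinearMap.smul_apply, LinearMap.coprod_apply, ci_smul, smul_add]
    exact LinearMap.ext h
  · intro t; rfl
  · intro t; rfl

/-- the restriction of morphisms as a linear map -/
noncomputable def resL (X Y : Gob G k) : (X ⟶ Y) →ₗ[k] (resO ι X ⟶ resO ι Y) where
  toFun f := res ι f
  map_add' := res_add ι
  map_smul' := res_smul ι

@[simp] theorem resL_apply (f : X ⟶ Y) : resL ι X Y f = res ι f := rfl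

@[simp] theorem res_zero : res ι (0 : X ⟶ Y) = 0 := (resL ι X Y).map_zero
theorem res_neg (f : X ⟶ Y) : res ι (-f) = -res ι f := (resL ι X Y).map_neg f
theorem res_sub (f g : X ⟶ Y) : res ι (f - g) = res ι f - res ι g := (resL ι X Y).map_sub f g
theorem res_sum {I : Type*} (s : Finset I) (f : I → (X ⟶ Y)) :
    res ι (∑ i ∈ s, f i) = ∑ i ∈ s, res ι (f i) := map_sum (resL ι X Y) f s

theorem res_bar (hι : Function.Injective ι) (f : X ⟶ Y) : res ι (bar f) = bar (res ι f) := by
  rw [bar, bar, res_comp ι hι, res_comp ι hι, res_gam, res_gam]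

end functor

section obj

variable {T T' : Type} {G : MG T} {k : Type v} [Field k] [Fintype T] [Fintype T'] {ι : T' → T}

/-- the condition for the restriction: no length 0 part outside of the range -/
def OK (ι : T' → T) (X : TOb G k) : Prop := ∀ u : Out ι, c0 X.d u.1 = 0

theorem OK_toTOb (X : FObj G k) : OK ι X.toTOb := fun _ => rfl

theorem OK_free (m n : T → ℕ) : OK ι (free G k m n) := fun _ => rfl

/-- the restriction of an object with differential -/
noncomputable abbrev resT (hι : Function.Injective ι) (X : TOb G k) (h : OK ι X) :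
    TOb (cm G ι) k where
  X := resO ι X.X
  d := res ι X.d
  dd := by rw [← res_comp ι hι, X.dd, res_zero]
  dg := by rw [← res_gam, ← res_comp ι hι, ← res_comp ι hι, X.dg, res_neg]
  dW t := by
    refine LinearMap.ext fun x => Prod.ext ?_ ?_
    · exact LinearMap.congr_fun (X.dW (ι t)) x.1
    · funext u a
      exact LinearMap.congr_fun (h u) (x.2 u a)

theorem resT_X (hι : Function.Injective ι) (X : TOb G k) (h : OK ι X) :
    (resT hι X h).X = resO ι X.X := rfl
theorem resT_d (hι : Function.Injective ι) (X : TOb G k) (h : OK ι X) :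
    (resT hι X h).d = res ι X.d := rfl

section D

variable (hι : Function.Injective ι) {X Y : TOb G k} (hX : OK ι X) (hY : OK ι Y)

include hι hX hY

theorem D_res (f : X.X ⟶ Y.X) :
    D (resT hι X hX) (resT hι Y hY) (res ι f) = res ι (D X Y f) := by
  rw [D_apply, D_apply, res_sub, res_comp ι hι, res_comp ι hι, res_bar ι hι]

/-- the restriction of a homotopy equivalence -/
noncomputable def resE (e : HEquiv X Y) : HEquiv (resT hι X hX) (resT hι Y hY) where
  p := res ι e.p
  q := res ι e.q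
  s := res ι e.s
  r := res ι e.r
  bp := by rw [← res_bar ι hι, e.bp]
  bq := by rw [← res_bar ι hι, e.bq]
  Dp := by rw [D_res hι hX hY, e.Dp, res_zero]
  Dq := by rw [D_res hι hY hX, e.Dq, res_zero]
  pq := by rw [D_res hι hX hX, ← res_comp ι hι, ← res_id, ← res_add, e.pq]
  qp := by rw [D_res hι hY hY, ← res_comp ι hι, ← res_id, ← res_add, e.qp]

theorem HIso_res (e : HIso X Y) : HIso (resT hι X hX) (resT hι Y hY) :=
  e.elim fun e => ⟨resE hι hX hY e⟩

end D

/-! ### minimal objects -/

theorem TOb_ext {T : Type} [Fintype T] {G : MG T} {X : Gob G k} {d d' : X ⟶ X} (e : d = d')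
    {h1 h2 h3 h1' h2' h3'} : (⟨X, d, h1, h2, h3⟩ : TOb G k) = ⟨X, d', h1', h2', h3'⟩ := by
  subst e; rfl

/-- the restriction of a minimal object -/
noncomputable def resF (hι : Function.Injective ι) (X : FObj G k) : FObj (cm G ι) k where
  X := resO ι X.X
  B {s t} a := X.B (s := ι s) (t := ι t) a
  i t := LinearMap.coprod (X.i (ι t)) (nwi ι X.dm (ι t))
  j t := LinearMap.prod (X.j (ι t)) (nwj ι X.dm (ι t))
  e t := X.e (ι t)
  mc t := by
    have h := c2_aux ι hι X.dm X.dm (ι t)
    have h0 : X.dm ≫ X.dm = 0 := X.toTOb.dd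
    rw [h0] at h
    simp only [c2_zero, FObj.c0_dm, LinearMap.zero_comp, LinearMap.comp_zero, zero_add,
      FObj.c1_dm, FObj.ci_dm, FObj.cj_dm] at h
    exact h.symm
  gB a := X.gB _
  gi t := by
    have h := congrArg (fun f => ci f t) (resT hι X.toTOb (OK_toTOb X)).dg
    refine LinearMap.ext fun x => ?_
    have h1 := LinearMap.congr_fun h x
    have h2 : ci (res ι X.dm ≫ gam (resO ι X.X)) t x =
      X.X.gV (ι t) (LinearMap.coprod (X.i (ι t)) (nwi ι X.dm (ι t)) x) := by
      rw [ci_comp]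
      exact zero_add _
    have h3 : ci (-(gam (resO ι X.X) ≫ res ι X.dm)) t x =
      -(LinearMap.coprod (X.i (ι t)) (nwi ι X.dm (ι t)) ((resO ι X.X).gW t x)) := by
      rw [ci_neg, ci_comp]
      exact congrArg Neg.neg (add_zero _)
    exact h2.symm.trans (h1.trans h3)
  gj t := by
    refine LinearMap.ext fun x => Prod.ext ?_ ?_
    · exact LinearMap.congr_fun (X.gj (ι t)) x
    · funext u a
      exact LinearMap.congr_fun (X.gB (G.rev a)) x
  ge t := X.ge (ι t)

theorem resF_toTOb (hι : Function.Injective ι) (X : FObj G k) :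
    (resF hι X).toTOb = resT hι X.toTOb (OK_toTOb X) := by
  refine TOb_ext ?_
  apply hm_ext
  · intro t; rfl
  · intro t; rfl
  · intro s t a; rfl
  · intro t; rfl
  · intro t; rfl
  · intro t; rfl

/-! ### numbers -/

theorem finrank_NW (X : Gob G k) (t : T) : Module.finrank k (NW ι X t) =
    ∑ u : Out ι, Fintype.card (G.E u.1 t) * Module.finrank k (X.V u.1) := by
  rw [Module.finrank_pi_fintype]
  refine Finset.sum_congr rfl fun u _ => ?_
  rw [Module.finrank_pi_fintype]
  simp

/-- the number of frames of the restriction -/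
theorem lam_resT (hι : Function.Injective ι) (X : TOb G k) (h : OK ι X) (t : T') :
    lam (resT hι X h) t = lam X (ι t) +
      ∑ u : Out ι, Fintype.card (G.E u.1 (ι t)) * Module.finrank k (X.X.V u.1) := by
  rw [← finrank_NW]
  exact Module.finrank_prod

theorem lam_resF (hι : Function.Injective ι) (X : FObj G k) (t : T') :
    lam (resF hι X).toTOb t = lam X.toTOb (ι t) +
      ∑ u : Out ι, Fintype.card (G.E u.1 (ι t)) * Module.finrank k (X.X.V u.1) := by
  rw [← finrank_NW]
  exact Module.finrank_prod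

section dec

variable [DecidableEq T] [DecidableEq T']

/-- `d_t (Res X) = d_(ι t) X` -/
theorem dT_resT (hι : Function.Injective ι) (X : TOb G k) (h : OK ι X) (t : T') :
    dT (resT hι X h) t = dT X (ι t) := by
  rw [dT_hd, dT_hd]; rfl

theorem dT_resF (hι : Function.Injective ι) (X : FObj G k) (t : T') :
    dT (resF hι X).toTOb t = dT X.toTOb (ι t) := by
  rw [dT_hd, dT_hd]; rfl

end dec

end obj

/-! ### isomorphisms -/

section iso

variable {T : Type} {G : MG T} {k : Type v} [Field k] [Fintype T]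

/-- an even closed isomorphism in the base category gives an isomorphism -/
theorem HIso_of_q {X Y : TOb G k} (q : Y.X ⟶ X.X) (p : X.X ⟶ Y.X) (bq : bar q = q)
    (Dq : D Y X q = 0) (pq : p ≫ q = 𝟙 _) (qp : q ≫ p = 𝟙 _) : HIso X Y := by
  have bp : bar p = p := by
    have h : bar (p ≫ q) ≫ p = p := by rw [pq, bar_id, Category.id_comp]
    rw [bar_comp, bq, Category.assoc, qp, Category.comp_id] at h
    exact h
  have Dp : D X Y p = 0 := by
    have h : D Y Y (q ≫ p) = 0 := by rw [qp, D_id]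
    rw [D_comp, Dq, Limits.zero_comp, add_zero] at h
    have h2 : p ≫ q ≫ D X Y p = 0 := by rw [h, Limits.comp_zero]
    rwa [← Category.assoc, pq, Category.id_comp] at h2
  exact ⟨HEquiv.ofIso p q bp bq Dp Dq pq qp⟩

/-- even objects with zero differential are classified by their dimensions -/
theorem HIso_of_finrank (X Y : TOb G k) (dX : X.d = 0) (dY : Y.d = 0)
    (gVX : ∀ t, X.X.gV t = LinearMap.id) (gWX : ∀ t, X.X.gW t = LinearMap.id)
    (gVY : ∀ t, Y.X.gV t = LinearMap.id) (gWY : ∀ t, Y.X.gW t = LinearMap.id)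
    (hV : ∀ t, Module.finrank k (X.X.V t) = Module.finrank k (Y.X.V t))
    (hW : ∀ t, Module.finrank k (X.X.W t) = Module.finrank k (Y.X.W t)) : HIso X Y := by
  let eV : ∀ t, X.X.V t ≃ₗ[k] Y.X.V t := fun t => LinearEquiv.ofFinrankEq _ _ (hV t)
  let eW : ∀ t, X.X.W t ≃ₗ[k] Y.X.W t := fun t => LinearEquiv.ofFinrankEq _ _ (hW t)
  refine HIso_of_q
    (mkH (fun t => (eV t).symm.toLinearMap) (fun t => (eW t).symm.toLinearMap)
      (fun _ _ _ => 0) (fun _ => 0) (fun _ => 0) (fun _ => 0))
    (mkH (fun t => (eV t).toLinearMap) (fun t => (eW t).toLinearMap)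
      (fun _ _ _ => 0) (fun _ => 0) (fun _ => 0) (fun _ => 0)) ?_ ?_ ?_ ?_
  · apply hm_ext <;> intros <;> simp [gVX, gWX, gVY, gWY]
  · rw [D_apply, dX, dY]; simp
  · apply hm_ext <;> intros <;> simp
  · apply hm_ext <;> intros <;> simp

end iso

section frames

variable {T T' : Type} {G : MG T} {k : Type v} [Field k] [Fintype T] [Fintype T'] {ι : T' → T}
  (hι : Function.Injective ι)

/-- the restriction of a free object -/
theorem res_free (m n : T → ℕ) (m' n' : T' → ℕ) (hm : ∀ t, m (ι t) = m' t)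
    (hn : ∀ t, n (ι t) + ∑ u : Out ι, Fintype.card (G.E u.1 (ι t)) * m u.1 = n' t) :
    HIso (resT hι (free G k m n) (OK_free m n)) (free (cm G ι) k m' n') := by
  refine HIso_of_finrank _ _ (res_zero ι) rfl (fun _ => rfl) (fun t => rfl) (fun _ => rfl)
    (fun _ => rfl) (fun t => ?_) fun t => ?_
  · change Module.finrank k (Fin (m (ι t)) → k) = Module.finrank k (Fin (m' t) → k)
    rw [hm]
  · have h1 := lam_resT hι (free G k m n) (OK_free m n) t
    refine h1.trans ?_
    change Module.finrank k (Fin (n (ι t)) → k) + ∑ u : Out ι, Fintype.card (G.E u.1 (ι t)) *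
      Module.finrank k (Fin (m u.1) → k) = Module.finrank k (Fin (n' t) → k)
    simp only [Module.finrank_fintype_fun_eq_card, Fintype.card_fin]
    exact hn t

variable [DecidableEq T] [DecidableEq T']

include hι in
theorem single_ι (t s : T') : (Pi.single (ι t) 1 : T → ℕ) (ι s) = (Pi.single t 1 : T' → ℕ) s := by
  by_cases h : s = t
  · subst h; rw [Pi.single_eq_same, Pi.single_eq_same]
  · rw [Pi.single_eq_of_ne h, Pi.single_eq_of_ne (fun e => h (hι e))]

theorem single_out (u : Out ι) (s : T') : (Pi.single u.1 1 : T → ℕ) (ι s) = 0 :=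
  Pi.single_eq_of_ne (fun e => u.2 ⟨s, e⟩) _

theorem single_out' (u : Out ι) (s : T') : (Pi.single (ι s) 1 : T → ℕ) u.1 = 0 :=
  Pi.single_eq_of_ne (fun e => u.2 ⟨s, e.symm⟩) _

/-- `Res (frm (ι t)) ≅ frm t` -/
theorem res_frm (t : T') : HIso (resT hι (frm G k (ι t)) (OK_free _ _)) (frm (cm G ι) k t) :=
  res_free hι _ _ _ _ (fun s => rfl) fun s => by simp [single_ι hι]

/-- `Res (frm u) ≅ 0` for `u` outside -/
theorem res_frm_out (u : Out ι) :
    HIso (resT hι (frm G k u.1) (OK_free _ _)) (free (cm G ι) k 0 0) :=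
  res_free hι _ _ _ _ (fun s => rfl) fun s => by simp [single_out]

/-- `Res (prj (ι t)) ≅ prj t` -/
theorem res_prj (t : T') : HIso (resT hι (prj G k (ι t)) (OK_free _ _)) (prj (cm G ι) k t) :=
  res_free hι _ _ _ _ (fun s => single_ι hι t s) fun s => by simp [single_out']

/-- `Res (prj u)` for `u` outside: the sum of the frames at the neighbours of `u` -/
theorem res_prj_out (u : Out ι) : HIso (resT hι (prj G k u.1) (OK_free _ _))
    (free (cm G ι) k 0 (fun t => Fintype.card (G.E u.1 (ι t)))) := by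
  refine res_free hι _ _ _ _ (fun s => single_out u s) fun s => ?_
  rw [Finset.sum_eq_single u]
  · rw [Pi.single_eq_same]; simp
  · intro b _ hb
    rw [Pi.single_eq_of_ne (fun e => hb (Subtype.ext e)), mul_zero]
  · intro h; exact absurd (Finset.mem_univ u) h

end frames

end Crest.Agent.R175.Res_988
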