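import Crest.Agent.R175.WB_527
import Crest.Agent.R175.PTD1_175

/-!
Row 175 (S0263), block (D): positive sections `W → A` from Matsumoto's theorem (`w4` of helper527).
-/

set_option autoImplicit false

namespace Crest.Agent.R175.SecM_4

open Crest.Agent.R175.DDef_145 Crest.Agent.R175.WB_527 Crest.GroupTheory

variable {S W A : Type*} [Group W] [Group A] {M : CoxeterMatrix S}

theorem braid_inv {f : S → A} (hf : Braid M f) : Braid M (fun s => (f s)⁻¹) := by
  have key : ∀ l : List S, (l.map (fun s => (f s)⁻¹)).prod = ((l.reverse.map f).prod)⁻¹ := by
    intro l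
    induction l with
    | nil => simp
    | cons a l ih => simp [ih]
  have rev : ∀ (m : ℕ) (s t : S), (alt s t m).reverse = if Even m then alt t s m else alt s t m := by
    have key2 : ∀ (m : ℕ) (s t : S), alt s t m ++ [if Even m then s else t] = alt s t (m + 1) := by
      intro m
      induction m with
      | zero => intro s t; simp [alt_succ]
      | succ m ih =>
        intro s t
        rw [alt_succ s t m, alt_succ s t (m + 1), List.cons_append, ← ih t s]
        by_cases hm : Even m
        · rw [if_pos hm, if_neg (by rwa [Nat.even_add_one, not_not])]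
        · rw [if_neg hm, if_pos (by rwa [Nat.even_add_one])]
    intro m
    induction m with
    | zero => intro s t; simp
    | succ m ih =>
      intro s t
      conv_lhs => rw [alt_succ, List.reverse_cons, ih t s]
      by_cases hm : Even m
      · rw [if_pos hm, if_neg (by rwa [Nat.even_add_one, not_not])]
        have := key2 m s t
        rw [if_pos hm] at this
        exact this
      · rw [if_neg hm, if_pos (by rwa [Nat.even_add_one])]
        have := key2 m t s
        rw [if_neg hm] at this
        exact this
  intro s t h
  rw [key, key, rev, rev]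
  by_cases hm : Even (M s t)
  · rw [if_pos hm, if_pos hm, hf s t h]
  · rw [if_neg hm, if_neg hm, hf s t h]

/-- the section of Matsumoto -/
noncomputable def sec (cs : CoxeterSystem M W) {g : S → A} (hg : Braid M g) : PTD1_175.Sec cs g where
  pos w := ((cs.exists_isReduced w).choose.map g).prod
  pos_one := by
    obtain ⟨h1, h2⟩ := (cs.exists_isReduced 1).choose_spec
    have h3 : (cs.exists_isReduced 1).choose = [] := by
      rw [← List.length_eq_zero_iff, ← h1.eq, ← h2, cs.length_one]
    rw [h3]
    rfl
  pos_mul s w h := by
    obtain ⟨h1, h2⟩ := (cs.exists_isReduced w).choose_spec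
    obtain ⟨h3, h4⟩ := (cs.exists_isReduced (cs.simple s * w)).choose_spec
    have h5 : cs.IsReduced (s :: (cs.exists_isReduced w).choose) := by
      rw [CoxeterSystem.IsReduced, cs.wordProd_cons, ← h2, h, List.length_cons, ← h1.eq, ← h2]
    have h6 := w4 (cs := cs) hg _ _ h3 h5 (by rw [← h4, cs.wordProd_cons, ← h2])
    rw [h6, List.map_cons, List.prod_cons]

/-- sections for the generators of the Artin group and for their inverses -/
noncomputable def secA (cs : CoxeterSystem M W) : PTD1_175.Sec cs (artinGen M) :=
  sec cs (braid_artinGen M)

noncomputable def secA' (cs : CoxeterSystem M W) : PTD1_175.Sec cs (fun s => (artinGen M s)⁻¹) :=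
  sec cs (braid_inv (braid_artinGen M))

end Crest.Agent.R175.SecM_4
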