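import Crest.Agent.R175.PTA_534

/-!
Row 175 (S0263), helper393, block STAB2: rank two, homology form.

`HM G k`: families `V t`, `W t` with `B`, `i`, `j`, `∑ B (rev a) B a + i j = 0` and operators `A t`
(commuting with `B`, `A i = 0`, `j A = 0`): the homology `H(V t, c0 d)` of a rigid T-framed object
with its Euler operator.
`NK X μ s`: no non zero generalised `μ`-eigenvector at `s` is killed by all arrows.
`TwH s X X'`: what is used of `X' = σ_s⁻¹ X`.
`TwH.nk1`, `TwH.nk2`: `NK` for `s` and `u` at `X` implies `NK u` at `σ_s⁻¹ X` and (one edge between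
`s` and `u`) `NK s` at `σ_u⁻¹ σ_s⁻¹ X`.
-/

set_option autoImplicit false
set_option linter.unusedSectionVars false

open Polynomial

namespace Crest.Agent.R175.StabH_393

open Crest.Agent.R175.PTA

universe u v w

section gen

variable {k : Type v} [Field k] {V : Type w} [AddCommGroup V] [Module k V]

/-- generalised eigenvector -/
def Gen (A : V →ₗ[k] V) (μ : k) (z : V) : Prop := ∃ n : ℕ, aeval A ((X - C μ) ^ n) z = 0

theorem Gen.of_eigen {A : V →ₗ[k] V} {μ : k} {z : V} (h : A z = μ • z) : Gen A μ z :=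
  ⟨1, by simp [h]⟩

/-- A polynomial in `A` which is the projection to the generalised `μ`-eigenspace. -/
theorem exists_proj {ι : Type*} {V : ι → Type w} [∀ i, AddCommGroup (V i)] [∀ i, Module k (V i)]
    (A : ∀ i, V i →ₗ[k] V i) (χ : k[X]) (hχ0 : χ ≠ 0) (hχ : ∀ i, aeval (A i) χ = 0) (μ : k) :
    ∃ P : k[X], ∀ i, (∀ z, Gen (A i) μ (aeval (A i) P z)) ∧
      ∀ z, Gen (A i) μ z → aeval (A i) P z = z := by
  obtain ⟨g, hg, hdiv⟩ := Polynomial.exists_eq_pow_rootMultiplicity_mul_and_not_dvd χ hχ0 μ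
  set n := rootMultiplicity μ χ with hn
  have hcop1 : IsCoprime (X - C μ) g :=
    ((irreducible_X_sub_C μ).coprime_iff_not_dvd).2 hdiv
  have hcop : IsCoprime ((X - C μ) ^ n) g := hcop1.pow_left
  obtain ⟨a, b, hab⟩ := hcop
  refine ⟨b * g, fun i => ⟨fun z => ⟨n, ?_⟩, fun z hz => ?_⟩⟩
  · rw [← Module.End.mul_apply, ← map_mul]
    have : (X - C μ) ^ n * (b * g) = b * χ := by
      rw [show b * χ = b * ((X - C μ) ^ n * g) from congrArg (b * ·) hg]; ring
    rw [this, map_mul, hχ, mul_zero]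
    rfl
  · obtain ⟨m, hm⟩ := hz
    have hcop2 : IsCoprime ((X - C μ) ^ m) g := hcop1.pow_left
    obtain ⟨c, e, hce⟩ := hcop2
    have h1 : aeval (A i) g (z - aeval (A i) (b * g) z) = 0 := by
      have e1 : z - aeval (A i) (b * g) z = aeval (A i) (a * (X - C μ) ^ n) z := by
        have : aeval (A i) (a * (X - C μ) ^ n + b * g) z = z := by
          rw [hab, map_one]; rfl
        rw [map_add, LinearMap.add_apply] at this
        exact (eq_sub_of_add_eq this).symm
      rw [e1, ← Module.End.mul_apply, ← map_mul]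
      have : g * (a * (X - C μ) ^ n) = a * χ := by
        rw [show a * χ = a * ((X - C μ) ^ n * g) from congrArg (a * ·) hg]; ring
      rw [this, map_mul, hχ, mul_zero]
      rfl
    have h2 : aeval (A i) ((X - C μ) ^ m) (z - aeval (A i) (b * g) z) = 0 := by
      rw [map_sub, hm, zero_sub, ← Module.End.mul_apply, ← map_mul, mul_comm, map_mul,
        Module.End.mul_apply, hm, map_zero, neg_zero]
    rw [← sub_eq_zero, ← neg_eq_zero, neg_sub]
    revert h1 h2
    generalize z - aeval (A i) (b * g) z = y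
    intro h1 h2
    have h3 : aeval (A i) (c * (X - C μ) ^ m + e * g) y = y := by
      rw [hce, map_one]; rfl
    rw [map_add, LinearMap.add_apply, map_mul, map_mul, Module.End.mul_apply,
      Module.End.mul_apply, h1, h2, map_zero, map_zero, add_zero] at h3
    exact h3.symm

end gen

variable {T : Type u} {G : MG T} {k : Type v} [Field k] [Fintype T]

variable (G k) in
/-- homology modules with an Euler operator -/
structure HM where
  V : T → Type w
  W : T → Type w
  [V1 : ∀ t, AddCommGroup (V t)]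
  [V2 : ∀ t, Module k (V t)]
  [V3 : ∀ t, FiniteDimensional k (V t)]
  [W1 : ∀ t, AddCommGroup (W t)]
  [W2 : ∀ t, Module k (W t)]
  B : ∀ {s t : T}, G.E s t → (V s →ₗ[k] V t)
  i : ∀ t, W t →ₗ[k] V t
  j : ∀ t, V t →ₗ[k] W t
  mc : ∀ t x, (∑ a : Σ s, G.E t s, B (G.rev a.2) (B a.2 x)) + i t (j t x) = 0
  A : ∀ t, V t →ₗ[k] V t
  AB : ∀ {s t : T} (a : G.E s t) x, A t (B a x) = B a (A s x)
  jA : ∀ t x, j t (A t x) = 0

attribute [instance] HM.V1 HM.V2 HM.V3 HM.W1 HM.W2

/-- no non zero generalised `μ`-eigenvector at `s` is killed by all arrows. -/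
def NK (X : HM G k) (μ : k) (s : T) : Prop :=
  ∀ z : X.V s, Gen (X.A s) μ z → (∀ a : Σ t, G.E s t, X.B a.2 z = 0) → X.j s z = 0 → z = 0

/-- `NK` for eigenvectors is enough. -/
theorem nk_of_eigen (X : HM G k) (μ : k) (s : T)
    (h : ∀ z : X.V s, X.A s z = μ • z → (∀ a : Σ t, G.E s t, X.B a.2 z = 0) → X.j s z = 0 →
      z = 0) : NK X μ s := by
  intro z hz hB hj
  obtain ⟨n, hn⟩ := hz
  -- induction on `n`
  induction n generalizing z with
  | zero => simpa using hn
  | succ n ih =>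
    have h1 : ∀ z : X.V s, (∀ a : Σ t, G.E s t, X.B a.2 z = 0) → X.j s z = 0 →
        (∀ a : Σ t, G.E s t, X.B a.2 (X.A s z - μ • z) = 0) ∧ X.j s (X.A s z - μ • z) = 0 := by
      intro z hB hj
      refine ⟨fun a => ?_, ?_⟩
      · rw [map_sub, ← X.AB, hB, map_zero, map_smul, hB, smul_zero, sub_zero]
      · rw [map_sub, X.jA, map_smul, hj, smul_zero, sub_zero]
    have h2 : X.A s z - μ • z = 0 := by
      refine ih _ (h1 z hB hj).1 (h1 z hB hj).2 ?_
      have e : aeval (X.A s) ((Polynomial.X - C μ) ^ n) (X.A s z - μ • z) =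
          aeval (X.A s) ((Polynomial.X - C μ) ^ (n + 1)) z := by
        rw [pow_succ, map_mul, Module.End.mul_apply]
        congr 1
        simp
      rw [e, hn]
    exact h z (sub_eq_zero.1 h2) hB hj

/-- `b_s` -/
def bs (X : HM G k) (s : T) (m : ∀ a : Σ t, G.E s t, X.V a.1) (w : X.W s) : X.V s :=
  (∑ a : Σ t, G.E s t, X.B (G.rev a.2) (m a)) + X.i s w

/-- `b_s` of one element. -/
theorem bs_single (Y : HM G k) {s : T} [DecidableEq (Σ t, G.E s t)]
    (c : Σ t, G.E s t) (z : Y.V c.1) :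
    bs Y s (Pi.single c z) 0 = Y.B (G.rev c.2) z := by
  rw [bs, map_zero, add_zero, Finset.sum_eq_single c]
  · rw [Pi.single_eq_same]
  · intro a _ hne
    rw [Pi.single_eq_of_ne hne, map_zero]
  · simp

/-- if all arrows but one kill `z`, then so does the round trip through that one. -/
theorem round (X : HM G k) {t : T} {z : X.V t} (c : Σ s, G.E t s)
    (hB : ∀ a : Σ s, G.E t s, a ≠ c → X.B a.2 z = 0) (hj : X.j t z = 0) :
    X.B (G.rev c.2) (X.B c.2 z) = 0 := by
  classical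
  have h1 := X.mc t z
  rw [hj, map_zero, add_zero, Finset.sum_eq_single c] at h1
  · exact h1
  · intro a _ ha
    rw [hB a ha, map_zero]
  · simp

/-- what is used of `X' = σ_s⁻¹ X`: maps `f t : V' t → V t`, `g t : W' t → W t`. -/
structure TwH (s : T) (X X' : HM G k) where
  f : ∀ t, X'.V t →ₗ[k] X.V t
  g : ∀ t, X'.W t →ₗ[k] X.W t
  f1 : ∀ {t u : T} (a : G.E t u) y, t ≠ s → u ≠ s → f u (X'.B a y) = X.B a (f t y)
  fj : ∀ t y, t ≠ s → g t (X'.j t y) = X.j t (f t y)
  fA : ∀ t y, t ≠ s → f t (X'.A t y) = X.A t (f t y)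
  fW : ∀ t, Function.Injective (g t)
  fV : ∀ t, t ≠ s → Function.Injective (f t)
  aBB : ∀ {t t' : T} (a : G.E t s) (b : G.E s t') (y : X'.V t),
    X.B b (X.B a (f t y)) = f t' (X'.B b (X'.B a y))
  ajB : ∀ {t : T} (a : G.E t s) (y : X'.V t), X.j s (X.B a (f t y)) = g s (X'.j s (X'.B a y))
  t2 : ∀ (m : ∀ a : Σ t, G.E s t, X'.V a.1) (w : X'.W s), bs X' s m w = 0 →
    ∃ v : X.V s, (∀ a : Σ t, G.E s t, f a.1 (m a) = X.B a.2 v) ∧ g s w = X.j s v

theorem gen_map {V V' : Type*} [AddCommGroup V] [Module k V] [AddCommGroup V'] [Module k V']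
    (f : V →ₗ[k] V') {A : V →ₗ[k] V} {A' : V' →ₗ[k] V'} (h : ∀ x, f (A x) = A' (f x)) (q : k[X])
    (x : V) : f (aeval A q x) = aeval A' q (f x) := by
  induction q using Polynomial.induction_on' with
  | add q₁ q₂ h1 h2 => simp [h1, h2]
  | monomial n c =>
    have : ∀ n : ℕ, ∀ x, f ((A ^ n) x) = (A' ^ n) (f x) := by
      intro n
      induction n with
      | zero => intro x; simp
      | succ n ih => intro x; rw [pow_succ, pow_succ, Module.End.mul_apply, Module.End.mul_apply,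
          ih, h]
    simp [aeval_monomial, this, Module.algebraMap_end_apply]

theorem Gen.map {V V' : Type*} [AddCommGroup V] [Module k V] [AddCommGroup V'] [Module k V']
    (f : V →ₗ[k] V') {A : V →ₗ[k] V} {A' : V' →ₗ[k] V'} (h : ∀ x, f (A x) = A' (f x)) {μ : k}
    {x : V} (hx : Gen A μ x) : Gen A' μ (f x) := by
  obtain ⟨n, hn⟩ := hx
  exact ⟨n, by rw [← gen_map f h, hn, map_zero]⟩

namespace TwH

variable {s : T} {X X' : HM G k}

/-- one element at one arrow. -/
theorem t2_single (h : TwH s X X') (c : Σ t, G.E s t) (z : X'.V c.1)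
    (hB : X'.B (G.rev c.2) z = 0) :
    ∃ v : X.V s, h.f c.1 z = X.B c.2 v ∧
      (∀ a : Σ t, G.E s t, a ≠ c → X.B a.2 v = 0) ∧ X.j s v = 0 := by
  classical
  obtain ⟨v, hm, hw⟩ := h.t2 (Pi.single c z) 0 (by rw [bs_single]; exact hB)
  refine ⟨v, ?_, ?_, ?_⟩
  · have := hm c
    rwa [Pi.single_eq_same] at this
  · intro a ha
    have := hm a
    rw [Pi.single_eq_of_ne ha, map_zero] at this
    exact this.symm
  · rw [← hw, map_zero]

/-- The first rank two statement: `NK u` for `σ_s⁻¹ X`. -/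
theorem nk1 (h : TwH s X X') {μ : k} {u : T} (hus : u ≠ s) (hu : NK X μ u) : NK X' μ u := by
  intro z hz hB hj
  apply h.fV u hus
  rw [map_zero]
  refine hu _ (hz.map _ fun x => h.fA u x hus) ?_ ?_
  · rintro ⟨t, a⟩
    by_cases hts : t = s
    · subst hts
      obtain ⟨v, h1, hm, hw⟩ := h.t2_single ⟨u, G.rev a⟩ z (by
        show X'.B (G.rev (G.rev a)) z = 0
        rw [G.rev_rev]; exact hB ⟨t, a⟩)
      have h2 : X.B (G.rev (G.rev a)) (X.B (G.rev a) v) = 0 := round X ⟨u, G.rev a⟩ hm hw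
      rw [G.rev_rev] at h2
      show X.B a (h.f u z) = 0
      rw [h1]
      exact h2
    · show X.B a (h.f u z) = 0
      rw [← h.f1 a z hus hts, hB ⟨t, a⟩, map_zero]
  · rw [← h.fj u z hus, hj, map_zero]

/-- The second rank two statement: `NK s` for `σ_u⁻¹ σ_s⁻¹ X`. -/
theorem nk2 {X'' : HM G k} (h : TwH s X X') {μ : k} {u : T} (h' : TwH u X' X'') (hus : u ≠ s)
    (c : G.E s u) (hc : ∀ a : G.E s u, a = c) (hs : NK X μ s) (hu : NK X μ u) :
    NK X'' μ s := by
  classical
  intro y hy hB hj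
  apply h'.fV s hus.symm
  rw [map_zero]
  -- the component at `u`
  obtain ⟨z0, hm1', hm2', hw'⟩ := h'.t2_single ⟨s, G.rev c⟩ y (by
    show X''.B (G.rev (G.rev c)) y = 0
    rw [G.rev_rev]; exact hB ⟨u, c⟩)
  change h'.f s y = X'.B (G.rev c) z0 at hm1'
  have hgy : Gen (X'.A s) μ (h'.f s y) := hy.map _ fun x => h'.fA s x hus.symm
  -- project `z0` to the generalised eigenspace
  obtain ⟨P, hP⟩ := exists_proj X'.A (∏ t, minpoly k (X'.A t))
    (Finset.prod_ne_zero_iff.2 fun t _ =>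
      minpoly.ne_zero (Algebra.IsIntegral.isIntegral (X'.A t)))
    (fun t => by
      rw [← Finset.mul_prod_erase _ _ (Finset.mem_univ t), map_mul, minpoly.aeval, zero_mul]) μ
  have hAB : ∀ (t : T) (a : G.E u t) x,
      X'.B a (aeval (X'.A u) P x) = aeval (X'.A t) P (X'.B a x) := fun t a x =>
    gen_map (X'.B a) (fun x => (X'.AB a x).symm) P x
  have hjA : ∀ (q : k[X]) x, X'.j u x = 0 → X'.j u (aeval (X'.A u) q x) = 0 := by
    intro q x hx
    have := gen_map (k := k) (X'.j u) (A := X'.A u) (A' := 0) (fun x => by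
      rw [X'.jA]; rfl) q x
    rw [this, hx, map_zero]
  obtain ⟨z', hgz, hm1, hm2, hw⟩ : ∃ z' : X'.V u, Gen (X'.A u) μ z' ∧
      h'.f s y = X'.B (G.rev c) z' ∧
      (∀ a : Σ t, G.E u t, a ≠ ⟨s, G.rev c⟩ → X'.B a.2 z' = 0) ∧ X'.j u z' = 0 := by
    refine ⟨aeval (X'.A u) P z0, (hP u).1 _, ?_, ?_, hjA P z0 hw'⟩
    · rw [hAB, ← hm1', (hP s).2 _ hgy]
    · intro a ha
      rw [hAB, hm2' a ha, map_zero]
  -- the other arrows kill `z = f z'`
  have hgz' : Gen (X.A u) μ (h.f u z') := hgz.map _ fun x => h.fA u x hus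
  have hz2 : ∀ a : Σ t', G.E u t', a ≠ ⟨s, G.rev c⟩ → X.B a.2 (h.f u z') = 0 := by
    intro a ha
    have has : a.1 ≠ s := by
      obtain ⟨t, a⟩ := a
      rintro rfl
      apply ha
      rw [← hc (G.rev a), G.rev_rev]
    rw [← h.f1 a.2 z' hus has, hm2 a ha, map_zero]
  have hzj : X.j u (h.f u z') = 0 := by rw [← h.fj u z' hus, hw, map_zero]
  have hx : X.B (G.rev c) (h.f u z') = 0 := by
    refine hs _ (hgz'.map _ fun x => (X.AB _ x).symm) ?_ ?_
    · rintro ⟨t, a⟩
      by_cases htu : t = u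
      · subst htu
        have h1 : X.B (G.rev (G.rev c)) (X.B (G.rev c) (h.f t z')) = 0 :=
          round X ⟨s, G.rev c⟩ hz2 hzj
        rw [G.rev_rev] at h1
        show X.B a (X.B (G.rev c) (h.f t z')) = 0
        rw [hc a]
        exact h1
      · show X.B a (X.B (G.rev c) (h.f u z')) = 0
        rw [h.aBB (G.rev c) a, ← hm1, ← h'.f1 a y hus.symm htu, hB ⟨t, a⟩, map_zero, map_zero]
    · rw [h.ajB (G.rev c), ← hm1, ← h'.fj s y hus.symm, hj, map_zero, map_zero]
  have hz : h.f u z' = 0 := by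
    refine hu _ hgz' ?_ hzj
    intro a
    by_cases e : a = ⟨s, G.rev c⟩
    · subst e; exact hx
    · exact hz2 a e
  have hz0 : z' = 0 := h.fV u hus (by rw [hz, map_zero])
  rw [hm1, hz0, map_zero]

end TwH

end Crest.Agent.R175.StabH_393
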