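import Crest.Agent.R175.PTR_4
import Crest.Agent.R175.StabH_393

/-!
Row 175 (S0263), helper393, block STAB2: the set `P₀` of rigid objects with all positions in `ℕ`,
linear algebra over helper4's `QM`, `IsT`.

`P0 X`: every eigenvalue of `A` is a natural number.  For `X = σ_s X'` (`IsT 1 {s} X' X`):
* `p0_T`: `P0 X' → P0 X`;
* `nk_of_p0`: `P0 X' → NK0 X s` (no `v ≠ 0` with `A v = 0` killed by all arrows at `s`);
* `p0_U`: `P0 X → NK0 X s → P0 X'`.
-/

set_option autoImplicit false
set_option linter.unusedSectionVars false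

open Module

namespace Crest.Agent.R175.StabE_393

open Crest.Agent.R175.PTA (MG)
open Crest.Agent.R175.PTQ_4 Crest.Agent.R175.PTQ_4.QM

universe u v

variable {T : Type u} [Fintype T] {G : MG T} {k : Type v} [Field k]

/-- all positions are natural numbers -/
def P0 (X : QM G k) : Prop :=
  ∀ (s : T) (μ : k) (v : X.H s), v ≠ 0 → X.A s v = μ • v → ∃ n : ℕ, μ = (n : k)

/-- `ker a_s` has no position `0` -/
def NK0 (X : QM G k) (s : T) : Prop := ∀ v ∈ X.kerA s, X.A s v = 0 → v = 0

section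
variable {X X' : QM G k} {s : T}

theorem p0_T (h : IsT (1 : k) {s} X' X) (hX' : P0 X') : P0 X := by
  intro t μ v hv he
  by_cases hts : t = s
  · subst hts
    by_contra hμ
    obtain ⟨v1, rfl, h1⟩ := h.exists_pre (Set.mem_singleton t) he (by
      rintro rfl
      exact hμ ⟨0, by simp⟩) (fun u w hw => by
      by_contra h0
      exact hμ (hX' u μ w h0 hw))
    apply hv
    rw [h.ker t (Set.mem_singleton t)]
    refine mem_of_sub_mem' (X'.A t) (μ - 1) (fun x hx => ?_) (X'.imB t)
      (fun x hx => QM.A_mem_imB hx) h1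
    by_contra h0
    obtain ⟨n, hn⟩ := hX' t (μ - 1) x h0 hx
    exact hμ ⟨n + 1, by rw [Nat.cast_add, Nat.cast_one, ← hn, sub_add_cancel]⟩
  · obtain ⟨v1, h1, h2⟩ := h.eig (show t ∉ ({s} : Set T) from hts) hv he
    exact hX' t μ v1 h1 h2

theorem nk_of_p0 [CharZero k] (h : IsT (1 : k) {s} X' X) (hX' : P0 X') : NK0 X s := by
  intro v hv he
  obtain ⟨v1, rfl⟩ := h.range s (Set.mem_singleton s) v hv
  rw [h.ker s (Set.mem_singleton s)]
  refine mem_of_sub_mem' (X'.A s) (0 - 1) (fun x hx => ?_) (X'.imB s)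
    (fun x hx => QM.A_mem_imB hx) (h.sub_mem (Set.mem_singleton s) (by rw [he, zero_smul]))
  by_contra h0
  obtain ⟨n, hn⟩ := hX' s (0 - 1) x h0 hx
  have h1 : ((n + 1 : ℕ) : k) = 0 := by
    rw [Nat.cast_add, Nat.cast_one, ← hn]; ring
  exact absurd (Nat.cast_eq_zero.1 h1) (Nat.succ_ne_zero n)

theorem p0_U (h : IsT (1 : k) {s} X' X) (hκ : ∀ v, h.κ s v ∈ X.kerA s) (hX : P0 X)
    (hN : NK0 X s) : P0 X' := by
  have hoff : ∀ t, t ≠ s → ∀ (μ : k) (v : X'.H t), v ≠ 0 → X'.A t v = μ • v →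
      ∃ n : ℕ, μ = (n : k) := by
    intro t hts μ v hv he
    have hb := h.bij t (show t ∉ ({s} : Set T) from hts)
    refine hX t μ (h.κ t v) (fun h0 => hv (hb.1 (by rw [h0, map_zero]))) ?_
    rw [h.Aκ t (show t ∉ ({s} : Set T) from hts), he, map_smul]
  intro t μ v hv he
  by_cases hts : t = s
  swap
  · exact hoff t hts μ v hv he
  subst hts
  by_cases h0 : h.κ t v = 0
  · -- `v ∈ im b`
    rw [h.ker t (Set.mem_singleton t)] at h0
    by_contra hμ
    -- `A - μ` is onto on `im b`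
    let f : X'.H t →ₗ[k] X'.H t := X'.A t - μ • LinearMap.id
    have hf : ∀ x, f x = X'.A t x - μ • x := fun x => rfl
    have hstab : ∀ x ∈ X'.imB t, f x ∈ X'.imB t := fun x hx => by
      rw [hf]
      exact Submodule.sub_mem _ (QM.A_mem_imB hx) (Submodule.smul_mem _ _ hx)
    have hle : X'.imB t ≤ (X'.imB t).map f := by
      rw [QM.imB_le]
      constructor
      · intro u a w
        have hut : u ≠ t := by
          rintro rfl
          exact (G.irr u).false a
        -- `A - μ` is onto on `H u`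
        let fu : X'.H u →ₗ[k] X'.H u := X'.A u - μ • LinearMap.id
        have hfu : Function.Injective fu := by
          rw [injective_iff_map_eq_zero]
          intro x hx
          by_contra hx0
          exact hμ (hoff u hut μ x hx0 (sub_eq_zero.1 hx))
        obtain ⟨w', hw'⟩ := LinearMap.surjective_of_injective hfu w
        refine ⟨X'.B u t a w', QM.B_mem_imB a w', ?_⟩
        rw [hf, X'.AB, ← map_smul, ← map_sub]
        exact congrArg _ hw'
      · intro w
        have hμ0 : μ ≠ 0 := by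
          rintro rfl
          exact hμ ⟨0, by simp⟩
        refine ⟨X'.i t (-μ⁻¹ • w), QM.i_mem_imB _, ?_⟩
        rw [hf, X'.Ai, zero_sub, ← map_smul, ← map_neg, smul_smul]
        congr 1
        rw [← neg_smul, mul_neg, neg_neg, mul_inv_cancel₀ hμ0, one_smul]
    let g : X'.imB t →ₗ[k] X'.imB t := f.restrict hstab
    have hgs : Function.Surjective g := by
      rintro ⟨x, hx⟩
      obtain ⟨y, hy, hyx⟩ := hle hx
      exact ⟨⟨y, hy⟩, Subtype.ext hyx⟩
    have hgi : Function.Injective g := LinearMap.injective_iff_surjective.2 hgs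
    have h1 : g ⟨v, h0⟩ = 0 := by
      apply Subtype.ext
      show f v = 0
      rw [hf, he, sub_self]
    have h2 := hgi (h1.trans (map_zero g).symm)
    exact hv (congrArg Subtype.val h2)
  · have h1 : X.A t (h.κ t v) = (μ + 1) • h.κ t v := by
      rw [h.Aκ' t (Set.mem_singleton t), he, map_smul, one_smul, add_smul, one_smul]
    obtain ⟨n, hn⟩ := hX t (μ + 1) _ h0 h1
    rcases n with _ | n
    · exfalso
      apply h0
      apply hN _ (hκ v)
      rw [h1, hn, Nat.cast_zero, zero_smul]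
    · refine ⟨n, ?_⟩
      rw [Nat.cast_add, Nat.cast_one] at hn
      exact add_right_cancel hn

end

/-! ### rank two -/

/-- the underlying `HM` -/
def toHM (X : QM G k) : StabH_393.HM.{u, v, v} G k where
  V := X.H
  W := X.W
  B {s t} a := X.B s t a
  i := X.i
  j := X.j
  mc t x := by
    rw [Fintype.sum_sigma]
    exact X.MC t x
  A := X.A
  AB {s t} a x := X.AB s t a x
  jA := X.jA

theorem nk_iff {X : QM G k} {s : T} : StabH_393.NK (toHM X) 0 s ↔ NK0 X s := by
  constructor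
  · intro h v hv he
    rw [QM.mem_kerA] at hv
    exact h v (StabH_393.Gen.of_eigen (by rw [zero_smul]; exact he)) (fun a => hv.1 _ _) hv.2
  · intro h
    refine StabH_393.nk_of_eigen (toHM X) 0 s fun z hz hB hj => ?_
    rw [zero_smul] at hz
    exact h z (QM.mem_kerA.2 ⟨fun t a => hB ⟨t, a⟩, hj⟩) hz

/-- from helper4's relation `TD`: `X = σ_s X'`. -/
def ofTD {s : T} {X' X : QM G k} (h : TD {s} X' X) : StabH_393.TwH s (toHM X) (toHM X') where
  f := h.κ
  g t := (h.ω t).toLinearMap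
  f1 {t u} a y ht hu := (h.Bκ t u ht hu a y).symm
  fj t y ht := (h.jκ t ht y).symm
  fA t y ht := (h.Aκ t ht y).symm
  fW t := (h.ω t).injective
  fV t ht := (h.bij t ht).1
  aBB {t t'} a b y := h.aBB s (Set.mem_singleton s) t t' a b y
  ajB {t} a y := h.ajB s (Set.mem_singleton s) t a y
  t2 m w hm := by
    have hm' : (∑ t, ∑ a : G.E s t, (toHM X').B (G.rev a) (m ⟨t, a⟩)) + (toHM X').i s w = 0 := by
      refine Eq.trans ?_ hm
      unfold StabH_393.bs
      rw [Fintype.sum_sigma]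
    obtain ⟨v', h1, h2⟩ := h.ex s (Set.mem_singleton s) (fun t a => m ⟨t, a⟩) w hm'
    exact ⟨v', fun a => (h1 a.1 a.2).symm, h2.symm⟩

/-- `X = σ_s X'`: `NK0 u` passes from `X` to `X'`. -/
theorem nk1 {s u : T} {X' X : QM G k} (h : TD {s} X' X) (hus : u ≠ s) (hu : NK0 X u) :
    NK0 X' u :=
  nk_iff.1 ((ofTD h).nk1 hus (nk_iff.2 hu))

/-- `X = σ_s X'`, `X' = σ_u X''`, one edge between `s` and `u`: `NK0` for `s` and `u` at `X` implies
`NK0 s` at `X''`. -/
theorem nk2 {s u : T} {X'' X' X : QM G k} (h : TD {s} X' X) (h' : TD {u} X'' X')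
    (hus : u ≠ s) (c : G.E s u) (hc : ∀ a : G.E s u, a = c) (hs : NK0 X s) (hu : NK0 X u) :
    NK0 X'' s :=
  nk_iff.1 ((ofTD h).nk2 (ofTD h') hus c hc (nk_iff.2 hs) (nk_iff.2 hu))

/-- `P₀` passes from `X'` to `X = σ_s X'`. -/
theorem TD_p0_T {s : T} {X' X : QM G k} (h : TD {s} X' X) (hX' : P0 X') : P0 X :=
  p0_T h.toIsT hX'

theorem TD_nk {s : T} {X' X : QM G k} [CharZero k] (h : TD {s} X' X) (hX' : P0 X') : NK0 X s :=
  nk_of_p0 h.toIsT hX'

theorem TD_p0_U {s : T} {X' X : QM G k} (h : TD {s} X' X) (hX : P0 X) (hN : NK0 X s) : P0 X' :=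
  p0_U h.toIsT (fun v => h.range' s (Set.mem_singleton s) v) hX hN

end Crest.Agent.R175.StabE_393
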