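import Crest.Agent.R175.StabE_393
import Crest.Agent.R175.PTH_175
import Crest.Agent.R175.PTB_534

/-!
Row 175 (S0263), helper393, block STAB2: the set `P₀` on homotopy classes.

`qmE hp` : helper4's `QM` of a T-framed object with a position operator.
`P0c X` : `X` rigid with all positions in `ℕ`; invariant under `HIso`.
`TwS tw` : what is used of the twists `tw v`.
`ActS` : a group acting on classes through `tw`.
-/

set_option autoImplicit false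
set_option linter.unusedSectionVars false

open CategoryTheory Crest.Agent.R175.PTA Crest.Agent.R175.PTH
open Crest.Agent.R175.PTQ_4 Crest.Agent.R175.PTQ_4.QM Crest.Agent.R175.StabE_393

namespace Crest.Agent.R175.StabF_393

universe u v

variable {T : Type u} [Fintype T] {G : MG T} {k : Type v} [Field k]

/-- the homology data of an object with position operator -/
noncomputable def qmE {X : TOb G k} {p : X.X ⟶ X.X} (hp : Eul X p) : QM G k where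
  H := Hv X
  W := X.X.W
  A := Hp hp
  B _ _ a := HB X a
  i := Hi X
  j := Hj X
  AB _ _ a v := Hp_HB hp a v
  Ai := Hp_Hi hp
  jA := Hj_Hp hp
  MC := Hmc X

section inv

variable {X Y : TOb G k} {p : X.X ⟶ X.X} {q : Y.X ⟶ Y.X}

theorem Hmap_pq (e : HEquiv X Y) (t : T) (ξ : Hv X t) :
    Hmap e.q e.Dq t (Hmap e.p e.Dp t ξ) = ξ := by
  rw [← Hmap_comp e.p e.Dp e.q e.Dq, Hmap_eq (closed_comp e.Dp e.Dq) D_id
    (K := e.s) (by rw [e.pq, add_sub_cancel_left]), Hmap_id]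

theorem Hmap_inj (e : HEquiv X Y) (t : T) (ξ : Hv X t) (h : Hmap e.p e.Dp t ξ = 0) : ξ = 0 := by
  rw [← Hmap_pq e t ξ, h, map_zero]

theorem P0_congr (hp : Eul X p) (hq : Eul Y q) (e : HEquiv X Y) (h : hT X X = 0)
    (hY : P0 (qmE hq)) : P0 (qmE hp) := by
  intro t μ v hv he
  have hXY : hT X Y = 0 := by rw [← HIso.hT_right ⟨e⟩ X, h]
  refine hY t μ (Hmap e.p e.Dp t v) (fun h0 => hv (Hmap_inj e t v h0)) ?_
  have h1 := eul_nat hp hq hXY e.Dp e.bp t v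
  have h2 : Hmap e.p e.Dp t (Hp hp t v) = μ • Hmap e.p e.Dp t v :=
    (congrArg (Hmap e.p e.Dp t) he).trans (map_smul (Hmap e.p e.Dp t) μ (v : Hv X t))
  exact h1.symm.trans h2

theorem NK0_congr (hp : Eul X p) (hq : Eul Y q) (e : HEquiv X Y) (h : hT X X = 0) {s : T}
    (hY : NK0 (qmE hq) s) : NK0 (qmE hp) s := by
  intro v hv he
  have hXY : hT X Y = 0 := by rw [← HIso.hT_right ⟨e⟩ X, h]
  rw [QM.mem_kerA] at hv
  refine Hmap_inj e s v (hY _ ?_ ?_)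
  · rw [QM.mem_kerA]
    refine ⟨fun t a => ?_, ?_⟩
    · have h1 : HB X a v = 0 := hv.1 t a
      show HB Y a (Hmap e.p e.Dp s v) = 0
      rw [HB_Hmap e.Dp e.bp a v, h1, map_zero]
    · have h1 : Hj X s v = 0 := hv.2
      show Hj Y s (Hmap e.p e.Dp s v) = 0
      rw [Hj_Hmap e.Dp e.bp s v, h1, map_zero]
  · have h1 := eul_nat hp hq hXY e.Dp e.bp s v
    have h2 : Hp hp s v = 0 := he
    show Hp hq s (Hmap e.p e.Dp s v) = 0
    rw [← h1, h2, map_zero]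

end inv

/-- rigid with all positions in `ℕ` -/
def P0c (X : TOb G k) : Prop := hT X X = 0 ∧ ∃ (p : X.X ⟶ X.X) (hp : Eul X p), P0 (qmE hp)

/-- rigid and `NK0` at `s` -/
def NKc (X : TOb G k) (s : T) : Prop :=
  hT X X = 0 ∧ ∃ (p : X.X ⟶ X.X) (hp : Eul X p), NK0 (qmE hp) s

theorem hTs {X Y : TOb G k} (h : HIso X Y) : hT X X = hT Y Y := by
  rw [HIso.hT_left h X, HIso.hT_right h Y]

theorem P0c.all {X : TOb G k} (h : P0c X) {p : X.X ⟶ X.X} (hp : Eul X p) : P0 (qmE hp) := by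
  obtain ⟨h0, q, hq, hP⟩ := h
  exact P0_congr hp hq (HEquiv.refl X) h0 hP

theorem NKc.all {X : TOb G k} {s : T} (h : NKc X s) {p : X.X ⟶ X.X} (hp : Eul X p) :
    NK0 (qmE hp) s := by
  obtain ⟨h0, q, hq, hP⟩ := h
  exact NK0_congr hp hq (HEquiv.refl X) h0 hP

theorem P0c.congr (h2 : (2 : k) ≠ 0) {X Y : TOb G k} (h : HIso X Y) (hY : P0c Y) : P0c X := by
  obtain ⟨h0, q, hq, hP⟩ := hY
  have h1 : hT X X = 0 := by rw [hTs h, h0]
  obtain ⟨p, hp⟩ := exists_eul h2 X h1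
  obtain ⟨e⟩ := h
  exact ⟨h1, p, hp, P0_congr hp hq e h1 hP⟩

theorem NKc.congr (h2 : (2 : k) ≠ 0) {X Y : TOb G k} {s : T} (h : HIso X Y) (hY : NKc Y s) :
    NKc X s := by
  obtain ⟨h0, q, hq, hP⟩ := hY
  have h1 : hT X X = 0 := by rw [hTs h, h0]
  obtain ⟨p, hp⟩ := exists_eul h2 X h1
  obtain ⟨e⟩ := h
  exact ⟨h1, p, hp, NK0_congr hp hq e h1 hP⟩

/-- what is used of the twists -/
structure TwS (tw : T → TOb G k → TOb G k) : Prop where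
  hT : ∀ v X, hT (tw v X) (tw v X) = hT X X
  td : ∀ v X (p : X.X ⟶ X.X) (hp : Eul X p), ∃ (q : (tw v X).X ⟶ (tw v X).X)
    (hq : Eul (tw v X) q), Nonempty (TD {v} (qmE hp) (qmE hq))

namespace TwS

variable {tw : T → TOb G k → TOb G k} (h : TwS tw)
include h

theorem p0_T {v : T} {X : TOb G k} (hX : P0c X) : P0c (tw v X) := by
  obtain ⟨h0, p, hp, hP⟩ := hX
  obtain ⟨q, hq, ⟨d⟩⟩ := h.td v X p hp
  exact ⟨by rw [h.hT, h0], q, hq, TD_p0_T d hP⟩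

theorem nk [CharZero k] {v : T} {X : TOb G k} (hX : P0c X) : NKc (tw v X) v := by
  obtain ⟨h0, p, hp, hP⟩ := hX
  obtain ⟨q, hq, ⟨d⟩⟩ := h.td v X p hp
  exact ⟨by rw [h.hT, h0], q, hq, TD_nk d hP⟩

theorem p0_U (h2 : (2 : k) ≠ 0) {v : T} {X : TOb G k} (hX : P0c (tw v X))
    (hN : NKc (tw v X) v) : P0c X := by
  have h0 : PTA.hT X X = 0 := by rw [← h.hT v X]; exact hX.1
  obtain ⟨p, hp⟩ := exists_eul h2 X h0
  obtain ⟨q, hq, ⟨d⟩⟩ := h.td v X p hp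
  exact ⟨h0, p, hp, TD_p0_U d (hX.all hq) (hN.all hq)⟩

theorem nk1 (h2 : (2 : k) ≠ 0) {v w : T} (hvw : w ≠ v) {X : TOb G k}
    (hN : NKc (tw v X) w) : NKc X w := by
  have h0 : PTA.hT X X = 0 := by rw [← h.hT v X]; exact hN.1
  obtain ⟨p, hp⟩ := exists_eul h2 X h0
  obtain ⟨q, hq, ⟨d⟩⟩ := h.td v X p hp
  exact ⟨h0, p, hp, StabE_393.nk1 d hvw (hN.all hq)⟩

theorem nk2 (h2 : (2 : k) ≠ 0) {v w : T} (hvw : w ≠ v) (c : G.E v w)
    (hc : ∀ a : G.E v w, a = c) {X : TOb G k} (hv : NKc (tw v (tw w X)) v)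
    (hw : NKc (tw v (tw w X)) w) : NKc X v := by
  have h0 : PTA.hT X X = 0 := by rw [← h.hT w X, ← h.hT v (tw w X)]; exact hv.1
  obtain ⟨p, hp⟩ := exists_eul h2 X h0
  obtain ⟨q, hq, ⟨d⟩⟩ := h.td w X p hp
  obtain ⟨r, hr, ⟨d'⟩⟩ := h.td v (tw w X) q hq
  exact ⟨h0, p, hp, StabE_393.nk2 d' d hvw c hc (hv.all hr) (hw.all hr)⟩

end TwS

/-! ### classes -/

/-- a group acting on classes, the letters `g v` acting through the twists -/
structure ActS (tw : T → TOb G k → TOb G k) (A Ω : Type*) [Group A] [MulAction A Ω] where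
  cl : TOb G k → Ω
  cl_eq : ∀ X Y, cl X = cl Y → HIso X Y
  cl_surj : ∀ x, ∃ X, cl X = x
  g : T → A
  act : ∀ v X, g v • cl X = cl (tw v X)

namespace ActS

variable {tw : T → TOb G k → TOb G k} {A Ω : Type*} [Group A] [MulAction A Ω]
  (S : ActS tw A Ω)

/-- the positive classes -/
def Pc : Set Ω := {x | ∃ X, S.cl X = x ∧ P0c X}

variable {S}

theorem mem_Pc (h2 : (2 : k) ≠ 0) {X : TOb G k} (h : S.cl X ∈ S.Pc) : P0c X := by
  obtain ⟨Y, hY, hP⟩ := h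
  exact hP.congr h2 (S.cl_eq X Y hY.symm)

/-- a representative of `(g v)⁻¹ x`. -/
theorem exists_pre (v : T) (x : Ω) : ∃ X, S.cl X = (S.g v)⁻¹ • x ∧ S.cl (tw v X) = x := by
  obtain ⟨X, hX⟩ := S.cl_surj ((S.g v)⁻¹ • x)
  exact ⟨X, hX, by rw [← S.act, hX, smul_inv_smul]⟩

theorem hi (h : TwS tw) (v : T) (x : Ω) (hx : x ∈ S.Pc) : S.g v • x ∈ S.Pc := by
  obtain ⟨X, rfl, hX⟩ := hx
  exact ⟨_, (S.act v X).symm, h.p0_T hX⟩

/-- if `(g v)⁻¹ x` and `(g w)⁻¹ x` are positive, so is `(g v g w)⁻¹ x`. -/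
theorem h2 [CharZero k] (h : TwS tw) {v w : T} (hvw : w ≠ v) (x : Ω)
    (hv : (S.g v)⁻¹ • x ∈ S.Pc) (hw : (S.g w)⁻¹ • x ∈ S.Pc) :
    (S.g v * S.g w)⁻¹ • x ∈ S.Pc := by
  have h2 : (2 : k) ≠ 0 := two_ne_zero
  obtain ⟨X, hX, hX'⟩ := S.exists_pre w ((S.g v)⁻¹ • x)
  obtain ⟨Z, hZ, hZ'⟩ := S.exists_pre w x
  have e : S.cl (tw v (tw w X)) = x := by rw [← S.act, hX', smul_inv_smul]
  rw [← hX'] at hv
  rw [← hZ] at hw
  have nw : NKc (tw v (tw w X)) w :=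
    (h.nk (v := w) (mem_Pc h2 hw)).congr h2 (S.cl_eq _ _ (by rw [e, hZ']))
  have nw' : NKc (tw w X) w := h.nk1 h2 hvw nw
  refine ⟨X, ?_, h.p0_U h2 (mem_Pc h2 hv) nw'⟩
  rw [hX, mul_inv_rev, mul_smul]

theorem h3 [CharZero k] (h : TwS tw) {v w : T} (hvw : w ≠ v) (c : G.E v w)
    (hc : ∀ a : G.E v w, a = c) (x : Ω)
    (hv : (S.g v)⁻¹ • x ∈ S.Pc) (hw : (S.g w)⁻¹ • x ∈ S.Pc) :
    (S.g v * S.g w * S.g v)⁻¹ • x ∈ S.Pc := by
  have h2 : (2 : k) ≠ 0 := two_ne_zero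
  have hvw2 := S.h2 h hvw x hv hw
  obtain ⟨Y, hY, hY'⟩ := S.exists_pre v ((S.g v * S.g w)⁻¹ • x)
  rw [← hY'] at hvw2
  -- `x` is the class of `tw v (tw w (tw v Y))`
  have e1 : S.cl (tw w (tw v Y)) = (S.g v)⁻¹ • x := by
    rw [← S.act, hY', mul_inv_rev, mul_smul, smul_inv_smul]
  have e : S.cl (tw v (tw w (tw v Y))) = x := by rw [← S.act, e1, smul_inv_smul]
  obtain ⟨Z, hZ, hZ'⟩ := S.exists_pre w x
  rw [← hZ] at hw
  have nw : NKc (tw v (tw w (tw v Y))) w :=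
    (h.nk (v := w) (mem_Pc h2 hw)).congr h2 (S.cl_eq _ _ (by rw [e, hZ']))
  rw [← e1] at hv
  have nv : NKc (tw v (tw w (tw v Y))) v := h.nk (mem_Pc h2 hv)
  have nv' : NKc (tw v Y) v := h.nk2 h2 hvw c hc nv nw
  refine ⟨Y, ?_, h.p0_U h2 (mem_Pc h2 hvw2) nv'⟩
  rw [hY, ← mul_smul, ← mul_inv_rev]

end ActS

end Crest.Agent.R175.StabF_393
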