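import Crest.Agent.R175.StabZ_680
import Crest.Agent.R175.DF_184

/-!
Row 175 (S0263), helper680: the hypotheses `GMon` of the abstract stabiliser theorem from
helper184's Garside structure `Gars`.
-/

set_option autoImplicit false

namespace Crest.Agent.R175.StabG_680

open Crest.Agent.R175.StabZ_680 Crest.Agent.R175.DF_184

variable {G : Type*} [Group G] {S : Type*} {σ : S → G}

theorem pos_eq (D : Gars G) (hS : D.S = Set.range σ) : D.P = Pos σ := by
  apply le_antisymm
  · have h := D.gen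
    rw [hS] at h
    exact h
  · refine Submonoid.closure_le.2 ?_
    rw [← hS]
    exact D.S_pos

/-- `GMon` from a Garside structure in which the join of two atoms `σ s`, `σ u` is `Δ s u`. -/
theorem gmon_of_gars (D : Gars G) (hS : D.S = Set.range σ) {Δ : S → S → G}
    (hΔ : ∀ s u, s ≠ u → (σ s)⁻¹ * Δ s u ∈ D.P ∧ (σ u)⁻¹ * Δ s u ∈ D.P ∧
      ∀ x, (σ s)⁻¹ * x ∈ D.P → (σ u)⁻¹ * x ∈ D.P → (Δ s u)⁻¹ * x ∈ D.P) : GMon σ Δ := by
  have hP := pos_eq D hS
  refine ⟨⟨fun g => (D.len g).toAdd, fun a b => by simp, fun s => ?_⟩, ?_, ?_, ?_⟩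
  · have := D.len_atom (σ s) (hS ▸ ⟨s, rfl⟩)
    simp [this]
  · -- joins
    intro a ha b hb
    rw [← hP] at ha hb
    -- upper bounds
    have hub : ∃ x, D.le a x ∧ D.le b x := by
      obtain ⟨n, hn⟩ := D.Δ_cof a
      obtain ⟨m, hm⟩ := D.Δ_cof b
      refine ⟨D.Δ ^ (n + m), ?_, ?_⟩
      · rw [pow_add]
        exact Gars.le_trans (show D.le a (D.Δ ^ n) from hn)
          (Gars.le_mul_right (D.P.pow_mem D.Δ_pos m))
      · rw [add_comm, pow_add]
        exact Gars.le_trans (show D.le b (D.Δ ^ m) from hm)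
          (Gars.le_mul_right (D.P.pow_mem D.Δ_pos n))
    classical
    have hex : ∃ n : ℕ, ∃ x, D.le a x ∧ D.le b x ∧ (D.len x).toAdd.toNat = n := by
      obtain ⟨x, h1, h2⟩ := hub
      exact ⟨_, x, h1, h2, rfl⟩
    obtain ⟨j, hj1, hj2, hj3⟩ := Nat.find_spec hex
    have hpos : ∀ x, D.le a x → x ∈ D.P := by
      intro x hx
      have := D.P.mul_mem ha (show a⁻¹ * x ∈ D.P from hx)
      simpa using this
    refine ⟨j, ?_, ?_, ?_⟩
    · show a⁻¹ * j ∈ Pos σ
      rw [← hP]; exact hj1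
    · show b⁻¹ * j ∈ Pos σ
      rw [← hP]; exact hj2
    · intro x h1 h2
      have h1' : D.le a x := by
        show a⁻¹ * x ∈ D.P
        rw [hP]; exact h1
      have h2' : D.le b x := by
        show b⁻¹ * x ∈ D.P
        rw [hP]; exact h2
      have hm1 : D.le a (D.meet j x) := Gars.le_meet' hj1 h1'
      have hm2 : D.le b (D.meet j x) := Gars.le_meet' hj2 h2'
      have hmin := Nat.find_min' hex ⟨_, hm1, hm2, rfl⟩
      have hmj : D.le (D.meet j x) j := Gars.meet_le_left j x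
      have hlen : (D.len ((D.meet j x)⁻¹ * j)).toAdd ≤ 0 := by
        have e1 : (D.len ((D.meet j x)⁻¹ * j)).toAdd =
            (D.len j).toAdd - (D.len (D.meet j x)).toAdd := by
          rw [map_mul, map_inv, toAdd_mul, toAdd_inv]; ring
        have p1 := Gars.len_nonneg (hpos _ hm1)
        have p2 := Gars.len_nonneg (hpos _ hj1)
        rw [← hj3] at hmin
        rw [e1]
        omega
      have he : (D.meet j x)⁻¹ * j = 1 := Gars.eq_one_of_len hmj hlen
      have hej : D.meet j x = j := inv_mul_eq_one.1 he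
      have := Gars.meet_le_right (D := D) j x
      rw [hej] at this
      show j⁻¹ * x ∈ Pos σ
      rw [← hP]; exact this
  · intro s u hsu
    obtain ⟨h1, h2, h3⟩ := hΔ s u hsu
    rw [hP] at h1 h2
    refine ⟨h1, h2, fun x hx hy => ?_⟩
    have := h3 x (by rw [hP]; exact hx) (by rw [hP]; exact hy)
    rw [hP] at this
    exact this
  · -- fractions
    intro g
    obtain ⟨n, hn⟩ := D.Δ_cof g⁻¹
    obtain ⟨m, hm, hc⟩ := D.Δ_cen
    rw [inv_inv] at hn
    have h1 : g * D.Δ ^ (m * n) ∈ D.P := by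
      have h2 : n ≤ m * n := Nat.le_mul_of_pos_left n hm
      obtain ⟨k, hk⟩ := Nat.exists_eq_add_of_le h2
      rw [hk, pow_add, ← mul_assoc]
      exact D.P.mul_mem hn (D.P.pow_mem D.Δ_pos k)
    refine ⟨D.Δ ^ (m * n), ?_, g * D.Δ ^ (m * n), ?_, ?_⟩
    · rw [← hP]; exact D.P.pow_mem D.Δ_pos _
    · rw [← hP]; exact h1
    · have h3 : Commute (D.Δ ^ (m * n)) g := by
        rw [pow_mul]
        exact (hc g).pow_left n
      rw [← h3.eq, inv_mul_cancel_left]

end Crest.Agent.R175.StabG_680
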