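import Crest.Agent.R175.StabZ_680

/-!
Row 175 (S0263), block STAB (helper901): the stabiliser theorem of `StabZ_680` for the larger set
of "positive" objects `Dd = {X : V^(p) = 0 for p > 0}` in place of `P`.

Apply `stab_eq` to `{X : δ⁻¹ X ∈ Dd}`, `δ` the Garside element.
-/

set_option autoImplicit false

namespace Crest.Agent.R175.StabV_901

open Crest.Agent.R175.StabZ_680

variable {G : Type*} [Group G] {S : Type*} {σ : S → G}

/-- conjugation by `δ⁻¹` preserves the positive monoid if it maps the letters into it. -/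
theorem conj_mem {δ : G} (h : ∀ s, δ⁻¹ * σ s * δ ∈ Pos σ) {g : G} (hg : g ∈ Pos σ) :
    δ⁻¹ * g * δ ∈ Pos σ := by
  induction hg using Submonoid.closure_induction with
  | mem x hx => obtain ⟨s, rfl⟩ := hx; exact h s
  | one => simp
  | mul x y _ _ hx hy =>
    have := (Pos σ).mul_mem hx hy
    simpa [mul_assoc] using this

theorem conj_mem' {δ : G} (h : ∀ s, δ * σ s * δ⁻¹ ∈ Pos σ) {g : G} (hg : g ∈ Pos σ) :
    δ * g * δ⁻¹ ∈ Pos σ := by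
  have := conj_mem (δ := δ⁻¹) (fun s => by simpa using h s) hg
  simpa using this

/-- joins are invariant under conjugation by `δ`. -/
theorem join_conj {δ : G} (h1 : ∀ s, δ⁻¹ * σ s * δ ∈ Pos σ) (h2 : ∀ s, δ * σ s * δ⁻¹ ∈ Pos σ)
    {a b j : G} (h : IsJoin σ a b j) : IsJoin σ (δ⁻¹ * a * δ) (δ⁻¹ * b * δ) (δ⁻¹ * j * δ) := by
  have up : ∀ c d : G, LD σ c d → LD σ (δ⁻¹ * c * δ) (δ⁻¹ * d * δ) := by
    intro c d hcd
    have := conj_mem h1 hcd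
    simpa [LD, mul_assoc] using this
  have dn : ∀ c x : G, LD σ (δ⁻¹ * c * δ) x → LD σ c (δ * x * δ⁻¹) := by
    intro c x hcx
    have := conj_mem' h2 hcx
    simpa [LD, mul_assoc] using this
  refine ⟨up _ _ h.1, up _ _ h.2.1, fun x hx hy => ?_⟩
  have := up _ _ (h.2.2 _ (dn _ _ hx) (dn _ _ hy))
  simpa [mul_assoc] using this

variable {Ω : Type*} [MulAction G Ω] {Pc : Set Ω}

/-- a positive element of `D(E) = {g : g⁻¹ E ∈ Pc}` above finitely many letters of `D(E)`. -/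
theorem exists_above {Δ : S → S → G} (hG : GMon σ Δ) (hi : ∀ s, ∀ X ∈ Pc, σ s • X ∈ Pc)
    (hii : ∀ s u, s ≠ u → ∀ X, (σ s)⁻¹ • X ∈ Pc → (σ u)⁻¹ • X ∈ Pc → (Δ s u)⁻¹ • X ∈ Pc)
    {E : Ω} (hE : E ∈ Pc) (F : Finset S) (h : ∀ s ∈ F, (σ s)⁻¹ • E ∈ Pc) :
    ∃ j ∈ Pos σ, j⁻¹ • E ∈ Pc ∧ ∀ s ∈ F, LD σ (σ s) j := by
  classical
  induction F using Finset.induction_on with
  | empty => exact ⟨1, (Pos σ).one_mem, by simpa using hE, by simp⟩
  | insert s F _ ih =>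
    obtain ⟨j, hj, hjE, hjF⟩ := ih fun u hu => h u (Finset.mem_insert_of_mem hu)
    obtain ⟨k, hk⟩ := hG.join (σ s) (gen_mem s) j hj
    refine ⟨k, ?_, ?_, ?_⟩
    · have := (Pos σ).mul_mem hj hk.2.1
      simpa using this
    · exact join_mem hG hi hii (gen_mem s) hj hk (h s (Finset.mem_insert_self _ _)) hjE
    · intro u hu
      rcases Finset.mem_insert.1 hu with rfl | hu
      · exact hk.1
      · exact LD_trans (hjF u hu) hk.2.1

/-- **The stabiliser theorem, second form**: `Pc` only has to satisfy (i), (ii), `s⁻¹ E ∈ Pc` for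
all letters `s`, `t⁻² E ∉ Pc`.  `δ` is the Garside element. -/
theorem stab_eq_dd [Finite S] {Δ : S → S → G} (hG : GMon σ Δ)
    (hi : ∀ s, ∀ X ∈ Pc, σ s • X ∈ Pc)
    (hii : ∀ s u, s ≠ u → ∀ X, (σ s)⁻¹ • X ∈ Pc → (σ u)⁻¹ • X ∈ Pc → (Δ s u)⁻¹ • X ∈ Pc)
    {δ : G} (hδ : ∀ s, LD σ (σ s) δ) (hδj : ∀ x, (∀ s, LD σ (σ s) x) → LD σ δ x)
    (hc1 : ∀ s, δ⁻¹ * σ s * δ ∈ Pos σ) (hc2 : ∀ s, δ * σ s * δ⁻¹ ∈ Pos σ)
    {E : Ω} {t : S} (hE : ∀ s, (σ s)⁻¹ • E ∈ Pc) (hfix : ∀ u, u ≠ t → σ u • E = E)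
    (ht : (σ t)⁻¹ • (σ t)⁻¹ • E ∉ Pc) :
    MulAction.stabilizer G E = Subgroup.closure (σ '' {u | u ≠ t}) := by
  classical
  cases nonempty_fintype S
  have hE0 : E ∈ Pc := by
    have := hi t _ (hE t)
    rwa [smul_inv_smul] at this
  obtain ⟨j, _, hjE, hjs⟩ := exists_above hG hi hii hE0 Finset.univ fun s _ => hE s
  have hδE : δ⁻¹ • E ∈ Pc := down hi (hδj j fun s => hjs s (Finset.mem_univ s)) hjE
  refine stab_eq (Pc := {X : Ω | δ⁻¹ • X ∈ Pc}) hG ?_ ?_ hδE hfix ?_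
  · intro s X hX
    have h1 := pos_smul hi (hc1 s) _ hX
    show δ⁻¹ • σ s • X ∈ Pc
    rwa [mul_smul, mul_smul, smul_inv_smul] at h1
  · intro s u hsu X hs hu
    have h1 : (δ⁻¹ * σ s * δ)⁻¹ • (δ⁻¹ • X) ∈ Pc := by
      have : δ⁻¹ • (σ s)⁻¹ • X ∈ Pc := hs
      simpa [← mul_smul, mul_assoc] using this
    have h2 : (δ⁻¹ * σ u * δ)⁻¹ • (δ⁻¹ • X) ∈ Pc := by
      have : δ⁻¹ • (σ u)⁻¹ • X ∈ Pc := hu
      simpa [← mul_smul, mul_assoc] using this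
    have h3 := join_mem hG hi hii (hc1 s) (hc1 u) (join_conj hc1 hc2 (hG.delta s u hsu)) h1 h2
    show δ⁻¹ • (Δ s u)⁻¹ • X ∈ Pc
    simpa [← mul_smul, mul_assoc] using h3
  · intro h1
    have h2 : (σ t * δ)⁻¹ • E ∈ Pc := by
      have : δ⁻¹ • (σ t)⁻¹ • E ∈ Pc := h1
      simpa [← mul_smul] using this
    have h3 : LD σ (σ t * σ t) (σ t * δ) := (LD_mul_left _).2 (hδ t)
    have h4 := down hi h3 h2
    rw [mul_inv_rev, mul_smul] at h4
    exact ht h4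

end Crest.Agent.R175.StabV_901
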