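import Crest.Agent.R175.Lcm2_109

/-!
Row 175 (S0263), block STAB, labels > 3 (helper901).

`D` a subset of a group (or monoid) `G`, closed under removing letters on the right and under local
joins of type `A₁ × A₁` and `A₂` of the letters of the unfolded diagram.  Then `D` is closed under
the local joins of the folded letters, every finite label.  No Coxeter groups: in type `A_n` the
join `Δ_n = (g₀)(g₁ g₀)(g₂ g₁ g₀) ⋯` is built row by row.
-/

set_option autoImplicit false

namespace Crest.Agent.R175.StabW_901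

open Crest.Agent.R175.Semi_663 Crest.Agent.R175.Lcm_109

variable {G : Type*} [Monoid G]

/-- removing the letter `s`. -/
def Pre (D : Set G) (s : G) : Prop := ∀ a, a * s ∈ D → a ∈ D

/-- local join of commuting letters. -/
structure Com (D : Set G) (s t : G) : Prop where
  comm : Commute s t
  join : ∀ a, a * s ∈ D → a * t ∈ D → a * (s * t) ∈ D

/-- local join of braided letters. -/
structure Br (D : Set G) (s t : G) : Prop where
  braid : s * t * s = t * s * t
  join : ∀ a, a * s ∈ D → a * t ∈ D → a * (s * t * s) ∈ D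

variable {D : Set G}

theorem Com.symm {s t : G} (h : Com D s t) : Com D t s where
  comm := h.comm.symm
  join := fun a h1 h2 => by rw [← h.comm.eq]; exact h.join a h2 h1

theorem Br.symm {s t : G} (h : Br D s t) : Br D t s where
  braid := h.braid.symm
  join := fun a h1 h2 => by rw [← h.braid]; exact h.join a h2 h1

/-- removing a product of letters. -/
theorem pre_closure {Γ : Set G} (h : ∀ s ∈ Γ, Pre D s) {p : G} (hp : p ∈ Submonoid.closure Γ) :
    ∀ a, a * p ∈ D → a ∈ D := by
  induction hp using Submonoid.closure_induction_left with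
  | one => intro a ha; simpa using ha
  | mul_left s hs y _ ih =>
    intro a ha
    refine h s hs a (ih (a * s) ?_)
    rwa [mul_assoc]

/-- join of a letter with a product of letters commuting with it. -/
theorem com_closure {Γ : Set G} {t : G} (h : ∀ s ∈ Γ, Pre D s ∧ Com D s t) {p : G}
    (hp : p ∈ Submonoid.closure Γ) : ∀ a, a * p ∈ D → a * t ∈ D → a * (p * t) ∈ D := by
  induction hp using Submonoid.closure_induction_left with
  | one => intro a _ ha; simpa using ha
  | mul_left s hs y hy ih =>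
    intro a ha hat
    rw [← mul_assoc] at ha
    have h1 : a * s ∈ D := pre_closure (fun s hs => (h s hs).1) hy _ ha
    have h2 : a * s * t ∈ D := by
      rw [mul_assoc]; exact (h s hs).2.join a h1 hat
    have := ih (a * s) ha h2
    simpa only [mul_assoc] using this

/-- `Δ` is a product of the letters of `Γ` and below every family of letters of `Γ`. -/
structure Good (D : Set G) (Γ : Set G) (Δ : G) : Prop where
  pre : ∀ s ∈ Γ, Pre D s
  mem : Δ ∈ Submonoid.closure Γ
  clo : ∀ a ∈ D, (∀ s ∈ Γ, a * s ∈ D) → a * Δ ∈ D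

theorem Good.one : Good D (∅ : Set G) 1 where
  pre := fun s hs => absurd hs (Set.notMem_empty s)
  mem := Submonoid.one_mem _
  clo := fun a ha _ => by rwa [mul_one]

theorem Good.mul {Γ Γ' : Set G} {Δ Δ' : G} (h : Good D Γ Δ) (h' : Good D Γ' Δ')
    (hc : ∀ s ∈ Γ, ∀ t ∈ Γ', Com D s t) : Good D (Γ ∪ Γ') (Δ * Δ') where
  pre := fun s hs => hs.elim (h.pre s) (h'.pre s)
  mem := Submonoid.mul_mem _ (Submonoid.closure_mono Set.subset_union_left h.mem)
    (Submonoid.closure_mono Set.subset_union_right h'.mem)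
  clo := fun a ha hs => by
    have h1 : a * Δ ∈ D := h.clo a ha fun s h2 => hs s (Or.inl h2)
    rw [← mul_assoc]
    refine h'.clo _ h1 fun t ht => ?_
    rw [mul_assoc]
    exact com_closure (fun s h2 => ⟨h.pre s h2, hc s h2 t ht⟩) h.mem a h1 (hs t (Or.inr ht))

theorem Good.list {J : Type*} (Γ : J → Set G) (Δ : J → G) : ∀ l : List J, l.Nodup →
    (∀ j ∈ l, Good D (Γ j) (Δ j)) →
    (∀ i ∈ l, ∀ j ∈ l, i ≠ j → ∀ s ∈ Γ i, ∀ t ∈ Γ j, Com D s t) →
    Good D {s | ∃ j ∈ l, s ∈ Γ j} (l.map Δ).prod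
  | [], _, _, _ => by
    have : {s : G | ∃ j ∈ ([] : List J), s ∈ Γ j} = ∅ := by ext s; simp
    rw [this]
    exact Good.one
  | j :: l, hl, h, hc => by
    rw [List.nodup_cons] at hl
    have h1 := Good.list Γ Δ l hl.2 (fun i hi => h i (by simp [hi]))
      (fun i hi k hk hik => hc i (by simp [hi]) k (by simp [hk]) hik)
    have h2 := (h j (by simp)).mul h1 (fun s hs t ht => by
      obtain ⟨i, hi, ht⟩ := ht
      exact hc j (by simp) i (by simp [hi]) (fun e => hl.1 (e ▸ hi)) s hs t ht)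
    have : {s : G | ∃ i ∈ j :: l, s ∈ Γ i} = Γ j ∪ {s | ∃ i ∈ l, s ∈ Γ i} := by
      ext s; simp
    rw [this, List.map_cons, List.prod_cons]
    exact h2

theorem Good.single {s : G} (h : Pre D s) : Good D {s} s where
  pre := fun t ht => by rw [Set.mem_singleton_iff.1 ht]; exact h
  mem := Submonoid.subset_closure rfl
  clo := fun a _ hs => hs s rfl

/-! ### type `A_n` -/

/-- the relations of type `A_n` together with the local joins. -/
structure RelD (D : Set G) (n : ℕ) (g : ℕ → G) : Prop where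
  pre : ∀ i, i < n → Pre D (g i)
  com : ∀ i j, i + 2 ≤ j → j < n → Com D (g i) (g j)
  br : ∀ i, i + 1 < n → Br D (g i) (g (i + 1))

theorem RelD.rel {n : ℕ} {g : ℕ → G} (h : RelD D n g) : Rel n g where
  comm := fun i j h1 h2 => (h.com i j h1 h2).comm
  braid := fun i h1 => (h.br i h1).braid

theorem RelD.mono {n m : ℕ} {g : ℕ → G} (h : RelD D n g) (hm : m ≤ n) : RelD D m g where
  pre := fun i hi => h.pre i (by omega)
  com := fun i j h1 h2 => h.com i j h1 (by omega)
  br := fun i h1 => h.br i (by omega)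

/-- the reversed path. -/
theorem RelD.rev {n : ℕ} {g : ℕ → G} (h : RelD D (n + 1) g) : RelD D (n + 1) fun i => g (n - i) where
  pre := fun i _ => h.pre _ (by omega)
  com := fun i j h1 h2 => (h.com (n - j) (n - i) (by omega) (by omega)).symm
  br := fun i h1 => by
    have := (h.br (n - (i + 1)) (by omega)).symm
    rwa [show n - (i + 1) + 1 = n - i by omega] at this

/-- the letters of a path. -/
def letters (n : ℕ) (g : ℕ → G) : Set G := {s | ∃ i < n, g i = s}

theorem L_mem {a k n : ℕ} (h : a + k ≤ n) (g : ℕ → G) :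
    L a k g ∈ Submonoid.closure (letters n g) := by
  induction k generalizing a with
  | zero => exact Submonoid.one_mem _
  | succ k ih =>
    rw [L_succ]
    exact Submonoid.mul_mem _ (Submonoid.subset_closure ⟨a, by omega, rfl⟩) (ih (by omega))

/-- **one row**: from `b g₀ ∈ D` and `b g₁ ⋯ g_k ∈ D` to the join `b (g₁ ⋯ g_k)(g₀ ⋯ g_k) ∈ D`. -/
theorem row {n : ℕ} {g : ℕ → G} (h : RelD D n g) : ∀ k, k < n → ∀ b, b * g 0 ∈ D →
    b * L 1 k g ∈ D → b * (L 1 k g * L 0 (k + 1) g) ∈ D := by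
  intro k
  induction k with
  | zero =>
    intro _ b h0 _
    rw [L_zero, one_mul, L_succ, L_zero, mul_one]
    exact h0
  | succ k ih =>
    intro hk b h0 h1
    have e1 : L 1 (k + 1) g = L 1 k g * g (k + 1) := by rw [L_snoc, add_comm 1 k]
    rw [e1, ← mul_assoc] at h1
    have h2 : b * L 1 k g ∈ D := h.pre _ hk _ h1
    have h3 := ih (by omega) b h0 h2
    have e2 : L 0 (k + 1) g = L 0 k g * g k := by rw [L_snoc, zero_add]
    rw [e2, ← mul_assoc] at h3
    -- `h3 : b' * (L 0 k g * g k) ∈ D`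
    have hk0 : ∀ s ∈ letters k g, Pre D s ∧ Com D s (g (k + 1)) := by
      rintro s ⟨i, hi, rfl⟩
      exact ⟨h.pre i (by omega), h.com i (k + 1) (by omega) hk⟩
    have h4 : b * L 1 k g * L 0 k g ∈ D := by
      rw [← mul_assoc] at h3
      exact h.pre k (by omega) _ h3
    have h5 : b * L 1 k g * (L 0 k g * g (k + 1)) ∈ D :=
      com_closure hk0 (L_mem (by omega) g) _ h4 h1
    have h6 := (h.br k hk).join (b * L 1 k g * L 0 k g) (by simpa only [mul_assoc] using h3)
      (by simpa only [mul_assoc] using h5)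
    have c : Commute (g (k + 1)) (L 0 k g) :=
      L_commute fun i _ h8 => ((h.com i (k + 1) (by omega) hk).comm).symm
    have e3 : L 0 (k + 1 + 1) g = L 0 k g * g k * g (k + 1) := by
      rw [L_snoc, zero_add, e2]
    rw [(h.br k hk).braid] at h6
    rw [e1, e3]
    have : b * (L 1 k g * g (k + 1) * (L 0 k g * g k * g (k + 1))) =
        b * L 1 k g * L 0 k g * (g (k + 1) * g k * g (k + 1)) := by
      calc b * (L 1 k g * g (k + 1) * (L 0 k g * g k * g (k + 1)))
          = b * (L 1 k g * (g (k + 1) * L 0 k g) * (g k * g (k + 1))) := by simp only [mul_assoc]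
        _ = _ := by rw [c.eq]; simp only [mul_assoc]
    rw [this]
    exact h6

/-- `g (n-1) ⋯ g 1 g 0`. -/
def Dn (g : ℕ → G) : ℕ → G
  | 0 => 1
  | n + 1 => g n * Dn g n

/-- `(g 0)(g 1 g 0) ⋯ (g (n-1) ⋯ g 0)`. -/
def E (g : ℕ → G) : ℕ → G
  | 0 => 1
  | n + 1 => E g n * Dn g (n + 1)

theorem Dn_mem (g : ℕ → G) : ∀ n, Dn g n ∈ Submonoid.closure (letters n g)
  | 0 => Submonoid.one_mem _
  | n + 1 => Submonoid.mul_mem _ (Submonoid.subset_closure ⟨n, by omega, rfl⟩)
    (Submonoid.closure_mono (by rintro s ⟨i, hi, rfl⟩; exact ⟨i, by omega, rfl⟩) (Dn_mem g n))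

theorem E_mem (g : ℕ → G) : ∀ n, E g n ∈ Submonoid.closure (letters n g)
  | 0 => Submonoid.one_mem _
  | n + 1 => Submonoid.mul_mem _
    (Submonoid.closure_mono (by rintro s ⟨i, hi, rfl⟩; exact ⟨i, by omega, rfl⟩) (E_mem g n))
    (Dn_mem g (n + 1))

theorem L_rev (g : ℕ → G) : ∀ n, L 0 (n + 1) (fun i => g (n - i)) = Dn g (n + 1)
  | 0 => by simp [L_succ, Dn]
  | n + 1 => by
    rw [L_succ, L_shift 0 1]
    have : L 0 (n + 1) (fun i => g (n + 1 - (i + 1))) = L 0 (n + 1) (fun i => g (n - i)) :=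
      L_congr fun i _ _ => by rw [Nat.add_sub_add_right]
    rw [this, L_rev g n]
    rfl

theorem L_rev' (g : ℕ → G) : ∀ n, L 1 n (fun i => g (n - i)) = Dn g n
  | 0 => rfl
  | n + 1 => by
    rw [show (1 : ℕ) = 0 + 1 from rfl, L_shift 0 1]
    have : L 0 (n + 1) (fun i => g (n + 1 - (i + 1))) = L 0 (n + 1) (fun i => g (n - i)) :=
      L_congr fun i _ _ => by rw [Nat.add_sub_add_right]
    rw [this, L_rev g n]

/-- **the join of all letters of type `A_n`.** -/
theorem clo_E {g : ℕ → G} : ∀ n, RelD D n g → ∀ a ∈ D, (∀ i < n, a * g i ∈ D) → a * E g n ∈ D := by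
  intro n
  induction n with
  | zero => intro _ a ha _; simpa [E] using ha
  | succ n ih =>
    intro h a ha hs
    have h1 := ih (h.mono (by omega)) a ha fun i hi => hs i (by omega)
    -- the base point of the last row
    obtain ⟨b, hb, hb2, hb3⟩ : ∃ b, b * g n ∈ D ∧ b * Dn g n ∈ D ∧ b * Dn g n = a * E g n := by
      rcases n with _ | n
      · exact ⟨a, hs 0 (by omega), by simpa [Dn] using ha, rfl⟩
      · have e1 : E g (n + 1) = E g n * Dn g (n + 1) := rfl
        rw [e1, ← mul_assoc] at h1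
        have h2 : a * E g n ∈ D := by
          refine pre_closure ?_ (Dn_mem g (n + 1)) _ h1
          rintro s ⟨i, hi, rfl⟩
          exact h.pre i (by omega)
        refine ⟨a * E g n, ?_, h1, by rw [e1, mul_assoc]⟩
        rw [mul_assoc]
        refine com_closure ?_ (E_mem g n) a h2 (hs (n + 1) (by omega))
        rintro s ⟨i, hi, rfl⟩
        exact ⟨h.pre i (by omega), h.com i (n + 1) (by omega) (by omega)⟩
    have h4 := row h.rev n (by omega) b (by simpa using hb) (by rw [L_rev']; exact hb2)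
    rw [L_rev', L_rev, ← mul_assoc, hb3, mul_assoc] at h4
    exact h4

/-- `E (n+1) = g 0 ⋯ g n E n`. -/
theorem E_succ {g : ℕ → G} : ∀ n, Rel (n + 1) g → E g (n + 1) = L 0 (n + 1) g * E g n := by
  intro n
  induction n with
  | zero => intro _; simp [E, Dn, L_succ]
  | succ n ih =>
    intro h
    have h1 := ih (h.mono (by omega))
    have c : Commute (g (n + 1)) (E g n) := by
      have : ∀ p ∈ Submonoid.closure (letters n g), Commute (g (n + 1)) p := by
        intro p hp
        induction hp using Submonoid.closure_induction with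
        | mem x hx =>
          obtain ⟨i, hi, rfl⟩ := hx
          exact (h.comm i (n + 1) (by omega) (by omega)).symm
        | one => exact Commute.one_right _
        | mul x y _ _ hx hy => exact hx.mul_right hy
      exact this _ (E_mem g n)
    calc E g (n + 1 + 1) = E g (n + 1) * (g (n + 1) * Dn g (n + 1)) := rfl
      _ = L 0 (n + 1) g * (E g n * g (n + 1)) * Dn g (n + 1) := by rw [h1]; simp only [mul_assoc]
      _ = L 0 (n + 1) g * g (n + 1) * (E g n * Dn g (n + 1)) := by
        rw [← c.eq]; simp only [mul_assoc]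
      _ = L 0 (n + 1 + 1) g * E g (n + 1) := by rw [L_snoc 0 (n + 1), zero_add]; rfl

/-- `RP` satisfies the same recursion. -/
theorem RP_succ {n : ℕ} {g : ℕ → G} (h : Rel (n + 1) g) :
    RP g (n + 1) 0 (n + 1 + 1) = L 0 (n + 1) g * RP g n 0 (n + 1) := by
  have k0 := key h n 0 (by omega)
  rw [L_zero, one_mul, Nat.add_sub_cancel] at k0
  have h1 : RP g (n + 1) 0 (n + 1 + 1) = RP g (n + 1) 0 (n + 1) * L 0 (n + 1) (e g (n + 1)) := by
    unfold RP; rw [L_snoc, zero_add]
  have h2 : L 0 (n + 1) (e g (n + 1)) = L 0 n (e g (n + 1)) := by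
    rw [L_snoc, zero_add, e_neg (by omega), mul_one]
  have h3 : RP g n 1 (n + 1) = RP g n (0 + 1) n * L 0 n (e g (n + 1)) := by
    unfold RP; rw [L_snoc, zero_add, add_comm 1 n]
  rw [h1, h2, k0, mul_assoc, ← h3, RP_eq n g (h.mono (by omega))]

theorem RP_eq_E {g : ℕ → G} : ∀ n, Rel n g → RP g n 0 (n + 1) = E g n := by
  intro n
  induction n with
  | zero => intro _; simp [RP, L_succ, E]
  | succ n ih =>
    intro h
    rw [RP_succ h, E_succ n h, ih (h.mono (by omega))]

/-- the two alternating products of a path are `E`. -/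
theorem alt_eq_E {n : ℕ} {g : ℕ → G} (h : Rel n g) :
    alt (L 0 n (e g 0)) (L 0 n (e g 1)) (n + 1) = E g n := by
  rw [← RP_eq_E n h]
  have h1 := alt_eq_L (fun s => L 0 n (e g s)) (fun q => by simp only [e_two]) (n + 1) 0
  simp only [zero_add] at h1
  rw [h1]
  rfl

theorem alt_eq_E' {n : ℕ} {g : ℕ → G} (h : Rel n g) :
    alt (L 0 n (e g 1)) (L 0 n (e g 0)) (n + 1) = E g n := by
  rw [← braid_path h, alt_eq_E h]

theorem good_E {n : ℕ} {g : ℕ → G} (h : RelD D n g) : Good D (letters n g) (E g n) where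
  pre := by rintro s ⟨i, hi, rfl⟩; exact h.pre i hi
  mem := E_mem g n
  clo := fun a ha hs => clo_E n h a ha fun i hi => hs _ ⟨i, hi, rfl⟩

/-! ### blocks and families -/

/-- two sequences: all relations and local joins. -/
structure BlkD (D : Set G) (n : ℕ) (X Y : ℕ → G) : Prop where
  px : ∀ i, i < n → Pre D (X i)
  py : ∀ i, i < n → Pre D (Y i)
  xx : ∀ i j, i < n → j < n → i ≠ j → Com D (X i) (X j)
  yy : ∀ i j, i < n → j < n → i ≠ j → Com D (Y i) (Y j)
  xy : ∀ i j, i < n → j < n → i + 1 ≠ j → j + 1 ≠ i → Com D (X i) (Y j)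
  b1 : ∀ i, i + 1 < n → Br D (X i) (Y (i + 1))
  b2 : ∀ i, i + 1 < n → Br D (Y i) (X (i + 1))

theorem BlkD.blk {n : ℕ} {X Y : ℕ → G} (h : BlkD D n X Y) : Blk n X Y where
  xx := fun i j hi hj => by
    rcases eq_or_ne i j with rfl | hij
    · exact Commute.refl _
    · exact (h.xx i j hi hj hij).comm
  yy := fun i j hi hj => by
    rcases eq_or_ne i j with rfl | hij
    · exact Commute.refl _
    · exact (h.yy i j hi hj hij).comm
  xy := fun i j hi hj h1 h2 => (h.xy i j hi hj h1 h2).comm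
  b1 := fun i hi => (h.b1 i hi).braid
  b2 := fun i hi => (h.b2 i hi).braid

theorem BlkD.symm {n : ℕ} {X Y : ℕ → G} (h : BlkD D n X Y) : BlkD D n Y X where
  px := h.py
  py := h.px
  xx := h.yy
  yy := h.xx
  xy := fun i j hi hj h1 h2 => (h.xy j i hj hi h2 h1).symm
  b1 := h.b2
  b2 := h.b1

theorem BlkD.relD {n : ℕ} {X Y : ℕ → G} (h : BlkD D n X Y) : RelD D n (gp X Y) where
  pre := fun i hi => by
    unfold gp
    split_ifs
    · exact h.px i hi
    · exact h.py i hi
  com := fun i j h1 h2 => by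
    unfold gp
    split_ifs
    · exact h.xx i j (by omega) h2 (by omega)
    · exact h.xy i j (by omega) h2 (by omega) (by omega)
    · exact (h.xy j i h2 (by omega) (by omega) (by omega)).symm
    · exact h.yy i j (by omega) h2 (by omega)
  br := fun i hi => by
    by_cases hp : i % 2 = 0
    · rw [gp_even hp, gp_odd (by omega : (i + 1) % 2 ≠ 0)]
      exact h.b1 i hi
    · rw [gp_odd hp, gp_even (by omega : (i + 1) % 2 = 0)]
      exact h.b2 i hi

theorem BlkD.cross {n : ℕ} {X Y : ℕ → G} (h : BlkD D n X Y) (i j : ℕ) (hi : i < n) (hj : j < n) :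
    Com D (gp X Y i) (gp Y X j) := by
  unfold gp
  split_ifs
  · exact h.xy i j hi hj (by omega) (by omega)
  · exact h.xx i j hi hj (by omega)
  · exact h.yy i j hi hj (by omega)
  · exact (h.xy j i hj hi (by omega) (by omega)).symm

/-- **one block.** -/
theorem BlkD.good {n : ℕ} {X Y : ℕ → G} (h : BlkD D n X Y) :
    Good D {s | ∃ i < n, s = X i ∨ s = Y i} (alt (L 0 n X) (L 0 n Y) (n + 1)) := by
  have h1 := (good_E h.relD).mul (good_E h.symm.relD) (by
    rintro s ⟨i, hi, rfl⟩ t ⟨j, hj, rfl⟩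
    exact h.cross i j hi hj)
  have e1 : alt (L 0 n X) (L 0 n Y) (n + 1) = E (gp X Y) n * E (gp Y X) n := by
    have hb := h.blk
    rw [hb.prodX, hb.prodY,
      alt_mul_mul (hb.crossL 0 1).symm (hb.crossL 1 1).symm (hb.crossL 0 0).symm
        (hb.crossL 1 0).symm, alt_eq_E hb.rel, alt_eq_E' hb.symm.rel]
  have e2 : {s : G | ∃ i < n, s = X i ∨ s = Y i} = letters n (gp X Y) ∪ letters n (gp Y X) := by
    ext s
    constructor
    · rintro ⟨i, hi, hs | hs⟩
      · by_cases hp : i % 2 = 0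
        · exact Or.inl ⟨i, hi, by rw [gp_even hp, hs]⟩
        · exact Or.inr ⟨i, hi, by rw [gp_odd hp, hs]⟩
      · by_cases hp : i % 2 = 0
        · exact Or.inr ⟨i, hi, by rw [gp_even hp, hs]⟩
        · exact Or.inl ⟨i, hi, by rw [gp_odd hp, hs]⟩
    · rintro (⟨i, hi, hs⟩ | ⟨i, hi, hs⟩)
      · refine ⟨i, hi, ?_⟩
        by_cases hp : i % 2 = 0
        · left; rw [← hs, gp_even hp]
        · right; rw [← hs, gp_odd hp]
      · refine ⟨i, hi, ?_⟩
        by_cases hp : i % 2 = 0
        · right; rw [← hs, gp_even hp]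
        · left; rw [← hs, gp_odd hp]
  rw [e1, e2]
  exact h1

section fam

variable {I J : Type*} [Fintype I] [Fintype J] {n : ℕ}

/-- **label `n + 1`.** -/
theorem good_path (ε : I ≃ Fin n × J) (x y : I → G) (hx : ∀ i i', Commute (x i) (x i'))
    (hy : ∀ i i', Commute (y i) (y i')) (px : ∀ i, Pre D (x i)) (py : ∀ i, Pre D (y i))
    (cx : ∀ i i', i ≠ i' → Com D (x i) (x i')) (cy : ∀ i i', i ≠ i' → Com D (y i) (y i'))
    (hxy : ∀ i i', ¬ Adj ε i i' → Com D (x i) (y i'))
    (hbr : ∀ i i', Adj ε i i' → Br D (x i) (y i')) :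
    Good D {s | ∃ i, s = x i ∨ s = y i} (alt (cp x hx) (cp y hy) (n + 1)) := by
  classical
  rw [cp_fold ε x hx, cp_fold ε y hy]
  set X : J → ℕ → G := fun j i => if h : i < n then x (ε.symm (⟨i, h⟩, j)) else 1 with hX
  set Y : J → ℕ → G := fun j i => if h : i < n then y (ε.symm (⟨i, h⟩, j)) else 1 with hY
  have eX : ∀ j i (h : i < n), X j i = x (ε.symm (⟨i, h⟩, j)) := fun j i h => dif_pos h
  have eY : ∀ j i (h : i < n), Y j i = y (ε.symm (⟨i, h⟩, j)) := fun j i h => dif_pos h
  have inj : ∀ {i i' : ℕ} {h : i < n} {h' : i' < n} {j j' : J}, (i ≠ i' ∨ j ≠ j') →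
      ε.symm (⟨i, h⟩, j) ≠ ε.symm (⟨i', h'⟩, j') := by
    intro i i' h h' j j' hne he
    have := ε.symm.injective he
    rw [Prod.mk.injEq, Fin.mk.injEq] at this
    rcases hne with hne | hne
    · exact hne this.1
    · exact hne this.2
  have hB : ∀ j, BlkD D n (X j) (Y j) := fun j =>
    { px := fun i h => by rw [eX j i h]; exact px _
      py := fun i h => by rw [eY j i h]; exact py _
      xx := fun i i' h h' hne => by
        rw [eX j i h, eX j i' h']; exact cx _ _ (inj (Or.inl hne))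
      yy := fun i i' h h' hne => by
        rw [eY j i h, eY j i' h']; exact cy _ _ (inj (Or.inl hne))
      xy := fun i i' h h' h1 h2 => by
        rw [eX j i h, eY j i' h']
        refine hxy _ _ fun hA => ?_
        rw [Adj, Equiv.apply_symm_apply, Equiv.apply_symm_apply] at hA
        rcases hA.2 with h3 | h3
        · exact h1 h3
        · exact h2 h3
      b1 := fun i h => by
        rw [eX j i (by omega), eY j (i + 1) h]
        refine hbr _ _ ?_
        rw [Adj, Equiv.apply_symm_apply, Equiv.apply_symm_apply]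
        exact ⟨rfl, Or.inl rfl⟩
      b2 := fun i h => by
        rw [eY j i (by omega), eX j (i + 1) h]
        refine (hbr _ _ ?_).symm
        rw [Adj, Equiv.apply_symm_apply, Equiv.apply_symm_apply]
        exact ⟨rfl, Or.inr rfl⟩ }
  -- all local joins between different blocks
  have cXX : ∀ i j, i ≠ j → ∀ a b, a < n → b < n → Com D (X i a) (X j b) := by
    intro i j hij a b ha hb
    rw [eX i a ha, eX j b hb]; exact cx _ _ (inj (Or.inr hij))
  have cYY : ∀ i j, i ≠ j → ∀ a b, a < n → b < n → Com D (Y i a) (Y j b) := by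
    intro i j hij a b ha hb
    rw [eY i a ha, eY j b hb]; exact cy _ _ (inj (Or.inr hij))
  have cXY : ∀ i j, i ≠ j → ∀ a b, a < n → b < n → Com D (X i a) (Y j b) := by
    intro i j hij a b ha hb
    rw [eX i a ha, eY j b hb]
    refine hxy _ _ fun hA => ?_
    rw [Adj, Equiv.apply_symm_apply, Equiv.apply_symm_apply] at hA
    exact hij hA.1
  have hl := Finset.nodup_toList (Finset.univ : Finset J)
  have hc : ∀ i ∈ (Finset.univ : Finset J).toList, ∀ j ∈ (Finset.univ : Finset J).toList, i ≠ j →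
      Commute (L 0 n (X i)) (L 0 n (X j)) ∧ Commute (L 0 n (X i)) (L 0 n (Y j)) ∧
        Commute (L 0 n (Y i)) (L 0 n (Y j)) := by
    intro i _ j _ hij
    exact ⟨L_commute' fun a b _ ha _ hb => (cXX i j hij a b (by omega) (by omega)).comm,
      L_commute' fun a b _ ha _ hb => (cXY i j hij a b (by omega) (by omega)).comm,
      L_commute' fun a b _ ha _ hb => (cYY i j hij a b (by omega) (by omega)).comm⟩
  rw [alt_list (fun j => L 0 n (X j)) (fun j => L 0 n (Y j)) (n + 1) _ hl hc]
  have h1 := Good.list (D := D) (fun j => {s | ∃ i < n, s = X j i ∨ s = Y j i})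
    (fun j => alt (L 0 n (X j)) (L 0 n (Y j)) (n + 1)) _ hl (fun j _ => (hB j).good) (by
      rintro i _ j _ hij s ⟨a, ha, hs⟩ t ⟨b, hb, ht⟩
      rcases hs with rfl | rfl <;> rcases ht with rfl | rfl
      · exact cXX i j hij a b ha hb
      · exact cXY i j hij a b ha hb
      · exact (cXY j i hij.symm b a hb ha).symm
      · exact cYY i j hij a b ha hb)
  have e2 : {s : G | ∃ i, s = x i ∨ s = y i} =
      {s | ∃ j ∈ (Finset.univ : Finset J).toList, s ∈ {s | ∃ i < n, s = X j i ∨ s = Y j i}} := by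
    ext s
    constructor
    · rintro ⟨i, hs⟩
      refine ⟨(ε i).2, by simp, (ε i).1.val, (ε i).1.isLt, ?_⟩
      rw [eX _ _ (ε i).1.isLt, eY _ _ (ε i).1.isLt]
      simpa using hs
    · rintro ⟨j, _, i, hi, hs⟩
      rw [eX _ _ hi, eY _ _ hi] at hs
      exact ⟨_, hs⟩
  rw [e2]
  exact h1

/-- a family of letters with local joins of type `A₁ × A₁`. -/
theorem good_cp (x : I → G) (hx : ∀ i i', Commute (x i) (x i')) (px : ∀ i, Pre D (x i))
    (cx : ∀ i i', i ≠ i' → Com D (x i) (x i')) : Good D (Set.range x) (cp x hx) := by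
  classical
  have hl := Finset.nodup_toList (Finset.univ : Finset I)
  have hu : ∀ i, i ∈ (Finset.univ : Finset I).toList := fun i => by simp
  rw [cp_list x hx _ hl hu]
  have h1 := Good.list (D := D) (fun i => {x i}) x _ hl (fun i _ => Good.single (px i)) (by
    rintro i _ j _ hij s rfl t rfl
    exact cx i j hij)
  have e2 : Set.range x = {s | ∃ j ∈ (Finset.univ : Finset I).toList, s ∈ ({x j} : Set G)} := by
    ext s
    constructor
    · rintro ⟨i, rfl⟩; exact ⟨i, by simp, rfl⟩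
    · rintro ⟨i, _, rfl⟩; exact ⟨i, rfl⟩
  rw [e2]
  exact h1

/-- **label `2`.** -/
theorem good_two (x y : I → G) (hx : ∀ i i', Commute (x i) (x i'))
    (hy : ∀ i i', Commute (y i) (y i')) (px : ∀ i, Pre D (x i)) (py : ∀ i, Pre D (y i))
    (cx : ∀ i i', i ≠ i' → Com D (x i) (x i')) (cy : ∀ i i', i ≠ i' → Com D (y i) (y i'))
    (hxy : ∀ i i', Com D (x i) (y i')) :
    Good D {s | ∃ i, s = x i ∨ s = y i} (alt (cp x hx) (cp y hy) 2) := by
  have h1 := (good_cp x hx px cx).mul (good_cp y hy py cy) (by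
    rintro s ⟨i, rfl⟩ t ⟨j, rfl⟩; exact hxy i j)
  have e1 : alt (cp x hx) (cp y hy) 2 = cp x hx * cp y hy := by simp [alt]
  have e2 : {s : G | ∃ i, s = x i ∨ s = y i} = Set.range x ∪ Set.range y := by
    ext s
    constructor
    · rintro ⟨i, rfl | rfl⟩
      · exact Or.inl ⟨i, rfl⟩
      · exact Or.inr ⟨i, rfl⟩
    · rintro (⟨i, rfl⟩ | ⟨i, rfl⟩)
      · exact ⟨i, Or.inl rfl⟩
      · exact ⟨i, Or.inr rfl⟩
  rw [e1, e2]
  exact h1

/-- **label `3`** (`(s,i) ~ (t,i)`). -/
theorem good_three (x y : I → G) (hx : ∀ i i', Commute (x i) (x i'))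
    (hy : ∀ i i', Commute (y i) (y i')) (px : ∀ i, Pre D (x i)) (py : ∀ i, Pre D (y i))
    (cx : ∀ i i', i ≠ i' → Com D (x i) (x i')) (cy : ∀ i i', i ≠ i' → Com D (y i) (y i'))
    (hxy : ∀ i i', i ≠ i' → Com D (x i) (y i')) (hbr : ∀ i, Br D (x i) (y i)) :
    Good D {s | ∃ i, s = x i ∨ s = y i} (alt (cp x hx) (cp y hy) 3) := by
  classical
  have hl := Finset.nodup_toList (Finset.univ : Finset I)
  have hu : ∀ i, i ∈ (Finset.univ : Finset I).toList := fun i => by simp
  rw [cp_list x hx _ hl hu, cp_list y hy _ hl hu,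
    alt_list x y 3 _ hl fun i _ j _ hij => ⟨hx i j, (hxy i j hij).comm, hy i j⟩]
  have h1 := Good.list (D := D) (fun i => {s | s = x i ∨ s = y i}) (fun i => alt (x i) (y i) 3) _ hl
    (fun i _ => by
      have e : alt (x i) (y i) 3 = x i * y i * x i := by simp [alt, mul_assoc]
      refine ⟨?_, ?_, ?_⟩
      · rintro s (rfl | rfl)
        · exact px i
        · exact py i
      · rw [e]
        exact Submonoid.mul_mem _ (Submonoid.mul_mem _ (Submonoid.subset_closure (Or.inl rfl))
          (Submonoid.subset_closure (Or.inr rfl))) (Submonoid.subset_closure (Or.inl rfl))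
      · intro a _ hs
        rw [e]
        exact (hbr i).join a (hs _ (Or.inl rfl)) (hs _ (Or.inr rfl)))
    (by
      rintro i _ j _ hij s (rfl | rfl) t (rfl | rfl)
      · exact cx i j hij
      · exact hxy i j hij
      · exact (hxy j i hij.symm).symm
      · exact cy i j hij)
  have e2 : {s : G | ∃ i, s = x i ∨ s = y i} =
      {s | ∃ j ∈ (Finset.univ : Finset I).toList, s ∈ {s : G | s = x j ∨ s = y j}} := by
    ext s
    constructor
    · rintro ⟨i, hs⟩; exact ⟨i, by simp, hs⟩
    · rintro ⟨i, _, hs⟩; exact ⟨i, hs⟩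
  rw [e2]
  exact h1

theorem cp_mem_closure (x : I → G) (hx : ∀ i i', Commute (x i) (x i')) :
    cp x hx ∈ Submonoid.closure (Set.range x) :=
  Submonoid.noncommProd_mem _ _ _ (fun i _ i' _ _ => hx i i') fun j _ =>
    Submonoid.subset_closure ⟨j, rfl⟩

/-- every letter is a left factor of the product of the family. -/
theorem cp_left (x : I → G) (hx : ∀ i i', Commute (x i) (x i')) (px : ∀ i, Pre D (x i)) (i : I)
    (a : G) (h : a * cp x hx ∈ D) : a * x i ∈ D := by
  classical
  have h1 := Finset.mul_noncommProd_erase (Finset.univ : Finset I) (Finset.mem_univ i) x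
    (fun i _ i' _ _ => hx i i')
  have h2 : (Finset.univ.erase i).noncommProd x (fun i _ i' _ _ => hx i i') ∈
      Submonoid.closure (Set.range x) :=
    Submonoid.noncommProd_mem _ _ _ _ fun j _ => Submonoid.subset_closure ⟨j, rfl⟩
  rw [show cp x hx = Finset.univ.noncommProd x (fun i _ i' _ _ => hx i i') from rfl, ← h1,
    ← mul_assoc] at h
  refine pre_closure ?_ h2 _ h
  rintro s ⟨j, rfl⟩
  exact px j

end fam

/-! ### the folded diagram -/

section fold

open Crest.GroupTheory

variable {S : Type*} (M : CoxeterMatrix S) {I : Type*} [Fintype I] {L' : Type*} [Group L']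

/-- local joins of the unfolded letters (same shape as `Lcm_109.Fold`). -/
structure FoldD (D : Set L') (σ : S → I → L') : Prop where
  pre : ∀ s i, Pre D (σ s i)
  self : ∀ s i i', i ≠ i' → Com D (σ s i) (σ s i')
  two : ∀ s t, M.M s t = 2 → ∀ i i', Com D (σ s i) (σ t i')
  path : ∀ s t, 3 ≤ M.M s t →
    (M.M s t = 3 ∧ (∀ i i', i ≠ i' → Com D (σ s i) (σ t i')) ∧ ∀ i, Br D (σ s i) (σ t i)) ∨
    ∃ (J : Type) (_ : Fintype J) (ε : I ≃ Fin (M.M s t - 1) × J),
      (∀ i i', ¬ Adj ε i i' → Com D (σ s i) (σ t i')) ∧ ∀ i i', Adj ε i i' → Br D (σ s i) (σ t i')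

variable {M}

/-- **`D` is closed under the local joins of the folded letters.** -/
theorem FoldD.close {D : Set L'} {σ : S → I → L'} (h : Fold M σ) (hD : FoldD M D σ) {s t : S}
    (hst : s ≠ t) (hm : M.M s t ≠ 0) {a : L'} (ha : a ∈ D) (hs : a * h.sg s ∈ D)
    (ht : a * h.sg t ∈ D) : a * alt (h.sg s) (h.sg t) (M.M s t) ∈ D := by
  have hx : ∀ i, a * σ s i ∈ D := fun i => cp_left (σ s) (h.self s) (hD.pre s) i a hs
  have hy : ∀ i, a * σ t i ∈ D := fun i => cp_left (σ t) (h.self t) (hD.pre t) i a ht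
  have key : Good D {g | ∃ i, g = σ s i ∨ g = σ t i} (alt (h.sg s) (h.sg t) (M.M s t)) := by
    rcases Nat.lt_or_ge (M.M s t) 3 with h3 | h3
    · have h1 : M.M s t ≠ 1 := M.off_diagonal s t hst
      have h2 : M.M s t = 2 := by omega
      rw [h2]
      exact good_two _ _ _ _ (hD.pre s) (hD.pre t) (hD.self s) (hD.self t) (hD.two s t h2)
    · rcases hD.path s t h3 with ⟨e3, hc, hb⟩ | ⟨J, _, ε, hc, hb⟩
      · rw [e3]
        exact good_three _ _ _ _ (hD.pre s) (hD.pre t) (hD.self s) (hD.self t) hc hb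
      · have := good_path (D := D) ε (σ s) (σ t) (h.self s) (h.self t) (hD.pre s) (hD.pre t)
          (hD.self s) (hD.self t) hc hb
        have e1 : M.M s t - 1 + 1 = M.M s t := by omega
        rwa [e1] at this
  refine key.clo a ha ?_
  rintro g ⟨i, rfl | rfl⟩
  · exact hx i
  · exact hy i

variable (M)

/-- the unfolded graph: `adj s i t i'` is the edge relation on `S × I`. -/
structure Unf (adj : S → I → S → I → Prop) : Prop where
  self : ∀ s i i', ¬ adj s i s i'
  two : ∀ s t, M.M s t = 2 → ∀ i i', ¬ adj s i t i'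
  path : ∀ s t, 3 ≤ M.M s t → (M.M s t = 3 ∧ ∀ i i', adj s i t i' ↔ i = i') ∨
    ∃ (J : Type) (_ : Fintype J) (ε : I ≃ Fin (M.M s t - 1) × J),
      ∀ i i', adj s i t i' ↔ Adj ε i i'

variable {M}

omit [Fintype I] in
/-- the relations of the unfolded graph give `Lcm_109.Fold`. -/
theorem Unf.fold {adj : S → I → S → I → Prop} (h : Unf M adj) {σ : S → I → L'}
    (hc : ∀ s i t i', ¬ adj s i t i' → Commute (σ s i) (σ t i'))
    (hb : ∀ s i t i', adj s i t i' → σ s i * σ t i' * σ s i = σ t i' * σ s i * σ t i') :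
    Fold M σ where
  self := fun s i i' => hc s i s i' (h.self s i i')
  two := fun s t h2 i i' => hc s i t i' (h.two s t h2 i i')
  path := fun s t h3 => by
    rcases h.path s t h3 with ⟨e3, ha⟩ | ⟨J, hJ, ε, ha⟩
    · exact Or.inl ⟨e3, fun i i' hne => hc s i t i' fun h4 => hne ((ha i i').1 h4),
        fun i => hb s i t i ((ha i i).2 rfl)⟩
    · exact Or.inr ⟨J, hJ, ε, fun i i' hne => hc s i t i' fun h4 => hne ((ha i i').1 h4),
        fun i i' h4 => hb s i t i' ((ha i i').2 h4)⟩

omit [Fintype I] in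
theorem Unf.foldD {adj : S → I → S → I → Prop} (h : Unf M adj) {D : Set L'} {σ : S → I → L'}
    (hp : ∀ s i, Pre D (σ s i))
    (hc : ∀ s i t i', (s ≠ t ∨ i ≠ i') → ¬ adj s i t i' → Com D (σ s i) (σ t i'))
    (hb : ∀ s i t i', adj s i t i' → Br D (σ s i) (σ t i')) :
    FoldD M D σ where
  pre := hp
  self := fun s i i' hne => hc s i s i' (Or.inr hne) (h.self s i i')
  two := fun s t h2 i i' => hc s i t i' (Or.inl fun e => by
    subst e
    rw [M.diagonal] at h2
    omega) (h.two s t h2 i i')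
  path := fun s t h3 => by
    have hst : s ≠ t := fun e => by
      subst e
      rw [M.diagonal] at h3
      omega
    rcases h.path s t h3 with ⟨e3, ha⟩ | ⟨J, hJ, ε, ha⟩
    · exact Or.inl ⟨e3, fun i i' hne => hc s i t i' (Or.inl hst) fun h4 => hne ((ha i i').1 h4),
        fun i => hb s i t i ((ha i i).2 rfl)⟩
    · exact Or.inr ⟨J, hJ, ε,
        fun i i' hne => hc s i t i' (Or.inl hst) fun h4 => hne ((ha i i').1 h4),
        fun i i' h4 => hb s i t i' ((ha i i').2 h4)⟩

/-- **Labels > 3 in the stabiliser theorem**: for the unfolded letters `σ s i` (labels 2 and 3)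
`σ P ⊆ P` and `σ P ∩ σ' P ⊆ Δ P` imply the same for the folded letters `h.sg s`, any finite
label. -/
theorem Unf.close_smul {adj : S → I → S → I → Prop} (hU : Unf M adj) {σ : S → I → L'}
    (h : Fold M σ) {Ω : Type*} [MulAction L' Ω] {Pc : Set Ω}
    (hi : ∀ s i, ∀ X ∈ Pc, σ s i • X ∈ Pc)
    (h2 : ∀ s i t i', (s ≠ t ∨ i ≠ i') → ¬ adj s i t i' → ∀ X, (σ s i)⁻¹ • X ∈ Pc →
      (σ t i')⁻¹ • X ∈ Pc → (σ s i * σ t i')⁻¹ • X ∈ Pc)
    (h3 : ∀ s i t i', adj s i t i' → ∀ X, (σ s i)⁻¹ • X ∈ Pc →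
      (σ t i')⁻¹ • X ∈ Pc → (σ s i * σ t i' * σ s i)⁻¹ • X ∈ Pc)
    (hc : ∀ s i t i', ¬ adj s i t i' → Commute (σ s i) (σ t i'))
    (hb : ∀ s i t i', adj s i t i' → σ s i * σ t i' * σ s i = σ t i' * σ s i * σ t i')
    {s t : S} (hst : s ≠ t) (hm : M.M s t ≠ 0) (X : Ω) (hs : (h.sg s)⁻¹ • X ∈ Pc)
    (ht : (h.sg t)⁻¹ • X ∈ Pc) : (alt (h.sg s) (h.sg t) (M.M s t))⁻¹ • X ∈ Pc := by
  have hX : X ∈ Pc := by
    have h4 : h.sg s ∈ Submonoid.closure (Set.range (σ s)) :=
      cp_mem_closure (σ s) (h.self s)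
    have h5 : ∀ g ∈ Submonoid.closure (Set.range (σ s)), ∀ Y ∈ Pc, g • Y ∈ Pc := by
      intro g hg
      induction hg using Submonoid.closure_induction with
      | mem x hx => obtain ⟨i, rfl⟩ := hx; exact hi s i
      | one => intro Y hY; rwa [one_smul]
      | mul x y _ _ hx hy => intro Y hY; rw [mul_smul]; exact hx _ (hy _ hY)
    have := h5 _ h4 _ hs
    rwa [smul_inv_smul] at this
  have hD : FoldD M {g : L' | g⁻¹ • X ∈ Pc} σ := hU.foldD
    (fun s i a ha => by
      have h4 := hi s i _ ha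
      rw [mul_inv_rev, mul_smul, smul_inv_smul] at h4
      exact h4)
    (fun s i t i' hne ha => ⟨hc s i t i' ha, fun a h4 h5 => by
      have h6 := h2 s i t i' hne ha (a⁻¹ • X) (by rw [← mul_smul, ← mul_inv_rev]; exact h4)
        (by rw [← mul_smul, ← mul_inv_rev]; exact h5)
      rw [← mul_smul, ← mul_inv_rev] at h6
      exact h6⟩)
    (fun s i t i' ha => ⟨hb s i t i' ha, fun a h4 h5 => by
      have h6 := h3 s i t i' ha (a⁻¹ • X) (by rw [← mul_smul, ← mul_inv_rev]; exact h4)
        (by rw [← mul_smul, ← mul_inv_rev]; exact h5)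
      rw [← mul_smul, ← mul_inv_rev] at h6
      exact h6⟩)
  have h7 := hD.close h hst hm (a := 1) (by
      show (1 : L')⁻¹ • X ∈ Pc
      rwa [inv_one, one_smul])
    (by rw [one_mul]; exact hs) (by rw [one_mul]; exact ht)
  rw [one_mul] at h7
  exact h7

/-- the same for the homomorphism `h.hom` out of the Artin group. -/
theorem Unf.close_hom {adj : S → I → S → I → Prop} (hU : Unf M adj) {σ : S → I → L'}
    (h : Fold M σ) {Ω : Type*} [MulAction L' Ω] {Pc : Set Ω}
    (hi : ∀ s i, ∀ X ∈ Pc, σ s i • X ∈ Pc)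
    (h2 : ∀ s i t i', (s ≠ t ∨ i ≠ i') → ¬ adj s i t i' → ∀ X, (σ s i)⁻¹ • X ∈ Pc →
      (σ t i')⁻¹ • X ∈ Pc → (σ s i * σ t i')⁻¹ • X ∈ Pc)
    (h3 : ∀ s i t i', adj s i t i' → ∀ X, (σ s i)⁻¹ • X ∈ Pc →
      (σ t i')⁻¹ • X ∈ Pc → (σ s i * σ t i' * σ s i)⁻¹ • X ∈ Pc)
    (hc : ∀ s i t i', ¬ adj s i t i' → Commute (σ s i) (σ t i'))
    (hb : ∀ s i t i', adj s i t i' → σ s i * σ t i' * σ s i = σ t i' * σ s i * σ t i')
    {s t : S} (hst : s ≠ t) (hm : M.M s t ≠ 0) (X : Ω)
    (hs : (h.hom (artinGen M s))⁻¹ • X ∈ Pc) (ht : (h.hom (artinGen M t))⁻¹ • X ∈ Pc) :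
    (h.hom (alt (artinGen M s) (artinGen M t) (M.M s t)))⁻¹ • X ∈ Pc := by
  rw [Fold.hom_gen] at hs ht
  rw [map_alt, Fold.hom_gen, Fold.hom_gen]
  exact hU.close_smul h hi h2 h3 hc hb hst hm X hs ht

end fold

end Crest.Agent.R175.StabW_901
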