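import Crest.Agent.R175.GSph_145
import Crest.Agent.R175.StabV_901
import Crest.Agent.R175.StabW_901

/-!
Row 175 (S0263), block STAB (helper901): the Garside facts of an Artin group of finite type in the
form of `StabZ_680.GMon`, its Garside element, and the stabiliser theorem for `ArtinGroup M`.
-/

set_option autoImplicit false

namespace Crest.Agent.R175.StabM_901

open Crest.GroupTheory
open Crest.Agent.R175.DDef_145 (Braid braid_artinGen artinLift artinLift_gen)
open Crest.Agent.R175.DW_145 Crest.Agent.R175.GPL_145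
open Crest.Agent.R175.GMon_145 Crest.Agent.R175.GLat_145 Crest.Agent.R175.GGrp_145
open Crest.Agent.R175.StabZ_680 Crest.Agent.R175.StabV_901

universe u v

variable {S : Type u} {M : CoxeterMatrix S} {W : Type v} [Group W] {cs : CoxeterSystem M W}

theorem toG_mem (z : AM M) : toG M z ∈ Pos (artinGen M) := by
  induction z using GMon_145.induction_left with
  | h1 => rw [map_one]; exact Submonoid.one_mem _
  | h2 s z ih => rw [map_mul, toG_at]; exact Submonoid.mul_mem _ (gen_mem s) ih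

theorem mem_pos_iff {g : ArtinGroup M} : g ∈ Pos (artinGen M) ↔ ∃ z, g = toG M z := by
  constructor
  · intro h
    induction h using Submonoid.closure_induction with
    | mem x hx => obtain ⟨s, rfl⟩ := hx; exact ⟨at' M s, (toG_at s).symm⟩
    | one => exact ⟨1, (map_one _).symm⟩
    | mul x y _ _ hx hy =>
      obtain ⟨a, rfl⟩ := hx
      obtain ⟨b, rfl⟩ := hy
      exact ⟨a * b, (map_mul _ _ _).symm⟩
  · rintro ⟨z, rfl⟩; exact toG_mem z

theorem LD_iff {x y : ArtinGroup M} : LD (artinGen M) x y ↔ Gle x y := by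
  unfold LD Gle
  rw [mem_pos_iff]
  constructor
  · rintro ⟨z, hz⟩; exact ⟨z, by rw [← hz, mul_inv_cancel_left]⟩
  · rintro ⟨z, rfl⟩; exact ⟨z, by rw [inv_mul_cancel_left]⟩

theorem exists_len : ∃ ℓ : ArtinGroup M → ℤ, (∀ a b, ℓ (a * b) = ℓ a + ℓ b) ∧
    ∀ s, ℓ (artinGen M s) = 1 := by
  let f : ArtinGroup M →* Multiplicative ℤ :=
    artinLift M (fun _ => Multiplicative.ofAdd 1) (by intro s t _; simp)
  exact ⟨fun g => Multiplicative.toAdd (f g), fun a b => by simp, fun s => by simp [f]⟩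

theorem prod_alt {L : Type*} [Monoid L] (f : S → L) (m : ℕ) : ∀ s t : S,
    ((DDef_145.alt s t m).map f).prod = Semi_663.alt (f s) (f t) m := by
  induction m with
  | zero => intro s t; rfl
  | succ m ih => intro s t; rw [DDef_145.alt_succ, List.map_cons, List.prod_cons, ih]; rfl

theorem delta_eq (s u : S) : Semi_663.alt (artinGen M s) (artinGen M u) (M.M s u) =
    toG M (((DDef_145.alt s u (M s u)).map (at' M)).prod) := by
  have h : (toG M ∘ at' M) = artinGen M := funext fun a => toG_at a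
  rw [map_list_prod, List.map_map, h, prod_alt]

include cs in
theorem label_ne_zero (D : Dat cs) {s u : S} (h : s ≠ u) : M s u ≠ 0 :=
  (two_atoms D h (at_dvd_Dl D s) (at_dvd_Dl D u)).1

/-- **the Garside facts.** -/
theorem gmon (D : Dat cs) : GMon (artinGen M)
    (fun s u => Semi_663.alt (artinGen M s) (artinGen M u) (M.M s u)) where
  len := exists_len
  join a _ b _ := by
    obtain ⟨j, h1, h2, h3⟩ := exists_lub D a b
    exact ⟨j, LD_iff.2 h1, LD_iff.2 h2, fun x hx hy => LD_iff.2 (h3 x (LD_iff.1 hx) (LD_iff.1 hy))⟩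
  delta s u hsu := by
    have hm := label_ne_zero D hsu
    obtain ⟨k, hk⟩ : ∃ k, M s u = k + 1 := Nat.exists_eq_succ_of_ne_zero hm
    show IsJoin (artinGen M) (artinGen M s) (artinGen M u)
      (Semi_663.alt (artinGen M s) (artinGen M u) (M.M s u))
    rw [delta_eq]
    refine ⟨LD_iff.2 ?_, LD_iff.2 ?_, fun x hx hy => ?_⟩
    · rw [hk, DDef_145.alt_succ, List.map_cons, List.prod_cons, map_mul, toG_at]
      exact ⟨_, rfl⟩
    · have hb := braid_at (M := M) s u hm
      rw [hb, hk, DDef_145.alt_succ, List.map_cons, List.prod_cons, map_mul, toG_at]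
      exact ⟨_, rfl⟩
    · obtain ⟨z, hz⟩ := LD_iff.1 hx
      obtain ⟨z', hz'⟩ := LD_iff.1 hy
      have h1 : at' M s * z = at' M u * z' := by
        apply toG_injective D
        rw [map_mul, map_mul, toG_at, toG_at, ← hz, ← hz']
      have h2 := (two_atoms D hsu (Dvd.intro _ rfl) (h1 ▸ Dvd.intro _ rfl) : _ ∧
        _ ∣ at' M s * z).2
      rw [LD_iff, hz, ← toG_at, ← map_mul, toG_Gle_iff D]
      exact h2
  frac g := by
    obtain ⟨a, -, b, -, h⟩ := exists_frac D (X := Set.univ) (g := g) (by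
      unfold stdParabolic
      rw [Set.image_univ, closure_gen]
      trivial)
    exact ⟨toG M a, toG_mem a, toG M b, toG_mem b, by rw [← h, inv_mul_cancel_left]⟩

/-- an element of `W` with all left descents is the longest element. -/
theorem eq_w0 (D : Dat cs) {w : W} (h : ∀ s, cs.IsLeftDescent w s) : w = D.w0 := by
  by_contra hne
  have h1 : D.w0 * w⁻¹ ≠ 1 := fun h2 => hne (by
    rw [← inv_inv w, ← inv_eq_of_mul_eq_one_left h2, inv_inv])
  obtain ⟨s, hs⟩ := cs.exists_rightDescent_of_ne_one h1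
  have h3 := D.top (D.w0 * w⁻¹)
  have h4 := D.top (D.w0 * w⁻¹ * cs.simple s)
  unfold PL at h3 h4
  have h5 := h s
  unfold CoxeterSystem.IsLeftDescent at h5
  unfold CoxeterSystem.IsRightDescent at hs
  have e1 : (D.w0 * w⁻¹)⁻¹ * D.w0 = w := by group
  have e2 : (D.w0 * w⁻¹ * cs.simple s)⁻¹ * D.w0 = cs.simple s * w := by
    rw [mul_inv_rev, cs.inv_simple]; group
  rw [e1] at h3
  rw [e2] at h4
  omega

/-- the Garside element. -/
noncomputable def dl (D : Dat cs) : ArtinGroup M := toG M (Dl D)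

theorem LD_dl (D : Dat cs) (s : S) : LD (artinGen M) (artinGen M s) (dl D) := by
  rw [LD_iff, ← toG_at]
  exact (toG_Gle_iff D).2 (at_dvd_Dl D s)

theorem dl_LD (D : Dat cs) (x : ArtinGroup M) (t : S)
    (h : ∀ s, LD (artinGen M) (artinGen M s) x) : LD (artinGen M) (dl D) x := by
  obtain ⟨z, hz⟩ := LD_iff.1 (h t)
  have h1 : x = toG M (at' M t * z) := by rw [map_mul, toG_at, hz]
  rw [h1, LD_iff]
  have h2 : hd D (at' M t * z) = D.w0 := eq_w0 D fun s => by
    rw [← at_dvd_iff D, ← toG_Gle_iff D, toG_at, ← h1]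
    exact LD_iff.1 (h s)
  refine (toG_Gle_iff D).2 ?_
  unfold Dl
  rw [sg_dvd_iff D, h2]
  exact D.top _

theorem dl_conj (D : Dat cs) (s : S) : (dl D)⁻¹ * artinGen M s * dl D ∈ Pos (artinGen M) := by
  have h1 : artinGen M s * dl D = dl D * artinGen M (star D s) := by
    unfold dl
    rw [← toG_at, ← toG_at, ← map_mul, ← map_mul, at_mul_Dl]
  rw [mul_assoc, h1, inv_mul_cancel_left]
  exact gen_mem _

theorem dl_conj' (D : Dat cs) (s : S) : dl D * artinGen M s * (dl D)⁻¹ ∈ Pos (artinGen M) := by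
  have h1 : dl D * artinGen M s = artinGen M (star D s) * dl D := by
    unfold dl
    rw [← toG_at, ← toG_at, ← map_mul, ← map_mul, Dl_mul_at]
  rw [h1, mul_inv_cancel_right]
  exact gen_mem _

/-- **The stabiliser theorem for `ArtinGroup M`, `M` of finite type.** -/
theorem stab_artin [Finite S] [Finite M.Group] {Ω : Type*} [MulAction (ArtinGroup M) Ω]
    {Pc : Set Ω} (hi : ∀ s, ∀ X ∈ Pc, artinGen M s • X ∈ Pc)
    (hii : ∀ s u, s ≠ u → ∀ X, (artinGen M s)⁻¹ • X ∈ Pc → (artinGen M u)⁻¹ • X ∈ Pc →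
      (Semi_663.alt (artinGen M s) (artinGen M u) (M.M s u))⁻¹ • X ∈ Pc)
    {E : Ω} {t : S} (hE : ∀ s, (artinGen M s)⁻¹ • E ∈ Pc)
    (hfix : ∀ u, u ≠ t → artinGen M u • E = E)
    (ht : (artinGen M t)⁻¹ • (artinGen M t)⁻¹ • E ∉ Pc) :
    MulAction.stabilizer (ArtinGroup M) E = stdParabolic M {t}ᶜ := by
  let D := GSph_145.dat M.toCoxeterSystem
  have h := stab_eq_dd (gmon D) hi hii (LD_dl D) (fun x hx => dl_LD D x t hx) (dl_conj D)
    (dl_conj' D) hE hfix ht
  exact h

end Crest.Agent.R175.StabM_901
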