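import Crest.Agent.R175.UG_27
import Crest.Agent.R175.Act_732

/-!
# Row 175: edges of `UG M Λ` and the unfolded Coxeter matrix `Mu M Λ`
-/

set_option autoImplicit false
set_option linter.unusedSectionVars false
set_option linter.unusedVariables false
set_option linter.unreachableTactic false
set_option linter.unusedTactic false

open scoped Classical

namespace Crest.Agent.R175.UG_27

open Crest.GroupTheory
open Crest.Agent.R175.PTA Crest.Agent.R175.Unf_109 Crest.Agent.R175.Act_732

universe u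

variable {S : Type u} {M : CoxeterMatrix S} {Λ : Finset ℕ}

theorem mu_cases {a b : S × J Λ} (h : a ≠ b) :
    Mu M Λ a b = 2 ∨ Mu M Λ a b = 3 ∨ Mu M Λ a b = 0 := by
  rw [mu_apply, muM]
  by_cases h1 : a.1 = b.1
  · have h2 : a.2 ≠ b.2 := fun h2 => h (Prod.ext h1 h2)
    simp [h1, h2]
  · rw [if_neg h1]
    split_ifs <;> simp

theorem card_eq_zero_of_mu {a b : S × J Λ} (h : a ≠ b) (hM : Mu M Λ a b = 2) :
    Fintype.card ((UG M Λ).E a b) = 0 := by
  by_cases h1 : a.1 = b.1
  · exact Fintype.card_eq_zero_iff.2 (isEmpty_fibre h1)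
  · rcases card_UG_mu (M := M) h1 with h2 | h2 | h2
    · exact h2.1
    · omega
    · omega

theorem card_eq_one_of_mu {a b : S × J Λ} (hM : Mu M Λ a b = 3) :
    Fintype.card ((UG M Λ).E a b) = 1 := by
  by_cases h1 : a.1 = b.1
  · exfalso
    rw [mu_apply, muM, if_pos h1] at hM
    split_ifs at hM <;> omega
  · rcases card_UG_mu (M := M) h1 with h2 | h2 | h2
    · omega
    · exact h2.1
    · omega

theorem card_eq_two_of_mu {a b : S × J Λ} (hM : Mu M Λ a b = 0) :
    Fintype.card ((UG M Λ).E a b) = 2 := by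
  by_cases h1 : a.1 = b.1
  · exfalso
    rw [mu_apply, muM, if_pos h1] at hM
    split_ifs at hM <;> omega
  · rcases card_UG_mu (M := M) h1 with h2 | h2 | h2
    · omega
    · omega
    · exact h2.1

theorem isEmpty_of_mu {a b : S × J Λ} (h : a ≠ b) (hM : Mu M Λ a b = 2) :
    IsEmpty ((UG M Λ).E a b) := Fintype.card_eq_zero_iff.1 (card_eq_zero_of_mu h hM)

theorem exists_edge_of_mu {a b : S × J Λ} (hM : Mu M Λ a b = 3) :
    ∃ e₀ : (UG M Λ).E a b, ∀ e, e = e₀ := Fintype.card_eq_one_iff.1 (card_eq_one_of_mu hM)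

theorem mu_eq_two_iff {a b : S × J Λ} (h : a ≠ b) :
    Mu M Λ a b = 2 ↔ Fintype.card ((UG M Λ).E a b) = 0 := by
  refine ⟨card_eq_zero_of_mu h, fun hc => ?_⟩
  rcases mu_cases (M := M) h with h1 | h1 | h1
  · exact h1
  · rw [card_eq_one_of_mu h1] at hc; omega
  · rw [card_eq_two_of_mu h1] at hc; omega

theorem mu_eq_three_iff {a b : S × J Λ} :
    Mu M Λ a b = 3 ↔ Fintype.card ((UG M Λ).E a b) = 1 := by
  refine ⟨card_eq_one_of_mu, fun hc => ?_⟩
  by_cases h : a = b
  · subst h
    rw [Fintype.card_eq_zero_iff.2 ((UG M Λ).irr a)] at hc; omega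
  · rcases mu_cases (M := M) h with h1 | h1 | h1
    · rw [card_eq_zero_of_mu h h1] at hc; omega
    · exact h1
    · rw [card_eq_two_of_mu h1] at hc; omega

/-- commutation + braid relations give the relations of `ArtinGroup (Mu M Λ)` -/
theorem alt_of_rels {G : Type*} [Group G] (f : S × J Λ → G)
    (hc : ∀ a b, a ≠ b → Fintype.card ((UG M Λ).E a b) = 0 → f a * f b = f b * f a)
    (hb : ∀ a b, Fintype.card ((UG M Λ).E a b) = 1 → f a * f b * f a = f b * f a * f b)
    (a b : S × J Λ) :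
    alt (f a) (f b) ((Mu M Λ).M a b) = alt (f b) (f a) ((Mu M Λ).M a b) := by
  by_cases h : a = b
  · subst h; rfl
  · rcases mu_cases (M := M) (Λ := Λ) h with h1 | h1 | h1
    · have h2 : (Mu M Λ).M a b = 2 := h1
      rw [h2]
      simpa [alt] using hc a b h (card_eq_zero_of_mu h h1)
    · have h2 : (Mu M Λ).M a b = 3 := h1
      rw [h2]
      simpa [alt, mul_assoc] using hb a b (card_eq_one_of_mu h1)
    · have h2 : (Mu M Λ).M a b = 0 := h1
      rw [h2]
      rfl

/-- **the homomorphism from the Artin group of the unfolding** -/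
noncomputable def uHom {G : Type*} [Group G] (f : S × J Λ → G)
    (hc : ∀ a b, a ≠ b → Fintype.card ((UG M Λ).E a b) = 0 → f a * f b = f b * f a)
    (hb : ∀ a b, Fintype.card ((UG M Λ).E a b) = 1 → f a * f b * f a = f b * f a * f b) :
    ArtinGroup (Mu M Λ) →* G :=
  toHom (Mu M Λ) f (alt_of_rels (M := M) f hc hb)

@[simp] theorem uHom_gen {G : Type*} [Group G] (f : S × J Λ → G)
    (hc : ∀ a b, a ≠ b → Fintype.card ((UG M Λ).E a b) = 0 → f a * f b = f b * f a)
    (hb : ∀ a b, Fintype.card ((UG M Λ).E a b) = 1 → f a * f b * f a = f b * f a * f b)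
    (a : S × J Λ) : uHom (M := M) f hc hb (artinGen (Mu M Λ) a) = f a :=
  toHom_gen _ _ _ _

end Crest.Agent.R175.UG_27
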