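import Crest.Agent.R175.StabF_393
import Crest.Agent.R175.StabW_901
import Crest.Agent.R175.StabV_901
import Crest.Agent.R175.UG2_27
import Crest.Agent.R175.Unfr_988

/-!
Row 175 (S0263), helper393, block STAB2, last part: frames and the unfolding.
-/

set_option autoImplicit false
set_option linter.unusedSectionVars false

open CategoryTheory Crest.Agent.R175.PTA Crest.Agent.R175.PTH
open Crest.Agent.R175.PTQ_4 Crest.Agent.R175.PTQ_4.QM Crest.Agent.R175.StabE_393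
open Crest.Agent.R175.StabF_393 Crest.Agent.R175.Unf_109 Crest.Agent.R175.Lcm_109
open Crest.Agent.R175.UG_27 Crest.GroupTheory

namespace Crest.Agent.R175.StabU_393

universe u v

/-! ### the unfolded graph for `StabW_901` -/

section unf

variable {S : Type u} {M : CoxeterMatrix S} {Λ : Finset ℕ}

/-- adjacency of the unfolding -/
def uadj (M : CoxeterMatrix S) (Λ : Finset ℕ) (s : S) (i : J Λ) (t : S) (j : J Λ) : Prop :=
  s ≠ t ∧ M s t ≠ 0 ∧ nb Λ (M s t) i j

theorem unfAdj (hΛ : Good M Λ) : StabW_901.Unf M (uadj M Λ) where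
  self s i i' h := h.1 rfl
  two s t e i i' h := by
    have e' : M s t = 2 := e
    have h2 := h.2.2
    rw [e'] at h2
    exact not_nb (hΛ.not_mem (by norm_num)) (by norm_num) (by norm_num) i i' h2
  path s t h3 := by
    have hst : s ≠ t := by
      rintro rfl
      simp at h3
    have h3' : 3 ≤ M s t := h3
    have h0 : M s t ≠ 0 := by omega
    rcases Nat.eq_or_lt_of_le h3' with h4 | h4
    · refine Or.inl ⟨h4.symm, fun i i' => ?_⟩
      unfold uadj
      rw [← h4, nb_three (hΛ.not_mem (by norm_num))]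
      exact ⟨fun h => h.2.2, fun h => ⟨hst, by norm_num, h⟩⟩
    · have hm : M s t ∈ Λ := hΛ.mem s t (by omega)
      refine Or.inr ⟨(k : {k : Λ // k ≠ ⟨M s t, hm⟩}) → Fin (k.1.1 - 1), inferInstance,
        Equiv.piSplitAt (⟨M s t, hm⟩ : Λ) (fun k : Λ => Fin (k.1 - 1)), ?_⟩
      intro i i'
      unfold uadj
      rw [nb_path hm]
      constructor
      · rintro ⟨-, -, h1, h2⟩
        refine ⟨?_, h2⟩
        funext k
        exact h1 k.1 k.2
      · rintro ⟨h1, h2⟩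
        exact ⟨hst, h0, fun k hk => congrFun h1 ⟨k, hk⟩, h2⟩

theorem uadj_mu {s t : S} {i j : J Λ} (h : uadj M Λ s i t j) : Mu M Λ (s, i) (t, j) = 3 := by
  rw [mu_apply]
  simp [muM, h.1, h.2.1, h.2.2]

theorem uadj_edge {s t : S} {i j : J Λ} (h : uadj M Λ s i t j) :
    ∃ e₀ : (UG M Λ).E (s, i) (t, j), ∀ e, e = e₀ := exists_edge_of_mu (uadj_mu h)

theorem comm_of_not_uadj {G : Type*} [Group G] {σ : S → J Λ → G} (h : Unf M Λ σ)
    (hM : ∀ s t, M s t ≠ 0) {s t : S} {i j : J Λ} (hn : ¬ uadj M Λ s i t j) :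
    Commute (σ s i) (σ t j) := by
  by_cases hst : s = t
  · subst hst
    exact h.self s i j
  · exact h.comm s t hst (hM s t) i j fun hb => hn ⟨hst, hM s t, hb⟩

theorem braid_of_uadj {G : Type*} [Group G] {σ : S → J Λ → G} (h : Unf M Λ σ)
    {s t : S} {i j : J Λ} (ha : uadj M Λ s i t j) :
    σ s i * σ t j * σ s i = σ t j * σ s i * σ t j :=
  h.braid s t ha.1 ha.2.1 i j ha.2.2

theorem nonempty_J (hΛ : Good M Λ) : Nonempty (J Λ) :=
  ⟨fun m => ⟨0, by have := hΛ.four m.1 m.2; omega⟩⟩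

end unf

/-! ### products over a fibre acting on a point fixed by all factors but one -/

section cp

variable {I : Type*} [Fintype I] {A : Type*} [Group A] {Ω : Type*} [MulAction A Ω]

theorem cp_smul_fix (x : I → A) (hx : ∀ i i', Commute (x i) (x i')) (a : Ω)
    (h : ∀ i, x i • a = a) : cp x hx • a = a :=
  Subgroup.noncommProd_mem (MulAction.stabilizer A a) (t := Finset.univ) (f := x)
    (fun i _ i' _ _ => hx i i') fun i _ => h i

/-- `cp x = x j * rest`, the rest fixing `a` -/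
theorem cp_split (x : I → A) (hx : ∀ i i', Commute (x i) (x i')) (j : I) (a : Ω)
    (h : ∀ i, i ≠ j → x i • a = a) :
    ∃ r : A, cp x hx = x j * r ∧ Commute (x j) r ∧ r • a = a := by
  classical
  have h1 := Finset.mul_noncommProd_erase (Finset.univ : Finset I) (Finset.mem_univ j) x
    (fun i _ i' _ _ => hx i i')
  refine ⟨_, h1.symm, ?_, ?_⟩
  · exact Finset.noncommProd_commute _ _ _ _ fun i _ => hx j i
  · exact Subgroup.noncommProd_mem (MulAction.stabilizer A a) (t := Finset.univ.erase j) (f := x)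
      (fun i _ i' _ _ => hx i i') fun i hi => h i (Finset.ne_of_mem_erase hi)

theorem cp_inv_smul (x : I → A) (hx : ∀ i i', Commute (x i) (x i')) (j : I) (a : Ω)
    (h : ∀ i, i ≠ j → x i • a = a) : (cp x hx)⁻¹ • a = (x j)⁻¹ • a := by
  obtain ⟨r, h1, h2, h3⟩ := cp_split x hx j a h
  rw [h1, mul_inv_rev, mul_smul, ← mul_smul, (h2.inv_inv.eq).symm, mul_smul]
  congr 1
  rw [inv_smul_eq_iff, h3]

theorem cp_inv_smul2 (x : I → A) (hx : ∀ i i', Commute (x i) (x i')) (j : I) (a : Ω)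
    (h : ∀ i, i ≠ j → x i • a = a) :
    (cp x hx)⁻¹ • (cp x hx)⁻¹ • a = (x j)⁻¹ • (x j)⁻¹ • a := by
  rw [cp_inv_smul x hx j a h, cp_inv_smul x hx j]
  intro i hi
  rw [← mul_smul, ((hx i j).inv_right).eq, mul_smul, h i hi]

end cp

/-! ### frames -/

section frm

variable {T : Type u} [Fintype T] [DecidableEq T] {G : MG T} {k : Type v} [Field k]

instance sub_frm (t u : T) : Subsingleton (Hv (frm G k t) u) := by
  refine ⟨fun a b => ?_⟩
  obtain ⟨x, hx, rfl⟩ := mk_surj (frm G k t) a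
  obtain ⟨y, hy, rfl⟩ := mk_surj (frm G k t) b
  exact mk_congr _ hx (Subsingleton.elim x y)

theorem sub_of_hiso {X : TOb G k} {t : T} (h : HIso X (frm G k t)) (u : T) (ξ : Hv X u) :
    ξ = 0 := by
  obtain ⟨e⟩ := h
  exact Hmap_inj e u ξ (Subsingleton.elim _ _)

theorem P0c_frm (h2 : (2 : k) ≠ 0) (t : T) : P0c (frm G k t) := by
  have h0 : hT (frm G k t) (frm G k t) = 0 := Unfr_988.hT_frm_frm t t
  obtain ⟨p, hp⟩ := exists_eul h2 _ h0
  exact ⟨h0, p, hp, fun u μ v hv => absurd (Subsingleton.elim (α := Hv (frm G k t) u) v 0) hv⟩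

theorem NKc_frm (h2 : (2 : k) ≠ 0) (t u : T) : NKc (frm G k t) u := by
  have h0 : hT (frm G k t) (frm G k t) = 0 := Unfr_988.hT_frm_frm t t
  obtain ⟨p, hp⟩ := exists_eul h2 _ h0
  exact ⟨h0, p, hp, fun v _ _ => Subsingleton.elim (α := Hv (frm G k t) u) v 0⟩

/-- the preimage of the frame under its twist has `i ≠ 0` in position `0`. -/
theorem not_nk {X : TOb G k} {p : X.X ⟶ X.X} (hp : Eul X p) {Y : TOb G k} {q : Y.X ⟶ Y.X}
    (hq : Eul Y q) {t : T} (h : TD {t} (qmE hp) (qmE hq)) (hY : HIso Y (frm G k t)) :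
    ¬ NK0 (qmE hp) t := by
  intro hN
  have hY0 : ∀ u (ξ : (qmE hq).H u), ξ = 0 := fun u ξ => sub_of_hiso hY u ξ
  have hX0 : ∀ u, u ≠ t → ∀ ξ : (qmE hp).H u, ξ = 0 := by
    intro u hu ξ
    exact (h.bij u (show u ∉ ({t} : Set T) from hu)).1 ((hY0 u _).trans (hY0 u _).symm)
  have hi0 : ∀ w : (qmE hp).W t, (qmE hp).i t w = 0 := by
    intro w
    refine hN _ ?_ ((qmE hp).Ai t w)
    rw [QM.mem_kerA]
    refine ⟨fun u a => ?_, ?_⟩
    · refine hX0 u ?_ _
      rintro rfl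
      exact (G.irr u).false a
    · have h1 := h.aji t (Set.mem_singleton t) w
      rw [hY0 t ((qmE hq).i t (h.ω t w)), map_zero] at h1
      exact ((LinearEquiv.map_eq_zero_iff (h.ω t)).1 h1.symm)
  have hw0 : ∀ w : (qmE hp).W t, w = 0 := by
    intro w
    obtain ⟨v', -, h2⟩ := h.ex t (Set.mem_singleton t) (fun _ _ => 0) w (by
      rw [hi0 w, add_zero]
      exact Finset.sum_eq_zero fun u _ => Finset.sum_eq_zero fun a _ => map_zero _)
    rw [hY0 t v', map_zero] at h2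
    exact ((LinearEquiv.map_eq_zero_iff (h.ω t)).1 h2.symm)
  have h1 : lam Y t = 1 := by
    rw [hY.lam_eq t, Unfr_988.lam_frm, Pi.single_eq_same]
  have h2 : Module.finrank k (X.X.W t) = Module.finrank k (Y.X.W t) := (h.ω t).finrank_eq
  have h3 : Subsingleton (X.X.W t) := ⟨fun a b => (hw0 a).trans (hw0 b).symm⟩
  have h4 : Module.finrank k (X.X.W t) = 0 := Module.finrank_zero_of_subsingleton
  rw [h4] at h2
  change Module.finrank k (Y.X.W t) = 1 at h1
  omega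

end frm

/-! ### frames, classes -/

section cls

variable {T : Type u} [Fintype T] [DecidableEq T] {G : MG T} {k : Type v} [Field k]
  {tw : T → TOb G k → TOb G k} {A Ω : Type*} [Group A] [MulAction A Ω] {S : ActS tw A Ω}

theorem frm_mem (h2 : (2 : k) ≠ 0) (t : T) : S.cl (frm G k t) ∈ S.Pc :=
  ⟨_, rfl, P0c_frm h2 t⟩

theorem inv_frm_mem (h : TwS tw) (h2 : (2 : k) ≠ 0) (t : T) :
    (S.g t)⁻¹ • S.cl (frm G k t) ∈ S.Pc := by
  obtain ⟨X, hX, hX'⟩ := S.exists_pre t (S.cl (frm G k t))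
  have hi : HIso (tw t X) (frm G k t) := S.cl_eq _ _ hX'
  exact ⟨X, hX, h.p0_U h2 ((P0c_frm h2 t).congr h2 hi) ((NKc_frm h2 t t).congr h2 hi)⟩

theorem inv_inv_frm_notMem [CharZero k] (h : TwS tw) (t : T) :
    (S.g t)⁻¹ • (S.g t)⁻¹ • S.cl (frm G k t) ∉ S.Pc := by
  have h2 : (2 : k) ≠ 0 := two_ne_zero
  intro hm
  obtain ⟨X, hX, hX'⟩ := S.exists_pre t (S.cl (frm G k t))
  obtain ⟨Z, hZ, hZ'⟩ := S.exists_pre t (S.cl X)
  rw [← hX, ← hZ] at hm
  have hN : NKc X t := (h.nk (v := t) (ActS.mem_Pc h2 hm)).congr h2 (S.cl_eq _ _ hZ'.symm)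
  obtain ⟨-, p, hp, hP⟩ := hN
  obtain ⟨q, hq, ⟨d⟩⟩ := h.td t X p hp
  exact not_nk hp hq d (S.cl_eq _ _ hX') hP

end cls

/-! ### the action of `ArtinGroup M` through the unfolding -/

section fin

variable {S₀ : Type u} [Fintype S₀] {M : CoxeterMatrix S₀} {Λ : Finset ℕ} (hΛ : Good M Λ)
  [DecidableEq (S₀ × J Λ)] {k : Type v} [Field k]
  {tw : S₀ × J Λ → TOb (UG M Λ) k → TOb (UG M Λ) k} {A Ω : Type*} [Group A] [MulAction A Ω]
  (P : ActS tw A Ω) (φ : ArtinGroup (Mu M Λ) →* A) (hφ : ∀ v, φ (artinGen (Mu M Λ) v) = P.g v)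

/-- the action of `ArtinGroup M` on families -/
@[reducible] noncomputable def actF : MulAction (ArtinGroup M) (J Λ → Ω) :=
  MulAction.compHom (J Λ → Ω) (unfHom hΛ φ)

/-- positive families -/
def PF : Set (J Λ → Ω) := {x | ∀ j, x j ∈ P.Pc}

include hφ

theorem unf_g : Unf M Λ (fun s i => P.g (s, i)) := by
  have h := unf_of_hom φ
  simpa only [hφ] using h

theorem gen_eq (s : S₀) :
    unfHom hΛ φ (artinGen M s) = cp (fun i => P.g (s, i)) ((unf_g P φ hφ).self s) := by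
  rw [unfHom_gen]
  simp only [hφ]

theorem unfHom_eq : unfHom hΛ φ = ((unf_g P φ hφ).fold hΛ).hom := by
  have h : (fun s i => φ (artinGen (Mu M Λ) (s, i))) = fun s i => P.g (s, i) := by
    funext s i
    exact hφ _
  unfold unfHom
  congr 1

theorem pf_i (h : TwS tw) (s : S₀) (x : J Λ → Ω) (hx : x ∈ PF P) :
    letI := actF hΛ (Ω := Ω) φ
    artinGen M s • x ∈ PF P := by
  intro j
  have h1 : ∀ g ∈ Submonoid.closure (Set.range fun i => P.g (s, i)), ∀ y ∈ P.Pc,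
      g • y ∈ P.Pc := by
    intro g hg
    induction hg using Submonoid.closure_induction with
    | mem y hy => obtain ⟨i, rfl⟩ := hy; exact ActS.hi h _
    | one => intro Y hY; rwa [one_smul]
    | mul a b _ _ ha hb => intro Y hY; rw [mul_smul]; exact ha _ (hb _ hY)
  change unfHom hΛ φ (artinGen M s) • x j ∈ P.Pc
  rw [gen_eq hΛ P φ hφ]
  exact h1 _ (StabW_901.cp_mem_closure _ _) _ (hx j)

theorem pf_ii [CharZero k] (h : TwS tw) (hM : ∀ s t, M s t ≠ 0) {s t : S₀} (hst : s ≠ t)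
    (x : J Λ → Ω) :
    letI := actF hΛ (Ω := Ω) φ
    (artinGen M s)⁻¹ • x ∈ PF P → (artinGen M t)⁻¹ • x ∈ PF P →
      (Semi_663.alt (artinGen M s) (artinGen M t) (M.M s t))⁻¹ • x ∈ PF P := by
  intro hs ht j
  have hs' : (unfHom hΛ φ (artinGen M s))⁻¹ • x j ∈ P.Pc := by
    rw [← map_inv]
    exact hs j
  have ht' : (unfHom hΛ φ (artinGen M t))⁻¹ • x j ∈ P.Pc := by
    rw [← map_inv]
    exact ht j
  change (unfHom hΛ φ (Semi_663.alt (artinGen M s) (artinGen M t) (M.M s t))⁻¹) • x j ∈ P.Pc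
  rw [map_inv]
  rw [unfHom_eq hΛ P φ hφ] at hs' ht' ⊢
  refine (unfAdj hΛ).close_hom (σ := fun s i => P.g (s, i)) _ (Pc := P.Pc)
    (fun s i x hx => ActS.hi h _ x hx) ?_ ?_ ?_ ?_ hst (hM s t) (x j) hs' ht'
  · intro a i b i' hne _ X h1 h2
    refine ActS.h2 h ?_ X h1 h2
    intro e
    rcases hne with hne | hne
    · exact hne (congrArg Prod.fst e).symm
    · exact hne (congrArg Prod.snd e).symm
  · intro a i b i' ha X h1 h2
    obtain ⟨c, hc⟩ := uadj_edge ha
    refine ActS.h3 h ?_ c hc X h1 h2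
    intro e
    exact ha.1 (congrArg Prod.fst e).symm
  · intro a i b i' hn
    exact comm_of_not_uadj (unf_g P φ hφ) hM hn
  · intro a i b i' ha
    exact braid_of_uadj (unf_g P φ hφ) ha

variable (hfr : ∀ v w, v ≠ w → P.g v • P.cl (frm (UG M Λ) k w) = P.cl (frm (UG M Λ) k w))

/-- the family of frames over `t` -/
noncomputable def frF (t : S₀) : J Λ → Ω := fun j => P.cl (frm (UG M Λ) k (t, j))

include hfr

theorem frF_fix {u t : S₀} (hu : u ≠ t) :
    letI := actF hΛ (Ω := Ω) φ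
    artinGen M u • frF P t = frF P t := by
  funext j
  change unfHom hΛ φ (artinGen M u) • P.cl (frm (UG M Λ) k (t, j)) = _
  rw [gen_eq hΛ P φ hφ]
  exact cp_smul_fix _ _ _ fun i => hfr _ _ fun e => hu (congrArg Prod.fst e)

theorem frF_inv (t : S₀) (j : J Λ) :
    (unfHom hΛ φ (artinGen M t))⁻¹ • P.cl (frm (UG M Λ) k (t, j))
      = (P.g (t, j))⁻¹ • P.cl (frm (UG M Λ) k (t, j)) := by
  rw [gen_eq hΛ P φ hφ]
  exact cp_inv_smul _ _ j _ fun i hi => hfr _ _ fun e => hi (congrArg Prod.snd e)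

theorem frF_inv2 (t : S₀) (j : J Λ) :
    (unfHom hΛ φ (artinGen M t))⁻¹ • (unfHom hΛ φ (artinGen M t))⁻¹ •
        P.cl (frm (UG M Λ) k (t, j))
      = (P.g (t, j))⁻¹ • (P.g (t, j))⁻¹ • P.cl (frm (UG M Λ) k (t, j)) := by
  rw [gen_eq hΛ P φ hφ]
  exact cp_inv_smul2 _ _ j _ fun i hi => hfr _ _ fun e => hi (congrArg Prod.snd e)

theorem frF_mem (h : TwS tw) (h2 : (2 : k) ≠ 0) (s t : S₀) :
    letI := actF hΛ (Ω := Ω) φ
    (artinGen M s)⁻¹ • frF P t ∈ PF P := by
  by_cases hst : s = t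
  · subst hst
    intro j
    change unfHom hΛ φ (artinGen M s)⁻¹ • P.cl (frm (UG M Λ) k (s, j)) ∈ P.Pc
    rw [map_inv, frF_inv hΛ P φ hφ hfr]
    exact inv_frm_mem h h2 _
  · letI := actF hΛ (Ω := Ω) φ
    have h1 : artinGen M s • frF P t = frF P t := frF_fix hΛ P φ hφ hfr hst
    have h3 : (artinGen M s)⁻¹ • frF P t = frF P t := inv_smul_eq_iff.2 h1.symm
    intro j
    have h4 := congrFun h3 j
    exact h4 ▸ frm_mem h2 _

theorem frF_notMem [CharZero k] (h : TwS tw) (t : S₀) :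
    letI := actF hΛ (Ω := Ω) φ
    (artinGen M t)⁻¹ • (artinGen M t)⁻¹ • frF P t ∉ PF P := by
  intro hm
  obtain ⟨j⟩ := nonempty_J hΛ
  have h1 := hm j
  change unfHom hΛ φ (artinGen M t)⁻¹ • unfHom hΛ φ (artinGen M t)⁻¹ •
    P.cl (frm (UG M Λ) k (t, j)) ∈ P.Pc at h1
  rw [map_inv, frF_inv2 hΛ P φ hφ hfr] at h1
  exact inv_inv_frm_notMem h _ h1

end fin

end Crest.Agent.R175.StabU_393
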