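import Crest.Agent.R175.StabU_393
import Crest.Agent.R175.StabM_901

/-!
Row 175 (S0263), helper393, block STAB2: **the stabiliser theorem on classes of T-framed objects
over the unfolded graph.**
-/

set_option autoImplicit false
set_option linter.unusedSectionVars false

open CategoryTheory Crest.Agent.R175.PTA
open Crest.Agent.R175.StabF_393 Crest.Agent.R175.Unf_109 Crest.Agent.R175.UG_27
open Crest.GroupTheory Crest.Agent.R175.StabU_393

namespace Crest.Agent.R175.StabX_393

universe u v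

/-- an element of `ArtinGroup M` fixing the classes of all frames over `t` lies in the standard
parabolic subgroup of `{t}ᶜ`. -/
theorem stab_classes {S₀ : Type u} [Fintype S₀] {M : CoxeterMatrix S₀} [Finite M.Group]
    {Λ : Finset ℕ} (hΛ : Good M Λ) [DecidableEq (S₀ × J Λ)] {k : Type v} [Field k] [CharZero k]
    {tw : S₀ × J Λ → TOb (UG M Λ) k → TOb (UG M Λ) k} (h : TwS tw) {A Ω : Type*} [Group A]
    [MulAction A Ω] (P : ActS tw A Ω) (φ : ArtinGroup (Mu M Λ) →* A)
    (hφ : ∀ v, φ (artinGen (Mu M Λ) v) = P.g v)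
    (hfr : ∀ v w, v ≠ w → P.g v • P.cl (frm (UG M Λ) k w) = P.cl (frm (UG M Λ) k w))
    (t : S₀) (r : ArtinGroup M)
    (hr : ∀ j, unfHom hΛ φ r • P.cl (frm (UG M Λ) k (t, j)) = P.cl (frm (UG M Λ) k (t, j))) :
    r ∈ stdParabolic M ({t}ᶜ : Set S₀) := by
  have hM : ∀ s t, M s t ≠ 0 := by
    intro s t
    by_cases hst : s = t
    · subst hst
      rw [M.diagonal]
      exact one_ne_zero
    · exact StabM_901.label_ne_zero (GSph_145.dat M.toCoxeterSystem) hst
  let _ := actF hΛ (Ω := Ω) φ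
  have h1 := StabM_901.stab_artin (M := M) (Ω := J Λ → Ω) (Pc := PF P) (E := frF P t) (t := t)
    (fun s x hx => pf_i hΛ P φ hφ h s x hx)
    (fun s u hsu x hs hu => pf_ii hΛ P φ hφ h hM hsu x hs hu)
    (fun s => frF_mem hΛ P φ hφ hfr h two_ne_zero s t)
    (fun u hu => frF_fix hΛ P φ hφ hfr hu)
    (frF_notMem hΛ P φ hφ hfr h t)
  rw [← h1, MulAction.mem_stabilizer_iff]
  exact funext hr

end Crest.Agent.R175.StabX_393
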