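import Crest.Prelude.Def_ArtinGroup

/-!
Row 175 (S0263), helper680: abstract stabiliser theorem.

`G` a group with generators `σ s`, positive monoid `Pos σ`, fractions, joins for the left
divisibility; `G` acts on `Ω`, `Pc : Set Ω` a set of "positive" objects with
(i) `σ s • Pc ⊆ Pc`, (ii) `σ s • Pc ∩ σ u • Pc ⊆ Δ_{su} • Pc` (`Δ_{su}` = join of `σ s`, `σ u`),
(iii) `E ∈ Pc`, `σ u • E = E` for `u ≠ t`, `(σ t)⁻¹ • E ∉ Pc`.
Then `stabilizer G E` is the subgroup generated by the `σ u`, `u ≠ t`.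
-/

set_option autoImplicit false

namespace Crest.Agent.R175.StabZ_680

variable {G : Type*} [Group G] {S : Type*} {σ : S → G}

/-- positive monoid generated by the `σ s`, `s ∈ X`. -/
def PosX (σ : S → G) (X : Set S) : Submonoid G := Submonoid.closure (σ '' X)

/-- positive monoid. -/
def Pos (σ : S → G) : Submonoid G := Submonoid.closure (Set.range σ)

/-- left divisibility. -/
def LD (σ : S → G) (a b : G) : Prop := a⁻¹ * b ∈ Pos σ

/-- `j` is a join (least common right multiple) of `a` and `b`. -/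
def IsJoin (σ : S → G) (a b j : G) : Prop :=
  LD σ a j ∧ LD σ b j ∧ ∀ x, LD σ a x → LD σ b x → LD σ j x

/-- The facts of Garside theory that are used. -/
structure GMon (σ : S → G) (Δ : S → S → G) : Prop where
  len : ∃ ℓ : G → ℤ, (∀ a b, ℓ (a * b) = ℓ a + ℓ b) ∧ ∀ s, ℓ (σ s) = 1
  join : ∀ a ∈ Pos σ, ∀ b ∈ Pos σ, ∃ j, IsJoin σ a b j
  delta : ∀ s u, s ≠ u → IsJoin σ (σ s) (σ u) (Δ s u)
  frac : ∀ g : G, ∃ a ∈ Pos σ, ∃ b ∈ Pos σ, g = a⁻¹ * b

theorem gen_mem (s : S) : σ s ∈ Pos σ := Submonoid.subset_closure ⟨s, rfl⟩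

theorem posX_le (X : Set S) : PosX σ X ≤ Pos σ :=
  Submonoid.closure_mono (Set.image_subset_range _ _)

theorem posX_mem_closure {X : Set S} {a : G} (h : a ∈ PosX σ X) :
    a ∈ Subgroup.closure (σ '' X) := by
  have : PosX σ X ≤ (Subgroup.closure (σ '' X)).toSubmonoid :=
    Submonoid.closure_le.2 Subgroup.subset_closure
  exact this h

section Len

variable {ℓ : G → ℤ}

theorem len_one (h1 : ∀ a b, ℓ (a * b) = ℓ a + ℓ b) : ℓ 1 = 0 := by
  have := h1 1 1
  simp only [mul_one] at this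
  omega

theorem len_inv (h1 : ∀ a b, ℓ (a * b) = ℓ a + ℓ b) (a : G) : ℓ a⁻¹ = - ℓ a := by
  have := h1 a a⁻¹
  rw [mul_inv_cancel, len_one h1] at this
  omega

theorem len_nonneg (h1 : ∀ a b, ℓ (a * b) = ℓ a + ℓ b) (h2 : ∀ s, ℓ (σ s) = 1) {a : G}
    (ha : a ∈ Pos σ) : 0 ≤ ℓ a ∧ (ℓ a = 0 → a = 1) := by
  induction ha using Submonoid.closure_induction_left with
  | one => exact ⟨(len_one h1).ge, fun _ => rfl⟩
  | mul_left x hx y _ ih =>
    obtain ⟨s, rfl⟩ := hx
    have := h1 (σ s) y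
    rw [h2 s] at this
    exact ⟨by omega, fun h => by omega⟩

theorem eq_of_LD (h1 : ∀ a b, ℓ (a * b) = ℓ a + ℓ b) (h2 : ∀ s, ℓ (σ s) = 1) {a b : G}
    (hab : LD σ a b) (hba : LD σ b a) : a = b := by
  have h3 := (len_nonneg h1 h2 hab)
  have h4 := (len_nonneg h1 h2 hba)
  rw [h1, len_inv h1] at h3 h4
  have h5 : a⁻¹ * b = 1 := h3.2 (by omega)
  exact (inv_mul_eq_one.1 h5)

end Len

theorem LD_refl (a : G) : LD σ a a := by
  simp [LD, (Pos σ).one_mem]

theorem LD_trans {a b c : G} (h1 : LD σ a b) (h2 : LD σ b c) : LD σ a c := by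
  have := (Pos σ).mul_mem h1 h2
  simpa [LD, mul_assoc] using this

theorem LD_mul_left {a b : G} (g : G) : LD σ (g * a) (g * b) ↔ LD σ a b := by
  simp [LD, mul_assoc]

theorem LD_mul_right {a b : G} (h : b ∈ Pos σ) : LD σ a (a * b) := by
  simpa [LD] using h

theorem LD_one {a : G} : LD σ 1 a ↔ a ∈ Pos σ := by simp [LD]

theorem IsJoin.mul_left {a b j : G} (g : G) (h : IsJoin σ a b j) :
    IsJoin σ (g * a) (g * b) (g * j) := by
  refine ⟨(LD_mul_left g).2 h.1, (LD_mul_left g).2 h.2.1, fun x h1 h2 => ?_⟩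
  have h3 : LD σ a (g⁻¹ * x) := by
    rw [← LD_mul_left g]; simpa using h1
  have h4 : LD σ b (g⁻¹ * x) := by
    rw [← LD_mul_left g]; simpa using h2
  have := (LD_mul_left g).2 (h.2.2 _ h3 h4)
  simpa using this

theorem IsJoin.symm {a b j : G} (h : IsJoin σ a b j) : IsJoin σ b a j :=
  ⟨h.2.1, h.1, fun x h1 h2 => h.2.2 x h2 h1⟩

variable {Ω : Type*} [MulAction G Ω] {Pc : Set Ω}

theorem pos_smul (hi : ∀ s, ∀ X ∈ Pc, σ s • X ∈ Pc) {a : G} (ha : a ∈ Pos σ) :
    ∀ X ∈ Pc, a • X ∈ Pc := by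
  induction ha using Submonoid.closure_induction_left with
  | one => intro X hX; simpa using hX
  | mul_left x hx y _ ih =>
    obtain ⟨s, rfl⟩ := hx
    intro X hX
    rw [mul_smul]
    exact hi s _ (ih X hX)

/-- if `c ≤ j` and `X ∈ j Pc` then `X ∈ c Pc`. -/
theorem down (hi : ∀ s, ∀ X ∈ Pc, σ s • X ∈ Pc) {c j : G} (h : LD σ c j) {X : Ω}
    (hX : j⁻¹ • X ∈ Pc) : c⁻¹ • X ∈ Pc := by
  have := pos_smul hi h _ hX
  simpa [← mul_smul] using this

/-- (a) `c Pc ∩ e Pc ⊆ (c ∨ e) Pc`. -/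
theorem join_mem {Δ : S → S → G} (hG : GMon σ Δ) (hi : ∀ s, ∀ X ∈ Pc, σ s • X ∈ Pc)
    (hii : ∀ s u, s ≠ u → ∀ X, (σ s)⁻¹ • X ∈ Pc → (σ u)⁻¹ • X ∈ Pc → (Δ s u)⁻¹ • X ∈ Pc)
    {c e j : G} (hc : c ∈ Pos σ) (he : e ∈ Pos σ) (hj : IsJoin σ c e j) {X : Ω}
    (hcX : c⁻¹ • X ∈ Pc) (heX : e⁻¹ • X ∈ Pc) : j⁻¹ • X ∈ Pc := by
  obtain ⟨ℓ, h1, h2⟩ := hG.len
  have main : ∀ n : ℕ, ∀ c e j : G, c ∈ Pos σ → e ∈ Pos σ → IsJoin σ c e j → ℓ j < n →
      ∀ X : Ω, c⁻¹ • X ∈ Pc → e⁻¹ • X ∈ Pc → j⁻¹ • X ∈ Pc := by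
    intro n
    induction n with
    | zero =>
      intro c e j hc he hj hn
      have h3 : j ∈ Pos σ := by
        have := (Pos σ).mul_mem hc hj.1
        simpa using this
      have := (len_nonneg h1 h2 h3).1
      simp at hn; omega
    | succ n ih =>
      -- cancelling a common positive left factor `g ≠ 1`
      have step : ∀ g c e j : G, g ∈ Pos σ → g ≠ 1 → LD σ g c → LD σ g e → IsJoin σ c e j →
          ℓ j < n + 1 → ∀ X : Ω, c⁻¹ • X ∈ Pc → e⁻¹ • X ∈ Pc → j⁻¹ • X ∈ Pc := by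
        intro g c e j hg hg1 hgc hge hj hn X hcX heX
        have h4 : 1 ≤ ℓ g := by
          have := len_nonneg h1 h2 hg
          have h5 : ℓ g ≠ 0 := fun h => hg1 (this.2 h)
          omega
        have := ih (g⁻¹ * c) (g⁻¹ * e) (g⁻¹ * j) hgc hge (hj.mul_left g⁻¹)
          (by rw [h1, len_inv h1]; omega) (g⁻¹ • X)
          (by simpa [← mul_smul] using hcX) (by simpa [← mul_smul] using heX)
        simpa [← mul_smul] using this
      intro c e j hc he hj hn X hcX heX
      have hn' : ℓ j < n + 1 := by exact_mod_cast hn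
      have hcj : j ∈ Pos σ := by
        have := (Pos σ).mul_mem hc hj.1
        simpa using this
      -- case distinction on `c`
      induction hc using Submonoid.closure_induction_left with
      | one =>
        have h5 : LD σ j e := hj.2.2 e (LD_one.2 he) (LD_refl e)
        rw [eq_of_LD h1 h2 h5 hj.2.1]
        exact heX
      | mul_left x hx c' hc' _ =>
        obtain ⟨s, rfl⟩ := hx
        induction he using Submonoid.closure_induction_left with
        | one =>
          have h5 : LD σ j (σ s * c') :=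
            hj.2.2 _ (LD_refl _) (LD_one.2 ((Pos σ).mul_mem (gen_mem s) hc'))
          rw [eq_of_LD h1 h2 h5 hj.1]
          exact hcX
        | mul_left y hy e' he' _ =>
          obtain ⟨u, rfl⟩ := hy
          have hs1 : ∀ s : S, σ s ≠ 1 := by
            intro s h
            have := h2 s
            rw [h, len_one h1] at this
            omega
          have hsc : LD σ (σ s) (σ s * c') := LD_mul_right hc'
          have hue : LD σ (σ u) (σ u * e') := LD_mul_right he'
          by_cases hsu : s = u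
          · subst hsu
            exact step (σ s) _ _ j (gen_mem s) (hs1 s) hsc hue hj hn' X hcX heX
          · have hm := hG.delta s u hsu
            have hsX : (σ s)⁻¹ • X ∈ Pc := down hi hsc hcX
            have huX : (σ u)⁻¹ • X ∈ Pc := down hi hue heX
            have hmX : (Δ s u)⁻¹ • X ∈ Pc := hii s u hsu X hsX huX
            have hmj : LD σ (Δ s u) j := hm.2.2 _ (LD_trans hsc hj.1) (LD_trans hue hj.2.1)
            have hmP : Δ s u ∈ Pos σ := by
              have := (Pos σ).mul_mem (gen_mem s) hm.1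
              simpa using this
            have hm1 : Δ s u ≠ 1 := by
              intro h
              have h6 := hm.1
              have h7 := (len_nonneg h1 h2 h6).1
              rw [h1, len_inv h1, h, len_one h1, h2] at h7
              omega
            obtain ⟨j1, hj1⟩ := hG.join _ ((Pos σ).mul_mem (gen_mem s) hc') _ hmP
            obtain ⟨j2, hj2⟩ := hG.join _ ((Pos σ).mul_mem (gen_mem u) he') _ hmP
            have hj1j : LD σ j1 j := hj1.2.2 _ hj.1 hmj
            have hj2j : LD σ j2 j := hj2.2.2 _ hj.2.1 hmj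
            have hl : ∀ a b : G, LD σ a b → ℓ a ≤ ℓ b := by
              intro a b hab
              have := (len_nonneg h1 h2 hab).1
              rw [h1, len_inv h1] at this
              omega
            have hX1 : j1⁻¹ • X ∈ Pc :=
              step (σ s) _ _ j1 (gen_mem s) (hs1 s) hsc hm.1 hj1
                (lt_of_le_of_lt (hl _ _ hj1j) hn') X hcX hmX
            have hX2 : j2⁻¹ • X ∈ Pc :=
              step (σ u) _ _ j2 (gen_mem u) (hs1 u) hue hm.2.1 hj2
                (lt_of_le_of_lt (hl _ _ hj2j) hn') X heX hmX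
            have hj12 : IsJoin σ j1 j2 j := by
              refine ⟨hj1j, hj2j, fun x hx1 hx2 => ?_⟩
              exact hj.2.2 x (LD_trans hj1.1 hx1) (LD_trans hj2.1 hx2)
            exact step (Δ s u) j1 j2 j hmP hm1 hj1.2.1 hj2.2.1 hj12 hn' X hX1 hX2
  have hjP : j ∈ Pos σ := by
    have := (Pos σ).mul_mem hc hj.1
    simpa using this
  have h0 := (len_nonneg h1 h2 hjP).1
  exact main ((ℓ j).toNat + 1) c e j hc he hj (by push_cast; omega) X hcX heX

/-- **Abstract stabiliser theorem.** -/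
theorem stab_eq {Δ : S → S → G} (hG : GMon σ Δ) (hi : ∀ s, ∀ X ∈ Pc, σ s • X ∈ Pc)
    (hii : ∀ s u, s ≠ u → ∀ X, (σ s)⁻¹ • X ∈ Pc → (σ u)⁻¹ • X ∈ Pc → (Δ s u)⁻¹ • X ∈ Pc)
    {E : Ω} {t : S} (hE : E ∈ Pc) (hfix : ∀ u, u ≠ t → σ u • E = E)
    (ht : (σ t)⁻¹ • E ∉ Pc) :
    MulAction.stabilizer G E = Subgroup.closure (σ '' {u | u ≠ t}) := by
  -- elements of the positive parabolic monoid fix `E`
  have hfix' : ∀ d ∈ PosX σ {u | u ≠ t}, d • E = E := by
    intro d hd
    induction hd using Submonoid.closure_induction_left with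
    | one => simp
    | mul_left x hx y _ ih =>
      obtain ⟨u, hu, rfl⟩ := hx
      rw [mul_smul, ih, hfix u hu]
  -- (b)
  have hb : ∀ c ∈ Pos σ, c⁻¹ • E ∈ Pc → c ∈ PosX σ {u | u ≠ t} := by
    intro c hc
    induction hc using Submonoid.closure_induction_left with
    | one => intro _; exact (PosX σ _).one_mem
    | mul_left x hx y hy ih =>
      obtain ⟨s, rfl⟩ := hx
      intro h
      have hs : (σ s)⁻¹ • E ∈ Pc := down hi (LD_mul_right hy) h
      have hst : s ≠ t := by
        rintro rfl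
        exact ht hs
      have hsE : (σ s)⁻¹ • E = E := by
        rw [inv_smul_eq_iff, hfix s hst]
      have hyE : y⁻¹ • E ∈ Pc := by
        rw [mul_inv_rev, mul_smul, hsE] at h
        exact h
      exact (PosX σ _).mul_mem (Submonoid.subset_closure ⟨s, hst, rfl⟩) (ih hyE)
  -- (c)
  have hcc : ∀ a ∈ Pos σ, ∀ c ∈ Pos σ, c⁻¹ • (a • E) ∈ Pc →
      ∃ d ∈ PosX σ {u | u ≠ t}, LD σ c (a * d) := by
    intro a ha
    induction ha using Submonoid.closure_induction_left with
    | one =>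
      intro c hc h
      rw [one_smul] at h
      exact ⟨c, hb c hc h, by rw [one_mul]; exact LD_refl c⟩
    | mul_left x hx a' ha' ih =>
      obtain ⟨s, rfl⟩ := hx
      intro c hc h
      obtain ⟨j, hj⟩ := hG.join (σ s) (gen_mem s) c hc
      have h3 : (σ s)⁻¹ • ((σ s * a') • E) ∈ Pc := by
        rw [mul_smul, inv_smul_smul]
        exact pos_smul hi ha' _ hE
      have h4 : j⁻¹ • ((σ s * a') • E) ∈ Pc := join_mem hG hi hii (gen_mem s) hc hj h3 h
      obtain ⟨d, hd, hd2⟩ := ih ((σ s)⁻¹ * j) hj.1 (by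
        simpa [← mul_smul, mul_assoc] using h4)
      refine ⟨d, hd, LD_trans hj.2.1 ?_⟩
      have := (LD_mul_left (σ s)).2 hd2
      simpa [mul_assoc] using this
  apply le_antisymm
  · intro g hg
    rw [MulAction.mem_stabilizer_iff] at hg
    obtain ⟨a, ha, b, hb', rfl⟩ := hG.frac g
    have hab : b • E = a • E := by
      rw [mul_smul, inv_smul_eq_iff] at hg
      exact hg
    obtain ⟨d, hd, hd2⟩ := hcc a ha b hb' (by rw [← hab, inv_smul_smul]; exact hE)
    have he : (b⁻¹ * (a * d)) • E = E := by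
      rw [mul_smul, mul_smul, hfix' d hd, ← hab, inv_smul_smul]
    have he2 : (b⁻¹ * (a * d)) ∈ PosX σ {u | u ≠ t} := by
      refine hb _ hd2 ?_
      have : (b⁻¹ * (a * d))⁻¹ • E = E := by rw [inv_smul_eq_iff, he]
      rw [this]; exact hE
    have h5 : a⁻¹ * b = d * (b⁻¹ * (a * d))⁻¹ := by
      simp [mul_assoc]
    rw [h5]
    exact Subgroup.mul_mem _ (posX_mem_closure hd) (Subgroup.inv_mem _ (posX_mem_closure he2))
  · rw [Subgroup.closure_le]
    rintro _ ⟨u, hu, rfl⟩
    exact hfix u hu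

end Crest.Agent.R175.StabZ_680
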