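import Mathlib

/-!
Row 175, S0263 (helper308).  The stabiliser theorem `(F_T)` in purely numeric form.

`G` is a group with a "Matsumoto section" `sig : W → G` of a Coxeter group `W`, acting on a type `Ob`;
`phi s j X` should be read `Hom^j(S_s, X) ≠ 0`, and `gen s` acts by the twist which moves `S_s` one
degree down.  The only inputs are the rank one rule and the rank two rule.
-/

set_option autoImplicit false

namespace Crest.Agent.R175.Stab_308

section Alt
variable {L : Type*} [Monoid L]

/-- alternating product `a * b * a * ⋯` with `k` letters. -/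
def al : L → L → ℕ → L
  | _, _, 0 => 1
  | a, b, k + 1 => a * al b a k

@[simp] theorem al_zero (a b : L) : al a b 0 = 1 := rfl

theorem al_succ (a b : L) (k : ℕ) : al a b (k + 1) = a * al b a k := rfl

theorem al_one (a b : L) : al a b 1 = a := by simp [al]

theorem al_succ_right (k : ℕ) : ∀ a b : L,
    al a b (k + 1) = al a b k * (if Even k then a else b) := by
  induction k with
  | zero => intro a b; simp [al]
  | succ k ih =>
    intro a b
    rw [al_succ, ih b a, al_succ a b k, mul_assoc]
    congr 2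
    by_cases h : Even k
    · simp [h, Nat.even_add_one]
    · simp [h, Nat.even_add_one]

theorem al_add (k l : ℕ) : ∀ a b : L,
    al a b (k + l) = al a b k * (if Even k then al a b l else al b a l) := by
  induction k with
  | zero => intro a b; simp
  | succ k ih =>
    intro a b
    rw [show k + 1 + l = (k + l) + 1 by ring, al_succ, ih b a, al_succ a b k, mul_assoc]
    congr 2
    by_cases h : Even k
    · simp [h, Nat.even_add_one]
    · simp [h, Nat.even_add_one]

theorem map_al {L' : Type*} [Monoid L'] (f : L →* L') (k : ℕ) : ∀ a b : L,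
    f (al a b k) = al (f a) (f b) k := by
  induction k with
  | zero => intro a b; simp
  | succ k ih => intro a b; rw [al_succ, al_succ, map_mul, ih]

end Alt

section Cox
variable {S W : Type*} [Group W] {M : CoxeterMatrix S} (cs : CoxeterSystem M W)

theorem wordProd_altWord (i i' : S) (k : ℕ) :
    cs.wordProd (CoxeterSystem.alternatingWord i i' k) =
      if Even k then al (cs.simple i) (cs.simple i') k else al (cs.simple i') (cs.simple i) k := by
  induction k with
  | zero => simp [CoxeterSystem.alternatingWord]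
  | succ k ih =>
    rw [CoxeterSystem.alternatingWord_succ', CoxeterSystem.wordProd_cons, ih]
    by_cases h : Even k
    · simp [h, Nat.even_add_one, al_succ]
    · simp [h, Nat.even_add_one, al_succ]

theorem al_braid (s t : S) : al (cs.simple s) (cs.simple t) (M s t) =
    al (cs.simple t) (cs.simple s) (M s t) := by
  have h := cs.wordProd_braidWord_eq s t
  unfold CoxeterSystem.braidWord at h
  rw [wordProd_altWord, wordProd_altWord, M.symmetric t s] at h
  by_cases he : Even (M s t)
  · simpa [he] using h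
  · simpa [he] using h.symm

theorem length_al_le (s t : S) (k : ℕ) :
    cs.length (al (cs.simple s) (cs.simple t) k) ≤ k := by
  induction k generalizing s t with
  | zero => simp
  | succ k ih =>
    rw [al_succ]
    have h1 := cs.length_mul_le (cs.simple s) (al (cs.simple t) (cs.simple s) k)
    have h2 := ih t s
    rw [cs.length_simple] at h1
    omega

/-- Stripping a maximal alternating prefix. -/
theorem strip (w : W) {s t : S} (hM : M s t ≠ 0)
    (ht : cs.IsLeftDescent w t) (hs : ¬ cs.IsLeftDescent w s) :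
    ∃ (k : ℕ) (u : W), 1 ≤ k ∧ k < M s t ∧ w = al (cs.simple t) (cs.simple s) k * u ∧
      cs.length w = k + cs.length u ∧ ¬ cs.IsLeftDescent u s ∧ ¬ cs.IsLeftDescent u t := by
  classical
  let Q : ℕ → Prop := fun k => ∃ u, w = al (cs.simple t) (cs.simple s) k * u ∧
    cs.length w = k + cs.length u
  have hQ1 : Q 1 := by
    refine ⟨cs.simple t * w, ?_, ?_⟩
    · rw [al_one, cs.simple_mul_simple_cancel_left]
    · have := (cs.isLeftDescent_iff).1 ht
      omega
  have hQb : ∀ k, Q k → k ≤ cs.length w := by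
    rintro k ⟨u, -, h⟩
    omega
  set K := Nat.findGreatest Q (cs.length w) with hK
  have hK1 : 1 ≤ K := Nat.le_findGreatest (hQb 1 hQ1) hQ1
  have hQK : Q K := Nat.findGreatest_spec (hQb 1 hQ1) hQ1
  have hQK1 : ¬ Q (K + 1) := by
    intro h
    have := Nat.le_findGreatest (hQb _ h) h
    omega
  obtain ⟨u, hu1, hu2⟩ := hQK
  have hnext : ¬ cs.IsLeftDescent u (if Even K then t else s) := by
    intro hd
    apply hQK1
    refine ⟨cs.simple (if Even K then t else s) * u, ?_, ?_⟩
    · rw [al_succ_right]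
      have : (if Even K then cs.simple t else cs.simple s) =
          cs.simple (if Even K then t else s) := by split_ifs <;> rfl
      rw [this, mul_assoc, cs.simple_mul_simple_cancel_left]
      exact hu1
    · have := (cs.isLeftDescent_iff).1 hd
      omega
  have hlast : ¬ cs.IsLeftDescent u (if Even K then s else t) := by
    intro hd
    obtain ⟨K', hK'⟩ : ∃ K', K = K' + 1 := ⟨K - 1, by omega⟩
    clear_value K
    subst hK'
    have h1 : w = al (cs.simple t) (cs.simple s) K' *
        (cs.simple (if Even (K' + 1) then s else t) * u) := by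
      rw [hu1, al_succ_right, mul_assoc]
      congr 2
      by_cases h : Even K'
      · simp [h, Nat.even_add_one]
      · simp [h, Nat.even_add_one]
    have h2 := (cs.isLeftDescent_iff).1 hd
    have h3 := cs.length_mul_le (al (cs.simple t) (cs.simple s) K')
      (cs.simple (if Even (K' + 1) then s else t) * u)
    have h4 := length_al_le cs t s K'
    rw [← h1] at h3
    omega
  have hus : ¬ cs.IsLeftDescent u s ∧ ¬ cs.IsLeftDescent u t := by
    by_cases h : Even K
    · simp only [h, if_true] at hnext hlast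
      exact ⟨hlast, hnext⟩
    · simp only [h, if_false] at hnext hlast
      exact ⟨hnext, hlast⟩
  refine ⟨K, u, hK1, ?_, hu1, hu2, hus.1, hus.2⟩
  by_contra hKM
  push Not at hKM
  apply hs
  obtain ⟨l, hl⟩ := Nat.exists_eq_add_of_le hKM
  obtain ⟨m, hm⟩ : ∃ m, M s t = m + 1 := ⟨M s t - 1, by omega⟩
  have hb := al_braid cs s t
  set rest := (if Even (M s t) then al (cs.simple t) (cs.simple s) l else
    al (cs.simple s) (cs.simple t) l) with hrest
  have hrl : cs.length rest ≤ l := by
    rw [hrest]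
    split_ifs
    · exact length_al_le cs _ _ _
    · exact length_al_le cs _ _ _
  have h1 : w = cs.simple s * (al (cs.simple t) (cs.simple s) m * rest * u) := by
    rw [hu1, hl, al_add, ← hb]
    rw [hm, al_succ, ← hm]
    simp only [mul_assoc]
    rfl
  have h2 : cs.simple s * w = al (cs.simple t) (cs.simple s) m * rest * u := by
    rw [h1, cs.simple_mul_simple_cancel_left]
  have h3 : cs.length (cs.simple s * w) ≤ m + l + cs.length u := by
    rw [h2]
    have a1 := cs.length_mul_le (al (cs.simple t) (cs.simple s) m * rest) u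
    have a2 := cs.length_mul_le (al (cs.simple t) (cs.simple s) m) rest
    have a3 := length_al_le cs t s m
    omega
  unfold CoxeterSystem.IsLeftDescent
  omega

end Cox

section Main
variable {S W G Ob : Type*} [Group W] [Group G] [MulAction G Ob] {M : CoxeterMatrix S}
  (cs : CoxeterSystem M W)

/-- A "Matsumoto section" `W → G` together with a length homomorphism. -/
structure Sec (G : Type*) [Group G] where
  /-- the section -/
  sig : W → G
  one : sig 1 = 1
  mul : ∀ x y, cs.length (x * y) = cs.length x + cs.length y → sig (x * y) = sig x * sig y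
  /-- length homomorphism -/
  len : G → ℤ
  len_mul : ∀ a b, len (a * b) = len a + len b
  len_gen : ∀ s, len (sig (cs.simple s)) = 1

variable {cs}

namespace Sec
variable (σ : Sec cs G)

/-- the generators -/
def gen (s : S) : G := σ.sig (cs.simple s)

theorem sig_left {w : W} {s : S} (h : ¬ cs.IsLeftDescent w s) :
    σ.sig (cs.simple s * w) = σ.gen s * σ.sig w :=
  σ.mul _ _ (by rw [(cs.not_isLeftDescent_iff).1 h, cs.length_simple]; ring)

theorem sig_right {w : W} {s : S} (h : ¬ cs.IsRightDescent w s) :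
    σ.sig (w * cs.simple s) = σ.sig w * σ.gen s :=
  σ.mul _ _ (by rw [(cs.not_isRightDescent_iff).1 h, cs.length_simple])

/-- if `s` is a left descent of `w` then `w = s y` with lengths adding. -/
theorem sig_left' {w : W} {s : S} (h : cs.IsLeftDescent w s) :
    σ.sig w = σ.gen s * σ.sig (cs.simple s * w) ∧ ¬ cs.IsLeftDescent (cs.simple s * w) s := by
  have h2 : ¬ cs.IsLeftDescent (cs.simple s * w) s :=
    (cs.isLeftDescent_iff_not_isLeftDescent_mul).1 h
  refine ⟨?_, h2⟩
  rw [← σ.sig_left h2, cs.simple_mul_simple_cancel_left]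

theorem sig_right' {w : W} {s : S} (h : cs.IsRightDescent w s) :
    σ.sig w = σ.sig (w * cs.simple s) * σ.gen s ∧ ¬ cs.IsRightDescent (w * cs.simple s) s := by
  have h2 : ¬ cs.IsRightDescent (w * cs.simple s) s :=
    (cs.isRightDescent_iff_not_isRightDescent_mul).1 h
  refine ⟨?_, h2⟩
  rw [← σ.sig_right h2, cs.simple_mul_simple_cancel_right]

theorem sig_al (k : ℕ) : ∀ a b : S, cs.length (al (cs.simple a) (cs.simple b) k) = k →
    σ.sig (al (cs.simple a) (cs.simple b) k) = al (σ.gen a) (σ.gen b) k := by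
  induction k with
  | zero => intro a b _; simpa using σ.one
  | succ k ih =>
    intro a b h
    rw [al_succ] at h ⊢
    have h1 := cs.length_mul_le (cs.simple a) (al (cs.simple b) (cs.simple a) k)
    rw [cs.length_simple] at h1
    have h2 := length_al_le cs b a k
    have h3 : cs.length (al (cs.simple b) (cs.simple a) k) = k := by omega
    rw [σ.mul _ _ (by rw [h, cs.length_simple, h3]; ring), ih b a h3, al_succ]
    rfl

theorem sig_al_inv (k : ℕ) : ∀ a b : S, cs.length (al (cs.simple a) (cs.simple b) k) = k →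
    (σ.sig (al (cs.simple a) (cs.simple b) k)⁻¹)⁻¹ = al (σ.gen a)⁻¹ (σ.gen b)⁻¹ k := by
  induction k with
  | zero => intro a b _; simp [σ.one]
  | succ k ih =>
    intro a b h
    rw [al_succ] at h ⊢
    have h1 := cs.length_mul_le (cs.simple a) (al (cs.simple b) (cs.simple a) k)
    rw [cs.length_simple] at h1
    have h2 := length_al_le cs b a k
    have h3 : cs.length (al (cs.simple b) (cs.simple a) k) = k := by omega
    rw [mul_inv_rev, cs.inv_simple, σ.mul _ _ (by
      rw [cs.length_simple, cs.length_inv, h3, ← h, ← cs.length_inv, mul_inv_rev, cs.inv_simple,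
        inv_inv]), mul_inv_rev, ih b a h3, al_succ]
    rfl

theorem len_one : σ.len 1 = 0 := by
  have := σ.len_mul 1 1
  simp at this
  exact this

theorem len_sig (n : ℕ) : ∀ w : W, cs.length w = n → σ.len (σ.sig w) = n := by
  induction n with
  | zero =>
    intro w hw
    rw [cs.length_eq_zero_iff] at hw
    subst hw
    simp [σ.one, σ.len_one]
  | succ n ih =>
    intro w hw
    have hw1 : w ≠ 1 := by
      rintro rfl
      simp at hw
    obtain ⟨s, hs⟩ := cs.exists_leftDescent_of_ne_one hw1
    obtain ⟨h1, -⟩ := σ.sig_left' hs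
    rw [h1, σ.len_mul, gen, σ.len_gen, ih _ (by
      have := (cs.isLeftDescent_iff).1 hs
      omega)]
    push_cast
    ring

/-- positive elements -/
def Pos (p : G) : Prop := ∃ ω : List S, p = (ω.map σ.gen).prod

theorem pos_one : σ.Pos 1 := ⟨[], rfl⟩

theorem pos_gen (s : S) : σ.Pos (σ.gen s) := ⟨[s], by simp⟩

theorem Pos.mul {σ : Sec cs G} {p q : G} (hp : σ.Pos p) (hq : σ.Pos q) : σ.Pos (p * q) := by
  obtain ⟨ω, rfl⟩ := hp
  obtain ⟨ω', rfl⟩ := hq
  exact ⟨ω ++ ω', by simp⟩

theorem pos_sig (n : ℕ) : ∀ w : W, cs.length w = n → σ.Pos (σ.sig w) := by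
  induction n with
  | zero =>
    intro w hw
    rw [cs.length_eq_zero_iff] at hw
    subst hw
    rw [σ.one]
    exact σ.pos_one
  | succ n ih =>
    intro w hw
    have hw1 : w ≠ 1 := by
      rintro rfl
      simp at hw
    obtain ⟨s, hs⟩ := cs.exists_leftDescent_of_ne_one hw1
    obtain ⟨h1, -⟩ := σ.sig_left' hs
    rw [h1]
    exact (σ.pos_gen s).mul (ih _ (by
      have := (cs.isLeftDescent_iff).1 hs
      omega))

theorem len_list (ω : List S) : σ.len (ω.map σ.gen).prod = ω.length := by
  induction ω with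
  | nil => simp [σ.len_one]
  | cons a ω ih =>
    rw [List.map_cons, List.prod_cons, σ.len_mul, ih, gen, σ.len_gen]
    simp
    ring

theorem Pos.len_nonneg {σ : Sec cs G} {p : G} (hp : σ.Pos p) : 0 ≤ σ.len p := by
  obtain ⟨ω, rfl⟩ := hp
  rw [σ.len_list]
  positivity

/-- `s` divides the positive element `p` on the left. -/
def DL (s : S) (p : G) : Prop := ∃ q, σ.Pos q ∧ p = σ.gen s * q

/-- `s` divides the positive element `p` on the right. -/
def DR (s : S) (p : G) : Prop := ∃ q, σ.Pos q ∧ p = q * σ.gen s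

theorem Pos.exists_DL {σ : Sec cs G} {p : G} (hp : σ.Pos p) (h1 : p ≠ 1) : ∃ s, σ.DL s p := by
  obtain ⟨ω, rfl⟩ := hp
  cases ω with
  | nil => simp at h1
  | cons a ω => exact ⟨a, _, ⟨ω, rfl⟩, by simp⟩

/-- normal forms `p = sig x₁ ⋯ sig x_k`. -/
inductive NF : ℕ → G → Prop
  | zero : NF 0 1
  | succ (k : ℕ) (x : W) (p : G) (hx : x ≠ 1) (hp : σ.Pos p) (h : NF k p)
      (hd : ∀ s, σ.DL s p → cs.IsRightDescent x s) : NF (k + 1) (σ.sig x * p)

theorem exists_NF (n : ℕ) : ∀ p : G, σ.Pos p → σ.len p = n → ∃ k, σ.NF k p := by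
  induction n using Nat.strong_induction_on with
  | _ n ih =>
    intro p hp hn
    by_cases h1 : p = 1
    · subst h1
      exact ⟨0, NF.zero⟩
    classical
    let Q : ℕ → Prop := fun m => ∃ (x : W) (q : G), σ.Pos q ∧ p = σ.sig x * q ∧ cs.length x = m
    have hQb : ∀ m, Q m → m ≤ n := by
      rintro m ⟨x, q, hq, rfl, hx⟩
      rw [σ.len_mul, σ.len_sig m x hx] at hn
      have := hq.len_nonneg
      omega
    have hQ1 : Q 1 := by
      obtain ⟨s, q, hq, rfl⟩ := hp.exists_DL h1
      exact ⟨cs.simple s, q, hq, rfl, cs.length_simple s⟩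
    obtain ⟨x, q, hq, hpq, hx⟩ := Nat.findGreatest_spec (hQb 1 hQ1) hQ1
    have hK1 : 1 ≤ Nat.findGreatest Q n := Nat.le_findGreatest (hQb 1 hQ1) hQ1
    have hlen : σ.len p = (Nat.findGreatest Q n : ℤ) + σ.len q := by
      rw [hpq, σ.len_mul, σ.len_sig _ x hx]
    obtain ⟨m, hm⟩ := Int.eq_ofNat_of_zero_le hq.len_nonneg
    obtain ⟨k, hk⟩ := ih m (by omega) q hq hm
    refine ⟨k + 1, ?_⟩
    rw [hpq]
    refine NF.succ k x q ?_ hq hk ?_
    · rintro rfl
      rw [cs.length_one] at hx
      omega
    · rintro s ⟨q', hq', hqq⟩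
      by_contra hd
      have h2 : Q (Nat.findGreatest Q n + 1) := by
        refine ⟨x * cs.simple s, q', hq', ?_, ?_⟩
        · rw [σ.sig_right hd, hpq, hqq, mul_assoc]
        · rw [(cs.not_isRightDescent_iff).1 hd, hx]
      have := Nat.le_findGreatest (hQb _ h2) h2
      omega

end Sec

/-- The numeric data. -/
structure Num (σ : Sec cs G) (Ob : Type*) [MulAction G Ob] (t : S) where
  /-- the frame object -/
  E : Ob
  /-- `phi s j X` means `Hom^j(S_s, X) ≠ 0`. -/
  phi : S → ℤ → Ob → Prop
  fix : ∀ s, s ≠ t → σ.gen s • E = E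
  n0a : phi t 1 E
  n0b : ∀ s j, j ≤ 0 → ¬ phi s j E
  n0c : ∀ s, s ≠ t → ¬ phi s 1 E
  n1 : ∀ s j X, phi s j (σ.gen s • X) ↔ phi s (j + 1) X
  r2l : ∀ s t' : S, s ≠ t' → ∀ k, k < M s t' → ∀ j X,
    phi s j (al (σ.gen t') (σ.gen s) k • X) → phi s j X ∨ phi t' j X
  r2r : ∀ s t' : S, s ≠ t' → ∀ k, k < M s t' → ∀ j X,
    phi s j (al (σ.gen t')⁻¹ (σ.gen s)⁻¹ k • X) → phi s j X ∨ phi t' j X

namespace Num
variable {σ : Sec cs G} {Ob : Type*} [MulAction G Ob] {t : S} (D : Num σ Ob t)

/-- Lemma R, left version. -/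
theorem lemL (hM : ∀ s t : S, M s t ≠ 0) (n : ℕ) : ∀ (w : W), cs.length w = n → ∀ (s : S),
    ¬ cs.IsLeftDescent w s → ∀ j X, (∀ s', ¬ D.phi s' j X) → ¬ D.phi s j (σ.sig w • X) := by
  induction n using Nat.strong_induction_on with
  | _ n ih =>
    intro w hw s hs j X hX
    by_cases h1 : w = 1
    · subst h1
      rw [σ.one, one_smul]
      exact hX s
    obtain ⟨t', ht'⟩ := cs.exists_leftDescent_of_ne_one h1
    have hst : s ≠ t' := by
      rintro rfl
      exact hs ht'
    obtain ⟨k, u, hk1, hk2, hwu, hl, hus, hut⟩ := strip cs w (hM s t') ht' hs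
    have hk3 : cs.length (al (cs.simple t') (cs.simple s) k) = k := by
      have h2 := cs.length_mul_le (al (cs.simple t') (cs.simple s) k) u
      have h3 := length_al_le cs t' s k
      rw [← hwu] at h2
      omega
    have hsig : σ.sig w = al (σ.gen t') (σ.gen s) k * σ.sig u := by
      rw [← σ.sig_al k t' s hk3, ← σ.mul, ← hwu]
      rw [← hwu, hk3, hl]
    rw [hsig, mul_smul]
    intro hphi
    rcases D.r2l s t' hst k hk2 j _ hphi with h | h
    · exact ih (cs.length u) (by omega) u rfl s hus j X hX h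
    · exact ih (cs.length u) (by omega) u rfl t' hut j X hX h

/-- Lemma R, right version. -/
theorem lemR (hM : ∀ s t : S, M s t ≠ 0) (n : ℕ) : ∀ (w : W), cs.length w = n → ∀ (s : S),
    ¬ cs.IsRightDescent w s → ∀ j X, (∀ s', ¬ D.phi s' j X) →
      ¬ D.phi s j ((σ.sig w)⁻¹ • X) := by
  induction n using Nat.strong_induction_on with
  | _ n ih =>
    intro w hw s hs j X hX
    by_cases h1 : w = 1
    · subst h1
      rw [σ.one, inv_one, one_smul]
      exact hX s
    obtain ⟨t', ht'⟩ := cs.exists_rightDescent_of_ne_one h1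
    have hst : s ≠ t' := by
      rintro rfl
      exact hs ht'
    have hs' : ¬ cs.IsLeftDescent w⁻¹ s := by rwa [cs.isLeftDescent_inv_iff]
    have ht'' : cs.IsLeftDescent w⁻¹ t' := by rwa [cs.isLeftDescent_inv_iff]
    obtain ⟨k, u, hk1, hk2, hwu, hl, hus, hut⟩ := strip cs w⁻¹ (hM s t') ht'' hs'
    have hk3 : cs.length (al (cs.simple t') (cs.simple s) k) = k := by
      have h2 := cs.length_mul_le (al (cs.simple t') (cs.simple s) k) u
      have h3 := length_al_le cs t' s k
      rw [← hwu] at h2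
      omega
    have hw2 : w = u⁻¹ * (al (cs.simple t') (cs.simple s) k)⁻¹ := by
      rw [← mul_inv_rev, ← hwu, inv_inv]
    rw [cs.length_inv] at hl
    have hsig : (σ.sig w)⁻¹ = al (σ.gen t')⁻¹ (σ.gen s)⁻¹ k * (σ.sig u⁻¹)⁻¹ := by
      rw [← σ.sig_al_inv k t' s hk3, ← mul_inv_rev, ← σ.mul, ← hw2]
      rw [← hw2, cs.length_inv, cs.length_inv, hk3, hl]
      ring
    rw [hsig, mul_smul]
    intro hphi
    have hus' : ¬ cs.IsRightDescent u⁻¹ s := by rwa [cs.isRightDescent_inv_iff]
    have hut' : ¬ cs.IsRightDescent u⁻¹ t' := by rwa [cs.isRightDescent_inv_iff]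
    rcases D.r2r s t' hst k hk2 j _ hphi with h | h
    · exact ih (cs.length u⁻¹) (by rw [cs.length_inv]; omega) u⁻¹ rfl s hus' j X hX h
    · exact ih (cs.length u⁻¹) (by rw [cs.length_inv]; omega) u⁻¹ rfl t' hut' j X hX h

/-- general estimate -/
theorem low (hM : ∀ s t : S, M s t ≠ 0) (w : W) (s : S) (j : ℤ) (X : Ob)
    (h0 : ∀ s', ¬ D.phi s' j X) (h1 : ∀ s', ¬ D.phi s' (j + 1) X) :
    ¬ D.phi s j (σ.sig w • X) := by
  by_cases h : cs.IsLeftDescent w s
  · obtain ⟨e, hn⟩ := σ.sig_left' h
    rw [e, mul_smul, D.n1]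
    exact D.lemL hM _ _ rfl s hn _ X h1
  · exact D.lemL hM _ _ rfl s h j X h0

/-- the main claim. -/
theorem claim (hM : ∀ s t : S, M s t ≠ 0) {k : ℕ} {p : G} (hp : σ.NF k p) :
    (∀ s, s ≠ t → ¬ σ.DR s p) →
      (∀ s (j : ℤ), j < 1 - k → ¬ D.phi s j (p • D.E)) ∧
      (1 ≤ k → ∀ s, D.phi s (1 - k) (p • D.E) → σ.DL s p) ∧
      (∃ s, D.phi s (1 - k) (p • D.E)) := by
  induction hp with
  | zero =>
    intro _
    refine ⟨?_, ?_, ⟨t, ?_⟩⟩
    · intro s j hj
      rw [one_smul]
      exact D.n0b s j (by push_cast at hj; omega)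
    · intro h; omega
    · rw [one_smul]; simpa using D.n0a
  | succ k x p hx hpos hp hd ih =>
    intro hDR
    have hDR' : ∀ s, s ≠ t → ¬ σ.DR s p := by
      rintro s hs ⟨q, hq, rfl⟩
      exact hDR s hs ⟨σ.sig x * q, (σ.pos_sig _ x rfl).mul hq, by rw [mul_assoc]⟩
    obtain ⟨ha, hb, s, hc⟩ := ih hDR'
    set Y := p • D.E with hY
    have hlow : ∀ s' (j : ℤ), j < 1 - k → ¬ D.phi s' j Y := fun s' j hj => ha s' j hj
    refine ⟨?_, ?_, ?_⟩
    · intro s' j hj
      push_cast at hj
      rw [mul_smul]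
      exact D.low hM x s' j Y (fun s'' => hlow s'' j (by omega))
        (fun s'' => hlow s'' (j + 1) (by omega))
    · intro _ s' hs'
      push_cast at hs'
      rw [mul_smul] at hs'
      by_cases h : cs.IsLeftDescent x s'
      · obtain ⟨e, -⟩ := σ.sig_left' h
        exact ⟨σ.sig (cs.simple s' * x) * p, (σ.pos_sig _ _ rfl).mul hpos, by
          rw [e, mul_assoc]⟩
      · exact absurd hs' (D.lemL hM _ _ rfl s' h _ Y (fun s'' => hlow s'' _ (by omega)))
    · -- `s` is a right descent of `x`
      have hsx : cs.IsRightDescent x s := by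
        rcases Nat.eq_zero_or_pos k with hk | hk
        · subst hk
          cases hp
          have hst : s = t := by
            by_contra hst
            apply D.n0c s hst
            rw [hY, one_smul] at hc
            simpa using hc
          subst hst
          obtain ⟨s', hs'⟩ := cs.exists_rightDescent_of_ne_one hx
          by_cases h : s' = s
          · rwa [h] at hs'
          · exfalso
            obtain ⟨e, -⟩ := σ.sig_right' hs'
            exact hDR s' h ⟨σ.sig (x * cs.simple s'), σ.pos_sig _ _ rfl, by rw [mul_one, ← e]⟩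
        · exact hd s (hb hk s hc)
      obtain ⟨e, hn⟩ := σ.sig_right' hsx
      by_contra hall
      push Not at hall
      have h1 := D.lemR hM _ _ rfl s hn (1 - ((k + 1 : ℕ) : ℤ)) ((σ.sig x * p) • D.E) hall
      rw [mul_smul, e, mul_smul, inv_smul_smul, D.n1, ← hY] at h1
      apply h1
      push_cast
      convert hc using 2
      ring

/-- **The stabiliser theorem**: `p E = q E` for positive `p, q` implies `p⁻¹ q ∈ A_{T-t}`. -/
theorem stab_pos (hM : ∀ s t : S, M s t ≠ 0) (H : Subgroup G) (hH : ∀ s, s ≠ t → σ.gen s ∈ H)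
    (n : ℕ) : ∀ p q : G, σ.Pos p → σ.Pos q → σ.len p + σ.len q = n → p • D.E = q • D.E →
      p⁻¹ * q ∈ H := by
  induction n using Nat.strong_induction_on with
  | _ n ih =>
    intro p q hp hq hn he
    by_cases hL : ∃ s, σ.DL s p ∧ σ.DL s q
    · obtain ⟨s, ⟨p', hp', rfl⟩, ⟨q', hq', rfl⟩⟩ := hL
      have h1 : p'⁻¹ * q' ∈ H := by
        rw [σ.len_mul, σ.len_mul, Sec.gen, σ.len_gen] at hn
        have h2 := hp'.len_nonneg
        have h3 := hq'.len_nonneg
        refine ih (n - 2) (by omega) p' q' hp' hq' (by omega) ?_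
        rw [mul_smul, mul_smul] at he
        exact MulAction.injective _ he
      have h2 : (σ.gen s * p')⁻¹ * (σ.gen s * q') = p'⁻¹ * q' := by group
      rw [h2]; exact h1
    by_cases hRp : ∃ s, s ≠ t ∧ σ.DR s p
    · obtain ⟨s, hst, ⟨p', hp', rfl⟩⟩ := hRp
      have h1 : p'⁻¹ * q ∈ H := by
        rw [σ.len_mul, Sec.gen, σ.len_gen] at hn
        have h2 := hp'.len_nonneg
        have h3 := hq.len_nonneg
        refine ih (n - 1) (by omega) p' q hp' hq (by omega) ?_
        rw [mul_smul, D.fix s hst] at he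
        exact he
      have h2 : (p' * σ.gen s)⁻¹ * q = (σ.gen s)⁻¹ * (p'⁻¹ * q) := by group
      rw [h2]
      exact H.mul_mem (H.inv_mem (hH s hst)) h1
    by_cases hRq : ∃ s, s ≠ t ∧ σ.DR s q
    · obtain ⟨s, hst, ⟨q', hq', rfl⟩⟩ := hRq
      have h1 : p⁻¹ * q' ∈ H := by
        rw [σ.len_mul, Sec.gen, σ.len_gen] at hn
        have h2 := hp.len_nonneg
        have h3 := hq'.len_nonneg
        refine ih (n - 1) (by omega) p q' hp hq' (by omega) ?_
        rw [mul_smul, D.fix s hst] at he
        exact he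
      have h2 : p⁻¹ * (q' * σ.gen s) = (p⁻¹ * q') * σ.gen s := by group
      rw [h2]
      exact H.mul_mem h1 (hH s hst)
    push Not at hL hRp hRq
    obtain ⟨a, ha⟩ := Int.eq_ofNat_of_zero_le hp.len_nonneg
    obtain ⟨b, hb⟩ := Int.eq_ofNat_of_zero_le hq.len_nonneg
    obtain ⟨k, hk⟩ := σ.exists_NF a p hp ha
    obtain ⟨l, hl⟩ := σ.exists_NF b q hq hb
    obtain ⟨pa, pb, s1, pc⟩ := D.claim hM hk hRp
    obtain ⟨qa, qb, s2, qc⟩ := D.claim hM hl hRq
    have hkl : k = l := by
      rcases lt_trichotomy k l with h | h | h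
      · exfalso
        rw [← he] at qc
        exact pa s2 (1 - (l : ℤ)) (by omega) qc
      · exact h
      · exfalso
        rw [he] at pc
        exact qa s1 (1 - (k : ℤ)) (by omega) pc
    subst hkl
    rcases Nat.eq_zero_or_pos k with hk0 | hk0
    · subst hk0
      cases hk
      cases hl
      simp
    · exfalso
      exact hL s1 (pb hk0 s1 pc) (qb hk0 s1 (he ▸ pc))

/-- the stabiliser of `E` is contained in `A_{T-t}`, as soon as every element is a fraction. -/
theorem stab (hM : ∀ s t : S, M s t ≠ 0) (H : Subgroup G) (hH : ∀ s, s ≠ t → σ.gen s ∈ H)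
    (r : G) (hr : ∃ p q, σ.Pos p ∧ σ.Pos q ∧ r = p⁻¹ * q) (hE : r • D.E = D.E) : r ∈ H := by
  obtain ⟨p, q, hp, hq, rfl⟩ := hr
  obtain ⟨n, hn⟩ := Int.eq_ofNat_of_zero_le (add_nonneg hp.len_nonneg hq.len_nonneg)
  refine D.stab_pos hM H hH n p q hp hq hn ?_
  rw [mul_smul, inv_smul_eq_iff] at hE
  exact hE.symm

end Num

end Main

end Crest.Agent.R175.Stab_308
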