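import Crest.Agent.R175.DDef_145

/-!
Row 175, target (Z) (helper591): faithfulness of the action of a finite type Artin group on the
simple objects `S_v`, over a numerical interface.

`H t k c v` is "`Hom^k (c S_v, S_t) ≠ 0`", with the convention `σ_u S_u = S_u[1]`.
-/

set_option autoImplicit false

namespace Crest.Agent.R175.Stab_591

open Crest.Agent.R175.DDef_145

section cox

variable {S W : Type*} [Group W] {M : CoxeterMatrix S} (cs : CoxeterSystem M W)

theorem length_succ_of_not_left {w : W} {s : S} (h : ¬ cs.IsLeftDescent w s) :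
    cs.length (cs.simple s * w) = cs.length w + 1 :=
  (cs.not_isLeftDescent_iff).1 h

theorem length_of_left {w : W} {s : S} (h : cs.IsLeftDescent w s) :
    cs.length (cs.simple s * w) + 1 = cs.length w :=
  (cs.isLeftDescent_iff).1 h

/-- rank two decomposition `w = x w''`. -/
theorem rank_two {u v : S} (huv : u ≠ v) (n : ℕ) : ∀ w : W, cs.length w ≤ n →
    ∃ (p q : S) (j : ℕ) (w' : W), ((p = u ∧ q = v) ∨ (p = v ∧ q = u)) ∧
      w = cs.wordProd (alt p q j) * w' ∧ cs.length w = j + cs.length w' ∧
      ¬ cs.IsLeftDescent w' u ∧ ¬ cs.IsLeftDescent w' v := by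
  induction n with
  | zero =>
    intro w hw
    have hw1 : w = 1 := by
      rw [← cs.length_eq_zero_iff]; omega
    subst hw1
    refine ⟨u, v, 0, 1, Or.inl ⟨rfl, rfl⟩, by simp, by simp, ?_, ?_⟩
    · simp [CoxeterSystem.IsLeftDescent]
    · simp [CoxeterSystem.IsLeftDescent]
  | succ n ih =>
    intro w hw
    by_cases hu : cs.IsLeftDescent w u
    · have hl := length_of_left cs hu
      obtain ⟨p, q, j, w', hpq, h1, h2, h3, h4⟩ := ih (cs.simple u * w) (by omega)
      have hw' : w = cs.simple u * (cs.wordProd (alt p q j) * w') := by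
        rw [← h1, cs.simple_mul_simple_cancel_left]
      rcases Nat.eq_zero_or_pos j with hj | hj
      · subst hj
        refine ⟨u, v, 1, w', Or.inl ⟨rfl, rfl⟩, ?_, by omega, h3, h4⟩
        rw [hw']; simp [alt]
      · rcases hpq with ⟨rfl, rfl⟩ | ⟨rfl, rfl⟩
        · exfalso
          obtain ⟨j', rfl⟩ : ∃ j', j = j' + 1 := ⟨j - 1, by omega⟩
          have : w = cs.wordProd (alt q p j') * w' := by
            rw [hw', alt_succ, cs.wordProd_cons, mul_assoc, cs.simple_mul_simple_cancel_left]
          have h5 : cs.length w ≤ j' + cs.length w' := by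
            rw [this]
            refine (cs.length_mul_le _ _).trans ?_
            have := cs.length_wordProd_le (alt q p j')
            rw [length_alt] at this
            omega
          omega
        · refine ⟨q, p, j + 1, w', Or.inl ⟨rfl, rfl⟩, ?_, by omega, h3, h4⟩
          rw [hw', alt_succ, cs.wordProd_cons, mul_assoc]
    · by_cases hv : cs.IsLeftDescent w v
      · have hl := length_of_left cs hv
        obtain ⟨p, q, j, w', hpq, h1, h2, h3, h4⟩ := ih (cs.simple v * w) (by omega)
        have hw' : w = cs.simple v * (cs.wordProd (alt p q j) * w') := by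
          rw [← h1, cs.simple_mul_simple_cancel_left]
        rcases Nat.eq_zero_or_pos j with hj | hj
        · subst hj
          refine ⟨v, u, 1, w', Or.inr ⟨rfl, rfl⟩, ?_, by omega, h3, h4⟩
          rw [hw']; simp [alt]
        · rcases hpq with ⟨rfl, rfl⟩ | ⟨rfl, rfl⟩
          · refine ⟨q, p, j + 1, w', Or.inr ⟨rfl, rfl⟩, ?_, by omega, h3, h4⟩
            rw [hw', alt_succ, cs.wordProd_cons, mul_assoc]
          · exfalso
            obtain ⟨j', rfl⟩ : ∃ j', j = j' + 1 := ⟨j - 1, by omega⟩
            have : w = cs.wordProd (alt q p j') * w' := by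
              rw [hw', alt_succ, cs.wordProd_cons, mul_assoc, cs.simple_mul_simple_cancel_left]
            have h5 : cs.length w ≤ j' + cs.length w' := by
              rw [this]
              refine (cs.length_mul_le _ _).trans ?_
              have := cs.length_wordProd_le (alt q p j')
              rw [length_alt] at this
              omega
            omega
      · exact ⟨u, v, 0, w, Or.inl ⟨rfl, rfl⟩, by simp, by simp, hu, hv⟩

theorem reverse_alt {S : Type*} (s t : S) (m : ℕ) :
    (alt s t m).reverse = CoxeterSystem.alternatingWord t s m := by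
  induction m generalizing s t with
  | zero => rfl
  | succ m ih => rw [alt_succ, List.reverse_cons, ih, CoxeterSystem.alternatingWord_succ,
      List.concat_eq_append]

theorem alt_le {u v : S} {j : ℕ} (h : cs.IsReduced (alt v u j)) : M u v = 0 ∨ j ≤ M u v := by
  by_contra hc
  push Not at hc
  have h1 := cs.not_isReduced_alternatingWord u v hc.1 hc.2
  apply h1
  rw [← reverse_alt]
  exact (cs.isReduced_reverse_iff _).2 h

/-- the form of the rank two decomposition that is used: `v` is not a left descent of `w ≠ 1`. -/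
theorem rank_two' {w : W} {v : S} (hw : w ≠ 1) (hv : ¬ cs.IsLeftDescent w v) :
    ∃ (u : S) (j : ℕ) (w' : W), u ≠ v ∧ 0 < j ∧ (M u v = 0 ∨ j + 1 ≤ M u v) ∧
      w = cs.wordProd (alt u v j) * w' ∧ cs.length w = j + cs.length w' ∧
      ¬ cs.IsLeftDescent w' u ∧ ¬ cs.IsLeftDescent w' v := by
  obtain ⟨u, hu⟩ := cs.exists_leftDescent_of_ne_one hw
  have huv : u ≠ v := by rintro rfl; exact hv hu
  obtain ⟨p, q, j, w', hpq, h1, h2, h3, h4⟩ := rank_two cs huv _ w le_rfl
  have hj : 0 < j := by
    rcases Nat.eq_zero_or_pos j with rfl | hj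
    · exfalso; apply h3; rw [h1] at hu; simpa using hu
    · exact hj
  obtain ⟨j', rfl⟩ : ∃ j', j = j' + 1 := ⟨j - 1, by omega⟩
  have hp : p = u ∧ q = v := by
    rcases hpq with h | ⟨rfl, rfl⟩
    · exact h
    · exfalso
      have := length_succ_of_not_left cs hv
      have h5 : cs.simple p * w = cs.wordProd (alt q p j') * w' := by
        rw [h1, alt_succ, cs.wordProd_cons, mul_assoc, cs.simple_mul_simple_cancel_left]
      rw [h5] at this
      have h6 : cs.length (cs.wordProd (alt q p j') * w') ≤ j' + cs.length w' := by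
        refine (cs.length_mul_le _ _).trans ?_
        have := cs.length_wordProd_le (alt q p j')
        rw [length_alt] at this
        omega
      omega
  obtain ⟨rfl, rfl⟩ := hp
  refine ⟨p, j' + 1, w', huv, hj, ?_, h1, h2, h3, h4⟩
  apply alt_le cs
  have h5 := length_succ_of_not_left cs hv
  have h6 : cs.simple q * w = cs.wordProd (alt q p (j' + 1 + 1)) * w' := by
    rw [alt_succ, cs.wordProd_cons, mul_assoc, ← h1]
  have h7 := cs.length_mul_le (cs.wordProd (alt q p (j' + 1 + 1))) w'
  rw [← h6] at h7
  have h8 := cs.length_wordProd_le (alt q p (j' + 1 + 1))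
  rw [length_alt] at h8
  unfold CoxeterSystem.IsReduced
  rw [length_alt]
  omega

end cox

/-- The Garside facts about an Artin group of finite type which are used. -/
structure Gar {S W A : Type*} [Group W] [Group A] (M : CoxeterMatrix S) (cs : CoxeterSystem M W)
    (σ : S → A) where
  lift : W → A
  lift_one : lift 1 = 1
  lift_left : ∀ w s, ¬ cs.IsLeftDescent w s → lift (cs.simple s * w) = σ s * lift w
  lift_right : ∀ w s, ¬ cs.IsRightDescent w s → lift (w * cs.simple s) = lift w * σ s
  /-- the length homomorphism -/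
  len : A → ℤ
  len_mul : ∀ a b, len (a * b) = len a + len b
  len_gen : ∀ s, len (σ s) = 1
  /-- irreducible fractions -/
  frac : ∀ r : A, ∃ a ∈ Submonoid.closure (Set.range σ), ∃ b ∈ Submonoid.closure (Set.range σ),
    r = a⁻¹ * b ∧ ∀ u, ¬ ((σ u)⁻¹ * a ∈ Submonoid.closure (Set.range σ) ∧
      (σ u)⁻¹ * b ∈ Submonoid.closure (Set.range σ))
  /-- the head of a positive element -/
  head : ∀ b ∈ Submonoid.closure (Set.range σ), ∃ w : W, ∃ b' ∈ Submonoid.closure (Set.range σ),
    b = lift w * b' ∧
    (∀ u, (σ u)⁻¹ * b ∈ Submonoid.closure (Set.range σ) → cs.IsLeftDescent w u) ∧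
    (∀ u, (σ u)⁻¹ * b' ∈ Submonoid.closure (Set.range σ) → cs.IsRightDescent w u)

/-- The numerical data: `H t k c v` is `Hom^k (c S_v, S_t) ≠ 0`, where `σ_u S_u = S_u[1]`. -/
structure Num {S A : Type*} [Group A] (M : CoxeterMatrix S) (σ : S → A) where
  H : S → ℤ → A → S → Prop
  neg : ∀ t k v, k < 0 → ¬ H t k 1 v
  zero : ∀ t v, H t 0 1 v ↔ v = t
  left : ∀ t k c v, H t k (σ t * c) v ↔ H t (k - 1) c v
  right : ∀ t k c u, H t k (c * σ u) u ↔ H t (k - 1) c u
  right' : ∀ t k c u v, u ≠ v → H t k (c * σ u) v → H t k c v ∨ H t k c u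
  /-- rank two: `(σ_u σ_v σ_u ...)⁻¹ S_v` (`j` factors, `j + 1 ≤ M u v`) is in degree `0` -/
  rank2 : ∀ t k c u v j, u ≠ v → 0 < j → (M u v = 0 ∨ j + 1 ≤ M u v) →
    H t k (c * (((alt u v j).map σ).prod)⁻¹) v → H t k c v ∨ H t k c u

namespace Gar

variable {S W A : Type*} [Group W] [Group A] {M : CoxeterMatrix S} {cs : CoxeterSystem M W}
  {σ : S → A} (G : Gar M cs σ)

include G

theorem len_one : G.len 1 = 0 := by
  have := G.len_mul 1 1
  rw [mul_one] at this
  omega

theorem len_nonneg {b : A} (hb : b ∈ Submonoid.closure (Set.range σ)) : 0 ≤ G.len b := by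
  induction hb using Submonoid.closure_induction with
  | mem x hx =>
    obtain ⟨s, rfl⟩ := hx
    rw [G.len_gen]; norm_num
  | one => rw [G.len_one]
  | mul x y _ _ hx hy => rw [G.len_mul]; omega

/-- a positive element is `1` or has a left descent -/
theorem eq_one_or {b : A} (hb : b ∈ Submonoid.closure (Set.range σ)) :
    b = 1 ∨ ∃ u, (σ u)⁻¹ * b ∈ Submonoid.closure (Set.range σ) := by
  induction hb using Submonoid.closure_induction_left with
  | one => exact Or.inl rfl
  | mul_left x hx y hy _ =>
    obtain ⟨s, rfl⟩ := hx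
    exact Or.inr ⟨s, by simpa using hy⟩

theorem lift_len (w : W) : G.len (G.lift w) = cs.length w := by
  generalize hn : cs.length w = n
  induction n generalizing w with
  | zero =>
    rw [cs.length_eq_zero_iff] at hn
    rw [hn, G.lift_one, G.len_one]; rfl
  | succ n ih =>
    have hw : w ≠ 1 := by rintro rfl; simp at hn
    obtain ⟨u, hu⟩ := cs.exists_leftDescent_of_ne_one hw
    have hl := length_of_left cs hu
    have h2 : ¬ cs.IsLeftDescent (cs.simple u * w) u := by
      unfold CoxeterSystem.IsLeftDescent
      rw [cs.simple_mul_simple_cancel_left]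
      omega
    have h3 := G.lift_left _ _ h2
    rw [cs.simple_mul_simple_cancel_left] at h3
    rw [h3, G.len_mul, G.len_gen, ih _ (by omega)]
    push_cast; ring

theorem lift_mem (w : W) : G.lift w ∈ Submonoid.closure (Set.range σ) := by
  generalize hn : cs.length w = n
  induction n generalizing w with
  | zero =>
    rw [cs.length_eq_zero_iff] at hn
    rw [hn, G.lift_one]; exact one_mem _
  | succ n ih =>
    have hw : w ≠ 1 := by rintro rfl; simp at hn
    obtain ⟨u, hu⟩ := cs.exists_leftDescent_of_ne_one hw
    have hl := length_of_left cs hu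
    have h2 : ¬ cs.IsLeftDescent (cs.simple u * w) u := by
      unfold CoxeterSystem.IsLeftDescent
      rw [cs.simple_mul_simple_cancel_left]
      omega
    have h3 := G.lift_left _ _ h2
    rw [cs.simple_mul_simple_cancel_left] at h3
    rw [h3]
    exact mul_mem (Submonoid.subset_closure ⟨u, rfl⟩) (ih _ (by omega))

theorem lift_alt {p q : S} {j : ℕ} {w' : W}
    (h : cs.length (cs.wordProd (alt p q j) * w') = j + cs.length w') :
    G.lift (cs.wordProd (alt p q j) * w') = ((alt p q j).map σ).prod * G.lift w' := by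
  induction j generalizing p q with
  | zero => simp
  | succ j ih =>
    have h1 : cs.wordProd (alt p q (j + 1)) * w' =
        cs.simple p * (cs.wordProd (alt q p j) * w') := by
      rw [alt_succ, cs.wordProd_cons, mul_assoc]
    have h2 : cs.length (cs.wordProd (alt q p j) * w') ≤ j + cs.length w' := by
      refine (cs.length_mul_le _ _).trans ?_
      have := cs.length_wordProd_le (alt q p j)
      rw [length_alt] at this
      omega
    have h3 : ¬ cs.IsLeftDescent (cs.wordProd (alt q p j) * w') p := by
      unfold CoxeterSystem.IsLeftDescent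
      rw [← h1, h]
      omega
    have h4 : cs.length (cs.wordProd (alt q p j) * w') = j + cs.length w' := by
      have := length_succ_of_not_left cs h3
      rw [← h1, h] at this
      omega
    rw [h1, G.lift_left _ _ h3, ih h4, alt_succ, List.map_cons, List.prod_cons, mul_assoc]

end Gar

namespace Num

variable {S W A : Type*} [Group W] [Group A] {M : CoxeterMatrix S} {cs : CoxeterSystem M W}
  {σ : S → A} (N : Num M σ) (G : Gar M cs σ)

include G

/-- Lemma R, inverse form: if `v` is not a left descent of `w` then `σ_w⁻¹ S_v` is in degree `0`. -/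
theorem lemmaR (t : S) (k : ℤ) (n : ℕ) : ∀ (w : W) (v : S) (c : A), cs.length w ≤ n →
    ¬ cs.IsLeftDescent w v → N.H t k (c * (G.lift w)⁻¹) v → ∃ u, N.H t k c u := by
  induction n with
  | zero =>
    intro w v c hw _ hH
    have hw1 : w = 1 := by
      rw [← cs.length_eq_zero_iff]; omega
    subst hw1
    rw [G.lift_one, inv_one, mul_one] at hH
    exact ⟨v, hH⟩
  | succ n ih =>
    intro w v c hw hv hH
    by_cases hw1 : w = 1
    · subst hw1
      rw [G.lift_one, inv_one, mul_one] at hH
      exact ⟨v, hH⟩
    obtain ⟨u, j, w', huv, hj, hM, h1, h2, h3, h4⟩ := rank_two' cs hw1 hv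
    have h5 : G.lift w = ((alt u v j).map σ).prod * G.lift w' := by
      rw [h1]; exact G.lift_alt (by rw [← h1]; exact h2)
    rw [h5, mul_inv_rev, ← mul_assoc] at hH
    rcases N.rank2 t k _ u v j huv hj hM hH with h | h
    · exact ih w' v c (by omega) h4 h
    · exact ih w' u c (by omega) h3 h

omit G in
/-- positive elements preserve `D^{≥ 0}` -/
theorem ge0_mul {t : S} {c b : A} (hb : b ∈ Submonoid.closure (Set.range σ))
    (hc : ∀ k v, k < 0 → ¬ N.H t k c v) : ∀ k v, k < 0 → ¬ N.H t k (c * b) v := by
  induction hb using Submonoid.closure_induction generalizing c with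
  | mem x hx =>
    obtain ⟨u, rfl⟩ := hx
    intro k v hk hH
    by_cases huv : u = v
    · subst huv
      rw [N.right] at hH
      exact hc _ _ (by omega) hH
    · rcases N.right' t k c u v huv hH with h | h
      · exact hc _ _ hk h
      · exact hc _ _ hk h
  | one => simpa using hc
  | mul x y _ _ hx hy =>
    have := hy (hx hc)
    intro k v hk
    rw [← mul_assoc]
    exact this k v hk

/-- the claim (*) -/
theorem star (t : S) (n : ℕ) : ∀ (b c : A), b ∈ Submonoid.closure (Set.range σ) →
    G.len b ≤ n → (∀ k v, k < 0 → ¬ N.H t k c v) → (∃ v, N.H t 0 c v) →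
    (∀ u, (σ u)⁻¹ * b ∈ Submonoid.closure (Set.range σ) → ¬ N.H t 0 c u) →
    ∃ v, N.H t 0 (c * b) v := by
  induction n with
  | zero =>
    intro b c hb hn _ hv _
    rcases G.eq_one_or hb with h | ⟨u, hu⟩
    · subst h; simpa using hv
    · exfalso
      have h1 : G.len b = G.len (σ u) + G.len ((σ u)⁻¹ * b) := by
        rw [← G.len_mul, mul_inv_cancel_left]
      have h2 := G.len_nonneg hu
      rw [G.len_gen] at h1
      push_cast at hn
      omega
  | succ n ih =>
    intro b c hb hn hc hv hu
    rcases G.eq_one_or hb with h | ⟨u0, hu0⟩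
    · subst h; simpa using hv
    obtain ⟨w, b', hb', hbw, hL, hR⟩ := G.head b hb
    have hw : 0 < cs.length w := by
      have := length_of_left cs (hL u0 hu0)
      omega
    have hlen : G.len b' ≤ n := by
      have h1 := G.len_mul (G.lift w) b'
      rw [← hbw, G.lift_len] at h1
      push_cast at hn
      omega
    have hc' := ge0_mul N (G.lift_mem w) hc
    have key : ∃ v, N.H t 0 (c * G.lift w) v := by
      obtain ⟨v, hv⟩ := hv
      have hvw : ¬ cs.IsLeftDescent w v := by
        intro h
        apply hu v _ hv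
        have h2 := length_of_left cs h
        have h3 : ¬ cs.IsLeftDescent (cs.simple v * w) v := by
          unfold CoxeterSystem.IsLeftDescent
          rw [cs.simple_mul_simple_cancel_left]
          omega
        have h4 := G.lift_left _ _ h3
        rw [cs.simple_mul_simple_cancel_left] at h4
        rw [hbw, h4, mul_assoc, inv_mul_cancel_left]
        exact mul_mem (G.lift_mem _) hb'
      refine N.lemmaR G t 0 _ w v (c * G.lift w) le_rfl hvw ?_
      rw [mul_inv_cancel_right]
      exact hv
    have := ih b' (c * G.lift w) hb' hlen hc' key ?_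
    · rwa [mul_assoc, ← hbw] at this
    · intro u hu' hH
      have h1 := hR u hu'
      have h2 : cs.length (w * cs.simple u) + 1 = cs.length w := (cs.isRightDescent_iff).1 h1
      have h3 : ¬ cs.IsRightDescent (w * cs.simple u) u := by
        unfold CoxeterSystem.IsRightDescent
        rw [cs.simple_mul_simple_cancel_right]
        omega
      have h4 := G.lift_right _ _ h3
      rw [cs.simple_mul_simple_cancel_right] at h4
      rw [h4, ← mul_assoc, N.right] at hH
      exact ge0_mul N (G.lift_mem (w * cs.simple u)) hc _ _ (by norm_num) hH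

/-- left descents of positive elements are seen by `H`. -/
theorem descent_iff (t : S) {b : A} (hb : b ∈ Submonoid.closure (Set.range σ)) :
    (σ t)⁻¹ * b ∈ Submonoid.closure (Set.range σ) ↔ ∀ v, ¬ N.H t 0 b v := by
  have h0 : ∀ k v, k < 0 → ¬ N.H t k 1 v := fun k v hk => N.neg t k v hk
  constructor
  · intro h v hv
    have h1 : b = σ t * ((σ t)⁻¹ * b) := by rw [mul_inv_cancel_left]
    rw [h1, N.left] at hv
    have h2 := ge0_mul N h h0 (0 - 1) v (by norm_num)
    rw [one_mul] at h2
    exact h2 hv
  · intro h
    by_contra hc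
    have h1 := N.star G t (G.len b).toNat b 1 hb (by omega) h0 ⟨t, (N.zero t t).2 rfl⟩ ?_
    · obtain ⟨v, hv⟩ := h1
      rw [one_mul] at hv
      exact h v hv
    · intro u hu hH
      rw [N.zero] at hH
      subst hH
      exact hc hu

/-- **Faithfulness.** -/
theorem eq_one (r : A) (hr : ∀ t c v, N.H t 0 (c * r) v ↔ N.H t 0 c v) : r = 1 := by
  obtain ⟨a, ha, b, hb, hab, hd⟩ := G.frac r
  have hba : b = a * r := by rw [hab, mul_inv_cancel_left]
  have key : ∀ t, (σ t)⁻¹ * a ∈ Submonoid.closure (Set.range σ) ↔
      (σ t)⁻¹ * b ∈ Submonoid.closure (Set.range σ) := by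
    intro t
    rw [N.descent_iff G t ha, N.descent_iff G t hb, hba]
    exact forall_congr' fun v => not_congr (hr t a v).symm
  have ha1 : a = 1 := by
    rcases G.eq_one_or ha with h | ⟨u, hu⟩
    · exact h
    · exact absurd ⟨hu, (key u).1 hu⟩ (hd u)
  have hb1 : b = 1 := by
    rcases G.eq_one_or hb with h | ⟨u, hu⟩
    · exact h
    · exact absurd ⟨(key u).2 hu, hu⟩ (hd u)
  rw [hab, ha1, hb1, inv_one, mul_one]

end Num

end Crest.Agent.R175.Stab_591
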