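import Crest.Agent.R175.Num_774

/-!
Row 175 (S0263), STEP 5 of #2667: two `K`-fixed vertices are joined by `K`-fixed vertices.
-/

set_option autoImplicit false
set_option linter.unusedSectionVars false

namespace Crest.Agent.R175.Top5_774

open Crest.GroupTheory Crest.Agent.R175.Num_774

universe u

variable {S : Type u} [Fintype S] {M : CoxeterMatrix S}

/-- the vertices fixed by `K` -/
def Fx (T : Set S) (K : Subgroup (ArtinGroup M)) : Set (S × ArtinGroup M) :=
  {x | ∀ k ∈ K, x.2⁻¹ * k * x.2 ∈ A M (T \ {x.1})}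

/-- `K` fixes `X` -/
def Inv (K : Subgroup (ArtinGroup M)) (X : Pre M) : Prop :=
  ∀ k ∈ K, ∀ s x, X.1 s (k * x) = X.1 s x

variable (N : Num M)

include N in
theorem U_zero {X : Pre M} (hX : X ∈ N.Ob) (T : Set S) : U T X 0 = ∅ := by
  ext x
  simp only [U, Set.mem_ofPred_eq, Set.mem_empty_iff_false, iff_false, Pi.zero_apply]
  rintro ⟨_, _, h⟩
  have := N.d_nonneg X hX x.1 x.2
  linarith

theorem step_le {T : Set S} {X : Pre M} {h h' : S → ℝ} (hs : Step T X h h') (s : S) :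
    h s ≤ h' s := by
  classical
  obtain ⟨t, _, c, hc, rfl, _⟩ := hs
  by_cases hst : s = t
  · subst hst; simpa using hc
  · simp [Function.update_of_ne hst]

theorem U_mono {T : Set S} {X : Pre M} {h h' : S → ℝ} (hs : ∀ s, h s ≤ h' s) :
    U T X h ⊆ U T X h' := fun x hx => ⟨hx.1, hx.2.1, lt_of_lt_of_le hx.2.2 (hs _)⟩

/-- if all the vertices of `W` have type `s`, a joined pair is one vertex -/
theorem joined_const {T : Set S} {W : Set (S × ArtinGroup M)} {s : S} (hW : ∀ x ∈ W, x.1 = s)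
    {x y : S × ArtinGroup M} (hxy : Num_774.Joined T W x y) : x.2⁻¹ * y.2 ∈ A M (T \ {s}) := by
  induction hxy with
  | refl => simpa using (A M (T \ {s})).one_mem
  | @tail y z _ hyz ih =>
    have h1 : y.2⁻¹ * z.2 ∈ A M (T \ {s}) := by
      rcases hyz.2.2 with ⟨h1, h2⟩ | h1
      · rw [← hW y hyz.1]; exact h2
      · rw [h1]; simpa using (A M (T \ {s})).one_mem
    have h2 : x.2⁻¹ * z.2 = (x.2⁻¹ * y.2) * (y.2⁻¹ * z.2) := by group
    rw [h2]
    exact (A M (T \ {s})).mul_mem ih h1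

theorem fx_mul {T : Set S} {K : Subgroup (ArtinGroup M)} {t : S} {r a : ArtinGroup M}
    (hp : (t, r) ∈ Fx T K) (ha : a ∈ A M (T \ {t})) : (t, r * a) ∈ Fx T K := by
  intro k hk
  have h1 : (r * a)⁻¹ * k * (r * a) = a⁻¹ * (r⁻¹ * k * r) * a := by group
  show (r * a)⁻¹ * k * (r * a) ∈ A M (T \ {t})
  rw [h1]
  exact (A M (T \ {t})).mul_mem ((A M (T \ {t})).mul_mem ((A M (T \ {t})).inv_mem ha) (hp k hk)) ha

/-- the first non empty link level is one vertex, so it is fixed -/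
theorem first {T : Set S} (hU : ∀ t ∈ T, UT N (T \ {t})) {X : Pre M} (hX : X ∈ N.Ob)
    {K : Subgroup (ArtinGroup M)} (hK : Inv K X) {t : S} {r : ArtinGroup M} (ht : t ∈ T)
    (hr : r ∈ A M T) (hp : (t, r) ∈ Fx T K) {h : S → ℝ}
    (hh : Relation.ReflTransGen (Step T X) 0 h) :
    h t ≤ X.1 t r → (U (T \ {t}) (shift X r) h).Nonempty →
      ∃ x ∈ U (T \ {t}) (shift X r) h, (x.1, r * x.2) ∈ Fx T K := by
  induction hh with
  | refl =>
    intro _ h2
    rw [U_zero N (N.shift_mem X hX r)] at h2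
    exact absurd h2 Set.not_nonempty_empty
  | @tail h1 h2 _ hst ih =>
    classical
    intro hd hne
    have hle := step_le hst
    by_cases hn : (U (T \ {t}) (shift X r) h1).Nonempty
    · obtain ⟨x, hx, hx'⟩ := ih ((hle t).trans hd) hn
      exact ⟨x, U_mono hle hx, hx'⟩
    · obtain ⟨s, hs, c, hc, he, hcls⟩ := hst
      have hty : ∀ x ∈ U (T \ {t}) (shift X r) h2, x.1 = s := by
        intro x hx
        by_contra hne'
        apply hn
        refine ⟨x, hx.1, hx.2.1, ?_⟩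
        have := hx.2.2
        rw [he, Function.update_of_ne hne'] at this
        exact this
      obtain ⟨x, hx⟩ := hne
      refine ⟨x, hx, ?_⟩
      intro k hk
      have hk' : r⁻¹ * k * r ∈ A M (T \ {t}) := hp k hk
      have hx2 : (x.1, (r⁻¹ * k * r) * x.2) ∈ U (T \ {t}) (shift X r) h2 := by
        refine ⟨hx.1, (A M (T \ {t})).mul_mem hk' hx.2.1, ?_⟩
        have h3 := hx.2.2
        simp only [shift_fst] at h3 ⊢
        have h4 : r * ((r⁻¹ * k * r) * x.2) = k * (r * x.2) := by group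
        rw [h4, hK k hk]
        exact h3
      have h5 := hU t ht (shift X r) (N.shift_mem X hX r) h2 (N.link hX ht hr hcls hd) x hx _ hx2
      have h6 := joined_const hty h5
      have h7 : (r * x.2)⁻¹ * k * (r * x.2) = x.2⁻¹ * ((r⁻¹ * k * r) * x.2) := by group
      show (r * x.2)⁻¹ * k * (r * x.2) ∈ A M (T \ {x.1})
      rw [h7, hty x hx]
      have h8 : (T \ {t}) \ {s} ⊆ T \ {s} := fun _ h => ⟨h.1.1, h.2⟩
      exact A_mono M h8 h6

/-- all fixed vertices of a sublevel are joined by fixed vertices -/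
theorem fixed_conn {T : Set S} (hUT : UT N T) (hU : ∀ t ∈ T, UT N (T \ {t})) {X : Pre M}
    (hX : X ∈ N.Ob) {K : Subgroup (ArtinGroup M)} (hK : Inv K X) {h : S → ℝ}
    (hh : Relation.ReflTransGen (Step T X) 0 h) :
    ∀ p ∈ U T X h ∩ Fx T K, ∀ q ∈ U T X h ∩ Fx T K, Num_774.Joined T (U T X h ∩ Fx T K) p q := by
  induction hh with
  | refl =>
    intro p hp
    have := hp.1
    rw [U_zero N hX] at this
    exact absurd this (Set.notMem_empty _)
  | @tail h1 h2 hh1 hst ih =>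
    have hle := step_le hst
    have hmono : U T X h1 ⊆ U T X h2 := U_mono hle
    -- attached vertices
    have hatt : ∀ p ∈ U T X h2 ∩ Fx T K, (∃ p' ∈ U T X h1 ∩ Fx T K,
        Num_774.Joined T (U T X h2 ∩ Fx T K) p p') ∨
        (¬ p ∈ U T X h1 ∧ ¬ (U (T \ {p.1}) (shift X p.2) h1).Nonempty) := by
      rintro ⟨t, r⟩ ⟨hp, hpF⟩
      by_cases hp1 : (t, r) ∈ U T X h1
      · exact Or.inl ⟨_, ⟨hp1, hpF⟩, Num_774.Joined.refl _⟩
      · by_cases hne : (U (T \ {t}) (shift X r) h1).Nonempty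
        · left
          have hd : h1 t ≤ X.1 t r := by
            by_contra hlt
            exact hp1 ⟨hp.1, hp.2.1, not_le.1 hlt⟩
          obtain ⟨x, hx, hxF⟩ := first N hU hX hK hp.1 hp.2.1 hpF hh1 hd hne
          refine ⟨(x.1, r * x.2), ⟨mem_U_link hp.2.1 hx, hxF⟩, ?_⟩
          have hm : (t, r * x.2) ∈ U T X h2 := by
            refine ⟨hp.1, (A M T).mul_mem hp.2.1 (A_diff_le M t hx.2.1), ?_⟩
            have h3 := N.d_inv X hX t r x.2 (A_diff_compl M t hx.2.1)
            simp only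
            rw [h3]
            exact hp.2.2
          have hmF : (t, r * x.2) ∈ Fx T K := fx_mul hpF hx.2.1
          have hin : r⁻¹ * (r * x.2) ∈ A M (T \ {t}) := by
            rw [inv_mul_cancel_left]
            exact hx.2.1
          have hx2 : (x.1, r * x.2) ∈ U T X h2 := hmono (mem_U_link hp.2.1 hx)
          have j1 : Num_774.Joined T (U T X h2 ∩ Fx T K) (t, r) (t, r * x.2) :=
            Num_774.Joined.single ⟨hp, hpF⟩ ⟨hm, hmF⟩ (Or.inl ⟨rfl, hin⟩)
          have j2 : Num_774.Joined T (U T X h2 ∩ Fx T K) (t, r * x.2) (x.1, r * x.2) :=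
            Num_774.Joined.single ⟨hm, hmF⟩ ⟨hx2, hxF⟩ (Or.inr rfl)
          exact j1.trans j2
        · exact Or.inr ⟨hp1, hne⟩
    -- an isolated vertex is everything
    classical
    have hiso : ∀ p ∈ U T X h2 ∩ Fx T K, (¬ p ∈ U T X h1 ∧
        ¬ (U (T \ {p.1}) (shift X p.2) h1).Nonempty) →
        ∀ q ∈ U T X h2 ∩ Fx T K, Num_774.Joined T (U T X h2 ∩ Fx T K) p q := by
      rintro ⟨t, r⟩ hp ⟨hp1, hne⟩ q hq
      obtain ⟨s, hs, c, hc, he, hcls⟩ := hst
      have hty : ∀ x ∈ U T X h2, x ∉ U T X h1 → x.1 = s := by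
        intro x hx hx1
        by_contra hne'
        apply hx1
        refine ⟨hx.1, hx.2.1, ?_⟩
        have := hx.2.2
        rw [he, Function.update_of_ne hne'] at this
        exact this
      have hts : t = s := hty _ hp.1 hp1
      subst hts
      have hj := hUT X hX h2 hcls _ hp.1 q hq.1
      have key : ∀ z, Num_774.Joined T (U T X h2) (t, r) z → z.1 = t ∧ r⁻¹ * z.2 ∈ A M (T \ {t}) := by
        intro z hz
        induction hz with
        | refl => exact ⟨rfl, by simpa using (A M (T \ {t})).one_mem⟩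
        | @tail y z _ hyz ihz =>
          obtain ⟨hy1, hy2⟩ := ihz
          rcases hyz.2.2 with ⟨h3, h4⟩ | h3
          · refine ⟨h3 ▸ hy1, ?_⟩
            have h5 : r⁻¹ * z.2 = (r⁻¹ * y.2) * (y.2⁻¹ * z.2) := by group
            rw [h5]
            rw [hy1] at h4
            exact (A M (T \ {t})).mul_mem hy2 h4
          · refine ⟨?_, h3 ▸ hy2⟩
            by_contra hzt
            apply hne
            refine ⟨(z.1, r⁻¹ * y.2), ⟨hyz.2.1.1, hzt⟩, hy2, ?_⟩
            have h6 : z ∈ U T X h1 := by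
              by_contra h7
              exact hzt (hty z hyz.2.1 h7)
            have h8 := h6.2.2
            simp only [shift_fst, mul_inv_cancel_left]
            rw [h3]
            exact h8
      obtain ⟨h9, h10⟩ := key q hj
      exact Num_774.Joined.single hp hq (Or.inl ⟨h9.symm, h10⟩)
    intro p hp q hq
    rcases hatt p hp with ⟨p', hp', hpp'⟩ | hp'
    · rcases hatt q hq with ⟨q', hq', hqq'⟩ | hq'
      · exact hpp'.trans (((ih p' hp' q' hq').mono
          (Set.inter_subset_inter_left _ hmono)).trans hqq'.symm)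
      · exact (hiso q hq hq' p hp).symm
    · exact hiso p hp hp' q hq

/-- growth of the chains in the connected non spherical case -/
def Reach (T : Set S) : Prop :=
  ∀ X ∈ N.Ob, ∀ h, Cls T X h → (∃ t ∈ T, 0 < h t) → ∀ B : ℝ,
    ∃ h', Relation.ReflTransGen (Step T X) h h' ∧ ∀ t ∈ T, B < h' t

theorem step_zero {T : Set S} {X : Pre M} (hX : X ∈ N.Ob) {s : S} (hs : s ∈ T) (hl : 0 < X.2 s) :
    ∃ h, Step T X 0 h ∧ 0 < h s := by
  classical
  refine ⟨Function.update 0 s (X.2 s / 4), ⟨s, hs, X.2 s / 4, ?_, ?_, ?_⟩, ?_⟩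
  · simp only [Pi.zero_apply]; positivity
  · congr!
  · intro u hu
    by_cases hus : u = s
    · subst hus
      refine ⟨by simp only [Function.update_self]; positivity, fun _ => ?_⟩
      have h1 : ∀ v, C M u v * ext T (Function.update 0 u (X.2 u / 4)) (fun u => X.1 u 1) v
          ≤ if v = u then X.2 u / 2 else 0 := by
        intro v
        by_cases hv : v = u
        · subst hv
          rw [ext_mem hu, C_self]
          simp only [Function.update_self, if_true]
          linarith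
        · rw [if_neg hv]
          by_cases hvT : v ∈ T
          · rw [ext_mem hvT, Function.update_of_ne hv]
            simp
          · rw [ext_not hvT]
            exact mul_nonpos_of_nonpos_of_nonneg (C_nonpos M (Ne.symm hv)) (N.d_nonneg X hX _ _)
      have h2 := Finset.sum_le_sum (fun v (_ : v ∈ Finset.univ) => h1 v)
      rw [Finset.sum_ite_eq' Finset.univ u, if_pos (Finset.mem_univ u)] at h2
      unfold slk
      linarith
    · refine ⟨by simp [Function.update_of_ne hus], fun h => ?_⟩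
      simp [Function.update_of_ne hus] at h
  · simp only [Function.update_self]; positivity

/-- the connected non spherical case of the intersection theorem -/
theorem int_conn {T : Set S} (hUT : UT N T) (hU : ∀ t ∈ T, UT N (T \ {t})) (hR : Reach N T)
    (hI : ∀ t ∈ T, IntT M (T \ {t})) : IntT M T := by
  intro X hX Y hY g hg
  by_cases hXT : X = T
  · refine ⟨g, hXT ▸ hg, Y, hXT ▸ hY, fun x => ?_⟩
    subst hXT
    constructor
    · rintro ⟨_, h⟩; exact h
    · intro h
      refine ⟨?_, h⟩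
      have h1 := A_mono M hY h
      have h2 : x = g * (g⁻¹ * x * g) * g⁻¹ := by group
      rw [h2]
      exact (A M X).mul_mem ((A M X).mul_mem hg h1) ((A M X).inv_mem hg)
  by_cases hYT : Y = T
  · refine ⟨1, (A M X).one_mem, X, subset_rfl, fun x => ?_⟩
    rw [inv_one, one_mul, mul_one]
    constructor
    · rintro ⟨h, _⟩; exact h
    · intro h
      refine ⟨h, ?_⟩
      rw [hYT]
      exact (A M T).mul_mem ((A M T).mul_mem ((A M T).inv_mem hg) (A_mono M hX h)) hg
  obtain ⟨s, hsT, hsX⟩ : ∃ s ∈ T, s ∉ X := by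
    by_contra hcon
    push Not at hcon
    exact hXT (Set.Subset.antisymm hX hcon)
  obtain ⟨t₀, htT, htY⟩ : ∃ s ∈ T, s ∉ Y := by
    by_contra hcon
    push Not at hcon
    exact hYT (Set.Subset.antisymm hY hcon)
  have hX' : X ⊆ T \ {s} := fun x hx => ⟨hX hx, fun h => hsX (h ▸ hx)⟩
  have hY' : Y ⊆ T \ {t₀} := fun x hx => ⟨hY hx, fun h => htY (h ▸ hx)⟩
  obtain ⟨E, hE, hEg, hlam⟩ := N.single s
  set K : Subgroup (ArtinGroup M) :=
    A M (T \ {s}) ⊓ (A M Y).comap (MulAut.conj g⁻¹).toMonoidHom with hKdef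
  have hKmem : ∀ k, k ∈ K ↔ k ∈ A M (T \ {s}) ∧ g⁻¹ * k * g ∈ A M Y := by
    intro k
    rw [hKdef, Subgroup.mem_inf, Subgroup.mem_comap]
    simp
  have hKinv : Inv K E := by
    intro k hk s' x
    rw [hEg, hEg]
    exact N.g_left s s' x k (A_diff_compl M s ((hKmem k).1 hk).1)
  have hp : (t₀, g) ∈ Fx T K := fun k hk => A_mono M hY' ((hKmem k).1 hk).2
  have hq : (s, (1 : ArtinGroup M)) ∈ Fx T K := by
    intro k hk
    simpa using ((hKmem k).1 hk).1
  obtain ⟨h0, hst, hpos⟩ := step_zero N hE hsT hlam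
  have hcls0 : Cls T E h0 := by
    obtain ⟨_, _, _, _, _, h⟩ := hst
    exact h
  obtain ⟨h', hch, hB⟩ := hR E hE h0 hcls0 ⟨s, hsT, hpos⟩ (max (E.1 t₀ g) (E.1 s 1))
  have hj := fixed_conn N hUT hU hE hKinv (Relation.ReflTransGen.head hst hch) (t₀, g)
    ⟨⟨htT, hg, lt_of_le_of_lt (le_max_left _ _) (hB t₀ htT)⟩, hp⟩ (s, 1)
    ⟨⟨hsT, (A M T).one_mem, lt_of_le_of_lt (le_max_right _ _) (hB s hsT)⟩, hq⟩
  have key : ∀ z, Num_774.Joined T (U T E h' ∩ Fx T K) (t₀, g) z →
      ∃ a ∈ A M (T \ {z.1}), ∃ Z ⊆ T \ {z.1}, (∀ k ∈ K, a⁻¹ * (z.2⁻¹ * k * z.2) * a ∈ A M Z) ∧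
        (∀ k, a⁻¹ * (z.2⁻¹ * k * z.2) * a ∈ A M Z → g⁻¹ * k * g ∈ A M Y) := by
    intro z hz
    induction hz with
    | refl =>
      refine ⟨1, (A M _).one_mem, Y, hY', ?_, ?_⟩
      · intro k hk
        simpa using ((hKmem k).1 hk).2
      · intro k hk
        simpa using hk
    | @tail y z _ hyz ih =>
      obtain ⟨a, ha, Z, hZ, h1, h2⟩ := ih
      obtain ⟨⟨hyU, hyF⟩, ⟨hzU, hzF⟩, hadj⟩ := hyz
      have same : y.1 = z.1 → y.2⁻¹ * z.2 ∈ A M (T \ {y.1}) →
          ∃ a ∈ A M (T \ {z.1}), ∃ Z ⊆ T \ {z.1},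
            (∀ k ∈ K, a⁻¹ * (z.2⁻¹ * k * z.2) * a ∈ A M Z) ∧
            (∀ k, a⁻¹ * (z.2⁻¹ * k * z.2) * a ∈ A M Z → g⁻¹ * k * g ∈ A M Y) := by
        intro h3 h4
        have h5 : ∀ k, ((y.2⁻¹ * z.2)⁻¹ * a)⁻¹ * (z.2⁻¹ * k * z.2) * ((y.2⁻¹ * z.2)⁻¹ * a)
            = a⁻¹ * (y.2⁻¹ * k * y.2) * a := fun k => by group
        refine ⟨(y.2⁻¹ * z.2)⁻¹ * a, ?_, Z, h3 ▸ hZ, ?_, ?_⟩
        · rw [← h3]
          exact (A M _).mul_mem ((A M _).inv_mem h4) ha
        · intro k hk; rw [h5]; exact h1 k hk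
        · intro k hk; rw [h5] at hk; exact h2 k hk
      rcases hadj with ⟨h3, h4⟩ | h3
      · exact same h3 h4
      · by_cases h4 : y.1 = z.1
        · apply same h4
          rw [h3]; simp
        · have hW : (T \ {y.1}) \ {z.1} ⊆ T \ {y.1} := Set.sdiff_subset
          have hW' : (T \ {y.1}) \ {z.1} ⊆ T \ {z.1} := fun x hx => ⟨hx.1.1, hx.2⟩
          obtain ⟨b, hb, Z', hZ', hI'⟩ := hI y.1 hyU.1 _ hW Z hZ a ha
          refine ⟨b, A_mono M hW' hb, Z', hZ'.trans hW', ?_, ?_⟩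
          · intro k hk
            rw [← hI' (z.2⁻¹ * k * z.2)]
            have h5 := h1 k hk
            rw [h3] at h5
            refine ⟨?_, h5⟩
            have h6 : z.2⁻¹ * k * z.2 ∈ A M (T \ {y.1}) := by
              have h7 : z.2⁻¹ * k * z.2 = a * (a⁻¹ * (z.2⁻¹ * k * z.2) * a) * a⁻¹ := by group
              rw [h7]
              exact (A M _).mul_mem ((A M _).mul_mem ha (A_mono M hZ h5)) ((A M _).inv_mem ha)
            have h8 : z.2⁻¹ * k * z.2 ∈ A M (T \ {z.1}) := hzF k hk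
            have h9 : z.2⁻¹ * k * z.2 ∈ A M (T \ {y.1}) ⊓ A M (T \ {z.1}) := ⟨h6, h8⟩
            rw [VdL_527.std_inf] at h9
            exact A_mono M (fun x hx => ⟨hx.1, hx.2.2⟩ :
              (T \ {y.1}) ∩ (T \ {z.1}) ⊆ (T \ {y.1}) \ {z.1}) h9
          · intro k hk
            have h5 := ((hI' (z.2⁻¹ * k * z.2)).2 hk).2
            rw [← h3] at h5
            exact h2 k h5
  obtain ⟨a, ha, Z, hZ, h1, h2⟩ := key _ hj
  obtain ⟨b, hb, Z', hZ', hI'⟩ := hI s hsT X hX' Z hZ a ha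
  refine ⟨b, hb, Z', hZ', fun x => ?_⟩
  rw [← hI' x]
  simp only [inv_one, one_mul, mul_one] at h1 h2
  constructor
  · rintro ⟨h3, h4⟩
    exact ⟨h3, h1 x ((hKmem x).2 ⟨A_mono M hX' h3, h4⟩)⟩
  · rintro ⟨h3, h4⟩
    exact ⟨h3, h2 x h4⟩

end Crest.Agent.R175.Top5_774
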