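import Crest.Agent.R175.Num_774
import Crest.Agent.R175.Pos2_418

/-!
Row 175 (S0263), TOP part over numbers, (B) of #2667 (helper224): `UT N T` for `C_T` positive
definite (helper505).
-/

set_option autoImplicit false
set_option linter.unusedSectionVars false
set_option linter.deprecated false

namespace Crest.Agent.R175.TopB_505

open Crest.GroupTheory Crest.Agent.R175.Num_774

universe u

variable {S : Type u} [Fintype S] {M : CoxeterMatrix S}

/-- `a > 0` on `T` with `C_T a = 1` -/
theorem exists_pos (T : Set S) (hT : PD M T) :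
    ∃ a : S → ℝ, (∀ s ∈ T, 0 < a s) ∧ (∀ s, s ∉ T → a s = 0) ∧
      ∀ s ∈ T, ∑ u, C M s u * a u = 1 := by
  classical
  let e : (T → ℝ) → S → ℝ := fun x u => if hu : u ∈ T then x ⟨u, hu⟩ else 0
  have he : ∀ (x : T → ℝ) (u : T), e x u.1 = x u := fun x u => by simp [e]
  have he0 : ∀ (x : T → ℝ) (u : S), u ∉ T → e x u = 0 := fun x u hu => by simp [e, hu]
  have hsum : ∀ f : S → ℝ, (∀ s, s ∉ T → f s = 0) → ∑ s, f s = ∑ s : T, f s.1 := by
    intro f hf
    rw [← Finset.sum_filter_add_sum_filter_not (s := Finset.univ) (p := fun s => s ∈ T)]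
    rw [Finset.sum_eq_zero (s := Finset.univ.filter (fun s => ¬ s ∈ T))
      (fun x hx => hf x (Finset.mem_filter.1 hx).2), add_zero]
    exact Finset.sum_subtype _ (fun x => by simp) f
  have hpd : Pos_418.PDm (fun s t : T => C M s.1 t.1) := by
    intro x hx
    have h1 := hT (e x) (he0 x) (fun h => hx (by
      funext u
      rw [← he x u, h]
      rfl))
    rw [hsum _ (fun s hs => by simp [he0 x s hs])] at h1
    have h2 : ∀ s : T, ∑ t, C M s.1 t * e x s.1 * e x t = ∑ t : T, x s * x t * C M s.1 t.1 := by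
      intro s
      rw [hsum _ (fun t ht => by simp [he0 x t ht])]
      apply Finset.sum_congr rfl
      intro t _
      rw [he, he]; ring
    simp only [h2] at h1
    exact h1
  obtain ⟨b, hb, hb1⟩ := Pos_418.exists_pos_mv_eq_one hpd
    (fun s t hst => C_nonpos M (fun h => hst (Subtype.ext h)))
  refine ⟨e b, fun s hs => ?_, he0 b, fun s hs => ?_⟩
  · rw [he b ⟨s, hs⟩]; exact hb _
  · rw [hsum _ (fun t ht => by simp [he0 b t ht])]
    rw [← hb1 ⟨s, hs⟩]
    unfold Pos_418.mv
    apply Finset.sum_congr rfl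
    intro t _
    rw [he]

/-- raising other coordinates, lowering the coordinate `s` -/
theorem slk_mono {T : Set S} {X : Pre M} {h1 h2 : S → ℝ} {s : S} (hs : s ∈ T)
    (h : ∀ u ∈ T, u ≠ s → h1 u ≤ h2 u) :
    slk T X h1 s + 2 * (h1 s - h2 s) ≤ slk T X h2 s := by
  classical
  unfold slk
  have h3 : ∀ u, C M s u * ext T h2 (fun u => X.1 u 1) u
      ≤ C M s u * ext T h1 (fun u => X.1 u 1) u
        + if u = s then 2 * (h2 s - h1 s) else 0 := by
    intro u
    by_cases hus : u = s
    · subst hus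
      rw [ext_mem hs, ext_mem hs, if_pos rfl, C_self]
      linarith
    · rw [if_neg hus, add_zero]
      by_cases hu : u ∈ T
      · rw [ext_mem hu, ext_mem hu]
        exact mul_le_mul_of_nonpos_left (h u hu hus) (C_nonpos M (Ne.symm hus))
      · rw [ext_not hu, ext_not hu]
  have h4 := Finset.sum_le_sum (fun u (_ : u ∈ Finset.univ) => h3 u)
  rw [Finset.sum_add_distrib] at h4
  simp only [Finset.sum_ite_eq', Finset.mem_univ, if_true] at h4
  linarith

/-- adding a multiple of a vector supported on `T` -/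
theorem slk_sub {T : Set S} {X : Pre M} {h a : S → ℝ} (ha : ∀ u, u ∉ T → a u = 0) (x : ℝ)
    (s : S) :
    slk T X (fun u => h u - x * a u) s = slk T X h s + x * ∑ u, C M s u * a u := by
  classical
  unfold slk
  have h3 : ∀ u, C M s u * ext T (fun u => h u - x * a u) (fun u => X.1 u 1) u
      = C M s u * ext T h (fun u => X.1 u 1) u - x * (C M s u * a u) := by
    intro u
    by_cases hu : u ∈ T
    · rw [ext_mem hu, ext_mem hu]; ring
    · rw [ext_not hu, ext_not hu, ha u hu]; ring
  rw [Finset.sum_congr rfl (fun u _ => h3 u), Finset.sum_sub_distrib, ← Finset.mul_sum]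
  ring

theorem slk_nonneg (N : Num M) {T : Set S} {X : Pre M} (hX : X ∈ N.Ob) {h : S → ℝ}
    (hc : Cls T X h) {s : S} (hs : s ∈ T) : 0 ≤ slk T X h s := by
  rcases eq_or_lt_of_le (hc s hs).1 with h0 | h0
  · unfold slk
    have h1 : ∑ u, C M s u * ext T h (fun u => X.1 u 1) u ≤ 0 := by
      apply Finset.sum_nonpos
      intro u _
      by_cases hus : u = s
      · subst hus
        rw [ext_mem hs, ← h0]; simp
      · apply mul_nonpos_of_nonpos_of_nonneg (C_nonpos M (Ne.symm hus))
        by_cases hu : u ∈ T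
        · rw [ext_mem hu]; exact (hc u hu).1
        · rw [ext_not hu]; exact N.d_nonneg X hX u 1
    have := N.lam_nonneg X hX s
    linarith
  · exact ((hc s hs).2 h0).le

/-- one step: one coordinate is raised -/
def Step (T : Set S) (X : Pre M) (h h' : S → ℝ) : Prop :=
  Cls T X h ∧ Cls T X h' ∧ ∃ t ∈ T, h t ≤ h' t ∧ ∀ s, s ≠ t → h' s = h s

/-- the vectors of one round of the chain are in the class -/
theorem cls_round {T : Set S} {X : Pre M} {h a : S → ℝ}
    (ha : ∀ s ∈ T, 0 < a s) (ha0 : ∀ s, s ∉ T → a s = 0)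
    (ha1 : ∀ s ∈ T, ∑ u, C M s u * a u = 1) {x δ : ℝ} (hx : 0 ≤ x) (hδ : 0 < δ)
    (hsm : ∀ s ∈ T, 0 < h s → 2 * δ * a s < slk T X h s) {f : S → ℝ}
    (hf : ∀ s ∈ T, f s = max (h s - x * a s) 0 ∨ f s = max (h s - (x + δ) * a s) 0) :
    Cls T X f := by
  intro s hs
  have h0 : 0 ≤ f s := by
    rcases hf s hs with h1 | h1
    · rw [h1]; exact le_max_right _ _
    · rw [h1]; exact le_max_right _ _
  refine ⟨h0, fun h1 => ?_⟩
  have hmem : ∀ u ∈ T, u ≠ s → h u - (x + δ) * a u ≤ f u := by
    intro u hu _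
    rcases hf u hu with h2 | h2
    · rw [h2]
      refine le_trans ?_ (le_max_left _ _)
      have := mul_pos hδ (ha u hu)
      nlinarith
    · rw [h2]; exact le_max_left _ _
  have h3 := slk_mono (X := X) hs hmem
  have h4 := slk_sub (M := M) (T := T) (X := X) (h := h) ha0 (x + δ) s
  rw [h4, ha1 s hs] at h3
  have hlow : f s ≤ h s - x * a s := by
    rcases hf s hs with h2 | h2
    · rw [h2]
      rw [h2] at h1
      rcases max_cases (h s - x * a s) 0 with h5 | h5
      · linarith
      · linarith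
    · rw [h2]
      rw [h2] at h1
      have := mul_pos hδ (ha s hs)
      rcases max_cases (h s - (x + δ) * a s) 0 with h5 | h5
      · nlinarith
      · linarith
  have h6 : 0 < h s := by
    have := mul_nonneg hx (ha s hs).le
    linarith
  have h7 := hsm s hs h6
  nlinarith

open Classical in
/-- one round of the chain -/
theorem round {T : Set S} {X : Pre M} {h a : S → ℝ}
    (ha : ∀ s ∈ T, 0 < a s) (ha0 : ∀ s, s ∉ T → a s = 0)
    (ha1 : ∀ s ∈ T, ∑ u, C M s u * a u = 1) {x δ : ℝ} (hx : 0 ≤ x) (hδ : 0 < δ)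
    (hsm : ∀ s ∈ T, 0 < h s → 2 * δ * a s < slk T X h s) :
    Relation.ReflTransGen (Step T X)
      (fun s => if s ∈ T then max (h s - (x + δ) * a s) 0 else h s)
      (fun s => if s ∈ T then max (h s - x * a s) 0 else h s) := by
  -- the intermediate vectors
  let m : Finset S → S → ℝ := fun F s =>
    if s ∈ T then (if s ∈ F then max (h s - x * a s) 0 else max (h s - (x + δ) * a s) 0) else h s
  have hm : ∀ F, Cls T X (m F) := by
    intro F
    apply cls_round ha ha0 ha1 hx hδ hsm
    intro s hs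
    simp only [m, if_pos hs]
    by_cases h1 : s ∈ F
    · rw [if_pos h1]; exact Or.inl rfl
    · rw [if_neg h1]; exact Or.inr rfl
  have key : ∀ F : Finset S, Relation.ReflTransGen (Step T X) (m ∅) (m F) := by
    intro F
    induction F using Finset.induction_on with
    | empty => exact Relation.ReflTransGen.refl
    | insert t F ht ih =>
      by_cases htT : t ∈ T
      · refine ih.tail ⟨hm F, hm _, t, htT, ?_, ?_⟩
        · simp only [m, if_pos htT, if_neg ht, Finset.mem_insert_self, if_true]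
          apply max_le_max _ le_rfl
          have := mul_pos hδ (ha t htT)
          nlinarith
        · intro s hst
          simp only [m, Finset.mem_insert, hst, false_or]
      · have : m (insert t F) = m F := by
          funext s
          by_cases hsT : s ∈ T
          · have : s ≠ t := fun h => htT (h ▸ hsT)
            simp only [m, Finset.mem_insert, this, false_or]
          · simp only [m, if_neg hsT]
        rw [this]; exact ih
  have h1 := key Finset.univ
  have e1 : m ∅ = (fun s => if s ∈ T then max (h s - (x + δ) * a s) 0 else h s) := by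
    funext s; simp [m]
  have e2 : m Finset.univ = (fun s => if s ∈ T then max (h s - x * a s) 0 else h s) := by
    funext s; simp [m]
  rw [e1, e2] at h1
  exact h1

open Classical in
/-- the chain from `0` to `h` -/
theorem chain {T : Set S} (hT : PD M T) {X : Pre M} {h : S → ℝ} (hc : Cls T X h) :
    Relation.ReflTransGen (Step T X) (fun s => if s ∈ T then 0 else h s) h := by
  obtain ⟨a, ha, ha0, ha1⟩ := exists_pos T hT
  -- small step
  obtain ⟨δ, hδ, hsm⟩ : ∃ δ : ℝ, 0 < δ ∧ ∀ s ∈ T, 0 < h s → 2 * δ * a s < slk T X h s := by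
    have : ∀ s : S, ∃ δ : ℝ, 0 < δ ∧ ∀ δ', 0 < δ' → δ' ≤ δ → s ∈ T → 0 < h s →
        2 * δ' * a s < slk T X h s := by
      intro s
      by_cases hs : s ∈ T ∧ 0 < h s
      · have h1 := (hc s hs.1).2 hs.2
        have h2 := ha s hs.1
        refine ⟨slk T X h s / (4 * a s), by positivity, fun δ' h3 h4 _ _ => ?_⟩
        have h5 : 2 * δ' * a s ≤ 2 * (slk T X h s / (4 * a s)) * a s := by
          have := mul_le_mul_of_nonneg_right h4 h2.le
          linarith
        have h6 : 2 * (slk T X h s / (4 * a s)) * a s = slk T X h s / 2 := by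
          field_simp; norm_num
        linarith
      · exact ⟨1, one_pos, fun _ _ _ h1 h2 => absurd ⟨h1, h2⟩ hs⟩
    choose δ hδ h1 using this
    by_cases hne : Nonempty S
    · have hpos : 0 < Finset.univ.inf' Finset.univ_nonempty δ := by
        rw [Finset.lt_inf'_iff]; exact fun s _ => hδ s
      exact ⟨_, hpos, fun s hs hs' =>
        h1 s _ hpos (Finset.inf'_le _ (Finset.mem_univ s)) hs hs'⟩
    · exact ⟨1, one_pos, fun s _ _ => absurd ⟨s⟩ hne⟩
  -- induction on the number of rounds
  have key : ∀ n : ℕ, Relation.ReflTransGen (Step T X)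
      (fun s => if s ∈ T then max (h s - (n * δ) * a s) 0 else h s) h := by
    intro n
    induction n with
    | zero =>
      have : (fun s => if s ∈ T then max (h s - (((0 : ℕ) : ℝ) * δ) * a s) 0 else h s) = h := by
        funext s
        by_cases hs : s ∈ T
        · rw [if_pos hs]; simp [(hc s hs).1]
        · rw [if_neg hs]
      rw [this]
    | succ n ih =>
      have h1 := round ha ha0 ha1 (x := n * δ) (by positivity) hδ hsm
      have e : ((n + 1 : ℕ) : ℝ) * δ = n * δ + δ := by push_cast; ring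
      rw [e]
      exact h1.trans ih
  -- many rounds
  obtain ⟨n, hn⟩ : ∃ n : ℕ, ∀ s ∈ T, h s ≤ (n * δ) * a s := by
    have : ∀ s : S, ∃ n : ℕ, ∀ m : ℕ, n ≤ m → s ∈ T → h s ≤ (m * δ) * a s := by
      intro s
      by_cases hs : s ∈ T
      · obtain ⟨n, hn⟩ := exists_nat_ge (h s / (δ * a s))
        refine ⟨n, fun m hm _ => ?_⟩
        have h2 := mul_pos hδ (ha s hs)
        rw [div_le_iff₀ h2] at hn
        have h3 : (n : ℝ) ≤ m := by exact_mod_cast hm
        nlinarith
      · exact ⟨0, fun _ _ h1 => absurd h1 hs⟩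
    choose n hn using this
    exact ⟨Finset.univ.sup n, fun s hs => hn s _ (Finset.le_sup (Finset.mem_univ s)) hs⟩
  have h1 := key n
  have e : (fun s => if s ∈ T then max (h s - (n * δ) * a s) 0 else h s)
      = (fun s => if s ∈ T then 0 else h s) := by
    funext s
    by_cases hs : s ∈ T
    · rw [if_pos hs, if_pos hs, max_eq_right]
      linarith [hn s hs]
    · rw [if_neg hs, if_neg hs]
  rw [e] at h1
  exact h1

/-- the birth inequality: a new vertex with empty link -/
theorem birth (N : Num M) {T : Set S} (hT : PD M T) {X : Pre M} (hX : X ∈ N.Ob) {h h' : S → ℝ}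
    (hc : Cls T X h) (hc' : Cls T X h') {t : S} (ht : t ∈ T) (heq : ∀ s, s ≠ t → h' s = h s)
    {r : ArtinGroup M} (hr : r ∈ A M T) (h1 : h t ≤ X.1 t r) (h2 : X.1 t r < h' t)
    (hlk : ∀ s ∈ T, s ≠ t → ∀ b ∈ A M (T \ {t}), h s ≤ X.1 s (r * b)) :
    ∃ c : ℝ, 0 < c ∧ (∀ s ∈ T, ∀ b ∈ A M T, h s ≤ X.1 s (r * b)) ∧
      ∀ b ∈ A M T, X.1 t r + c * N.g t t b ≤ X.1 t (r * b) := by
  classical
  set hv : S → ℝ := Function.update h t (X.1 t r) with hvd
  have hvt : hv t = X.1 t r := by simp [hvd]
  have hvs : ∀ s, s ≠ t → hv s = h s := fun s hs => by simp [hvd, hs]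
  have hd0 : 0 ≤ X.1 t r := N.d_nonneg X hX t r
  have h3 : 0 < slk T X h' t := (hc' t ht).2 (lt_of_le_of_lt hd0 h2)
  have h4 : 0 < slk T X hv t := by
    have := slk_mono (X := X) (h1 := h') (h2 := hv) ht (fun u _ hu => by
      rw [hvs u hu, heq u hu])
    rw [hvt] at this
    linarith
  have hK := N.K T hT t ht (shift X r) (N.shift_mem X hX r) hv
    (fun s hs => by
      by_cases hst : s = t
      · rw [hst, hvt]; exact hd0
      · rw [hvs s hst]; exact (hc s hs).1)
    (by rw [hvt]; simp)
    (fun s hs hst b hb => by rw [hvs s hst]; exact hlk s hs hst b hb)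
    (fun s hs hst => by
      rw [N.slk_shift hX hr]
      have h5 := slk_mono (X := X) (h1 := h) (h2 := hv) hs (fun u _ _ => by
        by_cases hut : u = t
        · rw [hut, hvt]; exact h1
        · rw [hvs u hut])
      rw [hvs s hst] at h5
      have := slk_nonneg N hX hc hs
      linarith)
  rw [N.slk_shift hX hr] at hK
  refine ⟨slk T X hv t, h4, fun s hs b hb => ?_, fun b hb => ?_⟩
  · have h5 := hK s hs b hb
    have h6 := mul_nonneg h4.le (N.g_nonneg t s b)
    simp only [shift_fst] at h5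
    have h7 : h s ≤ hv s := by
      by_cases hst : s = t
      · rw [hst, hvt]; exact h1
      · rw [hvs s hst]
    linarith
  · have h5 := hK t ht b hb
    rw [hvt] at h5
    exact h5

/-- connectedness of a sublevel -/
def Conn (T : Set S) (X : Pre M) (h : S → ℝ) : Prop :=
  ∀ p ∈ U T X h, ∀ q ∈ U T X h, Joined T (U T X h) p q

theorem conn_step (N : Num M) {T : Set S} (hT : PD M T) {X : Pre M} (hX : X ∈ N.Ob)
    {h h' : S → ℝ} (hs : Step T X h h') (hC : Conn T X h) : Conn T X h' := by
  classical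
  obtain ⟨hc, hc', t, ht, hle, heq⟩ := hs
  have hsub : U T X h ⊆ U T X h' := by
    rintro x ⟨h1, h2, h3⟩
    refine ⟨h1, h2, lt_of_lt_of_le h3 ?_⟩
    by_cases hx : x.1 = t
    · rw [hx]; exact hle
    · rw [heq _ hx]
  -- attached or born
  have hdich : ∀ p ∈ U T X h', (∃ p0 ∈ U T X h, Joined T (U T X h') p p0) ∨
      (p.1 = t ∧ h t ≤ X.1 t p.2 ∧
        ∀ s ∈ T, s ≠ t → ∀ b ∈ A M (T \ {t}), h s ≤ X.1 s (p.2 * b)) := by
    rintro ⟨s, r⟩ hp
    by_cases hin : (s, r) ∈ U T X h
    · exact Or.inl ⟨_, hin, Relation.ReflTransGen.refl⟩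
    · have hst : s = t := by
        by_contra hst
        apply hin
        refine ⟨hp.1, hp.2.1, ?_⟩
        have := hp.2.2
        simp only at this
        rw [heq s hst] at this
        exact this
      subst hst
      have h1 : h s ≤ X.1 s r := by
        by_contra h1
        exact hin ⟨hp.1, hp.2.1, not_le.1 h1⟩
      by_cases hlk : ∀ u ∈ T, u ≠ s → ∀ b ∈ A M (T \ {s}), h u ≤ X.1 u (r * b)
      · exact Or.inr ⟨rfl, h1, hlk⟩
      · left
        push Not at hlk
        obtain ⟨u, hu, hus, b, hb, hlt⟩ := hlk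
        have hmem : (u, r * b) ∈ U T X h :=
          ⟨hu, (A M T).mul_mem hp.2.1 (A_diff_le M s hb), hlt⟩
        refine ⟨_, hmem, ?_⟩
        have hsb : (s, r * b) ∈ U T X h' := by
          refine ⟨hp.1, (A M T).mul_mem hp.2.1 (A_diff_le M s hb), ?_⟩
          have h3 := N.d_inv X hX s r b (A_diff_compl M s hb)
          show X.1 s (r * b) < h' s
          rw [h3]; exact hp.2.2
        refine (Joined.single hp hsb (Or.inl ⟨rfl, ?_⟩)).trans
          (Joined.single hsb (hsub hmem) (Or.inr rfl))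
        simpa using hb
  -- a born vertex makes `U h` empty
  have hempty : ∀ p ∈ U T X h', (p.1 = t ∧ h t ≤ X.1 t p.2 ∧
        ∀ s ∈ T, s ≠ t → ∀ b ∈ A M (T \ {t}), h s ≤ X.1 s (p.2 * b)) →
      (∀ y, y ∉ U T X h) ∧ ∃ c : ℝ, 0 < c ∧
        ∀ b ∈ A M T, X.1 t p.2 + c * N.g t t b ≤ X.1 t (p.2 * b) := by
    rintro ⟨s, r⟩ hp ⟨h1, h2, h3⟩
    simp only at h1
    subst h1
    obtain ⟨c, hc0, h4, h5⟩ := birth N hT hX hc hc' ht heq hp.2.1 h2 hp.2.2 h3
    refine ⟨fun y hy => ?_, c, hc0, h5⟩
    have h6 := h4 y.1 hy.1 (r⁻¹ * y.2) ((A M T).mul_mem ((A M T).inv_mem hp.2.1) hy.2.1)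
    rw [mul_inv_cancel_left] at h6
    exact absurd hy.2.2 (not_lt.2 h6)
  intro p hp q hq
  rcases hdich p hp with ⟨p0, hp0, hpj⟩ | hpb
  · rcases hdich q hq with ⟨q0, hq0, hqj⟩ | hqb
    · exact (hpj.trans ((hC p0 hp0 q0 hq0).mono hsub)).trans hqj.symm
    · exact absurd hp0 ((hempty q hq hqb).1 p0)
  · rcases hdich q hq with ⟨q0, hq0, hqj⟩ | hqb
    · exact absurd hq0 ((hempty p hp hpb).1 q0)
    · obtain ⟨_, c, hc0, h5⟩ := hempty p hp hpb
      obtain ⟨_, c', hc0', h5'⟩ := hempty q hq hqb
      have hpT := hp.2.1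
      have hqT := hq.2.1
      have h6 := h5 (p.2⁻¹ * q.2) ((A M T).mul_mem ((A M T).inv_mem hpT) hqT)
      have h7 := h5' (q.2⁻¹ * p.2) ((A M T).mul_mem ((A M T).inv_mem hqT) hpT)
      rw [mul_inv_cancel_left] at h6 h7
      have h8 := mul_nonneg hc0'.le (N.g_nonneg t t (q.2⁻¹ * p.2))
      have h9 := N.g_nonneg t t (p.2⁻¹ * q.2)
      have h10 : N.g t t (p.2⁻¹ * q.2) = 0 := by
        have : c * N.g t t (p.2⁻¹ * q.2) ≤ 0 := by linarith
        nlinarith
      have h11 := N.Z T hT t ht _ ((A M T).mul_mem ((A M T).inv_mem hpT) hqT) h10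
      apply Joined.single hp hq
      left
      exact ⟨hpb.1.trans hqb.1.symm, by rw [hpb.1]; exact h11⟩

/-- **(B) of #2667**: the sublevels are connected if `C_T` is positive definite -/
theorem UT_of_PD (N : Num M) {T : Set S} (hT : PD M T) : UT N T := by
  classical
  intro X hX h hc
  have h1 := chain hT hc
  have h0 : Conn T X (fun s => if s ∈ T then 0 else h s) := by
    rintro p ⟨h2, _, h3⟩
    simp only [if_pos h2] at h3
    exact absurd (N.d_nonneg X hX p.1 p.2) (not_le.2 h3)
  have key : ∀ h' : S → ℝ, Relation.ReflTransGen (Step T X) (fun s => if s ∈ T then 0 else h s) h' →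
      Conn T X h' := by
    intro h' h1
    induction h1 with
    | refl => exact h0
    | tail _ hs ih => exact conn_step N hT hX hs ih
  exact key h h1

end Crest.Agent.R175.TopB_505
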