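import Mathlib

/-!
Row 175 (S0263), helper460: (B) of post #2667 (helper224), the spherical case of Theorem `U_T`, in
abstract form: `V` the vertices of `CA_T`, `ty` their types, `d v` the number `d_{ty v}(v; Z)`,
`g v w = g(v, w)`, `lk v w` : `w` lies in the link of `v`, `J h p q` : `p, q` are joined inside
`U(h) = {v | d v < h (ty v)}`.
-/

set_option autoImplicit false

open Finset

namespace Crest.Agent.R175.USph_460

variable {ι : Type*} [Fintype ι] [DecidableEq ι]

/-- `Cls_T(Z, h)`. -/
def Cls (C : ι → ι → ℝ) (lam : ι → ℝ) (h : ι → ℝ) : Prop :=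
  ∀ s, 0 ≤ h s ∧ (0 < h s → ∑ u, C s u * h u < lam s)

/-- The abstract data of (B). -/
structure Dat (C : ι → ι → ℝ) (lam : ι → ℝ) {V : Type*} (ty : V → ι) (d : V → ℝ) (g : V → V → ℝ)
    (lk : V → V → Prop) (J : (ι → ℝ) → V → V → Prop) : Prop where
  cdiag : ∀ s, 0 ≤ C s s
  coff : ∀ s u, s ≠ u → C s u ≤ 0
  lam0 : ∀ s, 0 ≤ lam s
  d0 : ∀ v, 0 ≤ d v
  g0 : ∀ v w, 0 ≤ g v w
  lkty : ∀ v w, lk v w → ty w ≠ ty v
  Jsymm : ∀ h p q, J h p q → J h q p
  Jtrans : ∀ h p q r, J h p q → J h q r → J h p r
  Jmono : ∀ h h' p q, (∀ s, h s ≤ h' s) → J h p q → J h' p q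
  Jlk : ∀ h v w, lk v w → d v < h (ty v) → d w < h (ty w) → J h v w
  Jz : ∀ h v w, ty v = ty w → g v w = 0 → d v < h (ty v) → d w < h (ty w) → J h v w
  K : ∀ (v : V) (h : ι → ℝ), (∀ s, 0 ≤ h s) → h (ty v) = d v → (∀ w, lk v w → h (ty w) ≤ d w) →
    (∀ s, s ≠ ty v → ∑ u, C s u * h u ≤ lam s) →
      ∀ w, h (ty w) + (lam (ty v) - ∑ u, C (ty v) u * h u) * g v w ≤ d w

variable {C : ι → ι → ℝ} {lam : ι → ℝ} {V : Type*} {ty : V → ι} {d : V → ℝ} {g : V → V → ℝ}
  {lk : V → V → Prop} {J : (ι → ℝ) → V → V → Prop}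

/-- `U(h)` is empty or connected. -/
def Good (ty : V → ι) (d : V → ℝ) (J : (ι → ℝ) → V → V → Prop) (h : ι → ℝ) : Prop :=
  ∀ p q, d p < h (ty p) → d q < h (ty q) → J h p q

/-- Raising one coordinate inside `Cls`. -/
theorem good_update (D : Dat C lam ty d g lk J) {h : ι → ℝ} {t : ι} {y : ℝ} (hy : h t ≤ y)
    (hc : Cls C lam h) (hc' : Cls C lam (Function.update h t y)) (hg : Good ty d J h) :
    Good ty d J (Function.update h t y) := by
  classical
  set h' := Function.update h t y with hh'
  have hle : ∀ s, h s ≤ h' s := by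
    intro s
    by_cases hs : s = t
    · subst hs; simp [hh', hy]
    · simp [hh', hs]
  have hne : ∀ s, s ≠ t → h' s = h s := fun s hs => by simp [hh', hs]
  -- a vertex of `U(h')` outside `U(h)` has type `t`
  have htyp : ∀ v, d v < h' (ty v) → ¬ d v < h (ty v) → ty v = t := by
    intro v hv hv'
    by_contra hne'
    rw [hne _ hne'] at hv
    exact hv' hv
  -- the birth inequality
  have birth : ∀ v, d v < h' (ty v) → ¬ d v < h (ty v) → (∀ w, lk v w → h (ty w) ≤ d w) →
      ∃ c : ℝ, 0 < c ∧ ∀ w, Function.update h t (d v) (ty w) + c * g v w ≤ d w := by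
    intro v hv hv' hl
    have ht := htyp v hv hv'
    have hdv : h t ≤ d v := by rw [ht] at hv'; exact not_lt.1 hv'
    have hdv' : d v < h' t := by rw [ht] at hv; exact hv
    set k := Function.update h t (d v) with hk
    have hkt : k t = d v := by simp [hk]
    have hkn : ∀ s, s ≠ t → k s = h s := fun s hs => by simp [hk, hs]
    have hk0 : ∀ s, 0 ≤ k s := by
      intro s
      by_cases hs : s = t
      · rw [hs, hkt]; exact D.d0 v
      · rw [hkn s hs]; exact (hc s).1
    have hhk : ∀ s, h s ≤ k s := by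
      intro s
      by_cases hs : s = t
      · rw [hs, hkt]; exact hdv
      · rw [hkn s hs]
    refine ⟨lam (ty v) - ∑ u, C (ty v) u * k u, ?_, D.K v k hk0 (by rw [ht, hkt]) ?_ ?_⟩
    · rw [ht]
      have h1 : ∑ u, C t u * h' u < lam t := (hc' t).2 (lt_of_le_of_lt (D.d0 v) hdv')
      have h2 : ∑ u, C t u * k u ≤ ∑ u, C t u * h' u := by
        refine sum_le_sum fun u _ => ?_
        by_cases hu : u = t
        · rw [hu, hkt]; exact mul_le_mul_of_nonneg_left hdv'.le (D.cdiag t)
        · rw [hkn u hu, hne u hu]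
      linarith
    · intro w hw
      have hwt : ty w ≠ t := by rw [← ht]; exact D.lkty v w hw
      rw [hkn _ hwt]; exact hl w hw
    · intro s hs
      rw [ht] at hs
      rcases (hc s).1.lt_or_eq with h0 | h0
      · refine le_trans ?_ ((hc s).2 h0).le
        refine sum_le_sum fun u _ => ?_
        by_cases hu : u = t
        · rw [hu, hkt]
          exact mul_le_mul_of_nonpos_left hdv (D.coff s t hs)
        · rw [hkn u hu]
      · refine le_trans (sum_nonpos fun u _ => ?_) (D.lam0 s)
        by_cases hu : u = s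
        · rw [hu, hkn s hs, ← h0, mul_zero]
        · exact mul_nonpos_of_nonpos_of_nonneg (D.coff s u (Ne.symm hu)) (hk0 u)
  by_cases hB : ∃ v, d v < h' (ty v) ∧ ¬ d v < h (ty v) ∧ ∀ w, lk v w → h (ty w) ≤ d w
  · -- there is a birth: `U(h)` is empty
    obtain ⟨v, hv, hv', hl⟩ := hB
    obtain ⟨c, hc0, hcw⟩ := birth v hv hv' hl
    have hem : ∀ w, ¬ d w < h (ty w) := by
      intro w hw
      have h1 := hcw w
      have h2 : h (ty w) ≤ Function.update h t (d v) (ty w) := by
        by_cases hs : ty w = t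
        · rw [hs, Function.update_self]
          have := htyp v hv hv'
          rw [this] at hv'
          exact not_lt.1 hv'
        · rw [Function.update_of_ne hs]
      have h3 := mul_nonneg hc0.le (D.g0 v w)
      linarith
    intro p q hp hq
    obtain ⟨c1, hc1, h1⟩ := birth p hp (hem p) fun w _ => not_lt.1 (hem w)
    obtain ⟨c2, hc2, h2⟩ := birth q hq (hem q) fun w _ => not_lt.1 (hem w)
    have tp := htyp p hp (hem p)
    have tq := htyp q hq (hem q)
    have h1q := h1 q
    have h2p := h2 p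
    rw [tq, Function.update_self] at h1q
    rw [tp, Function.update_self] at h2p
    have e1 := mul_nonneg hc2.le (D.g0 q p)
    have e2 : c1 * g p q ≤ 0 := by linarith
    have e3 : g p q = 0 := by
      have := D.g0 p q
      nlinarith
    exact D.Jz h' p q (tp.trans tq.symm) e3 hp hq
  · push Not at hB
    have att : ∀ v, d v < h' (ty v) → ∃ w, d w < h (ty w) ∧ J h' v w := by
      intro v hv
      by_cases hv' : d v < h (ty v)
      · exact ⟨v, hv', D.Jmono h h' v v hle (hg v v hv' hv')⟩
      · obtain ⟨w, hw, hw'⟩ := hB v hv (not_lt.1 hv')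
        exact ⟨w, hw', D.Jlk h' v w hw hv (lt_of_lt_of_le hw' (hle _))⟩
    intro p q hp hq
    obtain ⟨p', hp', Jp⟩ := att p hp
    obtain ⟨q', hq', Jq⟩ := att q hq
    exact D.Jtrans _ _ _ _ Jp (D.Jtrans _ _ _ _ (D.Jmono h h' p' q' hle (hg p' q' hp' hq'))
      (D.Jsymm _ _ _ Jq))

/-- Raising several coordinates one after the other. -/
theorem good_mix (D : Dat C lam ty d g lk J) {h k : ι → ℝ} (hk : ∀ s, h s ≤ k s)
    (hc : ∀ F : Finset ι, Cls C lam (fun s => if s ∈ F then k s else h s))
    (hg : Good ty d J h) : Good ty d J k := by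
  classical
  have key : ∀ F : Finset ι, Good ty d J (fun s => if s ∈ F then k s else h s) := by
    intro F
    induction F using Finset.induction_on with
    | empty => simpa using hg
    | insert t F ht ih =>
      have e : (fun s => if s ∈ insert t F then k s else h s) =
          Function.update (fun s => if s ∈ F then k s else h s) t (k t) := by
        funext s
        by_cases hs : s = t
        · subst hs; simp
        · simp [hs, Finset.mem_insert]
      rw [e]
      refine good_update D ?_ (hc F) ?_ ih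
      · simp [ht, hk t]
      · rw [← e]; exact hc _
  have := key univ
  simpa using this

/-- **(B) of #2667**: for `T` spherical every `h` in `Cls` has `U(h)` empty or connected. -/
theorem good_of_cls (D : Dat C lam ty d g lk J) {a : ι → ℝ} (ha : ∀ s, 0 < a s)
    (hCa : ∀ s, 0 ≤ ∑ u, C s u * a u) {h : ι → ℝ} (hc : Cls C lam h) : Good ty d J h := by
  classical
  -- `h^(x) = (h - x a)^+`
  set H : ℝ → ι → ℝ := fun x s => max (h s - x * a s) 0 with hH
  have H0 : ∀ x s, 0 ≤ H x s := fun x s => le_max_right _ _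
  have Hle : ∀ x, 0 ≤ x → ∀ s, H x s ≤ h s := fun x hx s =>
    max_le (by have := mul_nonneg hx (ha s).le; linarith) (hc s).1
  -- a uniform slack
  obtain ⟨μ, hμ, hslack⟩ : ∃ μ : ℝ, 0 < μ ∧ ∀ s, 0 < h s → ∑ u, C s u * h u + μ ≤ lam s := by
    have hf : ∀ s, ∃ m : ℝ, 0 < m ∧ (0 < h s → ∑ u, C s u * h u + m ≤ lam s) := by
      intro s
      by_cases hs : 0 < h s
      · exact ⟨lam s - ∑ u, C s u * h u, sub_pos.2 ((hc s).2 hs), fun _ => by linarith⟩
      · exact ⟨1, one_pos, fun h' => absurd h' hs⟩
    choose m hm hm' using hf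
    rcases isEmpty_or_nonempty ι with he | he
    · exact ⟨1, one_pos, fun s => he.elim s⟩
    · refine ⟨univ.inf' univ_nonempty m, ?_, fun s hs => ?_⟩
      · rw [Finset.lt_inf'_iff]; exact fun s _ => hm s
      · have := Finset.inf'_le m (mem_univ s)
        have := hm' s hs
        linarith
  -- the step
  obtain ⟨δ, hδ, hδs⟩ : ∃ δ : ℝ, 0 < δ ∧ ∀ s, δ * ∑ u, |C s u| * a u < μ := by
    set B : ℝ := ∑ s, ∑ u, |C s u| * a u with hB
    have hB0 : ∀ s, 0 ≤ ∑ u, |C s u| * a u := fun s =>
      sum_nonneg fun u _ => mul_nonneg (abs_nonneg _) (ha u).le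
    have hBs : ∀ s, ∑ u, |C s u| * a u ≤ B := fun s =>
      single_le_sum (f := fun s => ∑ u, |C s u| * a u) (fun s _ => hB0 s) (mem_univ s)
    have hB1 : 0 ≤ B := sum_nonneg fun s _ => hB0 s
    refine ⟨μ / (B + 1), by positivity, fun s => ?_⟩
    rw [div_mul_eq_mul_div, div_lt_iff₀ (by linarith)]
    have := hBs s
    nlinarith
  -- the mixed vectors are in `Cls`
  have mix : ∀ x, 0 ≤ x → ∀ F : Finset ι,
      Cls C lam (fun s => if s ∈ F then H x s else H (x + δ) s) := by
    intro x hx F
    set k : ι → ℝ := fun s => if s ∈ F then H x s else H (x + δ) s with hk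
    have hHm : ∀ s, H (x + δ) s ≤ H x s := fun s => by
      refine max_le_max ?_ le_rfl
      have := mul_pos hδ (ha s)
      linarith
    have hk1 : ∀ s, k s ≤ H x s := fun s => by
      by_cases hs : s ∈ F
      · simp [hk, hs]
      · simp only [hk, hs, if_false]; exact hHm s
    have hk2 : ∀ s, H (x + δ) s ≤ k s := fun s => by
      by_cases hs : s ∈ F
      · simp only [hk, hs, if_true]; exact hHm s
      · simp [hk, hs]
    have hk3 : ∀ s, h s - x * a s - δ * a s ≤ k s := fun s =>
      le_trans (by rw [hH]; refine le_trans ?_ (le_max_left _ _); linarith) (hk2 s)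
    intro s
    refine ⟨(H0 _ s).trans (hk2 s), fun hs => ?_⟩
    have hHs : 0 < H x s := lt_of_lt_of_le hs (hk1 s)
    have hHe : H x s = h s - x * a s := by
      rcases le_total (h s - x * a s) 0 with h0 | h0
      · simp only [hH, max_eq_right h0] at hHs
        exact absurd hHs (lt_irrefl _)
      · simp only [hH, max_eq_left h0]
    have hhs : 0 < h s := lt_of_lt_of_le hHs (Hle x hx s)
    have h1 := hslack s hhs
    -- termwise
    have term : ∀ u, C s u * k u ≤ C s u * h u - x * (C s u * a u) + δ * (|C s u| * a u) := by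
      intro u
      by_cases hu : u = s
      · subst hu
        have e1 : C u u * k u ≤ C u u * (h u - x * a u) :=
          mul_le_mul_of_nonneg_left ((hk1 u).trans hHe.le) (D.cdiag u)
        have e2 : 0 ≤ δ * (|C u u| * a u) :=
          mul_nonneg hδ.le (mul_nonneg (abs_nonneg _) (ha u).le)
        nlinarith
      · have hC := D.coff s u (Ne.symm hu)
        have e1 : C s u * k u ≤ C s u * (h u - x * a u - δ * a u) :=
          mul_le_mul_of_nonpos_left (hk3 u) hC
        rw [abs_of_nonpos hC]
        nlinarith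
    have h2 : ∑ u, C s u * k u ≤
        ∑ u, C s u * h u - x * ∑ u, C s u * a u + δ * ∑ u, |C s u| * a u := by
      rw [mul_sum, mul_sum, ← sum_sub_distrib, ← sum_add_distrib]
      exact sum_le_sum fun u _ => term u
    have h3 := hδs s
    have h4 := mul_nonneg hx (hCa s)
    linarith
  -- descending induction
  have step : ∀ x, 0 ≤ x → Good ty d J (H (x + δ)) → Good ty d J (H x) := by
    intro x hx hg
    refine good_mix D (fun s => ?_) (mix x hx) hg
    refine max_le_max ?_ le_rfl
    have := mul_pos hδ (ha s)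
    linarith
  -- large `x`
  obtain ⟨N, hN⟩ : ∃ N : ℕ, ∀ s, h s ≤ (N * δ) * a s := by
    have hf : ∀ s, ∃ n : ℕ, h s ≤ (n * δ) * a s := by
      intro s
      obtain ⟨n, hn⟩ := exists_nat_gt (h s / (δ * a s))
      refine ⟨n, ?_⟩
      rw [div_lt_iff₀ (mul_pos hδ (ha s))] at hn
      nlinarith
    choose n hn using hf
    refine ⟨∑ s, n s, fun s => (hn s).trans ?_⟩
    have h1 : (n s : ℝ) ≤ ((∑ s, n s : ℕ) : ℝ) := by
      exact_mod_cast single_le_sum (f := n) (fun _ _ => Nat.zero_le _) (mem_univ s)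
    have h2 := mul_pos hδ (ha s)
    nlinarith
  have hall : ∀ n : ℕ, n ≤ N → Good ty d J (H ((N - n : ℕ) * δ)) := by
    intro n
    induction n with
    | zero =>
      intro _ p q hp
      exfalso
      have h1 : H ((N - 0 : ℕ) * δ) (ty p) = 0 := by
        simp only [hH, Nat.sub_zero]
        exact max_eq_right (by have := hN (ty p); linarith)
      rw [h1] at hp
      exact absurd (D.d0 p) (not_le.2 hp)
    | succ n ih =>
      intro hn
      have h1 := ih (Nat.le_of_succ_le hn)
      refine step _ (by positivity) ?_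
      have e : ((N - (n + 1) : ℕ) : ℝ) * δ + δ = ((N - n : ℕ) : ℝ) * δ := by
        have : N - n = (N - (n + 1)) + 1 := by omega
        rw [this]; push_cast; ring
      rw [e]; exact h1
  have h1 := hall N le_rfl
  have e : H ((N - N : ℕ) * δ) = h := by
    funext s
    simp only [hH, Nat.sub_self, Nat.cast_zero, zero_mul, sub_zero]
    exact max_eq_left (hc s).1
  rwa [e] at h1

end Crest.Agent.R175.USph_460
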