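import Crest.Agent.R175.Num_774
import Crest.Agent.R175.USph_460
import Crest.Agent.R175.Pos2_418

/-!
Row 175 (S0263), helper460: (B) of post #2667 over `Num_774`: `UT N T` for `T` spherical
(`PD M T`), as an instance of the abstract `USph_460.good_of_cls`.
-/

set_option autoImplicit false
set_option linter.unusedSectionVars false

open Finset

namespace Crest.Agent.R175.TopBi_460

open Crest.GroupTheory Num_774 USph_460

universe u

variable {S : Type u} [Fintype S] {M : CoxeterMatrix S}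

open Classical in
/-- extension by zero -/
noncomputable def z (T : Set S) (h : T → ℝ) : S → ℝ := fun u => if hu : u ∈ T then h ⟨u, hu⟩ else 0

theorem z_mem {T : Set S} (h : T → ℝ) {u : S} (hu : u ∈ T) : z T h u = h ⟨u, hu⟩ := by
  simp [z, hu]

theorem z_coe {T : Set S} (h : T → ℝ) (u : T) : z T h u = h u := by
  simp [z]

theorem z_not {T : Set S} (h : T → ℝ) {u : S} (hu : u ∉ T) : z T h u = 0 := by
  simp [z, hu]

open Classical in
theorem slk_eq (T : Set S) (X : Pre M) (h : S → ℝ) (s : S) :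
    slk T X h s = slk T X 0 s - ∑ u : T, C M s u * h u := by
  have h1 : ∑ u : T, C M s u * h u = ∑ u, if u ∈ T then C M s u * h u else 0 := by
    rw [← Finset.sum_filter]
    rw [Finset.sum_subtype (p := fun u => u ∈ T) (s := univ.filter fun u => u ∈ T)]
    intro x; simp
  unfold slk
  rw [h1, sub_sub, ← Finset.sum_add_distrib]
  congr 1
  refine Finset.sum_congr rfl fun u _ => ?_
  by_cases hu : u ∈ T
  · rw [ext_mem hu, ext_mem hu, if_pos hu]; simp
  · rw [ext_not hu, ext_not hu, if_neg hu]; simp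

theorem slk_zero_nonneg (N : Num M) {T : Set S} {X : Pre M} (hX : X ∈ N.Ob) {s : S} (hs : s ∈ T) :
    0 ≤ slk T X 0 s := by
  unfold slk
  have h1 : ∑ u, C M s u * ext T (0 : S → ℝ) (fun u => X.1 u 1) u ≤ 0 := by
    refine Finset.sum_nonpos fun u _ => ?_
    by_cases hu : u ∈ T
    · rw [ext_mem hu]; simp
    · rw [ext_not hu]
      exact mul_nonpos_of_nonpos_of_nonneg (C_nonpos M (fun h => hu (h ▸ hs)))
        (N.d_nonneg X hX u 1)
  have := N.lam_nonneg X hX s
  linarith

open Classical in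
/-- `PD M T` gives the positive vector `C_T⁻¹ 1`. -/
theorem exists_pos {T : Set S} (hT : PD M T) :
    ∃ a : T → ℝ, (∀ t, 0 < a t) ∧ ∀ t : T, ∑ s : T, C M t s * a s = 1 := by
  classical
  have hPD : Pos_418.PDm (fun s t : T => C M s t) := by
    intro x hx
    have h1 := hT (z T x) (fun s hs => z_not x hs) (by
      intro h0
      apply hx
      funext t
      have := congrFun h0 t
      rw [z_coe] at this
      exact this)
    have hsum : ∀ f : S → ℝ, (∀ s, s ∉ T → f s = 0) → ∑ s, f s = ∑ s : T, f s := by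
      intro f hf
      have h2 : ∑ s : T, f s = ∑ s, if s ∈ T then f s else 0 := by
        rw [← Finset.sum_filter]
        rw [Finset.sum_subtype (p := fun u => u ∈ T) (s := univ.filter fun u => u ∈ T)]
        intro x; simp
      rw [h2]
      refine Finset.sum_congr rfl fun s _ => ?_
      by_cases hs : s ∈ T
      · rw [if_pos hs]
      · rw [if_neg hs, hf s hs]
    rw [hsum _ (fun s hs => Finset.sum_eq_zero fun t _ => by rw [z_not x hs]; ring)] at h1
    unfold Pos_418.qf
    refine lt_of_lt_of_eq h1 ?_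
    refine Finset.sum_congr rfl fun s _ => ?_
    rw [hsum _ (fun t ht => by rw [z_not x ht]; ring)]
    refine Finset.sum_congr rfl fun t _ => ?_
    rw [z_coe, z_coe]; ring
  exact Pos_418.exists_pos_mv_eq_one hPD (fun s t hst =>
    C_nonpos M (fun h => hst (Subtype.ext h)))

open Classical in
/-- the data of `USph_460` -/
theorem dat (N : Num M) {T : Set S} (hT : PD M T) {X : Pre M} (hX : X ∈ N.Ob) :
    Dat (ι := T) (fun s t => C M s t) (fun s => slk T X 0 s)
      (V := {x : S × ArtinGroup M // x.1 ∈ T ∧ x.2 ∈ A M T})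
      (fun v => ⟨v.1.1, v.2.1⟩) (fun v => X.1 v.1.1 v.1.2)
      (fun v w => N.g v.1.1 w.1.1 (v.1.2⁻¹ * w.1.2))
      (fun v w => w.1.1 ≠ v.1.1 ∧ v.1.2⁻¹ * w.1.2 ∈ A M (T \ {v.1.1}))
      (fun h p q => Joined T (U T X (z T h)) p.1 q.1) := by
  classical
  have hU : ∀ (h : T → ℝ) (v : {x : S × ArtinGroup M // x.1 ∈ T ∧ x.2 ∈ A M T}),
      X.1 v.1.1 v.1.2 < h ⟨v.1.1, v.2.1⟩ → v.1 ∈ U T X (z T h) := by
    intro h v hv
    refine ⟨v.2.1, v.2.2, ?_⟩
    rw [z_mem h v.2.1]; exact hv
  constructor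
  · intro s; rw [C_self]; norm_num
  · intro s u hsu
    exact C_nonpos M (fun h => hsu (Subtype.ext h))
  · intro s; exact slk_zero_nonneg N hX s.2
  · intro v; exact N.d_nonneg X hX _ _
  · intro v w; exact N.g_nonneg _ _ _
  · intro v w hvw h
    exact hvw.1 (congrArg Subtype.val h)
  · intro h p q hpq; exact hpq.symm
  · intro h p q r h1 h2; exact h1.trans h2
  · intro h h' p q hle hpq
    refine Joined.mono (W := U T X (z T h)) (W' := U T X (z T h'))
      (fun x hx => ⟨hx.1, hx.2.1, lt_of_lt_of_le hx.2.2 ?_⟩) hpq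
    rw [z_mem h hx.1, z_mem h' hx.1]; exact hle _
  · intro h v w hvw hv hw
    have hv' := hU h v hv
    have hw' := hU h w hw
    have hm : (v.1.1, w.1.2) ∈ U T X (z T h) := by
      refine ⟨hv'.1, hw'.2.1, ?_⟩
      have h1 : X.1 v.1.1 w.1.2 = X.1 v.1.1 v.1.2 := by
        have := N.d_inv X hX v.1.1 v.1.2 (v.1.2⁻¹ * w.1.2) (A_diff_compl M _ hvw.2)
        simpa using this
      show X.1 v.1.1 w.1.2 < z T h v.1.1
      rw [h1]; exact hv'.2.2
    refine (Joined.single hv' hm (Or.inl ⟨rfl, hvw.2⟩)).trans (Joined.single hm hw' (Or.inr rfl))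
  · intro h v w hty hg hv hw
    have hv' := hU h v hv
    have hw' := hU h w hw
    have hty' : v.1.1 = w.1.1 := congrArg Subtype.val hty
    refine Joined.single hv' hw' (Or.inl ⟨hty', ?_⟩)
    refine N.Z T hT _ v.2.1 _ ((A M T).mul_mem ((A M T).inv_mem v.2.2) w.2.2) ?_
    have hg' : N.g v.1.1 w.1.1 (v.1.2⁻¹ * w.1.2) = 0 := hg
    rwa [← hty'] at hg'
  · intro v h h0 hd hl hC w
    have e : ∀ s : S, slk T (shift X v.1.2) (z T h) s =
        slk T X 0 s - ∑ u : T, C M s u * h u := by
      intro s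
      rw [N.slk_shift hX v.2.2, slk_eq]
      congr 1
      exact Finset.sum_congr rfl fun u _ => by rw [z_coe]
    have key := N.K T hT v.1.1 v.2.1 (shift X v.1.2) (N.shift_mem X hX _) (z T h)
      (fun s hs => by rw [z_mem h hs]; exact h0 _)
      (by rw [z_mem h v.2.1]; simpa using hd)
      (fun t' ht' hne r' hr' => by
        rw [z_mem h ht']
        have := hl ⟨(t', v.1.2 * r'), ht', (A M T).mul_mem v.2.2 (A_diff_le M _ hr')⟩
          ⟨hne, by simpa using hr'⟩
        simpa using this)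
      (fun t' ht' hne => by
        rw [e]
        have := hC ⟨t', ht'⟩ (fun h => hne (congrArg Subtype.val h))
        linarith)
      w.1.1 w.2.1 (v.1.2⁻¹ * w.1.2) ((A M T).mul_mem ((A M T).inv_mem v.2.2) w.2.2)
    rw [e, z_mem h w.2.1] at key
    simpa using key

/-- **(B) of #2667**. -/
theorem ut_of_pd (N : Num M) {T : Set S} (hT : PD M T) : UT N T := by
  classical
  intro X hX h hc p hp q hq
  obtain ⟨a, ha, ha1⟩ := exists_pos hT
  have hc' : USph_460.Cls (ι := T) (fun s t => C M s t) (fun s => slk T X 0 s)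
      (fun s => h s) := by
    intro s
    obtain ⟨h1, h2⟩ := hc s s.2
    refine ⟨h1, fun h3 => ?_⟩
    have h4 := h2 h3
    rw [slk_eq] at h4
    exact sub_pos.1 h4
  have hg := good_of_cls (dat N hT hX) ha (fun s => by rw [ha1 s]; norm_num) hc'
  have hj := hg ⟨p, hp.1, hp.2.1⟩ ⟨q, hq.1, hq.2.1⟩ hp.2.2 hq.2.2
  have hsub : U T X (z T fun s : T => h s) ⊆ U T X h := by
    intro x hx
    refine ⟨hx.1, hx.2.1, ?_⟩
    have := hx.2.2
    rwa [z_mem _ hx.1] at this
  exact hj.mono hsub

end Crest.Agent.R175.TopBi_460
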