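import Crest.Agent.R175.Num_774
import Crest.Agent.R175.Pos2_418
import Crest.Agent.R175.TopB_505

/-!
Row 175 (S0263), TOP part over `Num` (post 2667): the raising lemma (A), disconnected diagrams (C),
connected diagrams which are not positive definite (D), and `ut_all`: `UT` for positive definite
diagrams implies `UT` for all diagrams.
-/

set_option autoImplicit false
set_option linter.unusedSectionVars false
set_option linter.unusedVariables false

namespace Crest.Agent.R175.TopD_224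

open Crest.GroupTheory Crest.Agent.R175.Num_774

universe u

variable {S : Type u} [Fintype S] {M : CoxeterMatrix S}

/-! ### vertices -/

theorem d_same (N : Num M) {X : Pre M} (hX : X ∈ N.Ob) {T : Set S} {t : S} {g g' : ArtinGroup M}
    (h : g⁻¹ * g' ∈ A M (T \ {t})) : X.1 t g' = X.1 t g := by
  have := N.d_inv X hX t g (g⁻¹ * g') (A_diff_compl M t h)
  rwa [mul_inv_cancel_left] at this

theorem mem_same (N : Num M) {X : Pre M} (hX : X ∈ N.Ob) {T : Set S} {h : S → ℝ} {t : S}
    {g g' : ArtinGroup M} (hg : (t, g) ∈ U T X h) (h' : g⁻¹ * g' ∈ A M (T \ {t})) :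
    (t, g') ∈ U T X h := by
  refine ⟨hg.1, ?_, ?_⟩
  · have := (A M T).mul_mem hg.2.1 (A_diff_le M t h')
    rwa [mul_inv_cancel_left] at this
  · show X.1 t g' < h t
    rw [d_same N hX h']
    exact hg.2.2

theorem joined_same (N : Num M) {X : Pre M} (hX : X ∈ N.Ob) {T : Set S} {h : S → ℝ} {t : S}
    {g g' : ArtinGroup M} (hg : (t, g) ∈ U T X h) (h' : g⁻¹ * g' ∈ A M (T \ {t})) :
    Joined T (U T X h) (t, g) (t, g') :=
  Joined.single hg (mem_same N hX hg h') (Or.inl ⟨rfl, h'⟩)

theorem joined_edge {X : Pre M} {T : Set S} {h : S → ℝ} {s t : S} {g : ArtinGroup M}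
    (hg : (s, g) ∈ U T X h) (hg' : (t, g) ∈ U T X h) : Joined T (U T X h) (s, g) (t, g) :=
  Joined.single hg hg' (Or.inr rfl)

theorem U_mono {X : Pre M} {T : Set S} {h h' : S → ℝ} (hh : ∀ s ∈ T, h s ≤ h' s) :
    U T X h ⊆ U T X h' :=
  fun p hp => ⟨hp.1, hp.2.1, hp.2.2.trans_le (hh p.1 hp.1)⟩

/-! ### (A) the raising lemma -/

/-- **(A)** raising one coordinate does not join components. -/
theorem raise (N : Num M) {X : Pre M} (hX : X ∈ N.Ob) {T : Set S} {t : S} (ht : t ∈ T)
    (ih : UT N (T \ {t})) {h h' : S → ℝ} (hcl : Cls T X h) (hle : h t ≤ h' t)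
    (hne : ∀ s, s ≠ t → h' s = h s) {p q : S × ArtinGroup M} (hp : p ∈ U T X h)
    (hq : q ∈ U T X h) (hJ : Joined T (U T X h') p q) : Joined T (U T X h) p q := by
  have hnew : ∀ x ∈ U T X h', x ∉ U T X h → x.1 = t ∧ h t ≤ X.1 t x.2 := by
    intro x hx hx'
    by_cases hs : x.1 = t
    · refine ⟨hs, ?_⟩
      by_contra hc
      push Not at hc
      exact hx' ⟨hx.1, hx.2.1, by rw [hs]; exact hc⟩
    · exact absurd ⟨hx.1, hx.2.1, by rw [← hne x.1 hs]; exact hx.2.2⟩ hx'
  have key : (q ∈ U T X h → Joined T (U T X h) p q) ∧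
      (q ∉ U T X h → ∀ z ∈ U T X h, z.1 ≠ t → q.2⁻¹ * z.2 ∈ A M (T \ {t}) →
        Joined T (U T X h) p z) := by
    clear hq
    induction hJ with
    | refl => exact ⟨fun _ => Relation.ReflTransGen.refl, fun h => absurd hp h⟩
    | @tail x y _ hxy ihx =>
      obtain ⟨hx, hy, hm⟩ := hxy
      by_cases hxU : x ∈ U T X h
      · have hpx := ihx.1 hxU
        refine ⟨fun hyU => hpx.trans (Joined.single hxU hyU hm), fun hyU z hz hzt hyz => ?_⟩
        obtain ⟨hyt, hdy⟩ := hnew y hy hyU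
        have hxt : x.1 ≠ t := by
          intro hxt
          have h4 := hxU.2.2
          rcases hm with ⟨_, h2⟩ | h2
          · have h3 : X.1 x.1 y.2 = X.1 x.1 x.2 := d_same N hX h2
            rw [← h3, hxt] at h4
            exact absurd hdy (not_le.2 h4)
          · rw [h2, hxt] at h4
            exact absurd hdy (not_le.2 h4)
        have hxy2 : x.2 = y.2 := by
          rcases hm with ⟨h1, _⟩ | h2
          · exact absurd (h1.trans hyt) hxt
          · exact h2
        have hx' : (x.1, (1 : ArtinGroup M)) ∈ U (T \ {t}) (shift X y.2) h := by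
          refine mem_link hxt (Subgroup.one_mem _) ?_
          rw [mul_one, ← hxy2]
          exact hxU
        have hz' : (z.1, y.2⁻¹ * z.2) ∈ U (T \ {t}) (shift X y.2) h := by
          refine mem_link hzt hyz ?_
          rw [mul_inv_cancel_left]
          exact hz
        have h5 := joined_link hy.2.1
          (ih (shift X y.2) (N.shift_mem X hX _) h (N.link hX ht hy.2.1 hcl hdy) _ hx' _ hz')
        simp only [mul_one, mul_inv_cancel_left] at h5
        rw [← hxy2] at h5
        exact hpx.trans h5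
      · obtain ⟨hxt, hdx⟩ := hnew x hx hxU
        refine ⟨fun hyU => ?_, fun hyU z hz hzt hyz => ?_⟩
        · have h4 := hyU.2.2
          rcases hm with ⟨h1, h2⟩ | h2
          · exfalso
            have h3 : X.1 x.1 y.2 = X.1 x.1 x.2 := d_same N hX h2
            rw [← h1, h3, hxt] at h4
            exact absurd hdx (not_le.2 h4)
          · by_cases hyt : y.1 = t
            · exfalso
              rw [hyt, ← h2] at h4
              exact absurd hdx (not_le.2 h4)
            · refine ihx.2 hxU y hyU hyt ?_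
              rw [h2, inv_mul_cancel]
              exact Subgroup.one_mem _
        · refine ihx.2 hxU z hz hzt ?_
          rcases hm with ⟨h1, h2⟩ | h2
          · rw [hxt] at h2
            have := (A M (T \ {t})).mul_mem h2 hyz
            rwa [mul_assoc, mul_inv_cancel_left] at this
          · rw [h2]; exact hyz
  exact key.1 hq

/-! ### chains -/

/-- one step of a chain: one coordinate is raised, both heights are admissible. -/
def Step (T : Set S) (X : Pre M) (h h' : S → ℝ) : Prop :=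
  ∃ t ∈ T, (∀ s, s ≠ t → h' s = h s) ∧ h t ≤ h' t ∧ Cls T X h ∧ Cls T X h'

/-- chains. -/
def Chain (T : Set S) (X : Pre M) : (S → ℝ) → (S → ℝ) → Prop :=
  Relation.ReflTransGen (Step T X)

theorem Step.le {T : Set S} {X : Pre M} {h h' : S → ℝ} (H : Step T X h h') (s : S) :
    h s ≤ h' s := by
  obtain ⟨t, _, h1, h2, _⟩ := H
  by_cases hs : s = t
  · rw [hs]; exact h2
  · rw [h1 s hs]

theorem Chain.le {T : Set S} {X : Pre M} {h h' : S → ℝ} (H : Chain T X h h') (s : S) :
    h s ≤ h' s := by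
  induction H with
  | refl => exact le_rfl
  | tail _ h ih => exact ih.trans (h.le s)

theorem Chain.cls {T : Set S} {X : Pre M} {h h' : S → ℝ} (H : Chain T X h h')
    (h0 : Cls T X h) : Cls T X h' := by
  induction H with
  | refl => exact h0
  | tail _ h _ =>
    obtain ⟨_, _, _, _, _, h6⟩ := h
    exact h6

theorem Chain.trans {T : Set S} {X : Pre M} {h h' h'' : S → ℝ} (H : Chain T X h h')
    (H' : Chain T X h' h'') : Chain T X h h'' := Relation.ReflTransGen.trans H H'

/-- joined above implies joined below. -/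
theorem chain_back (N : Num M) {X : Pre M} (hX : X ∈ N.Ob) {T : Set S} {h h' : S → ℝ}
    (ih : ∀ t ∈ T, UT N (T \ {t})) (H : Chain T X h h') {p q : S × ArtinGroup M}
    (hp : p ∈ U T X h) (hq : q ∈ U T X h) (hJ : Joined T (U T X h') p q) :
    Joined T (U T X h) p q := by
  induction H with
  | refl => exact hJ
  | @tail h1 h2 hc hs ihc =>
    obtain ⟨t, ht, e1, e2, e3, _⟩ := hs
    have hsub : U T X h ⊆ U T X h1 := U_mono fun s _ => Chain.le hc s
    exact ihc (raise N hX ht (ih t ht) e3 e2 e1 (hsub hp) (hsub hq) hJ)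

/-! ### (C) disconnected diagrams -/

/-- elements of commuting parabolic subgroups commute -/
theorem comm_std {T1 T2 : Set S} (hd : ∀ s ∈ T1, ∀ t ∈ T2, M s t = 2) {x y : ArtinGroup M}
    (hx : x ∈ A M T1) (hy : y ∈ A M T2) : x * y = y * x := by
  have h1 : ∀ s ∈ T1, ∀ y ∈ A M T2, artinGen M s * y = y * artinGen M s := by
    intro s hs y hy
    refine Subgroup.closure_induction ?_ ?_ ?_ ?_ hy
    · rintro _ ⟨t, ht, rfl⟩
      exact Semi_663.comm_of_two M (hd s hs t ht)
    · rw [mul_one, one_mul]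
    · intro a b _ _ ha hb
      rw [← mul_assoc, ha, mul_assoc, hb, mul_assoc]
    · intro a _ ha
      have : Commute (artinGen M s) a := ha
      exact this.inv_right
  refine Subgroup.closure_induction ?_ ?_ ?_ ?_ hx
  · rintro _ ⟨s, hs, rfl⟩
    exact h1 s hs y hy
  · rw [mul_one, one_mul]
  · intro a b _ _ ha hb
    rw [mul_assoc, hb, ← mul_assoc, ha, mul_assoc]
  · intro a _ ha
    have : Commute a y := ha
    exact this.inv_left

/-- factorisation -/
theorem factor {T T1 T2 : Set S} (hT : T = T1 ∪ T2) (hd : ∀ s ∈ T1, ∀ t ∈ T2, M s t = 2)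
    {r : ArtinGroup M} (hr : r ∈ A M T) : ∃ x ∈ A M T1, ∃ y ∈ A M T2, r = x * y := by
  refine Subgroup.closure_induction ?_ ?_ ?_ ?_ hr
  · rintro _ ⟨s, hs, rfl⟩
    rw [hT] at hs
    rcases hs with hs | hs
    · exact ⟨_, gen_mem M hs, 1, Subgroup.one_mem _, (mul_one _).symm⟩
    · exact ⟨1, Subgroup.one_mem _, _, gen_mem M hs, (one_mul _).symm⟩
  · exact ⟨1, Subgroup.one_mem _, 1, Subgroup.one_mem _, (mul_one _).symm⟩
  · rintro _ _ _ _ ⟨x, hx, y, hy, rfl⟩ ⟨x', hx', y', hy', rfl⟩
    refine ⟨x * x', Subgroup.mul_mem _ hx hx', y * y', Subgroup.mul_mem _ hy hy', ?_⟩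
    rw [mul_assoc, ← mul_assoc y, ← comm_std hd hx' hy, mul_assoc, mul_assoc]
  · rintro _ _ ⟨x, hx, y, hy, rfl⟩
    refine ⟨x⁻¹, Subgroup.inv_mem _ hx, y⁻¹, Subgroup.inv_mem _ hy, ?_⟩
    rw [mul_inv_rev, comm_std hd (Subgroup.inv_mem _ hx) (Subgroup.inv_mem _ hy)]

/-- vertices of different kinds are adjacent. -/
theorem cross (N : Num M) {X : Pre M} (hX : X ∈ N.Ob) {T T1 T2 : Set S} (hT : T = T1 ∪ T2)
    (hdj : ∀ s ∈ T1, s ∉ T2) (hd : ∀ s ∈ T1, ∀ t ∈ T2, M s t = 2) {h : S → ℝ}
    {p q : S × ArtinGroup M} (hp : p ∈ U T X h) (hq : q ∈ U T X h) (hp1 : p.1 ∈ T1)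
    (hq2 : q.1 ∈ T2) : Joined T (U T X h) p q := by
  obtain ⟨s, r⟩ := p
  obtain ⟨t, r'⟩ := q
  obtain ⟨x, hx, y, hy, hxy⟩ := factor hT hd
    ((A M T).mul_mem ((A M T).inv_mem hp.2.1) hq.2.1 : r⁻¹ * r' ∈ A M T)
  have h1 : T2 ⊆ T \ {s} := fun u hu =>
    ⟨hT ▸ Or.inr hu, fun h => hdj s hp1 (by rw [Set.mem_singleton_iff] at h; exact h ▸ hu)⟩
  have h2 : T1 ⊆ T \ {t} := fun u hu =>
    ⟨hT ▸ Or.inl hu, fun h => hdj u hu (by rw [Set.mem_singleton_iff] at h; exact h ▸ hq2)⟩
  have e1 : r⁻¹ * (r * y) ∈ A M (T \ {s}) := by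
    rw [inv_mul_cancel_left]; exact A_mono M h1 hy
  have hr' : r' = r * (x * y) := by rw [← hxy, mul_inv_cancel_left]
  have e2 : (r')⁻¹ * (r * y) ∈ A M (T \ {t}) := by
    have : (r')⁻¹ * (r * y) = x⁻¹ := by
      rw [hr', comm_std hd hx hy]; group
    rw [this]
    exact A_mono M h2 (Subgroup.inv_mem _ hx)
  exact ((joined_same N hX hp e1).trans
    (joined_edge (mem_same N hX hp e1) (mem_same N hX hq e2))).trans (joined_same N hX hq e2).symm

/-- two vertices of the first kind. -/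
theorem ut_same (N : Num M) {X : Pre M} (hX : X ∈ N.Ob) {T T1 T2 : Set S} (hT : T = T1 ∪ T2)
    (hdj : ∀ s ∈ T1, s ∉ T2) (hd : ∀ s ∈ T1, ∀ t ∈ T2, M s t = 2) (hne : T2.Nonempty)
    (ih : ∀ t ∈ T, UT N (T \ {t})) {h : S → ℝ} (hcl : Cls T X h)
    {p q : S × ArtinGroup M} (hp : p ∈ U T X h) (hq : q ∈ U T X h) (hp1 : p.1 ∈ T1)
    (hq1 : q.1 ∈ T1) : Joined T (U T X h) p q := by
  by_cases hex : ∃ z ∈ U T X h, z.1 ∈ T2
  · obtain ⟨z, hz, hz2⟩ := hex
    exact (cross N hX hT hdj hd hp hz hp1 hz2).trans (cross N hX hT hdj hd hq hz hq1 hz2).symm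
  · push Not at hex
    obtain ⟨t, ht⟩ := hne
    have htT : t ∈ T := hT ▸ Or.inr ht
    obtain ⟨s, r⟩ := p
    obtain ⟨s', r'⟩ := q
    have hdt : h t ≤ X.1 t r := by
      by_contra hc
      push Not at hc
      exact hex (t, r) ⟨htT, hp.2.1, hc⟩ ht
    obtain ⟨x, hx, y, hy, hxy⟩ := factor hT hd
      ((A M T).mul_mem ((A M T).inv_mem hp.2.1) hq.2.1 : r⁻¹ * r' ∈ A M T)
    have h1 : T2 ⊆ T \ {s'} := fun u hu =>
      ⟨hT ▸ Or.inr hu, fun h => hdj s' hq1 (by rw [Set.mem_singleton_iff] at h; exact h ▸ hu)⟩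
    have h2 : T1 ⊆ T \ {t} := fun u hu =>
      ⟨hT ▸ Or.inl hu, fun h => hdj u hu (by rw [Set.mem_singleton_iff] at h; exact h ▸ ht)⟩
    have hr' : r' = r * (x * y) := by rw [← hxy, mul_inv_cancel_left]
    have e2 : (r')⁻¹ * (r * x) ∈ A M (T \ {s'}) := by
      have : (r')⁻¹ * (r * x) = y⁻¹ := by
        rw [hr']; group
      rw [this]
      exact A_mono M h1 (Subgroup.inv_mem _ hy)
    have hst : s ≠ t := fun h => hdj s hp1 (h ▸ ht)
    have hst' : s' ≠ t := fun h => hdj s' hq1 (h ▸ ht)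
    have hA : (s, (1 : ArtinGroup M)) ∈ U (T \ {t}) (shift X r) h :=
      mem_link hst (Subgroup.one_mem _) (by rw [mul_one]; exact hp)
    have hB : (s', x) ∈ U (T \ {t}) (shift X r) h :=
      mem_link hst' (A_mono M h2 hx) (mem_same N hX hq e2)
    have h5 := joined_link hp.2.1
      (ih t htT (shift X r) (N.shift_mem X hX _) h (N.link hX htT hp.2.1 hcl hdt) _ hA _ hB)
    simp only [mul_one] at h5
    exact h5.trans (joined_same N hX hq e2).symm

/-- connected diagrams -/
def Conn (M : CoxeterMatrix S) (T : Set S) : Prop :=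
  ∀ P : S → Prop, (∃ s ∈ T, P s) → (∃ t ∈ T, ¬ P t) → ∃ s ∈ T, ∃ t ∈ T, P s ∧ ¬ P t ∧ C M s t ≠ 0

/-- **(C)** -/
theorem ut_disc (N : Num M) {T : Set S} (hc : ¬ Conn M T) (ih : ∀ t ∈ T, UT N (T \ {t})) :
    UT N T := by
  unfold Conn at hc
  push Not at hc
  obtain ⟨P, ⟨a, ha, hPa⟩, ⟨b, hb, hPb⟩, hP⟩ := hc
  set T1 : Set S := {s | s ∈ T ∧ P s} with hT1
  set T2 : Set S := {s | s ∈ T ∧ ¬ P s} with hT2
  have hT : T = T1 ∪ T2 := by
    ext s
    constructor
    · intro hs
      by_cases h : P s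
      · exact Or.inl ⟨hs, h⟩
      · exact Or.inr ⟨hs, h⟩
    · rintro (h | h)
      · exact h.1
      · exact h.1
  have hT' : T = T2 ∪ T1 := by rw [Set.union_comm]; exact hT
  have hdj : ∀ s ∈ T1, s ∉ T2 := fun s h1 h2 => h2.2 h1.2
  have hdj' : ∀ s ∈ T2, s ∉ T1 := fun s h2 h1 => h2.2 h1.2
  have hd : ∀ s ∈ T1, ∀ t ∈ T2, M s t = 2 := fun s hs t ht =>
    C_eq_zero M (fun h => hdj s hs (h ▸ ht)) (hP s hs.1 t ht.1 hs.2 ht.2)
  have hd' : ∀ s ∈ T2, ∀ t ∈ T1, M s t = 2 := fun s hs t ht => by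
    rw [M.symmetric]; exact hd t ht s hs
  intro X hX h hcl p hp q hq
  have hp0 : p.1 ∈ T1 ∪ T2 := hT ▸ hp.1
  have hq0 : q.1 ∈ T1 ∪ T2 := hT ▸ hq.1
  rcases hp0 with hp1 | hp1 <;> rcases hq0 with hq1 | hq1
  · exact ut_same N hX hT hdj hd ⟨b, hb, hPb⟩ ih hcl hp hq hp1 hq1
  · exact cross N hX hT hdj hd hp hq hp1 hq1
  · exact (cross N hX hT hdj hd hq hp hq1 hp1).symm
  · exact ut_same N hX hT' hdj' hd' ⟨a, ha, hPa⟩ ih hcl hp hq hp1 hq1

/-! ### (D) connected diagrams which are not positive definite -/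

theorem slk_add {T : Set S} {X : Pre M} (h c : S → ℝ) (hc : ∀ u, u ∉ T → c u = 0) (s : S) :
    slk T X (fun u => h u + c u) s = slk T X h s - ∑ u, C M s u * c u := by
  unfold slk
  have h1 : ∀ u, C M s u * ext T (fun u => h u + c u) (fun u => X.1 u 1) u =
      C M s u * ext T h (fun u => X.1 u 1) u + C M s u * c u := by
    intro u
    by_cases hu : u ∈ T
    · rw [ext_mem hu, ext_mem hu]; ring
    · rw [ext_not hu, ext_not hu, hc u hu]; ring
  rw [Finset.sum_congr rfl fun u _ => h1 u, Finset.sum_add_distrib]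
  ring

theorem slk_update {T : Set S} {X : Pre M} {h h' : S → ℝ} {t : S} (ht : t ∈ T)
    (hne : ∀ s, s ≠ t → h' s = h s) (s : S) :
    slk T X h' s = slk T X h s - C M s t * (h' t - h t) := by
  classical
  have h1 : h' = fun u => h u + (if u = t then h' t - h t else 0) := by
    funext u
    by_cases hu : u = t
    · subst hu; simp
    · rw [hne u hu]; simp [hu]
  have h2 := slk_add (X := X) (T := T) h (fun u => if u = t then h' t - h t else 0)
    (fun u hu => by
      show (if u = t then h' t - h t else 0) = 0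
      rw [if_neg]
      rintro rfl
      exact hu ht) s
  rw [← h1] at h2
  rw [h2]
  simp

/-- a step raising a coordinate keeps the class if it does at this coordinate. -/
theorem cls_raise {T : Set S} {X : Pre M} {h h' : S → ℝ} {t : S} (ht : t ∈ T)
    (hcl : Cls T X h) (hle : h t ≤ h' t) (hne : ∀ s, s ≠ t → h' s = h s)
    (hs : 0 < h' t → 0 < slk T X h' t) : Cls T X h' := by
  intro s hsT
  by_cases hst : s = t
  · subst hst
    exact ⟨(hcl s hsT).1.trans hle, hs⟩
  · rw [hne s hst]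
    refine ⟨(hcl s hsT).1, fun h0 => ?_⟩
    rw [slk_update ht hne]
    have h1 := (hcl s hsT).2 h0
    have h2 := C_nonpos M hst
    nlinarith

/-- stage 1: all coordinates become positive. -/
theorem stage1 {T : Set S} {X : Pre M} (hX0 : ∀ s ∈ T, 0 ≤ X.2 s)
    (hXd : ∀ s g, 0 ≤ X.1 s g) (hconn : Conn M T) {h : S → ℝ}
    (hcl : Cls T X h) (hpos : ∃ s ∈ T, 0 < h s) :
    ∃ h', Chain T X h h' ∧ ∀ s ∈ T, 0 < h' s := by
  classical
  have key : ∀ (k : ℕ) (h : S → ℝ), (Finset.univ.filter fun s => s ∈ T ∧ ¬ 0 < h s).card = k →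
      Cls T X h → (∃ s ∈ T, 0 < h s) → ∃ h', Chain T X h h' ∧ ∀ s ∈ T, 0 < h' s := by
    intro k
    induction k with
    | zero =>
      intro h hk _ _
      refine ⟨h, Relation.ReflTransGen.refl, fun s hs => ?_⟩
      by_contra hc
      have : s ∈ (Finset.univ.filter fun s => s ∈ T ∧ ¬ 0 < h s) := by simp [hs, not_lt.1 hc]
      rw [Finset.card_eq_zero.1 hk] at this
      exact absurd this (Finset.notMem_empty s)
    | succ k ih =>
      intro h hk hcl hpos
      have hne : (Finset.univ.filter fun s => s ∈ T ∧ ¬ 0 < h s).Nonempty := by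
        rw [← Finset.card_pos, hk]; omega
      obtain ⟨b, hb⟩ := hne
      rw [Finset.mem_filter] at hb
      obtain ⟨s, hs, t, ht, hps, hpt, hC⟩ := hconn (fun s => 0 < h s) hpos ⟨b, hb.2.1, hb.2.2⟩
      have hst : t ≠ s := fun h => hpt (h ▸ hps)
      have hCts : C M t s < 0 :=
        lt_of_le_of_ne (C_nonpos M hst) (by rw [C_symm]; exact hC)
      have hht : h t = 0 := le_antisymm (not_lt.1 hpt) (hcl t ht).1
      set ε : ℝ := -(C M t s) * h s / 3 with hε
      have hε0 : 0 < ε := by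
        rw [hε]
        have : 0 < -(C M t s) * h s := mul_pos (by linarith) hps
        positivity
      set h' : S → ℝ := Function.update h t ε with hh'
      have hne' : ∀ u, u ≠ t → h' u = h u := fun u hu => by rw [hh', Function.update_of_ne hu]
      have hh't : h' t = ε := by rw [hh', Function.update_self]
      have hcl' : Cls T X h' := by
        refine cls_raise ht hcl (by rw [hh't, hht]; exact hε0.le) hne' fun _ => ?_
        rw [slk_update ht hne', hh't, hht, sub_zero, C_self]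
        have h1 : slk T X h t = X.2 t - ∑ u, C M t u * ext T h (fun u => X.1 u 1) u := rfl
        have h2 : ∑ u, C M t u * ext T h (fun u => X.1 u 1) u ≤ C M t s * h s := by
          have h3 : ∀ u ∈ Finset.univ, C M t u * ext T h (fun u => X.1 u 1) u ≤
              if u = s then C M t s * h s else 0 := by
            intro u _
            by_cases hu : u = s
            · subst hu
              rw [if_pos rfl, ext_mem hs]
            · rw [if_neg hu]
              by_cases hut : u = t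
              · subst hut
                rw [ext_mem ht, hht, mul_zero]
              · have h4 : 0 ≤ ext T h (fun u => X.1 u 1) u := by
                  by_cases huT : u ∈ T
                  · rw [ext_mem huT]; exact (hcl u huT).1
                  · rw [ext_not huT]; exact hXd u 1
                exact mul_nonpos_of_nonpos_of_nonneg (C_nonpos M (Ne.symm hut)) h4
          refine (Finset.sum_le_sum h3).trans ?_
          simp
        have h5 := hX0 t ht
        rw [h1]
        have h6 : 3 * ε = -(C M t s) * h s := by rw [hε]; ring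
        nlinarith
      have hcard : (Finset.univ.filter fun s => s ∈ T ∧ ¬ 0 < h' s).card = k := by
        have h7 : (Finset.univ.filter fun s => s ∈ T ∧ ¬ 0 < h' s) =
            (Finset.univ.filter fun s => s ∈ T ∧ ¬ 0 < h s).erase t := by
          ext u
          simp only [Finset.mem_filter, Finset.mem_univ, true_and, Finset.mem_erase]
          by_cases hu : u = t
          · subst hu
            simp [hh't, hε0]
          · rw [hne' u hu]
            simp [hu]
        rw [h7, Finset.card_erase_of_mem (by simp [ht, not_lt.1 hpt]), hk]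
        rfl
      obtain ⟨h'', hch, hpos''⟩ := ih h' hcard hcl' ⟨s, hs, by rw [hne' s (Ne.symm hst)]; exact hps⟩
      exact ⟨h'', (Relation.ReflTransGen.single
        ⟨t, ht, hne', by rw [hh't, hht]; exact hε0.le, hcl, hcl'⟩).trans hch, hpos''⟩
  exact key _ h rfl hcl hpos

open Filter Topology in
/-- stage 2: all coordinates become large. -/
theorem stage2 {T : Set S} {X : Pre M} {b : S → ℝ} (hb0 : ∀ u, u ∉ T → b u = 0)
    (hb : ∀ u ∈ T, 0 < b u) (hCb : ∀ s ∈ T, ∑ u, C M s u * b u ≤ 0) {h : S → ℝ}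
    (hcl : Cls T X h) (hpos : ∀ s ∈ T, 0 < h s) (B : ℝ) :
    ∃ h', Chain T X h h' ∧ ∀ s ∈ T, B ≤ h' s := by
  classical
  have hbn : ∀ u, 0 ≤ b u := fun u => by
    by_cases hu : u ∈ T
    · exact (hb u hu).le
    · rw [hb0 u hu]
  -- the step size
  have h1 : ∀ s, ∀ᶠ δ in 𝓝[>] (0 : ℝ), s ∈ T → 2 * δ * b s < slk T X h s := by
    intro s
    by_cases hs : s ∈ T
    · have h2 : 0 < slk T X h s / (2 * b s) :=
        div_pos ((hcl s hs).2 (hpos s hs)) (mul_pos two_pos (hb s hs))
      filter_upwards [Ioo_mem_nhdsGT h2] with δ hδ _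
      have h3 := (lt_div_iff₀ (mul_pos two_pos (hb s hs))).1 hδ.2
      linarith
    · exact Eventually.of_forall fun _ h => absurd h hs
  obtain ⟨δ, hδ, hδ0⟩ := ((eventually_all.2 h1).and self_mem_nhdsWithin).exists
  have hδ0 : 0 < δ := hδ0
  -- the heights
  let hk : ℕ → Finset S → S → ℝ := fun k F s =>
    h s + ((k : ℝ) + if s ∈ F then 1 else 0) * δ * b s
  have hcls : ∀ k F, Cls T X (hk k F) := by
    intro k F s hs
    have e0 : 0 ≤ ((k : ℝ) + if s ∈ F then 1 else 0) * δ * b s := by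
      have : 0 ≤ (k : ℝ) + if s ∈ F then 1 else 0 := by
        have : (0 : ℝ) ≤ k := Nat.cast_nonneg k
        split_ifs <;> linarith
      exact mul_nonneg (mul_nonneg this hδ0.le) (hbn s)
    refine ⟨add_nonneg (hpos s hs).le e0, fun _ => ?_⟩
    have e1 : slk T X (hk k F) s = slk T X h s -
        ∑ u, C M s u * (((k : ℝ) + if u ∈ F then 1 else 0) * δ * b u) :=
      slk_add h (fun u => ((k : ℝ) + if u ∈ F then 1 else 0) * δ * b u)
        (fun u hu => by show _ * b u = 0; rw [hb0 u hu, mul_zero]) s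
    have e2 : ∑ u, C M s u * (((k : ℝ) + if u ∈ F then 1 else 0) * δ * b u) =
        k * δ * ∑ u, C M s u * b u + δ * ∑ u, C M s u * (if u ∈ F then b u else 0) := by
      rw [Finset.mul_sum, Finset.mul_sum, ← Finset.sum_add_distrib]
      refine Finset.sum_congr rfl fun u _ => ?_
      split_ifs <;> ring
    have e3 : ∑ u, C M s u * (if u ∈ F then b u else 0) ≤ 2 * b s := by
      have h3 : ∀ u ∈ Finset.univ, C M s u * (if u ∈ F then b u else 0) ≤
          if u = s then 2 * b s else 0 := by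
        intro u _
        by_cases hu : u = s
        · subst hu
          rw [if_pos rfl, C_self]
          have := hbn u
          split_ifs <;> linarith
        · rw [if_neg hu]
          have h4 : (0 : ℝ) ≤ if u ∈ F then b u else 0 := by
            split_ifs
            · exact hbn u
            · exact le_rfl
          exact mul_nonpos_of_nonpos_of_nonneg (C_nonpos M (Ne.symm hu)) h4
      refine (Finset.sum_le_sum h3).trans ?_
      simp
    have e4 : (k : ℝ) * δ * ∑ u, C M s u * b u ≤ 0 :=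
      mul_nonpos_of_nonneg_of_nonpos (mul_nonneg (Nat.cast_nonneg k) hδ0.le) (hCb s hs)
    have e5 := hδ s hs
    rw [e1, e2]
    nlinarith
  have hround : ∀ k F, Chain T X (hk k ∅) (hk k F) := by
    intro k F
    induction F using Finset.induction_on with
    | empty => exact Relation.ReflTransGen.refl
    | @insert t F htF ih =>
      by_cases ht : t ∈ T
      · refine ih.tail ⟨t, ht, fun s hs => ?_, ?_, hcls _ _, hcls _ _⟩
        · show h s + ((k : ℝ) + if s ∈ insert t F then 1 else 0) * δ * b s =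
            h s + ((k : ℝ) + if s ∈ F then 1 else 0) * δ * b s
          simp [Finset.mem_insert, hs]
        · show h t + ((k : ℝ) + if t ∈ F then 1 else 0) * δ * b t ≤
            h t + ((k : ℝ) + if t ∈ insert t F then 1 else 0) * δ * b t
          rw [if_neg htF, if_pos (Finset.mem_insert_self t F)]
          have := mul_pos hδ0 (hb t ht)
          nlinarith
      · have : hk k (insert t F) = hk k F := by
          funext s
          show h s + ((k : ℝ) + if s ∈ insert t F then 1 else 0) * δ * b s =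
            h s + ((k : ℝ) + if s ∈ F then 1 else 0) * δ * b s
          by_cases hs : s = t
          · subst hs
            rw [hb0 s ht]
            ring
          · simp [Finset.mem_insert, hs]
        rw [this]
        exact ih
  have hnext : ∀ k, hk k Finset.univ = hk (k + 1) ∅ := by
    intro k
    funext s
    show h s + ((k : ℝ) + if s ∈ Finset.univ then 1 else 0) * δ * b s =
      h s + (((k + 1 : ℕ) : ℝ) + if s ∈ (∅ : Finset S) then 1 else 0) * δ * b s
    simp
  have hall : ∀ k, Chain T X (hk 0 ∅) (hk k ∅) := by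
    intro k
    induction k with
    | zero => exact Relation.ReflTransGen.refl
    | succ k ih => exact ih.trans (hnext k ▸ hround k Finset.univ)
  have h00 : hk 0 ∅ = h := by
    funext s
    show h s + (((0 : ℕ) : ℝ) + if s ∈ (∅ : Finset S) then 1 else 0) * δ * b s = h s
    simp
  -- large
  have hlarge : ∀ s, ∀ᶠ k : ℕ in atTop, s ∈ T → B ≤ hk k ∅ s := by
    intro s
    by_cases hs : s ∈ T
    · have h2 : 0 < δ * b s := mul_pos hδ0 (hb s hs)
      obtain ⟨K, hK⟩ := exists_nat_gt ((B - h s) / (δ * b s))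
      filter_upwards [eventually_ge_atTop K] with k hk' _
      have h3 : (B - h s) / (δ * b s) < k := hK.trans_le (by exact_mod_cast hk')
      rw [div_lt_iff₀ h2] at h3
      show B ≤ h s + ((k : ℝ) + if s ∈ (∅ : Finset S) then 1 else 0) * δ * b s
      simp only [Finset.notMem_empty, if_false, add_zero]
      nlinarith
    · exact Eventually.of_forall fun _ h => absurd h hs
  obtain ⟨k, hk'⟩ := (eventually_all.2 hlarge).exists
  exact ⟨hk k ∅, h00 ▸ hall k, fun s hs => hk' s hs⟩

/-- the Perron vector. -/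
theorem exists_b {T : Set S} (hne : T.Nonempty) (hconn : Conn M T) (hn : ¬ PD M T) :
    ∃ b : S → ℝ, (∀ u, u ∉ T → b u = 0) ∧ (∀ u ∈ T, 0 < b u) ∧
      ∀ s ∈ T, ∑ u, C M s u * b u ≤ 0 := by
  classical
  have hsum : ∀ f : S → ℝ, (∀ u, u ∉ T → f u = 0) → ∑ u, f u = ∑ u : T, f u := by
    intro f hf
    rw [← Finset.sum_subtype (Finset.univ.filter fun u => u ∈ T) (by simp) f]
    rw [Finset.sum_filter]
    refine Finset.sum_congr rfl fun u _ => ?_
    by_cases hu : u ∈ T
    · rw [if_pos hu]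
    · rw [if_neg hu, hf u hu]
  have : Nonempty T := hne.to_subtype
  obtain ⟨b, hb, hCb⟩ := Pos_418.perron (T := T) (C := fun s t => C M s t)
    (fun s t => C_symm M s t) (fun s t hst => C_nonpos M fun h => hst (Subtype.ext h))
    (by
      rintro P ⟨s, hs⟩ ⟨t, ht⟩
      obtain ⟨s', hs', t', ht', h1, h2, h3⟩ := hconn (fun u => ∃ h : u ∈ T, P ⟨u, h⟩)
        ⟨s, s.2, s.2, hs⟩ ⟨t, t.2, fun ⟨_, h⟩ => ht h⟩
      obtain ⟨_, h1⟩ := h1
      exact ⟨⟨s', hs'⟩, ⟨t', ht'⟩, h1, fun h => h2 ⟨ht', h⟩, h3⟩)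
    (by
      intro hPD
      apply hn
      intro x hx0 hx
      have h1 : (fun u : T => x u) ≠ 0 := by
        intro h
        apply hx
        funext u
        by_cases hu : u ∈ T
        · exact congrFun h ⟨u, hu⟩
        · exact hx0 u hu
      have h2 := hPD _ h1
      rw [Pos_418.qf] at h2
      rw [hsum]
      · have h3 : ∀ s : T, ∑ t, C M s t * x s * x t = ∑ t : T, x s * x t * C M s t := by
          intro s
          rw [hsum]
          · exact Finset.sum_congr rfl fun t _ => by ring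
          · intro u hu
            rw [hx0 u hu, mul_zero]
        rw [Finset.sum_congr rfl fun s _ => h3 s]
        exact h2
      · intro u hu
        simp [hx0 u hu])
  refine ⟨fun u => if hu : u ∈ T then b ⟨u, hu⟩ else 0, fun u hu => by simp [hu],
    fun u hu => by simpa [hu] using hb ⟨u, hu⟩, fun s hs => ?_⟩
  rw [hsum]
  · have h4 := hCb ⟨s, hs⟩
    rw [Pos_418.mv] at h4
    refine le_trans (le_of_eq ?_) h4
    refine Finset.sum_congr rfl fun u _ => ?_
    simp
  · intro u hu
    simp [hu]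

/-- reaching large heights. -/
theorem reach {T : Set S} {X : Pre M} (hX0 : ∀ s ∈ T, 0 ≤ X.2 s) (hXd : ∀ s g, 0 ≤ X.1 s g)
    (hconn : Conn M T) (hn : ¬ PD M T) {h : S → ℝ} (hcl : Cls T X h)
    (hpos : ∃ s ∈ T, 0 < h s) (B : ℝ) : ∃ h', Chain T X h h' ∧ ∀ s ∈ T, B ≤ h' s := by
  have hne : T.Nonempty := by
    obtain ⟨s, hs, _⟩ := hpos
    exact ⟨s, hs⟩
  obtain ⟨b, hb0, hb, hCb⟩ := exists_b hne hconn hn
  obtain ⟨h1, hc1, hp1⟩ := stage1 hX0 hXd hconn hcl hpos
  obtain ⟨h2, hc2, hp2⟩ := stage2 hb0 hb hCb (Chain.cls hc1 hcl) hp1 B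
  exact ⟨h2, Chain.trans hc1 hc2, hp2⟩

/-- the zero height is admissible -/
theorem cls_zero (T : Set S) (X : Pre M) : Cls T X (fun _ => 0) :=
  fun s _ => ⟨le_rfl, fun h => absurd h (lt_irrefl _)⟩

/-- **reaching large heights from 0** (for STEP 5). -/
theorem reach_zero {T : Set S} {X : Pre M} (hX0 : ∀ s ∈ T, 0 ≤ X.2 s)
    (hXd : ∀ s g, 0 ≤ X.1 s g) (hconn : Conn M T) (hn : ¬ PD M T)
    (hs0 : ∃ s ∈ T, 0 < X.2 s) (B : ℝ) :
    ∃ h', Chain T X (fun _ => 0) h' ∧ ∀ s ∈ T, B ≤ h' s := by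
  classical
  obtain ⟨s, hs, hls⟩ := hs0
  set h1 : S → ℝ := Function.update (fun _ => 0) s (X.2 s / 3) with hh1
  have hne : ∀ u, u ≠ s → h1 u = (fun _ => (0 : ℝ)) u := fun u hu => by
    rw [hh1, Function.update_of_ne hu]
  have h1s : h1 s = X.2 s / 3 := by rw [hh1, Function.update_self]
  have hcl : Cls T X h1 := by
    refine cls_raise hs (cls_zero T X) (by rw [h1s]; positivity) hne fun _ => ?_
    rw [slk_update hs hne, h1s, C_self]
    have h2 : slk T X (fun _ => 0) s =
        X.2 s - ∑ u, C M s u * ext T (fun _ => 0) (fun u => X.1 u 1) u := rfl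
    have h3 : ∑ u, C M s u * ext T (fun _ => 0) (fun u => X.1 u 1) u ≤ 0 := by
      refine Finset.sum_nonpos fun u _ => ?_
      by_cases hu : u ∈ T
      · rw [ext_mem hu, mul_zero]
      · rw [ext_not hu]
        exact mul_nonpos_of_nonpos_of_nonneg (C_nonpos M fun h => hu (h ▸ hs)) (hXd u 1)
    rw [h2]
    linarith
  obtain ⟨h2, hc, hB⟩ := reach hX0 hXd hconn hn hcl ⟨s, hs, by rw [h1s]; positivity⟩ B
  exact ⟨h2, (Relation.ReflTransGen.single
    ⟨s, hs, hne, by rw [h1s]; positivity, cls_zero T X, hcl⟩).trans hc, hB⟩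

/-- the complex is connected. -/
theorem full_joined {T : Set S} (h2 : ∀ s ∈ T, ∃ t ∈ T, t ≠ s) {p q : S × ArtinGroup M}
    (hp : p ∈ V M T) (hq : q ∈ V M T) : Joined T (V M T) p q := by
  have key : ∀ g ∈ A M T, ∀ t ∈ T, Joined T (V M T) (p.1, 1) (t, g) := by
    intro g hg
    have hstep : ∀ g ∈ A M T, (∀ t ∈ T, Joined T (V M T) (p.1, 1) (t, g)) → ∀ s ∈ T,
        ∀ x : ArtinGroup M, (∀ t, t ≠ s → x ∈ A M (T \ {t})) → ∀ t ∈ T,
        Joined T (V M T) (p.1, 1) (t, g * x) := by
      intro g hg ih s hs x hx t ht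
      obtain ⟨t', ht', hne⟩ := h2 s hs
      have hgx : g * x ∈ A M T := (A M T).mul_mem hg (A_diff_le M t' (hx t' hne))
      have e1 : Joined T (V M T) (t', g) (t', g * x) := by
        refine Joined.single ⟨ht', hg⟩ ⟨ht', hgx⟩ (Or.inl ⟨rfl, ?_⟩)
        show g⁻¹ * (g * x) ∈ _
        rw [inv_mul_cancel_left]
        exact hx t' hne
      have e2 : Joined T (V M T) (t', g * x) (t, g * x) :=
        Joined.single ⟨ht', hgx⟩ ⟨ht, hgx⟩ (Or.inr rfl)
      exact ((ih t' ht').trans e1).trans e2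
    have hgen : ∀ s ∈ T, ∀ t, t ≠ s → artinGen M s ∈ A M (T \ {t}) := fun s hs t ht =>
      gen_mem M ⟨hs, fun h => ht (by rw [Set.mem_singleton_iff] at h; exact h.symm)⟩
    have : g ∈ A M T → (g ∈ A M T ∧ ∀ t ∈ T, Joined T (V M T) (p.1, 1) (t, g)) := by
      intro hg
      induction hg using Subgroup.closure_induction_right with
      | one =>
        refine ⟨Subgroup.one_mem _, fun t ht => ?_⟩
        exact Joined.single ⟨hp.1, Subgroup.one_mem _⟩ ⟨ht, Subgroup.one_mem _⟩ (Or.inr rfl)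
      | mul_right x hx y hy ih =>
        obtain ⟨s, hs, rfl⟩ := hy
        obtain ⟨ih1, ih2⟩ := ih hx
        exact ⟨(A M T).mul_mem ih1 (gen_mem M hs), hstep x ih1 ih2 s hs _ (hgen s hs)⟩
      | mul_inv_cancel x hx y hy ih =>
        obtain ⟨s, hs, rfl⟩ := hy
        obtain ⟨ih1, ih2⟩ := ih hx
        exact ⟨(A M T).mul_mem ih1 ((A M T).inv_mem (gen_mem M hs)), hstep x ih1 ih2 s hs _
          fun t ht => Subgroup.inv_mem _ (hgen s hs t ht)⟩
    exact (this hg).2
  exact (key p.2 hp.2 p.1 hp.1).symm.trans (key q.2 hq.2 q.1 hq.1)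

/-- a path is contained in every sufficiently high sublevel. -/
theorem joined_bound {T : Set S} (X : Pre M) {p q : S × ArtinGroup M}
    (h : Joined T (V M T) p q) :
    ∃ B : ℝ, ∀ h' : S → ℝ, (∀ s ∈ T, B ≤ h' s) → Joined T (U T X h') p q := by
  induction h with
  | refl => exact ⟨0, fun _ _ => Relation.ReflTransGen.refl⟩
  | @tail x y _ hxy ih =>
    obtain ⟨B, hB⟩ := ih
    refine ⟨max B (max (X.1 x.1 x.2) (X.1 y.1 y.2) + 1), fun h' hh => ?_⟩
    refine (hB h' fun s hs => (le_max_left _ _).trans (hh s hs)).trans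
      (Joined.single ⟨hxy.1.1, hxy.1.2, ?_⟩ ⟨hxy.2.1.1, hxy.2.1.2, ?_⟩ hxy.2.2)
    · have h1 := (le_max_right _ _).trans (hh x.1 hxy.1.1)
      have h2 := le_max_left (X.1 x.1 x.2) (X.1 y.1 y.2)
      linarith
    · have h1 := (le_max_right _ _).trans (hh y.1 hxy.2.1.1)
      have h2 := le_max_right (X.1 x.1 x.2) (X.1 y.1 y.2)
      linarith

/-- singletons are positive definite. -/
theorem two_types {T : Set S} (hn : ¬ PD M T) : ∀ s ∈ T, ∃ t ∈ T, t ≠ s := by
  classical
  intro s hs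
  by_contra hc
  push Not at hc
  apply hn
  intro x hx0 hx
  have h1 : ∀ u, u ≠ s → x u = 0 := fun u hu => hx0 u fun h => hu (hc u h)
  have hxs : x s ≠ 0 := by
    intro h
    apply hx
    funext u
    by_cases hu : u = s
    · subst hu; exact h
    · exact h1 u hu
  have h2 : ∀ u, ∑ t, C M u t * x u * x t = if u = s then 2 * x s * x s else 0 := by
    intro u
    by_cases hu : u = s
    · subst hu
      rw [if_pos rfl, Finset.sum_eq_single u]
      · rw [C_self]
      · intro t _ ht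
        rw [h1 t ht, mul_zero]
      · simp
    · rw [if_neg hu]
      simp [h1 u hu]
  rw [Finset.sum_congr rfl fun u _ => h2 u]
  simp only [Finset.sum_ite_eq', Finset.mem_univ, if_true]
  have := mul_self_pos.2 hxs
  nlinarith

/-- **(D)** -/
theorem ut_conn (N : Num M) {T : Set S} (hconn : Conn M T) (hn : ¬ PD M T)
    (ih : ∀ t ∈ T, UT N (T \ {t})) : UT N T := by
  intro X hX h hcl p hp q hq
  have hpos : ∃ s ∈ T, 0 < h s :=
    ⟨p.1, hp.1, (N.d_nonneg X hX p.1 p.2).trans_lt hp.2.2⟩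
  obtain ⟨B, hB⟩ := joined_bound X
    (full_joined (two_types hn) ⟨hp.1, hp.2.1⟩ ⟨hq.1, hq.2.1⟩ : Joined T (V M T) p q)
  obtain ⟨h', hch, hh'⟩ := reach (fun s _ => N.lam_nonneg X hX s) (N.d_nonneg X hX) hconn hn
    hcl hpos B
  exact chain_back N hX ih hch hp hq (hB h' hh')

/-- **`UT` for all diagrams** from `UT` for positive definite ones. -/
theorem ut_all (N : Num M) (hPD : ∀ T, PD M T → UT N T) (T : Set S) : UT N T := by
  classical
  have key : ∀ (k : ℕ) (T : Set S), T.ncard = k → UT N T := by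
    intro k
    induction k with
    | zero =>
      intro T hT
      have : T = ∅ := (Set.ncard_eq_zero T.toFinite).1 hT
      subst this
      intro X _ h _ p hp
      exact absurd hp.1 (Set.notMem_empty _)
    | succ k ih =>
      intro T hT
      have ih' : ∀ t ∈ T, UT N (T \ {t}) := fun t ht =>
        ih _ (by rw [Set.ncard_sdiff_singleton_of_mem ht, hT]; rfl)
      by_cases h1 : PD M T
      · exact hPD T h1
      · by_cases h2 : Conn M T
        · exact ut_conn N h2 h1 ih'
        · exact ut_disc N h2 ih'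
  exact key _ T rfl

/-- **(U_T) for all `T`**. -/
theorem ut (N : Num M) (T : Set S) : UT N T :=
  ut_all N (fun _ hT => TopB_505.UT_of_PD N hT) T

theorem conn_of_connd {T : Set S} (h : Connd M T) : Conn M T := by
  intro P ⟨a, ha, hPa⟩ ⟨b, hb, hPb⟩
  obtain ⟨s, hs, t, ht, hst⟩ := h {s | s ∈ T ∧ P s} (fun s hs => hs.1) ⟨a, ha, hPa⟩
    (fun h => hPb ((h.symm ▸ hb : b ∈ {s | s ∈ T ∧ P s})).2)
  exact ⟨s, hs.1, t, ht.1, hs.2, fun hPt => ht.2 ⟨ht.1, hPt⟩, hst⟩

theorem step_num {T : Set S} {X : Pre M} {h h' : S → ℝ} (H : Step T X h h') :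
    Num_774.Step T X h h' := by
  classical
  obtain ⟨t, ht, h1, h2, _, h3⟩ := H
  refine ⟨t, ht, h' t, h2, ?_, h3⟩
  funext s
  by_cases hs : s = t
  · subst hs
    simp
  · rw [h1 s hs, Function.update_of_ne hs]

theorem chain_num {T : Set S} {X : Pre M} {h h' : S → ℝ} (H : Chain T X h h') :
    Relation.ReflTransGen (Num_774.Step T X) h h' := by
  induction H with
  | refl => exact Relation.ReflTransGen.refl
  | tail _ h1 ih => exact ih.tail (step_num h1)

/-- growth from any admissible height with a positive coordinate, in the form of `Num_774`. -/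
theorem reach_num {T : Set S} {X : Pre M} (hX0 : ∀ s ∈ T, 0 ≤ X.2 s) (hXd : ∀ s g, 0 ≤ X.1 s g)
    (hconn : Connd M T) (hn : ¬ PD M T) {h : S → ℝ} (hcl : Cls T X h)
    (hpos : ∃ s ∈ T, 0 < h s) (B : ℝ) :
    ∃ h', Relation.ReflTransGen (Num_774.Step T X) h h' ∧ ∀ s ∈ T, B ≤ h' s := by
  obtain ⟨h', h1, h2⟩ := reach hX0 hXd (conn_of_connd hconn) hn hcl hpos B
  exact ⟨h', chain_num h1, h2⟩

/-- growth from `0`, in the form of `Num_774`. -/
theorem reach_zero_num {T : Set S} {X : Pre M} (hX0 : ∀ s ∈ T, 0 ≤ X.2 s)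
    (hXd : ∀ s g, 0 ≤ X.1 s g) (hconn : Connd M T) (hn : ¬ PD M T)
    (hs0 : ∃ s ∈ T, 0 < X.2 s) (B : ℝ) :
    ∃ h', Relation.ReflTransGen (Num_774.Step T X) (fun _ => 0) h' ∧ ∀ s ∈ T, B ≤ h' s := by
  obtain ⟨h', h1, h2⟩ := reach_zero hX0 hXd (conn_of_connd hconn) hn hs0 B
  exact ⟨h', chain_num h1, h2⟩

end Crest.Agent.R175.TopD_224
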