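import Crest.Agent.R175.Top5_774
import Crest.Agent.R175.Pos_418

/-!
Row 175 (S0263): the induction of #2667: (U_T) for all `T`, growth of chains, spherical intersection
theorem ⇒ the intersection theorem for every Artin group.
-/

set_option autoImplicit false
set_option linter.unusedSectionVars false

namespace Crest.Agent.R175.TopI_774

open Crest.GroupTheory Crest.Agent.R175.Num_774 Crest.Agent.R175.Top5_774

universe u

section Comm

variable {S : Type u} {M : CoxeterMatrix S}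

theorem gen_comm {s t : S} (h : M s t = 2) : Commute (artinGen M s) (artinGen M t) := by
  have h1 : artinAltWord s t (M.M s t) * (artinAltWord t s (M.M s t))⁻¹ ∈ artinRelators M :=
    ⟨(s, t), rfl⟩
  have h2 : (PresentedGroup.mk (artinRelators M)
      (artinAltWord s t (M.M s t) * (artinAltWord t s (M.M s t))⁻¹)) = 1 :=
    PresentedGroup.one_of_mem h1
  have h3 : M.M s t = 2 := h
  rw [h3, map_mul, map_inv, mul_inv_eq_one] at h2
  simp only [artinAltWord, map_mul, map_one, mul_one] at h2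
  exact h2

theorem comm_of {P Q : Set S} (h : ∀ s ∈ P, ∀ t ∈ Q, M s t = 2) {x y : ArtinGroup M}
    (hx : x ∈ A M P) (hy : y ∈ A M Q) : Commute x y := by
  have h1 : A M P ≤ Subgroup.centralizer (A M Q : Set (ArtinGroup M)) := by
    apply (Subgroup.closure_le _).2
    rintro _ ⟨s, hs, rfl⟩
    rw [SetLike.mem_coe, Subgroup.mem_centralizer_iff]
    intro z hz
    have h2 : A M Q ≤ Subgroup.centralizer {artinGen M s} := by
      apply (Subgroup.closure_le _).2
      rintro _ ⟨t, ht, rfl⟩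
      rw [SetLike.mem_coe, Subgroup.mem_centralizer_iff]
      intro w hw
      rw [Set.mem_singleton_iff] at hw
      subst hw
      exact gen_comm (h s hs t ht)
    have h3 := (Subgroup.mem_centralizer_iff.1 (h2 hz)) (artinGen M s) rfl
    exact h3.symm
  exact ((Subgroup.mem_centralizer_iff.1 (h1 hx)) y hy).symm

/-- elements of `A_X` are products -/
theorem split {P Q X : Set S} (h : ∀ s ∈ P, ∀ t ∈ Q, M s t = 2) (hX : X ⊆ P ∪ Q)
    {x : ArtinGroup M} (hx : x ∈ A M X) :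
    ∃ x1 ∈ A M (X ∩ P), ∃ x2 ∈ A M (X ∩ Q), x = x1 * x2 := by
  unfold A stdParabolic at hx
  induction hx using Subgroup.closure_induction with
  | mem x hx =>
    obtain ⟨s, hs, rfl⟩ := hx
    rcases hX hs with h1 | h1
    · exact ⟨artinGen M s, gen_mem M ⟨hs, h1⟩, 1, (A M _).one_mem, (mul_one _).symm⟩
    · exact ⟨1, (A M _).one_mem, artinGen M s, gen_mem M ⟨hs, h1⟩, (one_mul _).symm⟩
  | one => exact ⟨1, (A M _).one_mem, 1, (A M _).one_mem, (mul_one _).symm⟩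
  | mul x y _ _ hx hy =>
    obtain ⟨x1, hx1, x2, hx2, rfl⟩ := hx
    obtain ⟨y1, hy1, y2, hy2, rfl⟩ := hy
    refine ⟨x1 * y1, (A M _).mul_mem hx1 hy1, x2 * y2, (A M _).mul_mem hx2 hy2, ?_⟩
    have hc : Commute y1 x2 := comm_of h (A_mono M Set.inter_subset_right hy1)
      (A_mono M Set.inter_subset_right hx2)
    calc x1 * x2 * (y1 * y2) = x1 * (x2 * y1) * y2 := by group
      _ = x1 * (y1 * x2) * y2 := by rw [hc.eq]
      _ = _ := by group
  | inv x _ hx =>
    obtain ⟨x1, hx1, x2, hx2, rfl⟩ := hx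
    refine ⟨x1⁻¹, (A M _).inv_mem hx1, x2⁻¹, (A M _).inv_mem hx2, ?_⟩
    have hc : Commute x1 x2 := comm_of h (A_mono M Set.inter_subset_right hx1)
      (A_mono M Set.inter_subset_right hx2)
    rw [hc.eq, mul_inv_rev]

theorem uniq {P Q : Set S} (hPQ : Disjoint P Q) {x1 y1 x2 y2 : ArtinGroup M}
    (hx1 : x1 ∈ A M P) (hy1 : y1 ∈ A M P) (hx2 : x2 ∈ A M Q) (hy2 : y2 ∈ A M Q)
    (h : x1 * x2 = y1 * y2) : x1 = y1 ∧ x2 = y2 := by
  have h1 : y1⁻¹ * x1 = y2 * x2⁻¹ := by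
    have : y1⁻¹ * (x1 * x2) * x2⁻¹ = y1⁻¹ * (y1 * y2) * x2⁻¹ := by rw [h]
    simpa [mul_assoc] using this
  have h2 : y1⁻¹ * x1 ∈ A M P ⊓ A M Q :=
    ⟨(A M P).mul_mem ((A M P).inv_mem hy1) hx1, h1 ▸ (A M Q).mul_mem hy2 ((A M Q).inv_mem hx2)⟩
  rw [VdL_527.std_inf, Set.disjoint_iff_inter_eq_empty.1 hPQ] at h2
  have h3 : y1⁻¹ * x1 = 1 := by
    have h4 : stdParabolic M (∅ : Set S) = ⊥ := by simp [stdParabolic]
    rw [h4] at h2
    exact Subgroup.mem_bot.1 h2
  constructor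
  · exact (inv_mul_eq_one.1 h3).symm
  · rw [h3] at h1
    exact (mul_inv_eq_one.1 h1.symm).symm

/-- membership in a standard subgroup of a product -/
theorem mem_split {P Q X : Set S} (h : ∀ s ∈ P, ∀ t ∈ Q, M s t = 2) (hPQ : Disjoint P Q)
    (hX : X ⊆ P ∪ Q) {x1 x2 : ArtinGroup M} (h1 : x1 ∈ A M P) (h2 : x2 ∈ A M Q) :
    x1 * x2 ∈ A M X ↔ x1 ∈ A M (X ∩ P) ∧ x2 ∈ A M (X ∩ Q) := by
  constructor
  · intro hx
    obtain ⟨y1, hy1, y2, hy2, he⟩ := split h hX hx
    obtain ⟨h3, h4⟩ := uniq hPQ h1 (A_mono M Set.inter_subset_right hy1) h2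
      (A_mono M Set.inter_subset_right hy2) he
    exact ⟨h3 ▸ hy1, h4 ▸ hy2⟩
  · rintro ⟨h3, h4⟩
    exact (A M X).mul_mem (A_mono M Set.inter_subset_left h3) (A_mono M Set.inter_subset_left h4)

end Comm

section Main

variable {S : Type u} [Fintype S] {M : CoxeterMatrix S}

/-- products -/
theorem int_prod {P Q : Set S} (h : ∀ s ∈ P, ∀ t ∈ Q, M s t = 2) (hPQ : Disjoint P Q)
    (hP : IntT M P) (hQ : IntT M Q) : IntT M (P ∪ Q) := by
  intro X hX Y hY g hg
  obtain ⟨g1, hg1', g2, hg2', rfl⟩ := split h subset_rfl hg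
  have hg1 : g1 ∈ A M P := A_mono M Set.inter_subset_right hg1'
  have hg2 : g2 ∈ A M Q := A_mono M Set.inter_subset_right hg2'
  obtain ⟨a1, ha1, Z1, hZ1, H1⟩ := hP (X ∩ P) Set.inter_subset_right (Y ∩ P)
    Set.inter_subset_right g1 hg1
  obtain ⟨a2, ha2, Z2, hZ2, H2⟩ := hQ (X ∩ Q) Set.inter_subset_right (Y ∩ Q)
    Set.inter_subset_right g2 hg2
  have hZ : Z1 ∪ Z2 ⊆ X := by
    rintro x (hx | hx)
    · exact (hZ1 hx).1
    · exact (hZ2 hx).1
  have haX : a1 * a2 ∈ A M X :=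
    (A M X).mul_mem (A_mono M Set.inter_subset_left ha1) (A_mono M Set.inter_subset_left ha2)
  refine ⟨a1 * a2, haX, Z1 ∪ Z2, hZ, fun x => ?_⟩
  have hconj : ∀ x1 ∈ A M P, ∀ x2 ∈ A M Q, ∀ b1 ∈ A M P, ∀ b2 ∈ A M Q,
      (b1 * b2)⁻¹ * (x1 * x2) * (b1 * b2) = (b1⁻¹ * x1 * b1) * (b2⁻¹ * x2 * b2) := by
    intro x1 hx1 x2 hx2 b1 hb1 b2 hb2
    have c1 : Commute b1 b2 := comm_of h hb1 hb2
    have c2 : Commute x1 b2 := comm_of h hx1 hb2
    have c3 : Commute b1 x2 := comm_of h hb1 hx2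
    calc (b1 * b2)⁻¹ * (x1 * x2) * (b1 * b2) = b2⁻¹ * (b1⁻¹ * x1) * (x2 * b1) * b2 := by group
      _ = b2⁻¹ * (b1⁻¹ * x1) * (b1 * x2) * b2 := by rw [c3.eq]
      _ = b2⁻¹ * (b1⁻¹ * x1 * b1) * (x2 * b2) := by group
      _ = (b1⁻¹ * x1 * b1) * b2⁻¹ * (x2 * b2) := by
          have c4 : Commute (b2⁻¹) (b1⁻¹ * x1 * b1) :=
            ((c1.symm.inv_left.inv_right).mul_right c2.symm.inv_left).mul_right c1.symm.inv_left
          rw [c4.eq]
      _ = _ := by group
  have hP1 : (Z1 ∪ Z2) ∩ P = Z1 := by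
    ext z
    constructor
    · rintro ⟨h1 | h1, h2⟩
      · exact h1
      · exact absurd (hZ2 h1).2 (Set.disjoint_left.1 hPQ h2)
    · intro h1
      exact ⟨Or.inl h1, (hZ1 h1).2⟩
  have hQ1 : (Z1 ∪ Z2) ∩ Q = Z2 := by
    ext z
    constructor
    · rintro ⟨h1 | h1, h2⟩
      · exact absurd h2 (Set.disjoint_left.1 hPQ (hZ1 h1).2)
      · exact h1
    · intro h1
      exact ⟨Or.inr h1, (hZ2 h1).2⟩
  have cj : ∀ {T : Set S} {b y : ArtinGroup M}, b ∈ A M T → y ∈ A M T → b⁻¹ * y * b ∈ A M T :=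
    fun {T b y} hb hy => (A M T).mul_mem ((A M T).mul_mem ((A M T).inv_mem hb) hy) hb
  have ha1P : a1 ∈ A M P := A_mono M Set.inter_subset_right ha1
  have ha2Q : a2 ∈ A M Q := A_mono M Set.inter_subset_right ha2
  have main : ∀ x1 ∈ A M P, ∀ x2 ∈ A M Q,
      ((x1 * x2 ∈ A M X ∧ (g1 * g2)⁻¹ * (x1 * x2) * (g1 * g2) ∈ A M Y) ↔
        (a1 * a2)⁻¹ * (x1 * x2) * (a1 * a2) ∈ A M (Z1 ∪ Z2)) := by
    intro x1 hx1 x2 hx2
    rw [hconj x1 hx1 x2 hx2 g1 hg1 g2 hg2, hconj x1 hx1 x2 hx2 a1 ha1P a2 ha2Q,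
      mem_split h hPQ hX hx1 hx2, mem_split h hPQ hY (cj hg1 hx1) (cj hg2 hx2),
      mem_split h hPQ (hZ.trans hX) (cj ha1P hx1) (cj ha2Q hx2), hP1, hQ1, ← H1 x1, ← H2 x2]
    tauto
  constructor
  · rintro ⟨h1, h2⟩
    obtain ⟨x1, hx1, x2, hx2, rfl⟩ := split h hX h1
    exact (main x1 (A_mono M Set.inter_subset_right hx1) x2
      (A_mono M Set.inter_subset_right hx2)).1 ⟨h1, h2⟩
  · intro h1
    have h2 : x ∈ A M X := by
      have h3 : x = (a1 * a2) * ((a1 * a2)⁻¹ * x * (a1 * a2)) * (a1 * a2)⁻¹ := by group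
      rw [h3]
      exact (A M X).mul_mem ((A M X).mul_mem haX (A_mono M hZ h1)) ((A M X).inv_mem haX)
    obtain ⟨x1, hx1, x2, hx2, rfl⟩ := split h hX h2
    exact (main x1 (A_mono M Set.inter_subset_right hx1) x2
      (A_mono M Set.inter_subset_right hx2)).2 h1

/-- **the intersection theorem** for all `T` -/
theorem int_all (N : Num M) (hS : ∀ T : Set S, PD M T → IntT M T) (hUT : ∀ T, UT N T)
    (hR : ∀ T : Set S, Connd M T → T.Nonempty → ¬ PD M T → Reach N T) (T : Set S) :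
    IntT M T := by
  induction hn : T.ncard using Nat.strong_induction_on generalizing T with
  | _ n ih =>
    subst hn
    by_cases hPD : PD M T
    · exact hS T hPD
    by_cases hc : Connd M T
    · have hne : T.Nonempty := by
        by_contra hne
        rw [Set.not_nonempty_iff_eq_empty] at hne
        subst hne
        exact hPD (fun x hx hx' => absurd (funext fun s => hx s (Set.notMem_empty s)) hx')
      exact int_conn N (hUT T) (fun t _ => hUT _) (hR T hc hne hPD)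
        (fun t ht => ih _ (Set.ncard_sdiff_singleton_lt_of_mem ht (Set.toFinite T)) _ rfl)
    · unfold Connd at hc
      push Not at hc
      obtain ⟨P, hPT, hPne, hPT', hP⟩ := hc
      have hU : P ∪ (T \ P) = T := Set.union_sdiff_cancel hPT
      rw [← hU]
      have hlt : P.ncard < T.ncard :=
        Set.ncard_lt_ncard (lt_of_le_of_ne hPT hPT') (Set.toFinite T)
      have hlt' : (T \ P).ncard < T.ncard := by
        apply Set.ncard_lt_ncard _ (Set.toFinite T)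
        refine ⟨Set.sdiff_subset, fun h => ?_⟩
        obtain ⟨p, hp⟩ := hPne
        exact (h (hPT hp)).2 hp
      apply int_prod _ Set.disjoint_sdiff_right (ih _ hlt P rfl) (ih _ hlt' _ rfl)
      intro s hs t ht
      exact C_eq_zero M (fun h => ht.2 (h ▸ hs)) (hP s hs t ht)

end Main

end Crest.Agent.R175.TopI_774
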