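import Mathlib

/-!
R175 / S0263, block (A)+(DUAL) of posts 2434 / 2527: the linear algebra behind
"an indecomposable object with at least two frames has a self-cone with an elementary move at
every frame".

* `adapted_basis`     : endomorphisms that push a finite filtration one step down are simultaneously
                        strictly triangular in some basis;
* `exists_orth`       : for such a family and prescribed diagonal entries `a`, an endomorphism `A` with
                        `trace A = ∑ a`, `trace (A n) = 0` for all `n` of the family, invertible if all `a i ≠ 0`;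
* `exists_orth_pi`    : product version, total trace zero, invertible in every factor;
* `fd_local`          : finite dimensional algebra over an algebraically closed field without non trivial
                        idempotents is `k + (nilpotent ideal)`;
* `exists_orth_alg`   : the image of such an algebra in `∏ End (W i)`;
* `exists_path`       : duality corollary.
-/

set_option autoImplicit false

namespace Crest.Agent.R175.TrZero722

open Module

universe u v

variable {k : Type v} [Field k]

theorem adapted_basis (d : ℕ) :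
    ∀ (W : Type u) [AddCommGroup W] [Module k W] [FiniteDimensional k W]
      (_ : finrank k W = d) (S : Set (Module.End k W)) (F : ℕ → Submodule k W) (m : ℕ)
      (_ : F 0 = ⊤) (_ : F m = ⊥)
      (_ : ∀ n ∈ S, ∀ i, ∀ x ∈ F i, n x ∈ F (i + 1)),
      ∃ b : Basis (Fin d) k W, ∀ n ∈ S, ∀ i, ∀ j, j ≤ i → b.repr (n (b i)) j = 0 := by
  induction d with
  | zero =>
    intro W _ _ _ hd S F m _ _ _
    exact ⟨finBasisOfFinrankEq k W hd, fun n _ i => i.elim0⟩
  | succ d ih =>
    intro W _ _ _ hd S F m h0 hm hS
    have hnt : Nontrivial W := by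
      apply Module.nontrivial_of_finrank_pos (R := k); omega
    -- the first index where the filtration is not everything
    have hex : ∃ i, F i ≠ ⊤ := ⟨m, by rw [hm]; exact bot_ne_top⟩
    classical
    let i0 := Nat.find hex
    have hi0 : F i0 ≠ ⊤ := Nat.find_spec hex
    have hi0pos : i0 ≠ 0 := by
      intro h; apply hi0; rw [h]; exact h0
    obtain ⟨i1, hi1⟩ := Nat.exists_eq_succ_of_ne_zero hi0pos
    have htop : F i1 = ⊤ := by
      by_contra hne
      have := Nat.find_min hex (m := i1) (by show i1 < i0; omega)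
      exact this hne
    have hNW : ∀ n ∈ S, ∀ x, n x ∈ F i0 := by
      intro n hn x
      have := hS n hn i1 x (by rw [htop]; trivial)
      rw [hi1]; exact this
    -- hyperplane
    obtain ⟨H, hHco, hFH⟩ : ∃ H : Submodule k W, IsCoatom H ∧ F i0 ≤ H := by
      obtain h | h := eq_top_or_exists_le_coatom (F i0)
      · exact absurd h hi0
      · exact h
    obtain ⟨v, hv⟩ : ∃ v, v ∉ H := by
      by_contra hcon
      push Not at hcon
      exact hHco.1 (eq_top_iff.2 fun x _ => hcon x)
    have hsup : H ⊔ Submodule.span k {v} = ⊤ := by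
      apply hHco.2
      refine lt_of_le_of_ne le_sup_left ?_
      intro heq
      apply hv
      rw [heq]
      exact Submodule.mem_sup_right (Submodule.mem_span_singleton_self v)
    have hli : ∀ (c : k), ∀ x ∈ H, c • v + x = 0 → c = 0 := by
      intro c x hx hcx
      by_contra hc
      apply hv
      have : v = c⁻¹ • (-x) := by
        rw [eq_neg_of_add_eq_zero_right hcx, neg_neg, smul_smul, inv_mul_cancel₀ hc, one_smul]
      rw [this]
      exact H.smul_mem _ (H.neg_mem hx)
    have hsp : ∀ z : W, ∃ c : k, z + c • v ∈ H := by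
      intro z
      have hz : z ∈ H ⊔ Submodule.span k {v} := by rw [hsup]; trivial
      obtain ⟨y, hy, w, hw, rfl⟩ := Submodule.mem_sup.1 hz
      obtain ⟨c, rfl⟩ := Submodule.mem_span_singleton.1 hw
      exact ⟨-c, by simpa [add_assoc] using hy⟩
    have hdH : finrank k H = d := by
      have hdisj : Disjoint H (Submodule.span k {v}) := by
        rw [Submodule.disjoint_def]
        intro x hx hx'
        obtain ⟨c, rfl⟩ := Submodule.mem_span_singleton.1 hx'
        have := hli c (-(c • v)) (H.neg_mem hx) (by simp)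
        rw [this, zero_smul]
      have h2 := Submodule.finrank_sup_add_finrank_inf_eq H (Submodule.span k {v})
      rw [hsup, finrank_top, hdisj.eq_bot, finrank_bot,
        finrank_span_singleton (by rintro rfl; exact hv H.zero_mem)] at h2
      omega
    -- restriction to the hyperplane
    have hres : ∀ n ∈ S, ∀ x ∈ H, n x ∈ H := fun n hn x _ => hFH (hNW n hn x)
    let S' : Set (Module.End k H) := {g | ∃ n ∈ S, ∀ x : H, ((g x : H) : W) = n x}
    obtain ⟨b, hb⟩ := ih H hdH S' (fun i => (F i).comap H.subtype) m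
      (by simp [h0]) (by simp [hm]) (by
        rintro g ⟨n, hn, hg⟩ i x hx
        simp only [Submodule.mem_comap, Submodule.subtype_apply] at hx ⊢
        rw [hg x]
        exact hS n hn i _ hx)
    refine ⟨Basis.mkFinCons v b hli hsp, ?_⟩
    intro n hn
    have key : ∀ x : H, ∀ j : Fin (d + 1), (∀ j' : Fin d, j = Fin.succ j' → b.repr x j' = 0) →
        (Basis.mkFinCons v b hli hsp).repr (x : W) j = 0 := by
      intro x j hj
      have hx : (x : W) = ∑ l : Fin d, b.repr x l • (Basis.mkFinCons v b hli hsp) (Fin.succ l) := by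
        conv_lhs => rw [← b.sum_repr x]
        rw [Submodule.coe_sum]
        apply Finset.sum_congr rfl
        intro l _
        rw [Basis.coe_mkFinCons, Fin.cons_succ]
        simp
      rw [hx, map_sum, Finsupp.finsetSum_apply]
      apply Finset.sum_eq_zero
      intro l _
      rw [map_smul, Basis.repr_self, Finsupp.smul_apply, Finsupp.single_apply]
      split_ifs with hlj
      · rw [hj l hlj.symm, zero_smul]
      · simp
    intro i j hji
    refine Fin.cases ?_ ?_ i (motive := fun i => j ≤ i →
      (Basis.mkFinCons v b hli hsp).repr (n ((Basis.mkFinCons v b hli hsp) i)) j = 0) hji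
    · intro hj0
      have hj : j = 0 := Fin.le_zero_iff.1 hj0
      subst hj
      have hnv : n v ∈ H := hFH (hNW n hn v)
      have := key ⟨n v, hnv⟩ 0 (fun j' h => absurd h (Fin.succ_ne_zero j').symm)
      simpa [Basis.coe_mkFinCons] using this
    · intro i' hj
      have hbi : (Basis.mkFinCons v b hli hsp) (Fin.succ i') = ((b i' : H) : W) := by
        rw [Basis.coe_mkFinCons, Fin.cons_succ]; rfl
      rw [hbi]
      let g : Module.End k H := n.restrict (hres n hn)
      have hg : ∀ x : H, ((g x : H) : W) = n x := fun x => rfl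
      have := key (g (b i')) j (by
        intro j' hj'
        apply hb g ⟨n, hn, hg⟩ i' j'
        rw [hj'] at hj
        exact Fin.succ_le_succ_iff.1 hj)
      rw [hg] at this
      exact this

/-- prescribed diagonal in an adapted basis -/
theorem exists_orth {W : Type u} [AddCommGroup W] [Module k W] [FiniteDimensional k W]
    (S : Set (Module.End k W)) (F : ℕ → Submodule k W) (m : ℕ)
    (h0 : F 0 = ⊤) (hm : F m = ⊥)
    (hS : ∀ n ∈ S, ∀ i, ∀ x ∈ F i, n x ∈ F (i + 1)) (a : Fin (finrank k W) → k) :
    ∃ A : Module.End k W, LinearMap.trace k W A = ∑ i, a i ∧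
      (∀ n ∈ S, LinearMap.trace k W (A * n) = 0) ∧ ((∀ i, a i ≠ 0) → IsUnit A) := by
  obtain ⟨b, hb⟩ := adapted_basis (k := k) (finrank k W) W rfl S F m h0 hm hS
  let A : Module.End k W := b.constr k (fun i => a i • b i)
  have hA : ∀ i, A (b i) = a i • b i := fun i => by simp [A]
  have hrep : ∀ x i, b.repr (A x) i = a i * b.repr x i := by
    intro x i
    have hx : A x = ∑ l, b.repr x l • (a l • b l) := by
      conv_lhs => rw [← b.sum_repr x]
      rw [map_sum]
      apply Finset.sum_congr rfl
      intro l _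
      rw [map_smul, hA]
    rw [hx, map_sum, Finsupp.finsetSum_apply]
    rw [Finset.sum_eq_single i]
    · simp [mul_comm]
    · intro l _ hl
      simp [hl]
    · simp
  refine ⟨A, ?_, ?_, ?_⟩
  · rw [LinearMap.trace_eq_matrix_trace k b, Matrix.trace]
    apply Finset.sum_congr rfl
    intro i _
    rw [Matrix.diag_apply, LinearMap.toMatrix_apply, hrep]
    simp
  · intro n hn
    rw [LinearMap.trace_eq_matrix_trace k b, Matrix.trace]
    apply Finset.sum_eq_zero
    intro i _
    rw [Matrix.diag_apply, LinearMap.toMatrix_apply, Module.End.mul_apply, hrep,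
      hb n hn i i le_rfl, mul_zero]
  · intro ha
    let B : Module.End k W := b.constr k (fun i => (a i)⁻¹ • b i)
    have hB : ∀ i, B (b i) = (a i)⁻¹ • b i := fun i => by simp [B]
    refine ⟨⟨A, B, ?_, ?_⟩, rfl⟩
    · apply b.ext
      intro i
      rw [Module.End.mul_apply, hB, map_smul, hA, smul_smul, inv_mul_cancel₀ (ha i), one_smul,
        Module.End.one_apply]
    · apply b.ext
      intro i
      rw [Module.End.mul_apply, hA, map_smul, hB, smul_smul, mul_inv_cancel₀ (ha i), one_smul,
        Module.End.one_apply]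

/-- non zero scalars with sum zero -/
theorem exists_scalars [Infinite k] (J : Type*) [Fintype J] (h2 : 2 ≤ Fintype.card J) :
    ∃ a : J → k, (∀ j, a j ≠ 0) ∧ ∑ j, a j = 0 := by
  classical
  obtain ⟨p, q, hpq⟩ := Fintype.exists_pair_of_one_lt_card (show 1 < Fintype.card J by omega)
  let T : Finset J := (Finset.univ.erase p).erase q
  obtain ⟨x, hx⟩ := Infinite.exists_notMem_finset ({0, -(T.card : k)} : Finset k)
  simp only [Finset.mem_insert, Finset.mem_singleton, not_or] at hx
  obtain ⟨hx0, hx1⟩ := hx
  refine ⟨fun j => if j = p then x else if j = q then -(x + (T.card : k)) else 1, ?_, ?_⟩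
  · intro j
    dsimp only
    split_ifs with h1 h2
    · exact hx0
    · rw [neg_ne_zero]
      intro h
      exact hx1 (eq_neg_of_add_eq_zero_left h)
    · exact one_ne_zero
  · have hp : p ∈ (Finset.univ : Finset J) := Finset.mem_univ p
    have hq : q ∈ (Finset.univ.erase p : Finset J) := Finset.mem_erase.2 ⟨hpq.symm, Finset.mem_univ q⟩
    rw [← Finset.add_sum_erase _ _ hp, ← Finset.add_sum_erase _ _ hq]
    have hT : ∑ j ∈ (Finset.univ.erase p).erase q,
        (if j = p then x else if j = q then -(x + (T.card : k)) else 1) = (T.card : k) := by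
      rw [Finset.sum_congr rfl (g := fun _ => (1 : k))]
      · simp [T]
      · intro j hj
        rw [Finset.mem_erase, Finset.mem_erase] at hj
        rw [if_neg hj.2.1, if_neg hj.1]
    rw [hT, if_pos rfl, if_neg hpq.symm, if_pos rfl]
    ring

/-- product version with filtrations -/
theorem exists_orth_pi [Infinite k] {ι : Type*} [Fintype ι] (W : ι → Type u)
    [∀ i, AddCommGroup (W i)] [∀ i, Module k (W i)] [∀ i, FiniteDimensional k (W i)]
    (S : Set (∀ i, Module.End k (W i))) (F : ∀ i, ℕ → Submodule k (W i)) (m : ℕ)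
    (h0 : ∀ i, F i 0 = ⊤) (hm : ∀ i, F i m = ⊥)
    (hS : ∀ n ∈ S, ∀ i l, ∀ x ∈ F i l, n i x ∈ F i (l + 1))
    (h2 : 2 ≤ ∑ i, finrank k (W i)) :
    ∃ A : ∀ i, Module.End k (W i), (∀ i, IsUnit (A i)) ∧
      ∑ i, LinearMap.trace k (W i) (A i) = 0 ∧
      ∀ n ∈ S, ∀ i, LinearMap.trace k (W i) (A i * n i) = 0 := by
  obtain ⟨a, ha, hsum⟩ := exists_scalars (k := k) (Σ i : ι, Fin (finrank k (W i))) (by
    rw [Fintype.card_sigma]; simpa using h2)
  have hstep : ∀ i, ∃ A : Module.End k (W i), LinearMap.trace k (W i) A = ∑ j, a ⟨i, j⟩ ∧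
      (∀ n ∈ (fun s : (∀ i, Module.End k (W i)) => s i) '' S, LinearMap.trace k (W i) (A * n) = 0) ∧
      IsUnit A := by
    intro i
    obtain ⟨A, h1, h2, h3⟩ := exists_orth (k := k)
      ((fun s : (∀ i, Module.End k (W i)) => s i) '' S) (F i) m (h0 i) (hm i)
      (by
        rintro n ⟨s, hs, rfl⟩ l x hx
        exact hS s hs i l x hx) (fun j => a ⟨i, j⟩)
    exact ⟨A, h1, h2, h3 fun j => ha _⟩
  choose A hA1 hA2 hA3 using hstep
  refine ⟨A, hA3, ?_, ?_⟩
  · rw [← hsum, Fintype.sum_sigma]
    exact Finset.sum_congr rfl fun i _ => hA1 i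
  · intro n hn i
    exact hA2 i _ ⟨n, hn, rfl⟩

/-- product version for a nilpotent subspace -/
theorem exists_orth_nil [Infinite k] {ι : Type*} [Fintype ι] (W : ι → Type u)
    [∀ i, AddCommGroup (W i)] [∀ i, Module k (W i)] [∀ i, FiniteDimensional k (W i)]
    (N : Submodule k (∀ i, Module.End k (W i))) (hN : IsNilpotent N)
    (h2 : 2 ≤ ∑ i, finrank k (W i)) :
    ∃ A : ∀ i, Module.End k (W i), (∀ i, IsUnit (A i)) ∧
      ∑ i, LinearMap.trace k (W i) (A i) = 0 ∧
      ∀ n ∈ N, ∀ i, LinearMap.trace k (W i) (A i * n i) = 0 := by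
  obtain ⟨m, hm⟩ := hN
  refine exists_orth_pi (k := k) W (N : Set (∀ i, Module.End k (W i)))
    (fun i l => Submodule.span k {y | ∃ n ∈ N ^ l, ∃ x, y = n i x}) m ?_ ?_ ?_ h2
  · intro i
    rw [eq_top_iff]
    intro x _
    apply Submodule.subset_span
    exact ⟨1, by rw [pow_zero]; exact Submodule.one_le.1 le_rfl, x, rfl⟩
  · intro i
    rw [eq_bot_iff, Submodule.span_le]
    rintro y ⟨n, hn, x, rfl⟩
    rw [hm] at hn
    have : n = 0 := by simpa using hn
    rw [this]; simp
  · intro n hn i l x hx
    have hle : Submodule.span k {y | ∃ n ∈ N ^ l, ∃ x, y = n i x} ≤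
        (Submodule.span k {y | ∃ n ∈ N ^ (l + 1), ∃ x, y = n i x}).comap (n i) := by
      rw [Submodule.span_le]
      rintro y ⟨n', hn', x', rfl⟩
      apply Submodule.subset_span
      refine ⟨n * n', ?_, x', rfl⟩
      rw [pow_succ']
      exact Submodule.mul_mem_mul hn hn'
    exact hle hx

/-! ### local algebras -/

section Local

variable {R : Type*} [Ring R] [Algebra k R]

/-- in a finite dimensional algebra over an algebraically closed field whose only idempotents are
`0` and `1` every element is a scalar plus a nilpotent element -/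
theorem scalar_add_nilpotent [IsAlgClosed k] [Nontrivial R] [FiniteDimensional k R]
    (hid : ∀ e : R, e * e = e → e = 0 ∨ e = 1) (r : R) :
    ∃ c : k, IsNilpotent (r - algebraMap k R c) := by
  classical
  have hint : IsIntegral k r := Algebra.IsIntegral.isIntegral r
  have hp0 : minpoly k r ≠ 0 := minpoly.ne_zero hint
  have hdeg : (minpoly k r).degree ≠ 0 := (minpoly.degree_pos hint).ne'
  obtain ⟨c, hc⟩ := IsAlgClosed.exists_root (minpoly k r) hdeg
  refine ⟨c, ?_⟩
  -- `minpoly = (X - c)^n * q` with `q c ≠ 0`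
  obtain ⟨q, hq, hqc⟩ := Polynomial.exists_eq_pow_rootMultiplicity_mul_and_not_dvd
    (minpoly k r) hp0 c
  have hn0 : 0 < (minpoly k r).rootMultiplicity c := (Polynomial.rootMultiplicity_pos hp0).2 hc
  generalize hn : (minpoly k r).rootMultiplicity c = n at hq hn0
  have hcop : IsCoprime ((Polynomial.X - Polynomial.C c) ^ n) q := by
    apply IsCoprime.pow_left
    exact ((Polynomial.irreducible_X_sub_C c).coprime_iff_not_dvd).2 hqc
  have hdv : (Polynomial.X - Polynomial.C c) ∣ (Polynomial.X - Polynomial.C c) ^ n :=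
    dvd_pow_self _ hn0.ne'
  have hfin : ∀ P : Polynomial k, P = (Polynomial.X - Polynomial.C c) ^ n →
      Polynomial.aeval r P = 0 → IsNilpotent (r - algebraMap k R c) := by
    rintro P rfl hP
    refine ⟨n, ?_⟩
    rw [map_pow, map_sub, Polynomial.aeval_X, Polynomial.aeval_C] at hP
    exact hP
  generalize (Polynomial.X - Polynomial.C c) ^ n = P at hq hcop hdv hfin
  obtain ⟨u, w, huw⟩ := hcop
  have hz : Polynomial.aeval r P * Polynomial.aeval r q = 0 := by
    rw [← map_mul, ← hq]; exact minpoly.aeval k r
  have hz' : Polynomial.aeval r q * Polynomial.aeval r P = 0 := by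
    rw [← map_mul, mul_comm, ← hq]; exact minpoly.aeval k r
  have hsum : Polynomial.aeval r u * Polynomial.aeval r P +
      Polynomial.aeval r w * Polynomial.aeval r q = 1 := by
    rw [← map_mul, ← map_mul, ← map_add, huw, map_one]
  have hcomm : ∀ f g : Polynomial k, Polynomial.aeval r f * Polynomial.aeval r g =
      Polynomial.aeval r g * Polynomial.aeval r f := by
    intro f g; rw [← map_mul, mul_comm, map_mul]
  have hcPw := hcomm P w
  have hcqu := hcomm q u
  have hcPu := hcomm P u
  apply hfin P rfl
  have hdvd : Polynomial.aeval r q = 0 → False := by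
    intro hq0
    have hdvd : minpoly k r ∣ q := minpoly.dvd k r hq0
    apply hqc
    refine dvd_trans ?_ hdvd
    rw [hq]
    exact dvd_mul_of_dvd_left hdv _
  generalize Polynomial.aeval r P = p at *
  generalize Polynomial.aeval r q = s at *
  generalize Polynomial.aeval r u = u' at *
  generalize Polynomial.aeval r w = w' at *
  have hprod : u' * p * (w' * s) = 0 := by
    calc u' * p * (w' * s) = u' * (p * w') * s := by noncomm_ring
      _ = u' * w' * (p * s) := by rw [hcPw]; noncomm_ring
      _ = 0 := by rw [hz, mul_zero]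
  have h1 : u' * p = 1 - w' * s := by rw [← hsum]; abel
  have hee : w' * s * (w' * s) = w' * s := by
    rw [h1, sub_mul, one_mul, sub_eq_zero] at hprod
    exact hprod.symm
  rcases hid (w' * s) hee with h | h
  · exfalso
    rw [h, add_zero] at hsum
    apply hdvd
    calc s = s * (u' * p) := by rw [hsum, mul_one]
      _ = u' * (s * p) := by rw [← mul_assoc, hcqu, mul_assoc]
      _ = 0 := by rw [hz', mul_zero]
  · calc p = p * (w' * s) := by rw [h, mul_one]
      _ = w' * (p * s) := by rw [← mul_assoc, hcPw, mul_assoc]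
      _ = 0 := by rw [hz, mul_zero]

/-- left invertible elements of a finite dimensional algebra are units -/
theorem isUnit_of_mul_eq_one' [FiniteDimensional k R] {x y : R} (h : x * y = 1) : IsUnit x ∧ IsUnit y := by
  have hy : y * x = 1 := mul_eq_one_symm' (k := k) h
  exact ⟨⟨⟨x, y, h, hy⟩, rfl⟩, ⟨⟨y, x, hy, h⟩, rfl⟩⟩
where
  mul_eq_one_symm' {k : Type v} [Field k] {R : Type _} [Ring R] [Algebra k R]
      [FiniteDimensional k R] {x y : R} (h : x * y = 1) : y * x = 1 := by
    -- left multiplication by `y` is injective, hence surjective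
    have hinj : Function.Injective (LinearMap.mulLeft k y) := by
      intro a b hab
      simp only [LinearMap.mulLeft_apply] at hab
      calc a = x * y * a := by rw [h, one_mul]
        _ = x * y * b := by rw [mul_assoc, hab, ← mul_assoc]
        _ = b := by rw [h, one_mul]
    obtain ⟨z, hz⟩ := (LinearMap.injective_iff_surjective.1 hinj) 1
    simp only [LinearMap.mulLeft_apply] at hz
    have : z = x := by
      calc z = x * y * z := by rw [h, one_mul]
        _ = x := by rw [mul_assoc, hz, mul_one]
    rw [← this, hz]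

/-- the nilpotent elements of such an algebra form a subspace `N`, which is a two sided ideal, is
nilpotent as a subspace, and together with the scalars spans everything -/
theorem fd_local [IsAlgClosed k] [Nontrivial R] [FiniteDimensional k R]
    (hid : ∀ e : R, e * e = e → e = 0 ∨ e = 1) :
    ∃ N : Submodule k R, (∀ x, x ∈ N ↔ IsNilpotent x) ∧ (∀ x, x ∈ N ↔ ¬ IsUnit x) ∧
      (∀ x ∈ N, ∀ y, x * y ∈ N ∧ y * x ∈ N) ∧ IsNilpotent N ∧
      ∀ r : R, ∃ c : k, r - algebraMap k R c ∈ N := by
  classical
  have hsn := scalar_add_nilpotent (k := k) hid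
  have hnu : ∀ x : R, IsNilpotent x ↔ ¬ IsUnit x := by
    intro x
    constructor
    · rintro ⟨n, hn⟩ hu
      have := hu.pow n
      rw [hn] at this
      exact not_isUnit_zero this
    · intro hx
      obtain ⟨c, hc⟩ := hsn x
      by_cases h0 : c = 0
      · simpa [h0] using hc
      · exfalso
        apply hx
        have h1 : IsUnit (algebraMap k R c) := (IsUnit.mk0 c h0).map (algebraMap k R)
        have h2 : Commute (x - algebraMap k R c) (algebraMap k R c) :=
          (Algebra.commutes c _).symm
        have h3 := hc.isUnit_add_left_of_commute h1 h2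
        rw [add_sub_cancel] at h3
        exact h3
  have hmulr : ∀ x : R, IsNilpotent x → ∀ y, IsNilpotent (x * y) := by
    intro x hx y
    rw [hnu] at hx ⊢
    rintro ⟨u, hu⟩
    apply hx
    have : x * (y * (↑u⁻¹ : R)) = 1 := by rw [← mul_assoc, ← hu, Units.mul_inv]
    exact (isUnit_of_mul_eq_one' (k := k) this).1
  have hmull : ∀ x : R, IsNilpotent x → ∀ y, IsNilpotent (y * x) := by
    intro x hx y
    rw [hnu] at hx ⊢
    rintro ⟨u, hu⟩
    apply hx
    have : ((↑u⁻¹ : R) * y) * x = 1 := by rw [mul_assoc, ← hu, Units.inv_mul]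
    exact (isUnit_of_mul_eq_one' (k := k) this).2
  have hadd : ∀ x y : R, IsNilpotent x → IsNilpotent y → IsNilpotent (x + y) := by
    intro x y hx hy
    rw [hnu]
    rintro ⟨u, hu⟩
    have h1 : (↑u⁻¹ : R) * x = 1 - (↑u⁻¹ : R) * y := by
      rw [eq_sub_iff_add_eq, ← mul_add, ← hu, Units.inv_mul]
    have h2 : IsUnit (1 - (↑u⁻¹ : R) * y) := (hmull y hy _).isUnit_one_sub
    rw [← h1] at h2
    exact (hnu _).1 (hmull x hx _) h2
  let N : Submodule k R :=
    { carrier := {x | IsNilpotent x}
      add_mem' := fun {x y} hx hy => hadd x y hx hy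
      zero_mem' := IsNilpotent.zero
      smul_mem' := fun c x hx => by
        show IsNilpotent (c • x)
        rw [Algebra.smul_def]
        exact hmull x hx _ }
  have hmem : ∀ x, x ∈ N ↔ IsNilpotent x := fun x => Iff.rfl
  refine ⟨N, hmem, fun x => (hmem x).trans (hnu x), fun x hx y => ⟨hmulr x hx y, hmull x hx y⟩, ?_,
    fun r => hsn r⟩
  -- nilpotency of `N` from the Jacobson radical
  have : IsArtinianRing R := IsArtinianRing.of_finite k R
  obtain ⟨m, hm⟩ := IsArtinianRing.isNilpotent_jacobson_bot (R := R)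
  have hNJ : ∀ x ∈ N, x ∈ Ideal.jacobson (⊥ : Ideal R) := by
    intro x hx
    rw [Ideal.mem_jacobson_iff]
    intro y
    obtain ⟨u, hu⟩ : IsUnit (1 + y * x) := (hmull x hx y).isUnit_one_add
    refine ⟨(↑u⁻¹ : R), ?_⟩
    have : (↑u⁻¹ : R) * y * x + (↑u⁻¹ : R) - 1 = (↑u⁻¹ : R) * (1 + y * x) - 1 := by noncomm_ring
    rw [this, ← hu, Units.inv_mul, sub_self]
    exact Ideal.zero_mem _
  refine ⟨m, ?_⟩
  have hpow : ∀ l : ℕ, ∀ x ∈ N ^ l, x ∈ (Ideal.jacobson (⊥ : Ideal R)) ^ l := by
    intro l
    induction l with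
    | zero => intro x _; rw [Submodule.pow_zero, Ideal.one_eq_top]; trivial
    | succ l ih =>
      intro x hx
      rw [Submodule.pow_succ] at hx
      refine Submodule.mul_induction_on hx ?_ ?_
      · intro a ha b hb
        rw [Submodule.pow_succ]
        exact Ideal.mul_mem_mul (ih a ha) (hNJ b hb)
      · intro a b ha hb
        exact Ideal.add_mem _ ha hb
  rw [Submodule.zero_eq_bot, eq_bot_iff]
  intro x hx
  have := hpow m x hx
  rw [hm] at this
  simpa using this

/-- the algebra version: `R` finite dimensional without non trivial idempotents, mapped to a product of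
endomorphism algebras of total dimension `≥ 2`: there is an element, invertible in every factor,
orthogonal to the image for the trace form -/
theorem exists_orth_alg [IsAlgClosed k] [Nontrivial R] [FiniteDimensional k R]
    (hid : ∀ e : R, e * e = e → e = 0 ∨ e = 1)
    {ι : Type*} [Fintype ι] (W : ι → Type u)
    [∀ i, AddCommGroup (W i)] [∀ i, Module k (W i)] [∀ i, FiniteDimensional k (W i)]
    (ρ : R →ₐ[k] (∀ i, Module.End k (W i)))
    (h2 : 2 ≤ ∑ i, finrank k (W i)) :
    ∃ A : ∀ i, Module.End k (W i), (∀ i, IsUnit (A i)) ∧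
      ∀ r : R, ∑ i, LinearMap.trace k (W i) (A i * ρ r i) = 0 := by
  have : Infinite k := IsAlgClosed.instInfinite
  obtain ⟨N, -, -, -, ⟨m, hm⟩, hN⟩ := fd_local (k := k) hid
  obtain ⟨A, hA, h1, h3⟩ := exists_orth_nil (k := k) W (N.map ρ.toLinearMap) ⟨m, by
    rw [← Submodule.map_pow, hm]; simp⟩ h2
  refine ⟨A, hA, fun r => ?_⟩
  obtain ⟨c, hc⟩ := hN r
  have hr : ρ r = algebraMap k _ c + ρ (r - algebraMap k R c) := by
    rw [map_sub, AlgHom.commutes]; abel
  have hmem : ρ (r - algebraMap k R c) ∈ N.map ρ.toLinearMap := ⟨_, hc, rfl⟩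
  have : ∀ i, LinearMap.trace k (W i) (A i * ρ r i) = c * LinearMap.trace k (W i) (A i) := by
    intro i
    have h4 : (ρ r) i = algebraMap k _ c + ρ (r - algebraMap k R c) i := by
      conv_lhs => rw [hr]
      rfl
    rw [h4, mul_add, map_add, h3 _ hmem i, add_zero, Algebra.algebraMap_eq_smul_one, mul_smul_comm,
      mul_one, map_smul, smul_eq_mul]
  rw [Finset.sum_congr rfl fun i _ => this i, ← Finset.mul_sum, h1, mul_zero]

end Local

/-! ### duality -/

/-- `E` with a non degenerate form `τ`, `∂ : E → H`, `path : H' → E` adjoint for a pairing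
`P : H' × H → k` such that every functional on `H` is `P a`. Then every element of `E` orthogonal to
`ker ∂` is a path. -/
theorem mem_range_path {E H H' : Type*} [AddCommGroup E] [Module k E] [AddCommGroup H] [Module k H]
    [AddCommGroup H'] [Module k H'] (τ : E →ₗ[k] E →ₗ[k] k) (hτ : ∀ x, (∀ ψ, τ ψ x = 0) → x = 0)
    (del : E →ₗ[k] H) (path : H' →ₗ[k] E) (P : H' →ₗ[k] H →ₗ[k] k)
    (hP : ∀ f : H →ₗ[k] k, ∃ a, P a = f) (hadj : ∀ a ψ, P a (del ψ) = τ ψ (path a))
    (x : E) (hx : ∀ ψ, del ψ = 0 → τ ψ x = 0) : ∃ a, path a = x := by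
  -- the functional `ψ ↦ τ ψ x` factors through `del`
  have hker : LinearMap.ker del ≤ LinearMap.ker (τ.flip x) := by
    intro ψ hψ
    rw [LinearMap.mem_ker] at hψ ⊢
    exact hx ψ hψ
  obtain ⟨g, hg⟩ : ∃ g : H →ₗ[k] k, g ∘ₗ del = τ.flip x := by
    let f' : LinearMap.range del →ₗ[k] k :=
      ((LinearMap.ker del).liftQ (τ.flip x) hker) ∘ₗ del.quotKerEquivRange.symm.toLinearMap
    obtain ⟨g, hg⟩ := LinearMap.exists_extend f'
    refine ⟨g, ?_⟩
    apply LinearMap.ext
    intro ψ
    have h1 : g (del ψ) = f' ⟨del ψ, LinearMap.mem_range_self del ψ⟩ := by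
      rw [← hg]; rfl
    rw [LinearMap.comp_apply, h1]
    have h2 : del.quotKerEquivRange.symm ⟨del ψ, LinearMap.mem_range_self del ψ⟩ =
        Submodule.Quotient.mk ψ := by
      rw [LinearEquiv.symm_apply_eq]; rfl
    show ((LinearMap.ker del).liftQ (τ.flip x) hker)
      (del.quotKerEquivRange.symm ⟨del ψ, LinearMap.mem_range_self del ψ⟩) = _
    rw [h2]
    exact Submodule.liftQ_apply _ _ _
  obtain ⟨a, ha⟩ := hP g
  refine ⟨a, ?_⟩
  rw [← sub_eq_zero]
  apply hτ
  intro ψ
  rw [map_sub, ← hadj, ha]
  have := LinearMap.congr_fun hg ψ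
  simp only [LinearMap.comp_apply, LinearMap.flip_apply] at this
  rw [this, sub_self]

/-- non degeneracy of the trace form on `∏ End (W i)` -/
theorem trace_nondeg {ι : Type*} [Fintype ι] (W : ι → Type u)
    [∀ i, AddCommGroup (W i)] [∀ i, Module k (W i)] [∀ i, FiniteDimensional k (W i)]
    (x : ∀ i, Module.End k (W i))
    (hx : ∀ ψ : (∀ i, Module.End k (W i)), ∑ i, LinearMap.trace k (W i) (x i * ψ i) = 0) : x = 0 := by
  classical
  funext i
  have h1 : ∀ ψ : Module.End k (W i), LinearMap.trace k (W i) (x i * ψ) = 0 := by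
    intro ψ
    have := hx (Function.update 0 i ψ)
    rw [Finset.sum_eq_single i] at this
    · simpa using this
    · intro j _ hj
      simp [Function.update_of_ne hj]
    · simp
  -- rank one test maps
  apply LinearMap.ext
  intro w
  by_contra hne
  obtain ⟨f, hf⟩ : ∃ f : W i →ₗ[k] k, f (x i w) ≠ 0 := by
    by_contra hcon
    push Not at hcon
    exact hne ((Module.forall_dual_apply_eq_zero_iff k _).1 hcon)
  apply hf
  have h2 := h1 (LinearMap.smulRight f w)
  have h3 : x i * (LinearMap.smulRight f w) = LinearMap.smulRight f (x i w) := by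
    apply LinearMap.ext; intro y; simp
  rw [h3] at h2
  rwa [LinearMap.trace_smulRight] at h2

end Crest.Agent.R175.TrZero722
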