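import Mathlib

/-!
# R175 (S0264): transvections of `ℤ⁴` and free subgroups
-/

set_option autoImplicit false

namespace Crest.Agent.R175.Tv_184

open Monoid
open scoped Pointwise

/-- `ℤ⁴`. -/
abbrev V4 := ℤ × ℤ × ℤ × ℤ

/-- the symplectic form. -/
def om (v w : V4) : ℤ := v.1 * w.2.1 - v.2.1 * w.1 + v.2.2.1 * w.2.2.2 - v.2.2.2 * w.2.2.1

lemma om_self (v : V4) : om v v = 0 := by unfold om; ring
lemma om_swap (v w : V4) : om v w = - om w v := by unfold om; ring

/-- `x + n ω(x,v) v`. -/
def tv (v : V4) (n : ℤ) (x : V4) : V4 :=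
  (x.1 + n * om x v * v.1, x.2.1 + n * om x v * v.2.1, x.2.2.1 + n * om x v * v.2.2.1,
    x.2.2.2 + n * om x v * v.2.2.2)

lemma om_tv (v : V4) (n : ℤ) (x w : V4) : om (tv v n x) w = om x w + n * om x v * om v w := by
  unfold tv om; ring

lemma tv_add (v : V4) (m n : ℤ) (x : V4) : tv v m (tv v n x) = tv v (m + n) x := by
  have h : om (tv v n x) v = om x v := by rw [om_tv, om_self]; ring
  unfold tv at h ⊢
  rw [h]
  ext <;> simp only <;> ring

lemma tv_zero (v x : V4) : tv v 0 x = x := by
  unfold tv; ext <;> simp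

/-- the transvection subgroup. -/
def Tv (v : V4) : Multiplicative ℤ →* Equiv.Perm V4 where
  toFun n :=
    { toFun := tv v n.toAdd
      invFun := tv v (-n.toAdd)
      left_inv := fun x => by rw [tv_add, neg_add_cancel, tv_zero]
      right_inv := fun x => by rw [tv_add, add_neg_cancel, tv_zero] }
  map_one' := by ext1 x; exact tv_zero v x
  map_mul' m n := by ext1 x; exact (tv_add v _ _ x).symm

/-- the transvection. -/
def T (v : V4) : Equiv.Perm V4 := Tv v (Multiplicative.ofAdd 1)

lemma T_apply (v x : V4) : T v x = tv v 1 x := rfl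

lemma T_zpow_apply (v : V4) (n : ℤ) (x : V4) : (T v ^ n) x = tv v n x := by
  have h : T v ^ n = Tv v (Multiplicative.ofAdd n) := by
    rw [T, ← map_zpow, ← ofAdd_zsmul, smul_eq_mul, mul_one]
  rw [h]; rfl

lemma T_zero : T (0, 0, 0, 0) = 1 := by
  ext1 x
  rw [T_apply]
  unfold tv
  ext <;> simp

lemma T_comm {v w : V4} (h : om v w = 0) : T v * T w = T w * T v := by
  have h' : om w v = 0 := by rw [om_swap, h, neg_zero]
  ext1 x
  rw [Equiv.Perm.mul_apply, Equiv.Perm.mul_apply]
  simp only [T_apply]
  have e1 : om (tv w 1 x) v = om x v := by rw [om_tv, h']; ring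
  have e2 : om (tv v 1 x) w = om x w := by rw [om_tv, h]; ring
  unfold tv at e1 e2 ⊢
  rw [e1, e2]
  ext <;> simp only <;> ring

lemma T_braid {v w : V4} (h : om v w ^ 2 = 1) : T v * T w * T v = T w * T v * T w := by
  have h' : om w v = - om v w := om_swap w v
  ext1 x
  simp only [Equiv.Perm.mul_apply, T_apply]
  have a1 : om (tv v 1 x) w = om x w + om x v * om v w := by rw [om_tv]; ring
  have a2 : om (tv w 1 (tv v 1 x)) v = om x v - (om x w + om x v * om v w) * om v w := by
    rw [om_tv, om_tv, om_tv, om_self, h']; ring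
  have b1 : om (tv w 1 x) v = om x v - om x w * om v w := by rw [om_tv, h']; ring
  have b2 : om (tv v 1 (tv w 1 x)) w = om x w + (om x v - om x w * om v w) * om v w := by
    rw [om_tv, om_tv, om_tv, om_self, h']; ring
  have key : ∀ p q r : ℤ, p + 1 * om x v * q + 1 * (om x w + om x v * om v w) * r +
      1 * (om x v - (om x w + om x v * om v w) * om v w) * q =
      p + 1 * om x w * r + 1 * (om x v - om x w * om v w) * q +
      1 * (om x w + (om x v - om x w * om v w) * om v w) * r := by
    intro p q r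
    linear_combination (-(om x v) * q + om x w * r) * h
  have e1 : tv v 1 (tv w 1 (tv v 1 x)) = (
      x.1 + 1 * om x v * v.1 + 1 * (om x w + om x v * om v w) * w.1 +
        1 * (om x v - (om x w + om x v * om v w) * om v w) * v.1,
      x.2.1 + 1 * om x v * v.2.1 + 1 * (om x w + om x v * om v w) * w.2.1 +
        1 * (om x v - (om x w + om x v * om v w) * om v w) * v.2.1,
      x.2.2.1 + 1 * om x v * v.2.2.1 + 1 * (om x w + om x v * om v w) * w.2.2.1 +
        1 * (om x v - (om x w + om x v * om v w) * om v w) * v.2.2.1,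
      x.2.2.2 + 1 * om x v * v.2.2.2 + 1 * (om x w + om x v * om v w) * w.2.2.2 +
        1 * (om x v - (om x w + om x v * om v w) * om v w) * v.2.2.2) := by
    rw [tv, a2, tv, a1, tv]
  have e2 : tv w 1 (tv v 1 (tv w 1 x)) = (
      x.1 + 1 * om x w * w.1 + 1 * (om x v - om x w * om v w) * v.1 +
        1 * (om x w + (om x v - om x w * om v w) * om v w) * w.1,
      x.2.1 + 1 * om x w * w.2.1 + 1 * (om x v - om x w * om v w) * v.2.1 +
        1 * (om x w + (om x v - om x w * om v w) * om v w) * w.2.1,
      x.2.2.1 + 1 * om x w * w.2.2.1 + 1 * (om x v - om x w * om v w) * v.2.2.1 +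
        1 * (om x w + (om x v - om x w * om v w) * om v w) * w.2.2.1,
      x.2.2.2 + 1 * om x w * w.2.2.2 + 1 * (om x v - om x w * om v w) * v.2.2.2 +
        1 * (om x w + (om x v - om x w * om v w) * om v w) * w.2.2.2) := by
    rw [tv, b2, tv, b1, tv]
  rw [e1, e2]
  simp only [key]

/-- the free product of two copies of `ℤ`. -/
abbrev ZZ := CoprodI (fun _ : Bool => Multiplicative ℤ)

/-- `ℤ * ℤ → G`, `false ↦ x`, `true ↦ y`. -/
def two {G : Type*} [Group G] (x y : G) : ZZ →* G :=
  CoprodI.lift (fun b => zpowersHom G (if b then y else x))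

/-- ping-pong sets -/
def PP (v w : V4) (b : Bool) : Set V4 :=
  if b then {x | |om x w| < |om x v|} else {x | |om x v| < |om x w|}

/-- the two homomorphisms -/
def ff (v w : V4) (b : Bool) : Multiplicative ℤ →* Equiv.Perm V4 :=
  zpowersHom (Equiv.Perm V4) (if b then T w else T v)

lemma ff_false (v w : V4) (n : Multiplicative ℤ) (x : V4) :
    ff v w false n • x = tv v n.toAdd x := T_zpow_apply v n.toAdd x

lemma ff_true (v w : V4) (n : Multiplicative ℤ) (x : V4) :
    ff v w true n • x = tv w n.toAdd x := T_zpow_apply w n.toAdd x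

lemma est {a b n c : ℤ} (hn : 1 ≤ |n|) (hc : |c| = 2) (h : |b| < |a|) : |a| < |b + n * a * c| := by
  have h1 : |n * a * c| ≤ |b + n * a * c| + |b| := by
    have := abs_sub (b + n * a * c) b
    rwa [add_sub_cancel_left] at this
  have h2 : |n * a * c| = 2 * (|n| * |a|) := by
    rw [abs_mul, abs_mul, hc]; ring
  have h3 : |a| ≤ |n| * |a| := le_mul_of_one_le_left (abs_nonneg _) hn
  linarith

/-- **Sanov**: if `ω(v, w) = 2` the transvections generate a free group. -/
theorem two_T_injective {v w : V4} (h : om v w = 2) : Function.Injective (two (T v) (T w)) := by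
  have h' : om w v = -2 := by rw [om_swap, h]
  have hcard : 3 ≤ Cardinal.mk Bool ∨ ∃ _ : Bool, 3 ≤ Cardinal.mk (Multiplicative ℤ) := by
    right
    refine ⟨false, ?_⟩
    rw [Cardinal.mk_congr Multiplicative.toAdd, Cardinal.mk_int]
    exact_mod_cast (Cardinal.natCast_lt_aleph0 (n := 3)).le
  have hX : ∀ b, (PP v w b).Nonempty := by
    intro b
    cases b
    · refine ⟨v, ?_⟩
      show |om v v| < |om v w|
      rw [om_self, h]; norm_num
    · refine ⟨w, ?_⟩
      show |om w w| < |om w v|
      rw [om_self, h']; norm_num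
  have hd : Pairwise (Function.onFun Disjoint (PP v w)) := by
    intro b b' hbb
    cases b <;> cases b'
    · exact absurd rfl hbb
    · rw [Function.onFun, Set.disjoint_left]
      intro x (h1 : |om x v| < |om x w|) (h2 : |om x w| < |om x v|)
      exact lt_asymm h1 h2
    · rw [Function.onFun, Set.disjoint_left]
      intro x (h1 : |om x w| < |om x v|) (h2 : |om x v| < |om x w|)
      exact lt_asymm h1 h2
    · exact absurd rfl hbb
  have hn : ∀ n : Multiplicative ℤ, n ≠ 1 → 1 ≤ |n.toAdd| := by
    intro n hn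
    exact Int.one_le_abs (fun h => hn (by rwa [← toAdd_eq_zero] ))
  have hpp : Pairwise fun b b' => ∀ n : Multiplicative ℤ, n ≠ 1 →
      ff v w b n • PP v w b' ⊆ PP v w b := by
    intro b b' hbb n hn1
    have hn1' := hn n hn1
    cases b <;> cases b'
    · exact absurd rfl hbb
    · rintro _ ⟨x, (hx : |om x w| < |om x v|), rfl⟩
      show |om (ff v w false n • x) v| < |om (ff v w false n • x) w|
      rw [ff_false, om_tv, om_tv, om_self, h, mul_zero, add_zero]
      exact est hn1' (by norm_num) hx
    · rintro _ ⟨x, (hx : |om x v| < |om x w|), rfl⟩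
      show |om (ff v w true n • x) w| < |om (ff v w true n • x) v|
      rw [ff_true, om_tv, om_tv, om_self, h', mul_zero, add_zero]
      exact est hn1' (by norm_num) hx
    · exact absurd rfl hbb
  exact @CoprodI.lift_injective_of_ping_pong Bool (Equiv.Perm V4) _ (fun _ => Multiplicative ℤ) _
    (ff v w) hcard V4 _ (PP v w) hX hd hpp inferInstance

end Crest.Agent.R175.Tv_184
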