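import Mathlib.CategoryTheory.Preadditive.AdditiveFunctor
import Mathlib.Tactic.Abel

/-!
# Twists, abstract part (row 175, helper253)

Differential objects with a parity involution in a preadditive category, the twist
`T X = cone (ε : Q X → X)` and its inverse `T' X = cocone (η : X → Q X)` for a functor `Q`
with the natural transformations of `Q = P ⊗ Hom(P, -)`, `P` spherical.
-/

universe v u

namespace Crest.Agent.R175.TwA_253

open CategoryTheory

variable {C : Type u} [Category.{v} C] [Preadditive C]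

/-- differential object with a parity involution -/
structure Tw (C : Type u) [Category.{v} C] [Preadditive C] where
  X : C
  e : X ⟶ X
  d : X ⟶ X
  ee : e ≫ e = 𝟙 X
  dd : d ≫ d = 0
  de : d ≫ e = -(e ≫ d)

attribute [reassoc (attr := simp)] Tw.ee Tw.dd

variable {X Y Z : Tw C}

/-- conjugation by the parity involutions -/
def bar (X Y : Tw C) (f : X.X ⟶ Y.X) : X.X ⟶ Y.X := X.e ≫ f ≫ Y.e

/-- the differential of the Hom complex -/
def D (X Y : Tw C) (f : X.X ⟶ Y.X) : X.X ⟶ Y.X := f ≫ Y.d - X.d ≫ bar X Y f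

theorem bar_bar (f : X.X ⟶ Y.X) : bar X Y (bar X Y f) = f := by
  simp [bar]

theorem bar_comp (f : X.X ⟶ Y.X) (g : Y.X ⟶ Z.X) :
    bar X Z (f ≫ g) = bar X Y f ≫ bar Y Z g := by
  simp [bar]

theorem bar_id : bar X X (𝟙 _) = 𝟙 _ := by simp [bar]

theorem bar_add (f g : X.X ⟶ Y.X) : bar X Y (f + g) = bar X Y f + bar X Y g := by
  simp [bar]

theorem bar_sub (f g : X.X ⟶ Y.X) : bar X Y (f - g) = bar X Y f - bar X Y g := by
  simp [bar]

theorem bar_neg (f : X.X ⟶ Y.X) : bar X Y (-f) = - bar X Y f := by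
  simp [bar]

theorem bar_d : bar X X X.d = - X.d := by
  simp [bar, Tw.de]

theorem D_D (f : X.X ⟶ Y.X) : D X Y (D X Y f) = 0 := by
  unfold D
  rw [bar_sub, bar_comp, bar_comp, bar_bar, bar_d, bar_d]
  simp

theorem D_comp (f : X.X ⟶ Y.X) (g : Y.X ⟶ Z.X) :
    D X Z (f ≫ g) = f ≫ D Y Z g + D X Y f ≫ bar Y Z g := by
  unfold D
  rw [bar_comp]
  simp [Preadditive.comp_sub, Preadditive.sub_comp]

theorem D_id : D X X (𝟙 _) = 0 := by
  unfold D; rw [bar_id]; simp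

theorem D_add (f g : X.X ⟶ Y.X) : D X Y (f + g) = D X Y f + D X Y g := by
  unfold D; rw [bar_add, Preadditive.add_comp, Preadditive.comp_add]; abel

theorem D_neg (f : X.X ⟶ Y.X) : D X Y (-f) = - D X Y f := by
  unfold D; rw [bar_neg, Preadditive.neg_comp, Preadditive.comp_neg]; abel

theorem D_bar (f : X.X ⟶ Y.X) : bar X Y (D X Y f) = - D X Y (bar X Y f) := by
  unfold D
  rw [bar_sub, bar_comp, bar_comp, bar_bar, bar_d, bar_d, Preadditive.comp_neg,
    Preadditive.neg_comp]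
  abel

/-- even homotopy equivalence -/
def HEq (X Y : Tw C) : Prop :=
  ∃ (f : X.X ⟶ Y.X) (g : Y.X ⟶ X.X) (h : X.X ⟶ X.X) (h' : Y.X ⟶ Y.X),
    bar X Y f = f ∧ bar Y X g = g ∧ D X Y f = 0 ∧ D Y X g = 0 ∧
    f ≫ g = 𝟙 _ + D X X h ∧ g ≫ f = 𝟙 _ + D Y Y h'

theorem HEq.refl (X : Tw C) : HEq X X :=
  ⟨𝟙 _, 𝟙 _, 0, 0, bar_id, bar_id, D_id, D_id, by simp [D, bar], by simp [D, bar]⟩

theorem HEq.symm (H : HEq X Y) : HEq Y X := by
  obtain ⟨f, g, h, h', a, b, c, d, e, e'⟩ := H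
  exact ⟨g, f, h', h, b, a, d, c, e', e⟩

theorem D_sandwich {X' Y' : Tw C} {f : X.X ⟶ X'.X} {g : Y'.X ⟶ Y.X} {h : X'.X ⟶ Y'.X}
    (b : bar Y' Y g = g) (c : D X X' f = 0) (d : D Y' Y g = 0) :
    D X Y (f ≫ h ≫ g) = f ≫ D X' Y' h ≫ g := by
  rw [D_comp, D_comp, c, d, b]
  simp

theorem HEq.trans (H : HEq X Y) (H' : HEq Y Z) : HEq X Z := by
  obtain ⟨f, g, h, h', a, b, c, d, e, e'⟩ := H
  obtain ⟨f₁, g₁, h₁, h₁', a₁, b₁, c₁, d₁, e₁, e₁'⟩ := H'
  refine ⟨f ≫ f₁, g₁ ≫ g, h + f ≫ h₁ ≫ g, h₁' + g₁ ≫ h' ≫ f₁, ?_, ?_, ?_, ?_, ?_, ?_⟩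
  · rw [bar_comp, a, a₁]
  · rw [bar_comp, b, b₁]
  · rw [D_comp, c, c₁]; simp
  · rw [D_comp, d, d₁]; simp
  · rw [D_add, D_sandwich b c d, Category.assoc, ← Category.assoc f₁, e₁]
    simp only [Preadditive.add_comp, Preadditive.comp_add, Category.id_comp]
    rw [e]; abel
  · rw [D_add, D_sandwich a₁ d₁ c₁, Category.assoc, ← Category.assoc g, e']
    simp only [Preadditive.add_comp, Preadditive.comp_add, Category.id_comp]
    rw [e₁']; abel

end Crest.Agent.R175.TwA_253
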