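import Crest.Agent.R175.TwA_253

/-!
# Twists, abstract part 2 (row 175, helper253): spherical functors, `T`, `T'`, `T' T ≃ 1`
-/

universe v u

namespace Crest.Agent.R175.TwA_253

open CategoryTheory

/-- a direct sum of two objects (explicit data) -/
structure Sum2 {C : Type u} [Category.{v} C] [Preadditive C] (A B : C) where
  S : C
  inl : A ⟶ S
  inr : B ⟶ S
  fst : S ⟶ A
  snd : S ⟶ B
  inl_fst : inl ≫ fst = 𝟙 A
  inl_snd : inl ≫ snd = 0
  inr_fst : inr ≫ fst = 0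
  inr_snd : inr ≫ snd = 𝟙 B
  total : fst ≫ inl + snd ≫ inr = 𝟙 S

attribute [reassoc (attr := simp)] Sum2.inl_fst Sum2.inl_snd Sum2.inr_fst Sum2.inr_snd

/-- the functor `Q = P ⊗ Hom(P, -)`, `P` spherical, and its natural transformations
(`m f = Q(f)`; `ε = eps`, `η = eta`, `u : v ↦ 1 ⊗ v`, `c` = trace). -/
structure Sph (C : Type u) [Category.{v} C] [Preadditive C] where
  Q : C → C
  m : ∀ {A B : C}, (A ⟶ B) → (Q A ⟶ Q B)
  m_id : ∀ A : C, m (𝟙 A) = 𝟙 (Q A)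
  m_comp : ∀ {A B E : C} (f : A ⟶ B) (g : B ⟶ E), m (f ≫ g) = m f ≫ m g
  m_add : ∀ {A B : C} (f g : A ⟶ B), m (f + g) = m f + m g
  eps : ∀ A : C, Q A ⟶ A
  eta : ∀ A : C, A ⟶ Q A
  u : ∀ A : C, Q A ⟶ Q (Q A)
  c : ∀ A : C, Q (Q A) ⟶ Q A
  eps_nat : ∀ {A B : C} (f : A ⟶ B), m f ≫ eps B = eps A ≫ f
  eta_nat : ∀ {A B : C} (f : A ⟶ B), f ≫ eta B = eta A ≫ m f
  u_nat : ∀ {A B : C} (f : A ⟶ B), m f ≫ u B = u A ≫ m (m f)
  c_nat : ∀ {A B : C} (f : A ⟶ B), m (m f) ≫ c B = c A ≫ m f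
  u_eps1 : ∀ A : C, u A ≫ m (eps A) = 𝟙 (Q A)
  u_eps2 : ∀ A : C, u A ≫ eps (Q A) = 𝟙 (Q A)
  eta_c1 : ∀ A : C, eta (Q A) ≫ c A = 𝟙 (Q A)
  eta_c2 : ∀ A : C, m (eta A) ≫ c A = 𝟙 (Q A)
  u_c : ∀ A : C, u A ≫ c A = 0
  id1 : ∀ A : C, c A ≫ eta (Q A) + m (eps A) ≫ u A =
    𝟙 (Q (Q A)) + c A ≫ eps A ≫ eta A ≫ u A
  id2 : ∀ A : C, c A ≫ m (eta A) + eps (Q A) ≫ u A =
    𝟙 (Q (Q A)) + c A ≫ eps A ≫ eta A ≫ u A

attribute [reassoc (attr := simp)] Sph.u_eps1 Sph.u_eps2 Sph.eta_c1 Sph.eta_c2 Sph.u_c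
attribute [simp] Sph.m_id
attribute [reassoc] Sph.m_comp Sph.eps_nat Sph.eta_nat Sph.u_nat Sph.c_nat

variable {C : Type u} [Category.{v} C] [Preadditive C] (F : Sph C)

@[simp] theorem Sph.m_zero (A B : C) : F.m (0 : A ⟶ B) = 0 := by
  have h := F.m_add (0 : A ⟶ B) 0
  rw [add_zero] at h
  exact left_eq_add.1 h

theorem Sph.m_neg {A B : C} (f : A ⟶ B) : F.m (-f) = - F.m f := by
  have h := F.m_add f (-f)
  rw [add_neg_cancel, F.m_zero] at h
  exact (neg_eq_of_add_eq_zero_right h.symm).symm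

theorem Sph.m_sub {A B : C} (f g : A ⟶ B) : F.m (f - g) = F.m f - F.m g := by
  rw [sub_eq_add_neg, F.m_add, F.m_neg, sub_eq_add_neg]

theorem Sph.eta_nat' {A B : C} (f : A ⟶ B) : F.eta A ≫ F.m f = f ≫ F.eta B :=
  (F.eta_nat f).symm

theorem Sph.u_nat' {A B : C} (f : A ⟶ B) : F.u A ≫ F.m (F.m f) = F.m f ≫ F.u B :=
  (F.u_nat f).symm

attribute [reassoc] Sph.eta_nat' Sph.u_nat'

variable {F}

/-- The twist: `T X = cone (ε : Q X → X)`. -/
abbrev T (F : Sph C) (X : Tw C) (S : Sum2 (F.Q X.X) X.X) : Tw C where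
  X := S.S
  e := -(S.fst ≫ F.m X.e ≫ S.inl) + S.snd ≫ X.e ≫ S.inr
  d := -(S.fst ≫ F.m X.d ≫ S.inl) + S.fst ≫ F.eps X.X ≫ S.inr + S.snd ≫ X.d ≫ S.inr
  ee := by
    simp only [Preadditive.add_comp, Preadditive.comp_add, Preadditive.neg_comp,
      Preadditive.comp_neg, Category.assoc, Sum2.inl_fst_assoc, Sum2.inl_snd_assoc,
      Sum2.inr_fst_assoc, Sum2.inr_snd_assoc, Limits.zero_comp, Limits.comp_zero,
      Tw.ee_assoc]
    rw [← F.m_comp_assoc, X.ee, F.m_id, Category.id_comp]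
    simpa using S.total
  dd := by
    simp only [Preadditive.add_comp, Preadditive.comp_add, Preadditive.neg_comp,
      Preadditive.comp_neg, Category.assoc, Sum2.inl_fst_assoc, Sum2.inl_snd_assoc,
      Sum2.inr_fst_assoc, Sum2.inr_snd_assoc, Limits.zero_comp, Limits.comp_zero,
      Tw.dd_assoc, F.eps_nat_assoc]
    rw [← F.m_comp_assoc, X.dd, F.m_zero]
    simp
  de := by
    simp only [Preadditive.add_comp, Preadditive.comp_add, Preadditive.neg_comp,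
      Preadditive.comp_neg, Category.assoc, Sum2.inl_fst_assoc, Sum2.inl_snd_assoc,
      Sum2.inr_fst_assoc, Sum2.inr_snd_assoc, Limits.zero_comp, Limits.comp_zero,
      F.eps_nat_assoc]
    rw [← F.m_comp_assoc, ← F.m_comp_assoc, X.de, reassoc_of% X.de, F.m_neg]
    simp only [Preadditive.neg_comp, Preadditive.comp_neg, Category.assoc]
    abel

/-- The inverse twist: `T' X = cocone (η : X → Q X)`. -/
abbrev T' (F : Sph C) (X : Tw C) (S : Sum2 X.X (F.Q X.X)) : Tw C where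
  X := S.S
  e := S.fst ≫ X.e ≫ S.inl - S.snd ≫ F.m X.e ≫ S.inr
  d := S.fst ≫ X.d ≫ S.inl + S.fst ≫ F.eta X.X ≫ S.inr - S.snd ≫ F.m X.d ≫ S.inr
  ee := by
    simp only [Preadditive.sub_comp,
      Preadditive.comp_sub, Category.assoc, Sum2.inl_fst_assoc, Sum2.inl_snd_assoc,
      Sum2.inr_fst_assoc, Sum2.inr_snd_assoc, Limits.zero_comp, Limits.comp_zero,
      Tw.ee_assoc]
    rw [← F.m_comp_assoc, X.ee, F.m_id, Category.id_comp]
    simpa using S.total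
  dd := by
    simp only [Preadditive.add_comp, Preadditive.comp_add, Preadditive.sub_comp,
      Preadditive.comp_sub, Category.assoc, Sum2.inl_fst_assoc, Sum2.inl_snd_assoc,
      Sum2.inr_fst_assoc, Sum2.inr_snd_assoc, Limits.zero_comp, Limits.comp_zero,
      Tw.dd_assoc, F.eta_nat'_assoc]
    rw [← F.m_comp_assoc, X.dd, F.m_zero]
    simp
  de := by
    simp only [Preadditive.add_comp, Preadditive.comp_add, Preadditive.sub_comp,
      Preadditive.comp_sub, Category.assoc, Sum2.inl_fst_assoc, Sum2.inl_snd_assoc,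
      Sum2.inr_fst_assoc, Sum2.inr_snd_assoc, Limits.zero_comp, Limits.comp_zero,
      F.eta_nat'_assoc]
    rw [← F.m_comp_assoc, ← F.m_comp_assoc, X.de, reassoc_of% X.de, F.m_neg]
    simp only [Preadditive.neg_comp, Preadditive.comp_neg, Category.assoc]
    abel

end Crest.Agent.R175.TwA_253
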