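import Crest.Agent.R175.TwE_253

/-!
# Twists, abstract part 4 (row 175, helper253): `T' T X ≃ X`, natural in `X`
-/

universe v u

namespace Crest.Agent.R175.TwA_253

open CategoryTheory Preadditive

variable {C : Type u} [Category.{v} C] [Preadditive C] {F : Sph C}

@[reassoc] theorem Sum2.m_inl_fst {A B : C} (S : Sum2 A B) : F.m S.inl ≫ F.m S.fst = 𝟙 _ := by
  rw [← F.m_comp, S.inl_fst, F.m_id]

@[reassoc] theorem Sum2.m_inl_snd {A B : C} (S : Sum2 A B) : F.m S.inl ≫ F.m S.snd = 0 := by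
  rw [← F.m_comp, S.inl_snd, F.m_zero]

@[reassoc] theorem Sum2.m_inr_fst {A B : C} (S : Sum2 A B) : F.m S.inr ≫ F.m S.fst = 0 := by
  rw [← F.m_comp, S.inr_fst, F.m_zero]

@[reassoc] theorem Sum2.m_inr_snd {A B : C} (S : Sum2 A B) : F.m S.inr ≫ F.m S.snd = 𝟙 _ := by
  rw [← F.m_comp, S.inr_snd, F.m_id]

@[reassoc] theorem m_ee (X : Tw C) : F.m X.e ≫ F.m X.e = 𝟙 _ := by
  rw [← F.m_comp, X.ee, F.m_id]

@[reassoc] theorem mm_ee (X : Tw C) : F.m (F.m X.e) ≫ F.m (F.m X.e) = 𝟙 _ := by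
  rw [← F.m_comp, m_ee, F.m_id]

/-- the simp set of block calculations -/
macro "tw_simp" : tactic => `(tactic|
  simp only [comp_sub, sub_comp, comp_add, add_comp, comp_neg, neg_comp, neg_neg, neg_zero,
    Category.assoc, Category.comp_id, Category.id_comp,
    Sum2.inl_fst_assoc, Sum2.inl_snd_assoc, Sum2.inr_fst_assoc, Sum2.inr_snd_assoc,
    Sum2.inl_fst, Sum2.inl_snd, Sum2.inr_fst, Sum2.inr_snd,
    Sum2.m_inl_fst_assoc, Sum2.m_inl_snd_assoc, Sum2.m_inr_fst_assoc, Sum2.m_inr_snd_assoc,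
    Sum2.m_inl_fst, Sum2.m_inl_snd, Sum2.m_inr_fst, Sum2.m_inr_snd,
    Limits.zero_comp, Limits.comp_zero, add_zero, zero_add, sub_zero, zero_sub,
    sub_neg_eq_add,
    Sph.m_add, Sph.m_neg, Sph.m_sub, Sph.m_comp, Sph.m_zero, Sph.m_id,
    Sph.u_c_assoc, Sph.u_c, Sph.u_eps1, Sph.u_eps1_assoc, Sph.u_eps2, Sph.u_eps2_assoc,
    Sph.eta_c1, Sph.eta_c1_assoc, Sph.eta_c2, Sph.eta_c2_assoc,
    m_ee, m_ee_assoc, mm_ee, mm_ee_assoc, Tw.ee, Tw.ee_assoc, Tw.dd, Tw.dd_assoc])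

/-- the simp set of block calculations with naturality -/
macro "tw_nat" : tactic => `(tactic|
  simp only [comp_sub, sub_comp, comp_add, add_comp, comp_neg, neg_comp, neg_neg, neg_zero,
    Category.assoc, Category.comp_id, Category.id_comp,
    Sum2.inl_fst_assoc, Sum2.inl_snd_assoc, Sum2.inr_fst_assoc, Sum2.inr_snd_assoc,
    Sum2.inl_fst, Sum2.inl_snd, Sum2.inr_fst, Sum2.inr_snd,
    Sum2.m_inl_fst_assoc, Sum2.m_inl_snd_assoc, Sum2.m_inr_fst_assoc, Sum2.m_inr_snd_assoc,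
    Sum2.m_inl_fst, Sum2.m_inl_snd, Sum2.m_inr_fst, Sum2.m_inr_snd,
    Limits.zero_comp, Limits.comp_zero, add_zero, zero_add, sub_zero, zero_sub,
    sub_neg_eq_add,
    Sph.m_add, Sph.m_neg, Sph.m_sub, Sph.m_comp, Sph.m_zero, Sph.m_id,
    Sph.u_c_assoc, Sph.u_c, Sph.u_eps1, Sph.u_eps1_assoc, Sph.u_eps2, Sph.u_eps2_assoc,
    Sph.eta_c1, Sph.eta_c1_assoc, Sph.eta_c2, Sph.eta_c2_assoc,
    Sph.eps_nat, Sph.eps_nat_assoc, Sph.c_nat, Sph.c_nat_assoc, Sph.eta_nat', Sph.eta_nat'_assoc,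
    Sph.u_nat', Sph.u_nat'_assoc,
    m_ee, m_ee_assoc, mm_ee, mm_ee_assoc, Tw.ee, Tw.ee_assoc, Tw.dd, Tw.dd_assoc])

section one

variable (F) (X : Tw C) (S : Sum2 (F.Q X.X) X.X) (R : Sum2 (T F X S).X (F.Q (T F X S).X))

/-- `X → T' T X` -/
def io : X.X ⟶ (T' F (T F X S) R).X :=
  S.inr ≫ R.inl + F.eta X.X ≫ F.u X.X ≫ F.m S.inl ≫ R.inr

/-- `T' T X → X` -/
def pr : (T' F (T F X S) R).X ⟶ X.X :=
  R.fst ≫ S.snd - R.snd ≫ F.m S.fst ≫ F.c X.X ≫ F.eps X.X

/-- the homotopy on `T' T X` -/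
def ht : (T' F (T F X S) R).X ⟶ (T' F (T F X S) R).X :=
  R.snd ≫ F.m S.fst ≫ F.c X.X ≫ S.inl ≫ R.inl - R.snd ≫ F.m S.snd ≫ F.u X.X ≫ F.m S.inl ≫ R.inr

variable {F X S R}

theorem io_pr : io F X S R ≫ pr F X S R = 𝟙 X.X := by
  unfold io pr
  tw_simp

theorem bar_io : bar X (T' F (T F X S) R) (io F X S R) = io F X S R := by
  unfold bar io
  tw_nat

theorem D_io : D X (T' F (T F X S) R) (io F X S R) = 0 := by
  unfold D
  rw [bar_io]
  unfold io
  tw_nat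
  abel

theorem bar_pr : bar (T' F (T F X S) R) X (pr F X S R) = pr F X S R := by
  apply R.ext
  · apply S.ext
    · unfold bar pr
      tw_nat
    · unfold bar pr
      tw_nat
  · unfold bar pr
    tw_nat

theorem D_pr : D (T' F (T F X S) R) X (pr F X S R) = 0 := by
  unfold D
  rw [bar_pr]
  unfold pr
  apply R.ext
  · apply S.ext
    · tw_nat
      abel
    · tw_nat
      abel
  · tw_nat
    abel

theorem bar_ht : bar (T' F (T F X S) R) (T' F (T F X S) R) (ht F X S R) = - ht F X S R := by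
  apply R.ext
  · apply S.ext
    · unfold bar ht
      tw_nat
    · unfold bar ht
      tw_nat
  · unfold bar ht
    tw_nat
    abel

theorem D_ht : D (T' F (T F X S) R) (T' F (T F X S) R) (ht F X S R) =
    𝟙 _ - pr F X S R ≫ io F X S R := by
  unfold D
  rw [bar_ht]
  apply R.ext
  · apply S.ext
    · unfold pr io ht
      tw_nat
    · unfold pr io ht
      tw_nat
      abel
  · have hh := congrArg (fun z => F.m S.fst ≫ z ≫ F.m S.inl ≫ R.inr) (F.id1 X.X)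
    have ht' : F.m S.fst ≫ F.m S.inl ≫ R.inr + F.m S.snd ≫ F.m S.inr ≫ R.inr = R.inr := by
      rw [← F.m_comp_assoc, ← F.m_comp_assoc, ← add_comp, ← F.m_add, S.total, F.m_id,
        Category.id_comp]
    unfold pr io ht
    tw_nat
    simp only [comp_add, add_comp, Category.assoc, Category.id_comp, F.eta_nat'_assoc] at hh
    rw [← sub_eq_zero] at hh ht' ⊢
    have e : ∀ a b : (F.Q (T F X S).X ⟶ R.S), a = 0 → b = 0 → a + b = 0 := by
      intro a b h h'; rw [h, h', add_zero]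
    refine Eq.trans ?_ (e _ _ hh ht')
    abel

/-- naturality of `io` -/
theorem io_nat {Y : Tw C} {S' : Sum2 (F.Q Y.X) Y.X}
    {R' : Sum2 (T F Y S').X (F.Q (T F Y S').X)} (f : X.X ⟶ Y.X) :
    io F X S R ≫ Tm' F (T F X S) (T F Y S') R R' (Tm F X Y S S' f) = f ≫ io F Y S' R' := by
  unfold Tm'
  rw [bar_Tm]
  unfold io Tm
  rw [bar_bar]
  tw_nat

end one

section two

variable (F) (X : Tw C) (S : Sum2 X.X (F.Q X.X)) (R : Sum2 (F.Q (T' F X S).X) (T' F X S).X)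

/-- `X → T T' X` -/
def io' : X.X ⟶ (T F (T' F X S) R).X :=
  S.inl ≫ R.inr - F.eta X.X ≫ F.u X.X ≫ F.m S.inr ≫ R.inl

/-- `T T' X → X` -/
def pr' : (T F (T' F X S) R).X ⟶ X.X :=
  R.snd ≫ S.fst + R.fst ≫ F.m S.snd ≫ F.c X.X ≫ F.eps X.X

/-- the homotopy on `T T' X` -/
def ht' : (T F (T' F X S) R).X ⟶ (T F (T' F X S) R).X :=
  R.snd ≫ S.snd ≫ F.u X.X ≫ F.m S.inr ≫ R.inl - R.fst ≫ F.m S.snd ≫ F.c X.X ≫ F.m S.inl ≫ R.inl

variable {F X S R}

theorem io_pr' : io' F X S R ≫ pr' F X S R = 𝟙 X.X := by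
  unfold io' pr'
  tw_simp

theorem bar_io' : bar X (T F (T' F X S) R) (io' F X S R) = io' F X S R := by
  unfold bar io'
  tw_nat
  abel

theorem D_io' : D X (T F (T' F X S) R) (io' F X S R) = 0 := by
  unfold D
  rw [bar_io']
  unfold io'
  tw_nat
  abel

theorem bar_pr' : bar (T F (T' F X S) R) X (pr' F X S R) = pr' F X S R := by
  apply R.ext
  · unfold bar pr'
    tw_nat
  · apply S.ext
    · unfold bar pr'
      tw_nat
    · unfold bar pr'
      tw_nat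

theorem D_pr' : D (T F (T' F X S) R) X (pr' F X S R) = 0 := by
  unfold D
  rw [bar_pr']
  unfold pr'
  apply R.ext
  · tw_nat
    abel
  · apply S.ext
    · tw_nat
      abel
    · tw_nat

theorem bar_ht' : bar (T F (T' F X S) R) (T F (T' F X S) R) (ht' F X S R) = - ht' F X S R := by
  apply R.ext
  · unfold bar ht'
    tw_nat
  · apply S.ext
    · unfold bar ht'
      tw_nat
    · unfold bar ht'
      tw_nat

theorem D_ht' : D (T F (T' F X S) R) (T F (T' F X S) R) (ht' F X S R) =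
    𝟙 _ - pr' F X S R ≫ io' F X S R := by
  unfold D
  rw [bar_ht']
  apply R.ext
  · have hh := congrArg (fun z => F.m S.snd ≫ z ≫ F.m S.inr ≫ R.inl) (F.id2 X.X)
    have ht'' : F.m S.fst ≫ F.m S.inl ≫ R.inl + F.m S.snd ≫ F.m S.inr ≫ R.inl = R.inl := by
      rw [← F.m_comp_assoc, ← F.m_comp_assoc, ← add_comp, ← F.m_add, S.total, F.m_id,
        Category.id_comp]
    unfold pr' io' ht'
    tw_nat
    simp only [comp_add, add_comp, Category.assoc, Category.id_comp, F.eps_nat_assoc] at hh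
    rw [← sub_eq_zero] at hh ht'' ⊢
    have e : ∀ a b : (F.Q (T' F X S).X ⟶ R.S), a = 0 → b = 0 → a + b = 0 := by
      intro a b h h'; rw [h, h', add_zero]
    refine Eq.trans ?_ (e _ _ hh ht'')
    abel
  · apply S.ext
    · unfold pr' io' ht'
      tw_nat
      abel
    · unfold pr' io' ht'
      tw_nat
      abel

/-- naturality of `io'` -/
theorem io_nat' {Y : Tw C} {S' : Sum2 Y.X (F.Q Y.X)}
    {R' : Sum2 (F.Q (T' F Y S').X) (T' F Y S').X} (f : X.X ⟶ Y.X) :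
    io' F X S R ≫ Tm F (T' F X S) (T' F Y S') R R' (Tm' F X Y S S' f) = f ≫ io' F Y S' R' := by
  unfold Tm
  rw [bar_Tm']
  unfold io' Tm'
  rw [bar_bar]
  tw_nat
  abel

end two

end Crest.Agent.R175.TwA_253
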