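import Crest.Agent.R175.TwB_250
import Crest.Agent.R175.TwF_253

/-!
helper250: braid relation and commutation relation for the twists `T F` of helper253
(`Sph` data), from the abstract elimination of `TwB_250`.
-/

set_option autoImplicit false
set_option linter.unusedSectionVars false
set_option linter.unusedSimpArgs false

open CategoryTheory

namespace Crest.Agent.R175.TwD_250
open Crest.Agent.R175.TwA_253 Crest.Agent.R175.TwB_250
universe v u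

variable {C : Type u} [Category.{v} C] [Preadditive C]

/-- the sums of the explicit biproducts -/
abbrev s2 [BP C] (A B : C) : Sum2 A B where
  S := A ⊹ B
  inl := bp.inl
  inr := bp.inr
  fst := bp.fst
  snd := bp.snd
  inl_fst := bp.inl_fst
  inr_snd := bp.inr_snd
  inl_snd := bp.inl_snd
  inr_fst := bp.inr_fst
  total := bp.total

/-- `Q` as a functor -/
abbrev Qf (F : Sph C) : C ⥤ C where
  obj := F.Q
  map f := F.m f
  map_id := F.m_id
  map_comp := F.m_comp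


instance (F : Sph C) : (Qf F).Additive where
  map_add := F.m_add _ _

/-- the counit -/
abbrev Cf (F : Sph C) : Cou (Qf F) where
  e := F.eps
  nat := F.eps_nat

/-- the natural transformation `θ : Q_s → Q_s Q_t Q_s` for one edge `s - t`
(`θ (p ⊗ h) = p ⊗ a ⊗ rev a ⊗ h`), and the `1`-part `σ` of `Q_s Q_s = Q_s ⊗ ⟨1, l⟩`. -/
structure Edge (F G : Sph C) where
  θ : ∀ X : C, F.Q X ⟶ F.Q (G.Q (F.Q X))
  σ : ∀ X : C, F.Q (F.Q X) ⟶ F.Q X
  nat : ∀ {X Y : C} (f : X ⟶ Y), F.m f ≫ θ Y = θ X ≫ F.m (G.m (F.m f))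
  uσ : ∀ X, F.u X ≫ σ X = 𝟙 _
  κσ : ∀ X, F.m (G.eps (F.Q X)) ≫ σ X = 0
  b : ∀ X, F.m (G.eps (F.Q X)) ≫ F.c X ≫ θ X = 𝟙 _
  tot : ∀ X, σ X ≫ F.u X + F.c X ≫ θ X ≫ F.m (G.eps (F.Q X)) = 𝟙 _

/-- the splitting used in `TwB_250` -/
def spl {F G : Sph C} (E : Edge F G) : Spl (Qf F) (Qf G) (Cf F) (Cf G) where
  η X := F.u X
  σ X := E.σ X
  ρ X := F.c X ≫ E.θ X
  η_nat f := F.u_nat f
  ρ_nat {X Y} f := by
    change F.m (F.m f) ≫ F.c Y ≫ E.θ Y = (F.c X ≫ E.θ X) ≫ F.m (G.m (F.m f))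
    rw [F.c_nat_assoc, E.nat, Category.assoc]
  ησ X := E.uσ X
  ηρ X := by
    change F.u X ≫ F.c X ≫ E.θ X = 0
    simp
  κσ X := E.κσ X
  κρ X := E.b X
  tot X := by
    have := E.tot X
    rw [← this]
    change _ + (F.c X ≫ E.θ X) ≫ F.m (G.eps (F.Q X)) = _
    rw [Category.assoc]
  ηε X := F.u_eps2 X
  ηε' X := F.u_eps1 X

section main

variable [BP C]

/-- the twist with the chosen sums -/
abbrev Tq (F : Sph C) (X : Tw C) : Tw C := T F X (s2 _ _)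

theorem Tq_d (F : Sph C) (X : Tw C) :
    (Tq F X).d = td (Qf F) (Cf F) X.d := by
  apply bp.hom_ext'
  · refine Eq.trans ?_ (inl_td (Qf F) (Cf F) X.d).symm
    change bp.inl ≫ (-(bp.fst ≫ F.m X.d ≫ bp.inl) + bp.fst ≫ F.eps X.X ≫ bp.inr
      + bp.snd ≫ X.d ≫ bp.inr) = _
    simp
  · refine Eq.trans ?_ (inr_td (Qf F) (Cf F) X.d).symm
    change bp.inr ≫ (-(bp.fst ≫ F.m X.d ≫ bp.inl) + bp.fst ≫ F.eps X.X ≫ bp.inr
      + bp.snd ≫ X.d ≫ bp.inr) = _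
    simp

theorem Tq_e (F : Sph C) (X : Tw C) :
    (Tq F X).e = tg (Qf F) X.e := by
  apply bp.hom_ext'
  · refine Eq.trans ?_ (inl_tg (Qf F) X.e).symm
    change bp.inl ≫ (-(bp.fst ≫ F.m X.e ≫ bp.inl) + bp.snd ≫ X.e ≫ bp.inr) = _
    simp
  · refine Eq.trans ?_ (inr_tg (Qf F) X.e).symm
    change bp.inr ≫ (-(bp.fst ≫ F.m X.e ≫ bp.inl) + bp.snd ≫ X.e ≫ bp.inr) = _
    simp

theorem eff {X Y : Tw C} {f : X.X ⟶ Y.X} (hd : f ≫ Y.d = X.d ≫ f) (he : f ≫ Y.e = X.e ≫ f) :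
    bar X Y f = f ∧ D X Y f = 0 := by
  have h1 : bar X Y f = f := by
    rw [bar, he, ← Category.assoc, X.ee, Category.id_comp]
  exact ⟨h1, by rw [D, h1, hd, sub_self]⟩

theorem efh {X : Tw C} {h : X.X ⟶ X.X} (he : h ≫ X.e = -(X.e ≫ h)) :
    D X X (-h) = -(X.d ≫ h + h ≫ X.d) := by
  have h1 : bar X X (-h) = h := by
    rw [bar, Preadditive.neg_comp, he, neg_neg, ← Category.assoc, X.ee, Category.id_comp]
  rw [D, h1, Preadditive.neg_comp]
  abel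

/-- **the braid relation** for twists along two spherical objects joined by one edge -/
theorem braid {F G : Sph C} (E : Edge F G) (E' : Edge G F) (X : Tw C) :
    TwA_253.HEq (Tq F (Tq G (Tq F X))) (Tq G (Tq F (Tq G X))) := by
  have hd : ∀ F G : Sph C, (Tq F (Tq G (Tq F X))).d = d3 (Cf F) (Cf G) X.d := by
    intro F G
    rw [Tq_d, Tq_d, Tq_d]
  have he : ∀ F G : Sph C, (Tq F (Tq G (Tq F X))).e = g3 (Qf F) (Qf G) X.e := by
    intro F G
    rw [Tq_e, Tq_e, Tq_e]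
  have h1 := eff (X := Tq F (Tq G (Tq F X))) (Y := Tq G (Tq F (Tq G X)))
    (f := bq (spl E) (spl E') X.X)
    (by rw [hd, hd]; exact bq_d (spl E) (spl E') X.d)
    (by rw [he, he]; exact bq_g (spl E) (spl E') X.e)
  have h2 := eff (X := Tq G (Tq F (Tq G X))) (Y := Tq F (Tq G (Tq F X)))
    (f := bq (spl E') (spl E) X.X)
    (by rw [hd, hd]; exact bq_d (spl E') (spl E) X.d)
    (by rw [he, he]; exact bq_g (spl E') (spl E) X.e)
  refine ⟨bq (spl E) (spl E') X.X, bq (spl E') (spl E) X.X, -(ho (spl E) X.X),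
    -(ho (spl E') X.X), h1.1, h2.1, h1.2, h2.2, ?_, ?_⟩
  · rw [efh (X := Tq F (Tq G (Tq F X))) (by rw [he]; exact ho_g (spl E) X.e), hd,
      ← bq_bq (spl E) (spl E') X.d]
    abel
  · rw [efh (X := Tq G (Tq F (Tq G X))) (by rw [he]; exact ho_g (spl E') X.e), hd,
      ← bq_bq (spl E') (spl E) X.d]
    abel

/-- **the commutation relation** for orthogonal spherical objects -/
theorem comm {F G : Sph C} (h : ∀ X, 𝟙 (F.Q (G.Q X)) = 0) (h' : ∀ X, 𝟙 (G.Q (F.Q X)) = 0)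
    (X : Tw C) : TwA_253.HEq (Tq F (Tq G X)) (Tq G (Tq F X)) := by
  have hd : ∀ F G : Sph C, (Tq F (Tq G X)).d = td (Qf F) (Cf F) (td (Qf G) (Cf G) X.d) := by
    intro F G
    rw [Tq_d, Tq_d]
  have he : ∀ F G : Sph C, (Tq F (Tq G X)).e = tg (Qf F) (tg (Qf G) X.e) := by
    intro F G
    rw [Tq_e, Tq_e]
  have h1 := eff (X := Tq F (Tq G X)) (Y := Tq G (Tq F X)) (f := cq (Qf F) (Qf G) X.X)
    (by rw [hd, hd]; exact cq_d (Qf F) (Qf G) (Cf F) (Cf G) h X.d)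
    (by rw [he, he]; exact cq_g (Qf F) (Qf G) h X.e)
  have h2 := eff (X := Tq G (Tq F X)) (Y := Tq F (Tq G X)) (f := cq (Qf G) (Qf F) X.X)
    (by rw [hd, hd]; exact cq_d (Qf G) (Qf F) (Cf G) (Cf F) h' X.d)
    (by rw [he, he]; exact cq_g (Qf G) (Qf F) h' X.e)
  refine ⟨cq (Qf F) (Qf G) X.X, cq (Qf G) (Qf F) X.X, 0, 0, h1.1, h2.1, h1.2, h2.2, ?_, ?_⟩
  · rw [cq_cq (Qf F) (Qf G) h]; simp [D, bar]
  · rw [cq_cq (Qf G) (Qf F) h']; simp [D, bar]

end main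

end Crest.Agent.R175.TwD_250
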