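import Crest.Agent.R175.TwB_253

/-!
# Twists, abstract part 3 (row 175, helper253): functoriality of `T`, `T'`
-/

universe v u

namespace Crest.Agent.R175.TwA_253

open CategoryTheory Preadditive

variable {C : Type u} [Category.{v} C] [Preadditive C] {F : Sph C}

/-- equality of maps out of a direct sum -/
theorem Sum2.ext {A B : C} (S : Sum2 A B) {Z : C} {f g : S.S ⟶ Z}
    (h1 : S.inl ≫ f = S.inl ≫ g) (h2 : S.inr ≫ f = S.inr ≫ g) : f = g := by
  rw [← Category.id_comp f, ← Category.id_comp g, ← S.total, Preadditive.add_comp,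
    Preadditive.add_comp, Category.assoc, Category.assoc, Category.assoc, Category.assoc, h1, h2]

/-- equality of maps into a direct sum -/
theorem Sum2.ext' {A B : C} (S : Sum2 A B) {Z : C} {f g : Z ⟶ S.S}
    (h1 : f ≫ S.fst = g ≫ S.fst) (h2 : f ≫ S.snd = g ≫ S.snd) : f = g := by
  rw [← Category.comp_id f, ← Category.comp_id g, ← S.total, Preadditive.comp_add,
    Preadditive.comp_add, reassoc_of% h1, reassoc_of% h2]

section fn

variable (F)

/-- `T` on morphisms -/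
def Tm (X Y : Tw C) (S : Sum2 (F.Q X.X) X.X) (S' : Sum2 (F.Q Y.X) Y.X) (f : X.X ⟶ Y.X) :
    (T F X S).X ⟶ (T F Y S').X :=
  S.fst ≫ F.m (bar X Y f) ≫ S'.inl + S.snd ≫ f ≫ S'.inr

/-- `T'` on morphisms -/
def Tm' (X Y : Tw C) (S : Sum2 X.X (F.Q X.X)) (S' : Sum2 Y.X (F.Q Y.X)) (f : X.X ⟶ Y.X) :
    (T' F X S).X ⟶ (T' F Y S').X :=
  S.fst ≫ f ≫ S'.inl + S.snd ≫ F.m (bar X Y f) ≫ S'.inr

end fn

section forT
variable {X Y Z : Tw C} {S : Sum2 (F.Q X.X) X.X} {S' : Sum2 (F.Q Y.X) Y.X}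
  {S'' : Sum2 (F.Q Z.X) Z.X}

@[reassoc] theorem T_d_inl :
    S.inl ≫ (T F X S).d = -(F.m X.d ≫ S.inl) + F.eps X.X ≫ S.inr := by
  simp [T, Preadditive.comp_add, Preadditive.comp_neg]

@[reassoc] theorem T_d_inr : S.inr ≫ (T F X S).d = X.d ≫ S.inr := by
  simp [T, Preadditive.comp_add, Preadditive.comp_neg]

@[reassoc] theorem T_e_inl : S.inl ≫ (T F X S).e = -(F.m X.e ≫ S.inl) := by
  simp [T, Preadditive.comp_add, Preadditive.comp_neg]

@[reassoc] theorem T_e_inr : S.inr ≫ (T F X S).e = X.e ≫ S.inr := by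
  simp [T, Preadditive.comp_add, Preadditive.comp_neg]

@[reassoc] theorem Tm_inl (f : X.X ⟶ Y.X) :
    S.inl ≫ Tm F X Y S S' f = F.m (bar X Y f) ≫ S'.inl := by
  simp [Tm, Preadditive.comp_add]

@[reassoc] theorem Tm_inr (f : X.X ⟶ Y.X) : S.inr ≫ Tm F X Y S S' f = f ≫ S'.inr := by
  simp [Tm, Preadditive.comp_add]

theorem Tm_id : Tm F X X S S (𝟙 X.X) = 𝟙 S.S := by
  apply S.ext
  · rw [Tm_inl, bar_id]; simp
  · rw [Tm_inr]; simp

theorem Tm_comp (f : X.X ⟶ Y.X) (g : Y.X ⟶ Z.X) :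
    Tm F X Z S S'' (f ≫ g) = Tm F X Y S S' f ≫ Tm F Y Z S' S'' g := by
  apply S.ext
  · rw [Tm_inl, Tm_inl_assoc, Tm_inl, bar_comp, F.m_comp, Category.assoc]
  · rw [Tm_inr, Tm_inr_assoc, Tm_inr, Category.assoc]

theorem Tm_add (f g : X.X ⟶ Y.X) :
    Tm F X Y S S' (f + g) = Tm F X Y S S' f + Tm F X Y S S' g := by
  apply S.ext
  · rw [Preadditive.comp_add, Tm_inl, Tm_inl, Tm_inl, bar_add, F.m_add, Preadditive.add_comp]
  · rw [Preadditive.comp_add, Tm_inr, Tm_inr, Tm_inr, Preadditive.add_comp]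

theorem bar_Tm (f : X.X ⟶ Y.X) :
    bar (T F X S) (T F Y S') (Tm F X Y S S' f) = Tm F X Y S S' (bar X Y f) := by
  apply S.ext
  · rw [Tm_inl, bar_bar]
    unfold bar
    rw [T_e_inl_assoc, Preadditive.neg_comp, Category.assoc, Tm_inl_assoc, T_e_inl]
    rw [Preadditive.comp_neg, Preadditive.comp_neg, neg_neg, bar, ← F.m_comp_assoc,
      ← F.m_comp_assoc]
    simp
  · rw [Tm_inr]
    unfold bar
    rw [T_e_inr_assoc, Tm_inr_assoc, T_e_inr]
    simp

theorem D_Tm (f : X.X ⟶ Y.X) :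
    D (T F X S) (T F Y S') (Tm F X Y S S' f) = Tm F X Y S S' (D X Y f) := by
  unfold D
  rw [bar_Tm]
  apply S.ext
  · rw [Tm_inl, Preadditive.comp_sub, Tm_inl_assoc, T_d_inl_assoc, T_d_inl,
      Preadditive.add_comp, Preadditive.neg_comp, Category.assoc, Category.assoc, Tm_inl,
      Tm_inr, bar_sub, bar_comp, bar_comp, bar_d, bar_d, bar_bar, F.m_sub, F.m_comp,
      F.m_comp, F.m_neg, F.m_neg, Preadditive.comp_add, F.eps_nat_assoc]
    simp only [Preadditive.comp_neg, Preadditive.neg_comp, Preadditive.sub_comp,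
      Category.assoc]
    abel
  · rw [Tm_inr, Preadditive.comp_sub, Tm_inr_assoc, T_d_inr_assoc, T_d_inr, Tm_inr,
      Preadditive.sub_comp, Category.assoc, Category.assoc]

end forT

section forT'
variable {X Y Z : Tw C} {S : Sum2 X.X (F.Q X.X)} {S' : Sum2 Y.X (F.Q Y.X)}
  {S'' : Sum2 Z.X (F.Q Z.X)}

@[reassoc] theorem T'_d_inl :
    S.inl ≫ (T' F X S).d = X.d ≫ S.inl + F.eta X.X ≫ S.inr := by
  simp [T', Preadditive.comp_sub]

@[reassoc] theorem T'_d_inr : S.inr ≫ (T' F X S).d = -(F.m X.d ≫ S.inr) := by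
  simp [T', Preadditive.comp_sub]

@[reassoc] theorem T'_e_inl : S.inl ≫ (T' F X S).e = X.e ≫ S.inl := by
  simp [T', Preadditive.comp_sub]

@[reassoc] theorem T'_e_inr : S.inr ≫ (T' F X S).e = -(F.m X.e ≫ S.inr) := by
  simp [T', Preadditive.comp_sub]

@[reassoc] theorem Tm'_inl (f : X.X ⟶ Y.X) : S.inl ≫ Tm' F X Y S S' f = f ≫ S'.inl := by
  simp [Tm', Preadditive.comp_add]

@[reassoc] theorem Tm'_inr (f : X.X ⟶ Y.X) :
    S.inr ≫ Tm' F X Y S S' f = F.m (bar X Y f) ≫ S'.inr := by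
  simp [Tm', Preadditive.comp_add]

theorem Tm'_id : Tm' F X X S S (𝟙 X.X) = 𝟙 S.S := by
  apply S.ext
  · rw [Tm'_inl]; simp
  · rw [Tm'_inr, bar_id]; simp

theorem Tm'_comp (f : X.X ⟶ Y.X) (g : Y.X ⟶ Z.X) :
    Tm' F X Z S S'' (f ≫ g) = Tm' F X Y S S' f ≫ Tm' F Y Z S' S'' g := by
  apply S.ext
  · rw [Tm'_inl, Tm'_inl_assoc, Tm'_inl, Category.assoc]
  · rw [Tm'_inr, Tm'_inr_assoc, Tm'_inr, bar_comp, F.m_comp, Category.assoc]

theorem Tm'_add (f g : X.X ⟶ Y.X) :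
    Tm' F X Y S S' (f + g) = Tm' F X Y S S' f + Tm' F X Y S S' g := by
  apply S.ext
  · rw [Preadditive.comp_add, Tm'_inl, Tm'_inl, Tm'_inl, Preadditive.add_comp]
  · rw [Preadditive.comp_add, Tm'_inr, Tm'_inr, Tm'_inr, bar_add, F.m_add,
      Preadditive.add_comp]

theorem bar_Tm' (f : X.X ⟶ Y.X) :
    bar (T' F X S) (T' F Y S') (Tm' F X Y S S' f) = Tm' F X Y S S' (bar X Y f) := by
  apply S.ext
  · rw [Tm'_inl]
    unfold bar
    rw [T'_e_inl_assoc, Tm'_inl_assoc, T'_e_inl]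
    simp
  · rw [Tm'_inr, bar_bar]
    unfold bar
    rw [T'_e_inr_assoc, Preadditive.neg_comp, Category.assoc, Tm'_inr_assoc, T'_e_inr]
    rw [Preadditive.comp_neg, Preadditive.comp_neg, neg_neg, bar, ← F.m_comp_assoc,
      ← F.m_comp_assoc]
    simp

theorem D_Tm' (f : X.X ⟶ Y.X) :
    D (T' F X S) (T' F Y S') (Tm' F X Y S S' f) = Tm' F X Y S S' (D X Y f) := by
  unfold D
  rw [bar_Tm']
  apply S.ext
  · rw [Tm'_inl, Preadditive.comp_sub, Tm'_inl_assoc, T'_d_inl_assoc, T'_d_inl,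
      Preadditive.add_comp, Category.assoc, Category.assoc, Tm'_inl, Tm'_inr, bar_bar,
      Preadditive.comp_add, F.eta_nat_assoc]
    simp only [Preadditive.sub_comp, Category.assoc]
    abel
  · rw [Tm'_inr, Preadditive.comp_sub, Tm'_inr_assoc, T'_d_inr_assoc, T'_d_inr, 
      Preadditive.neg_comp, Category.assoc, Tm'_inr, bar_sub, bar_comp, bar_comp, bar_d,
      bar_d, bar_bar, F.m_sub, F.m_comp, F.m_comp, F.m_neg, F.m_neg]
    simp only [Preadditive.comp_neg, Preadditive.neg_comp, Preadditive.sub_comp,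
      Category.assoc]

end forT'

end Crest.Agent.R175.TwA_253
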