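import Crest.Agent.R175.TwF_253
import Crest.Agent.R175.PTA_534

/-!
# Twists (row 175, helper253): the functor `Q_U X = ⊕_{u ∈ U} P_u ⊗ Hom(P_u, X)` on `Gob G k`
-/

set_option autoImplicit false
set_option linter.unusedSectionVars false

open CategoryTheory

namespace Crest.Agent.R175.TwG_253

open PTA

universe v

noncomputable section

/-! ### function spaces over a proposition -/

section cut
variable {k : Type*} [Field k] {M N : Type*} [AddCommGroup M] [Module k M]
  [AddCommGroup N] [Module k N] {p : Prop}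

/-- constant function -/
def cin (k : Type*) [Field k] {M : Type*} [AddCommGroup M] [Module k M] (p : Prop) :
    M →ₗ[k] (PLift p → M) := LinearMap.pi fun _ => LinearMap.id

open Classical in
/-- evaluation (`0` if `p` is false) -/
def cev (k : Type*) [Field k] {M : Type*} [AddCommGroup M] [Module k M] (p : Prop) :
    (PLift p → M) →ₗ[k] M := if h : p then LinearMap.proj ⟨h⟩ else 0

@[simp] theorem cin_apply (m : M) (h : PLift p) : cin k p m h = m := rfl

theorem cev_of (h : p) (x : PLift p → M) : cev k p x = x ⟨h⟩ := by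
  simp [cev, h]

theorem cev_not (h : ¬ p) (x : PLift p → M) : cev k p x = 0 := by
  simp [cev, h]

@[simp] theorem cin_cev (x : PLift p → M) : cin k p (cev k p x) = x := by
  funext ⟨h⟩; rw [cin_apply, cev_of h]

theorem cev_cin (h : p) (m : M) : cev k p (cin k p m) = m := by
  rw [cev_of h, cin_apply]

theorem cev_map (f : M →ₗ[k] N) (x : PLift p → M) :
    cev k p (fun i => f (x i)) = f (cev k p x) := by
  by_cases h : p
  · rw [cev_of h, cev_of h]
  · rw [cev_not h, cev_not h, map_zero]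

theorem cev_compLeft (f : M →ₗ[k] N) (x : PLift p → M) :
    cev k p (f.compLeft (PLift p) x) = f (cev k p x) := cev_map f x

end cut

variable {T : Type v} {G : MG T} {k : Type v} [Field k]

/-- `Hom(P_t, X)` -/
abbrev HP (X : Gob G k) (t : T) : Type v :=
  X.V t × (∀ s, G.E t s → X.V s) × X.W t × X.V t

variable [Fintype T]

instance (X : Gob G k) (t : T) : FiniteDimensional k (HP X t) := inferInstance

instance (X : Gob G k) (t : T) (p : Prop) : FiniteDimensional k (PLift p → HP X t) :=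
  inferInstance

/-- `Hom(P_t, f)` -/
def hmap {X Y : Gob G k} (f : X ⟶ Y) (t : T) : HP X t →ₗ[k] HP Y t where
  toFun x := (c0 f t x.1, fun s a => c1 f a x.1 + c0 f s (x.2.1 s a),
    cj f t x.1 + cW f t x.2.2.1,
    c2 f t x.1 + (∑ s, ∑ a : G.E t s, c1 f (G.rev a) (x.2.1 s a)) + ci f t x.2.2.1
      + c0 f t x.2.2.2)
  map_add' x y := by
    refine Prod.ext ?_ (Prod.ext ?_ (Prod.ext ?_ ?_))
    · simp
    · funext s a; simp; abel
    · simp; abel
    · simp [Finset.sum_add_distrib]; abel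
  map_smul' c x := by
    refine Prod.ext ?_ (Prod.ext ?_ (Prod.ext ?_ ?_))
    · simp
    · funext s a; simp
    · simp
    · simp [Finset.smul_sum]

section hmap
variable {X Y Z : Gob G k} (f : X ⟶ Y) (g : Y ⟶ Z) (t : T) (x : HP X t)

theorem hmap_0 : (hmap f t x).1 = c0 f t x.1 := rfl
theorem hmap_1 (s : T) (a : G.E t s) :
    (hmap f t x).2.1 s a = c1 f a x.1 + c0 f s (x.2.1 s a) := rfl
theorem hmap_w : (hmap f t x).2.2.1 = cj f t x.1 + cW f t x.2.2.1 := rfl
theorem hmap_2 : (hmap f t x).2.2.2 = c2 f t x.1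
    + (∑ s, ∑ a : G.E t s, c1 f (G.rev a) (x.2.1 s a)) + ci f t x.2.2.1
      + c0 f t x.2.2.2 := rfl

theorem HP_ext {x y : HP X t} (h0 : x.1 = y.1) (h1 : ∀ s a, x.2.1 s a = y.2.1 s a)
    (hw : x.2.2.1 = y.2.2.1) (h2 : x.2.2.2 = y.2.2.2) : x = y :=
  Prod.ext h0 (Prod.ext (funext fun s => funext fun a => h1 s a) (Prod.ext hw h2))

theorem hmap_id : hmap (𝟙 X) t x = x := by
  apply HP_ext
  · simp [hmap_0]
  · intro s a; simp [hmap_1]
  · simp [hmap_w]
  · simp [hmap_2]

theorem hmap_comp : hmap (f ≫ g) t x = hmap g t (hmap f t x) := by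
  apply HP_ext
  · simp [hmap_0]
  · intro s a; simp [hmap_1, hmap_0]; abel
  · simp [hmap_w, hmap_0]; abel
  · simp only [hmap_2, hmap_1, hmap_0, hmap_w, c2_comp, c1_comp, ci_comp, c0_comp,
      LinearMap.add_apply, LinearMap.comp_apply, map_add, Finset.sum_add_distrib,
      LinearMap.sum_apply, map_sum]
    abel

theorem hmap_add (f f' : X ⟶ Y) : hmap (f + f') t x = hmap f t x + hmap f' t x := by
  apply HP_ext
  · simp [hmap_0]
  · intro s a; simp [hmap_1]; abel
  · simp [hmap_w]; abel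
  · simp [hmap_2, Finset.sum_add_distrib]; abel

end hmap

/-! ### the functor `Q_U` -/

variable (U : T → Prop)

/-- `Q_U X = ⊕_{u ∈ U} P_u ⊗ Hom(P_u, X)` -/
def QG (X : Gob G k) : Gob G k where
  V t := PLift (U t) → HP X t
  W _ := PUnit.{v + 1}
  gV t := (hmap (gam X) t).compLeft (PLift (U t))
  gW _ := LinearMap.id
  gV_sq t := by
    apply LinearMap.ext; intro x; funext i
    change hmap (gam X) t (hmap (gam X) t (x i)) = x i
    rw [← hmap_comp, gam_gam, hmap_id]
  gW_sq _ := rfl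

/-- the coordinate of `Q_U X` at `t` (zero if `t ∉ U`) -/
def qev (X : Gob G k) (t : T) : (QG U X).V t →ₗ[k] HP X t :=
  (cev k (U t) : (PLift (U t) → HP X t) →ₗ[k] HP X t)

/-- the map `Hom(P_t, X) → (Q_U X)_t` -/
def qin (X : Gob G k) (t : T) : HP X t →ₗ[k] (QG U X).V t :=
  (cin k (U t) : HP X t →ₗ[k] (PLift (U t) → HP X t))

section q
variable {U} {X Y Z : Gob G k} {t : T}

@[simp] theorem qin_qev (x : (QG U X).V t) : qin U X t (qev U X t x) = x :=
  cin_cev (p := U t) x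

theorem qev_qin (h : U t) (x : HP X t) : qev U X t (qin U X t x) = x := cev_cin h x

theorem q_zero (h : ¬ U t) (x : (QG U X).V t) : x = 0 := by
  have e : qev U X t x = 0 := cev_not h _
  rw [← qin_qev x, e, map_zero]

theorem q_ext {x y : (QG U X).V t} (h : U t → qev U X t x = qev U X t y) : x = y := by
  by_cases h' : U t
  · rw [← qin_qev x, ← qin_qev y, h h']
  · rw [q_zero h' x, q_zero h' y]

theorem gV_QG (x : (QG U X).V t) :
    (QG U X).gV t x = qin U X t (hmap (gam X) t (qev U X t x)) := by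
  apply q_ext
  intro h
  rw [qev_qin h]
  exact cev_compLeft _ _

instance (t : T) : Subsingleton ((QG U X).W t) := inferInstanceAs (Subsingleton PUnit)

end q

/-- `Q_U f` -/
def mG {X Y : Gob G k} (f : X ⟶ Y) : QG U X ⟶ QG U Y :=
  mkH (fun t => qin U Y t ∘ₗ hmap f t ∘ₗ qev U X t) (fun _ => 0) (fun _ _ _ => 0) (fun _ => 0)
    (fun _ => 0) (fun _ => 0)

/-- the coordinate inclusions of `Hom(P_t, X)` -/
def i0 (X : Gob G k) (t : T) : X.V t →ₗ[k] HP X t := LinearMap.inl _ _ _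
/-- the coordinate inclusions of `Hom(P_t, X)` -/
def iw (X : Gob G k) (t : T) : X.W t →ₗ[k] HP X t :=
  LinearMap.inr _ _ _ ∘ₗ LinearMap.inr _ _ _ ∘ₗ LinearMap.inl _ _ _
/-- the coordinate inclusions of `Hom(P_t, X)` -/
def i2 (X : Gob G k) (t : T) : X.V t →ₗ[k] HP X t :=
  LinearMap.inr _ _ _ ∘ₗ LinearMap.inr _ _ _ ∘ₗ LinearMap.inr _ _ _
open Classical in
/-- the coordinate inclusions of `Hom(P_t, X)` -/
def i1 (X : Gob G k) {s t : T} (b : G.E t s) : X.V s →ₗ[k] HP X t :=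
  LinearMap.inr _ _ _ ∘ₗ LinearMap.inl _ _ _ ∘ₗ
    LinearMap.single k (fun s => G.E t s → X.V s) s ∘ₗ LinearMap.single k (fun _ => X.V s) b

/-- the counit `ε : Q X → X` -/
def epsG (X : Gob G k) : QG U X ⟶ X :=
  mkH (fun t => LinearMap.fst _ _ _ ∘ₗ qev U X t) (fun _ => 0)
    (fun s t a => LinearMap.proj a ∘ₗ LinearMap.proj t ∘ₗ LinearMap.fst _ _ _ ∘ₗ
      LinearMap.snd _ _ _ ∘ₗ qev U X s)
    (fun _ => 0)
    (fun t => LinearMap.fst _ _ _ ∘ₗ LinearMap.snd _ _ _ ∘ₗ LinearMap.snd _ _ _ ∘ₗ qev U X t)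
    (fun t => LinearMap.snd _ _ _ ∘ₗ LinearMap.snd _ _ _ ∘ₗ LinearMap.snd _ _ _ ∘ₗ qev U X t)

/-- the unit `η : X → Q X` -/
def etaG (X : Gob G k) : X ⟶ QG U X :=
  mkH (fun t => qin U X t ∘ₗ i2 X t) (fun _ => 0)
    (fun _ t a => qin U X t ∘ₗ i1 X (G.rev a))
    (fun t => qin U X t ∘ₗ iw X t) (fun _ => 0) (fun t => qin U X t ∘ₗ i0 X t)

/-- `u : v ↦ 1 ⊗ v` -/
def uG (X : Gob G k) : QG U X ⟶ QG U (QG U X) :=
  mkH (fun t => qin U (QG U X) t ∘ₗ i0 (QG U X) t) (fun _ => 0) (fun _ _ _ => 0) (fun _ => 0)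
    (fun _ => 0) (fun _ => 0)

/-- the trace -/
def cG (X : Gob G k) : QG U (QG U X) ⟶ QG U X :=
  mkH (fun t => LinearMap.snd _ _ _ ∘ₗ LinearMap.snd _ _ _ ∘ₗ LinearMap.snd _ _ _ ∘ₗ
    qev U (QG U X) t) (fun _ => 0) (fun _ _ _ => 0) (fun _ => 0) (fun _ => 0) (fun _ => 0)

section comps
variable {X Y Z : Gob G k}

theorem c0_mG (f : X ⟶ Y) (t : T) (x : (QG U X).V t) :
    c0 (mG U f) t x = qin U Y t (hmap f t (qev U X t x)) := rfl
theorem c1_mG (f : X ⟶ Y) {s t : T} (a : G.E s t) : c1 (mG U f) a = 0 := rfl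
theorem ci_mG (f : X ⟶ Y) (t : T) : ci (mG U f) t = 0 := rfl
theorem cj_mG (f : X ⟶ Y) (t : T) : cj (mG U f) t = 0 := rfl
theorem c2_mG (f : X ⟶ Y) (t : T) : c2 (mG U f) t = 0 := rfl
theorem cW_mG (f : X ⟶ Y) (t : T) : cW (mG U f) t = 0 := rfl

theorem c0_eps (t : T) (x : (QG U X).V t) : c0 (epsG U X) t x = (qev U X t x).1 := rfl
theorem c1_eps {s t : T} (a : G.E s t) (x : (QG U X).V s) :
    c1 (epsG U X) a x = (qev U X s x).2.1 t a := rfl
theorem cj_eps (t : T) (x : (QG U X).V t) : cj (epsG U X) t x = (qev U X t x).2.2.1 := rfl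
theorem c2_eps (t : T) (x : (QG U X).V t) : c2 (epsG U X) t x = (qev U X t x).2.2.2 := rfl
theorem cW_eps (t : T) : cW (epsG U X) t = 0 := rfl
theorem ci_eps (t : T) : ci (epsG U X) t = 0 := rfl

theorem c0_eta (t : T) (x : X.V t) : c0 (etaG U X) t x = qin U X t (i2 X t x) := rfl
theorem c1_eta {s t : T} (a : G.E s t) (x : X.V s) :
    c1 (etaG U X) a x = qin U X t (i1 X (G.rev a) x) := rfl
theorem cj_eta (t : T) : cj (etaG U X) t = 0 := rfl
theorem c2_eta (t : T) (x : X.V t) : c2 (etaG U X) t x = qin U X t (i0 X t x) := rfl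
theorem cW_eta (t : T) : cW (etaG U X) t = 0 := rfl
theorem ci_eta (t : T) (x : X.W t) : ci (etaG U X) t x = qin U X t (iw X t x) := rfl

theorem c0_u (t : T) (x : (QG U X).V t) :
    c0 (uG U X) t x = qin U (QG U X) t (i0 (QG U X) t x) := rfl
theorem c1_u {s t : T} (a : G.E s t) : c1 (uG U X) a = 0 := rfl
theorem ci_u (t : T) : ci (uG U X) t = 0 := rfl
theorem cj_u (t : T) : cj (uG U X) t = 0 := rfl
theorem c2_u (t : T) : c2 (uG U X) t = 0 := rfl
theorem cW_u (t : T) : cW (uG U X) t = 0 := rfl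

theorem c0_c (t : T) (x : (QG U (QG U X)).V t) :
    c0 (cG U X) t x = (qev U (QG U X) t x).2.2.2 := rfl
theorem c1_c {s t : T} (a : G.E s t) : c1 (cG U X) a = 0 := rfl
theorem ci_c (t : T) : ci (cG U X) t = 0 := rfl
theorem cj_c (t : T) : cj (cG U X) t = 0 := rfl
theorem c2_c (t : T) : c2 (cG U X) t = 0 := rfl
theorem cW_c (t : T) : cW (cG U X) t = 0 := rfl

theorem i0_0 (t : T) (x : X.V t) : (i0 X t x).1 = x := rfl
theorem i0_1 (t : T) (x : X.V t) (s : T) (a : G.E t s) : (i0 X t x).2.1 s a = 0 := rfl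
theorem i0_w (t : T) (x : X.V t) : (i0 X t x).2.2.1 = 0 := rfl
theorem i0_2 (t : T) (x : X.V t) : (i0 X t x).2.2.2 = 0 := rfl
theorem iw_0 (t : T) (x : X.W t) : (iw X t x).1 = 0 := rfl
theorem iw_1 (t : T) (x : X.W t) (s : T) (a : G.E t s) : (iw X t x).2.1 s a = 0 := rfl
theorem iw_w (t : T) (x : X.W t) : (iw X t x).2.2.1 = x := rfl
theorem iw_2 (t : T) (x : X.W t) : (iw X t x).2.2.2 = 0 := rfl
theorem i2_0 (t : T) (x : X.V t) : (i2 X t x).1 = 0 := rfl
theorem i2_1 (t : T) (x : X.V t) (s : T) (a : G.E t s) : (i2 X t x).2.1 s a = 0 := rfl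
theorem i2_w (t : T) (x : X.V t) : (i2 X t x).2.2.1 = 0 := rfl
theorem i2_2 (t : T) (x : X.V t) : (i2 X t x).2.2.2 = x := rfl
theorem i1_0 {s t : T} (b : G.E t s) (x : X.V s) : (i1 X b x).1 = 0 := rfl
theorem i1_w {s t : T} (b : G.E t s) (x : X.V s) : (i1 X b x).2.2.1 = 0 := rfl
theorem i1_2 {s t : T} (b : G.E t s) (x : X.V s) : (i1 X b x).2.2.2 = 0 := rfl

/-- a linear functional of `i1 b x` in the second coordinate -/
theorem i1_sum {N : Type*} [AddCommGroup N] {s t : T} (b : G.E t s) (x : X.V s)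
    (g : ∀ r, G.E t r → X.V r → N) (hg : ∀ r a, g r a 0 = 0) :
    ∑ r, ∑ a : G.E t r, g r a ((i1 X b x).2.1 r a) = g s b x := by
  classical
  rw [Finset.sum_eq_single s, Finset.sum_eq_single b]
  · congr 1
    change (Pi.single s (Pi.single b x) : ∀ r, G.E t r → X.V r) s b = x
    simp
  · intro a _ ha
    have : (i1 X b x).2.1 s a = 0 := by
      change (Pi.single s (Pi.single b x) : ∀ r, G.E t r → X.V r) s a = 0
      simp [ha]
    rw [this, hg]
  · intro h; exact absurd (Finset.mem_univ _) h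
  · intro r _ hr
    apply Finset.sum_eq_zero
    intro a _
    have : (i1 X b x).2.1 r a = 0 := by
      change (Pi.single s (Pi.single b x) : ∀ r, G.E t r → X.V r) r a = 0
      simp [hr]
    rw [this, hg]
  · intro h; exact absurd (Finset.mem_univ _) h

/-- reconstruction of the second coordinate -/
theorem sum_i1 (t : T) (x : HP X t) :
    i0 X t x.1 + (∑ s, ∑ a : G.E t s, i1 X a (x.2.1 s a)) + iw X t x.2.2.1
      + i2 X t x.2.2.2 = x := by
  classical
  apply HP_ext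
  · simp only [Prod.fst_add, i0_0, iw_0, i2_0, Prod.fst_sum, i1_0]
    simp
  · intro r b
    have : ((∑ s, ∑ a : G.E t s, i1 X a (x.2.1 s a)).2.1 r b) = x.2.1 r b := by
      have e : (∑ s, ∑ a : G.E t s, i1 X a (x.2.1 s a)).2.1 r b =
        ∑ s, ∑ a : G.E t s, (i1 X a (x.2.1 s a)).2.1 r b := by
        simp [Prod.fst_sum, Prod.snd_sum, Finset.sum_apply]
      rw [e, Finset.sum_eq_single r, Finset.sum_eq_single b]
      · change (Pi.single r (Pi.single b (x.2.1 r b)) : ∀ r, G.E t r → X.V r) r b = _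
        simp
      · intro a _ ha
        change (Pi.single r (Pi.single a (x.2.1 r a)) : ∀ r, G.E t r → X.V r) r b = _
        simp [ha.symm]
      · intro h; exact absurd (Finset.mem_univ _) h
      · intro s _ hs
        apply Finset.sum_eq_zero
        intro a _
        change (Pi.single s (Pi.single a (x.2.1 s a)) : ∀ r, G.E t r → X.V r) r b = _
        simp [hs.symm]
      · intro h; exact absurd (Finset.mem_univ _) h
    simp only [Prod.snd_add, Prod.fst_add, Pi.add_apply, i0_1, iw_1, i2_1, this]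
    simp
  · simp only [Prod.snd_add, Prod.fst_add, i0_w, iw_w, i2_w, Prod.fst_sum, Prod.snd_sum, i1_w]
    simp
  · simp only [Prod.snd_add, i0_2, iw_2, i2_2, Prod.snd_sum, i1_2]
    simp

end comps

end

end Crest.Agent.R175.TwG_253
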