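import Crest.Agent.R175.TwH_253
import Crest.Agent.R175.TwD_250

/-!
helper250: the edge data `θ : Q_s → Q_s Q_t Q_s` on `Gob G k` (concrete part of the braid
relation), and `Q_s Q_t = 0` when there is no edge.
-/

set_option autoImplicit false
set_option linter.unusedSectionVars false
set_option linter.unusedSimpArgs false

open CategoryTheory

namespace Crest.Agent.R175.TwM_250

open PTA TwG_253

universe v

noncomputable section

variable {T : Type v} {G : MG T} {k : Type v} [Field k] [Fintype T] (U U' : T → Prop)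
variable {X Y Z : Gob G k}

/-- `v ↦ ∑_b b ⊗ rev b ⊗ v` -/
def w (Z : Gob G k) (r : T) : Z.V r →ₗ[k] HP (QG U' Z) r :=
  ∑ q, ∑ b : G.E r q, i1 (QG U' Z) b ∘ₗ qin U' Z q ∘ₗ i1 Z (G.rev b)

theorem w_apply (Z : Gob G k) (r : T) (y : Z.V r) :
    w U' Z r y = ∑ q, ∑ b : G.E r q, i1 (QG U' Z) b (qin U' Z q (i1 Z (G.rev b) y)) := by
  simp [w]

/-- `θ` -/
def thG (X : Gob G k) : QG U X ⟶ QG U (QG U' (QG U X)) :=
  mkH (fun r => qin U _ r ∘ₗ w U' (QG U X) r) (fun _ => 0) (fun _ _ _ => 0) (fun _ => 0)
    (fun _ => 0) (fun _ => 0)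

/-- `σ` -/
def sgG (X : Gob G k) : QG U (QG U X) ⟶ QG U X :=
  mkH (fun t => LinearMap.fst _ _ _ ∘ₗ qev U (QG U X) t) (fun _ => 0) (fun _ _ _ => 0)
    (fun _ => 0) (fun _ => 0) (fun _ => 0)

theorem c0_th (r : T) (y : (QG U X).V r) :
    c0 (thG U U' X) r y = qin U _ r (w U' (QG U X) r y) := rfl
theorem c0_sg (r : T) (y : (QG U (QG U X)).V r) :
    c0 (sgG U X) r y = (qev U (QG U X) r y).1 := rfl

theorem w_nat (f : X ⟶ Y) (h1 : ∀ (s t : T) (a : G.E s t), c1 f a = 0) (r : T) (y : X.V r) :
    hmap (mG U' f) r (w U' X r y) = w U' Y r (c0 f r y) := by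
  rw [w_apply, w_apply, map_sum]
  refine Finset.sum_congr rfl fun q _ => ?_
  rw [map_sum]
  refine Finset.sum_congr rfl fun b _ => ?_
  rw [hmap_i1, c1_mG, LinearMap.zero_apply, map_zero, add_zero]
  congr 1
  rw [c0_mG]
  apply q_ext
  intro h
  rw [qev_qin h, qev_qin h, qev_qin h, hmap_i1, h1, LinearMap.zero_apply, map_zero, add_zero]

theorem th_nat (f : X ⟶ Y) : mG U f ≫ thG U U' Y = thG U U' X ≫ mG U (mG U' (mG U f)) := by
  apply hm_ext
  · intro t; apply LinearMap.ext; intro x
    apply q_ext; intro h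
    simp only [c0_comp, LinearMap.comp_apply, c0_th, c0_mG, qev_qin h]
    rw [w_nat U' (mG U f) (fun _ _ _ => rfl), c0_mG]
  · intro t; apply LinearMap.ext; intro x; exact Subsingleton.elim _ _
  · intro s t a; simp [thG, c1_mG]
  · intro t; simp [thG, ci_mG]
  · intro t; simp [thG, cj_mG]
  · intro t; simp [thG, c2_mG, c1_mG, cj_mG]

/-! ### no edge -/

theorem QQ_zero {s t : T} (hst : s ≠ t) (h : IsEmpty (G.E s t)) (X : Gob G k) :
    𝟙 (QG (fun r => r = s) (QG (fun r => r = t) X)) = 0 := by
  apply hm_ext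
  · intro r; apply LinearMap.ext; intro x
    by_cases hr : r = s
    · subst hr
      rw [c0_id, LinearMap.id_apply]
      apply q_ext
      intro _
      have e := sum_i1 r (qev (fun q => q = r) _ r x)
      have h0 : (qev (fun q => q = r) _ r x).1 = 0 := q_zero (U := fun r => r = t) hst _
      have h2 : (qev (fun q => q = r) _ r x).2.2.2 = 0 := q_zero (U := fun r => r = t) hst _
      have hw : (qev (fun q => q = r) _ r x).2.2.1 = 0 := Subsingleton.elim _ _
      have h1 : (∑ q, ∑ b : G.E r q,
          i1 (QG (fun q => q = t) X) b ((qev (fun q => q = r) _ r x).2.1 q b)) = 0 := by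
        apply Finset.sum_eq_zero
        intro q _
        apply Finset.sum_eq_zero
        intro b _
        by_cases hq : q = t
        · subst hq; exact h.elim b
        · have : (qev (fun q => q = r) _ r x).2.1 q b = 0 := q_zero (U := fun z => z = t) hq _
          rw [this, map_zero]
      rw [h0, h1, hw, h2, map_zero, map_zero, map_zero, add_zero, add_zero, add_zero] at e
      refine e.symm.trans ?_
      exact (map_zero (qev (fun q => q = r) _ r)).symm
    · exact (q_zero (U := fun q => q = s) hr _).trans (q_zero (U := fun q => q = s) hr _).symm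
  · intro t; apply LinearMap.ext; intro x; exact Subsingleton.elim _ _
  · intro s t a; simp
  · intro t; simp
  · intro t; simp
  · intro t; simp

/-! ### one edge -/

section one

variable {s t : T} (hst : s ≠ t)

theorem HP_one (a₀ : G.E s t) (ha : ∀ b : G.E s t, b = a₀) (hst : s ≠ t)
    (x : HP (QG (fun r => r = t) Z) s) : x = i1 _ a₀ (x.2.1 t a₀) := by
  have e := sum_i1 s x
  have h0 : x.1 = 0 := q_zero (U := fun r => r = t) hst _
  have h2 : x.2.2.2 = 0 := q_zero (U := fun r => r = t) hst _
  have hw : x.2.2.1 = 0 := Subsingleton.elim _ _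
  rw [h0, h2, hw, map_zero, map_zero, map_zero, zero_add, add_zero, add_zero] at e
  refine e.symm.trans ?_
  rw [Finset.sum_eq_single t, Finset.sum_eq_single a₀]
  · intro b _ hb
    exact absurd (ha b) hb
  · intro h; exact absurd (Finset.mem_univ _) h
  · intro q _ hq
    apply Finset.sum_eq_zero
    intro b _
    have : x.2.1 q b = 0 := q_zero (U := fun r => r = t) hq _
    rw [this, map_zero]
  · intro h; exact absurd (Finset.mem_univ _) h

theorem w_one (a₀ : G.E s t) (ha : ∀ b : G.E s t, b = a₀) (y : Z.V s) :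
    w (fun r => r = t) Z s y = i1 _ a₀ (qin (fun r => r = t) Z t (i1 Z (G.rev a₀) y)) := by
  rw [w_apply, Finset.sum_eq_single t, Finset.sum_eq_single a₀]
  · intro b _ hb
    exact absurd (ha b) hb
  · intro h; exact absurd (Finset.mem_univ _) h
  · intro q _ hq
    apply Finset.sum_eq_zero
    intro b _
    have : qin (fun r => r = t) Z q (i1 Z (G.rev b) y) = 0 :=
      q_zero (U := fun r => r = t) hq _
    rw [this, map_zero]
  · intro h; exact absurd (Finset.mem_univ _) h

theorem i1_self {s t : T} (b : G.E t s) (x : X.V s) : (i1 X b x).2.1 s b = x := by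
  classical
  change (Pi.single s (Pi.single b x) : ∀ r, G.E t r → X.V r) s b = x
  simp

/-- the map `Q_s Q_t Q_s → Q_s Q_s → Q_s` -/
theorem c2_one (a₀ : G.E s t) (ha : ∀ b : G.E s t, b = a₀) (hst : s ≠ t)
    (x : HP (QG (fun r => r = t) (QG (fun r => r = s) X)) s) :
    hmap (epsG (fun r => r = t) (QG (fun r => r = s) X)) s x =
      i2 _ s ((qev (fun r => r = t) _ t (x.2.1 t a₀)).2.1 s (G.rev a₀)) := by
  rw [HP_one a₀ ha hst x, hmap_i1, c0_eps, c1_eps, ← HP_one a₀ ha hst x]
  have h0 : (qev (fun r => r = t) (QG (fun r => r = s) X) t (x.2.1 t a₀)).1 = 0 :=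
    q_zero (U := fun r => r = s) (fun h => hst h.symm) _
  rw [h0, map_zero, zero_add]

theorem uσ : uG U X ≫ sgG U X = 𝟙 _ := by
  apply hm_ext
  · intro t; apply LinearMap.ext; intro x
    by_cases h : U t
    · simp only [c0_comp, LinearMap.comp_apply, c0_u, c0_sg, qev_qin h, i0_0, c0_id,
        LinearMap.id_apply]
    · rw [q_zero h x, map_zero, map_zero]
  · intro t; apply LinearMap.ext; intro x; exact Subsingleton.elim _ _
  · intro s t a; simp [c1_u, sgG]
  · intro t; simp [ci_u, sgG]
  · intro t; simp [cj_u, sgG]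
  · intro t; simp [c2_u, c1_u, cj_u, sgG]

theorem κσ (hst : s ≠ t) : mG (fun r => r = s) (epsG (fun r => r = t) (QG (fun r => r = s) X)) ≫
    sgG (fun r => r = s) X = 0 := by
  apply hm_ext
  · intro r; apply LinearMap.ext; intro x
    by_cases h : r = s
    · subst h
      simp only [c0_comp, LinearMap.comp_apply, c0_mG, c0_sg, hmap_0]
      rw [qev_qin (U := fun q => q = r) rfl, hmap_0]
      have h0 : (qev (fun q => q = r) _ r x).1 = 0 := q_zero (U := fun r => r = t) hst _
      rw [h0, map_zero]
      rfl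
    · exact q_zero (U := fun q => q = s) h _
  · intro t; apply LinearMap.ext; intro x; exact Subsingleton.elim _ _
  · intro s t a; simp [c1_mG, sgG]
  · intro t; simp [ci_mG, sgG]
  · intro t; simp [cj_mG, sgG]
  · intro t; simp [c2_mG, c1_mG, cj_mG, sgG]

theorem bG (a₀ : G.E s t) (ha : ∀ b : G.E s t, b = a₀) (ha' : ∀ b : G.E t s, b = G.rev a₀)
    (hst : s ≠ t) :
    mG (fun r => r = s) (epsG (fun r => r = t) (QG (fun r => r = s) X)) ≫
      cG (fun r => r = s) X ≫ thG (fun r => r = s) (fun r => r = t) X = 𝟙 _ := by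
  apply hm_ext
  · intro r; apply LinearMap.ext; intro x
    by_cases h : r = s
    · subst h
      simp only [c0_comp, LinearMap.comp_apply, c0_mG, c0_th, c0_c, c0_id, LinearMap.id_apply]
      apply q_ext
      intro _
      rw [qev_qin (U := fun q => q = r) rfl, qev_qin (U := fun q => q = r) rfl,
        c2_one a₀ ha hst, i2_2, w_one a₀ ha]
      have h1 := HP_one a₀ ha hst (qev (fun q => q = r) _ r x)
      have h2 := HP_one (G.rev a₀) ha' (Ne.symm hst)
        (qev (fun q => q = t) _ t ((qev (fun q => q = r) _ r x).2.1 t a₀))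
      refine Eq.trans ?_ h1.symm
      congr 1
      refine Eq.trans ?_ (qin_qev (U := fun q => q = t) _)
      congr 1
      exact h2.symm
    · exact (q_zero (U := fun q => q = s) h _).trans (q_zero (U := fun q => q = s) h _).symm
  · intro t; apply LinearMap.ext; intro x; exact Subsingleton.elim _ _
  · intro s t a; simp [c1_mG, c1_c, thG]
  · intro t; simp [ci_mG, ci_c, thG]
  · intro t; simp [cj_mG, cj_c, thG]
  · intro t; simp [c2_mG, c1_mG, cj_mG, c2_c, c1_c, cj_c, thG]

theorem totG (a₀ : G.E s t) (ha : ∀ b : G.E s t, b = a₀)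
    (hst : s ≠ t) :
    sgG (fun r => r = s) X ≫ uG (fun r => r = s) X +
      cG (fun r => r = s) X ≫ thG (fun r => r = s) (fun r => r = t) X ≫
      mG (fun r => r = s) (epsG (fun r => r = t) (QG (fun r => r = s) X)) = 𝟙 _ := by
  apply hm_ext
  · intro r; apply LinearMap.ext; intro x
    by_cases h : r = s
    · subst h
      simp only [c0_add, LinearMap.add_apply, c0_comp, LinearMap.comp_apply, c0_mG, c0_th, c0_c,
        c0_id, LinearMap.id_apply, c0_sg, c0_u]
      apply q_ext
      intro _
      rw [map_add, qev_qin (U := fun q => q = r) rfl, qev_qin (U := fun q => q = r) rfl,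
        qev_qin (U := fun q => q = r) rfl, c2_one a₀ ha hst, w_one a₀ ha]
      set y := qev (fun q => q = r) _ r x with hy
      have e := sum_i1 r y
      have hw : y.2.2.1 = 0 := Subsingleton.elim _ _
      have h1 : (∑ q, ∑ b : G.E r q, i1 (QG (fun q => q = r) X) b (y.2.1 q b)) = 0 := by
        apply Finset.sum_eq_zero
        intro q _
        apply Finset.sum_eq_zero
        intro b _
        by_cases hq : q = r
        · subst hq; exact (G.irr q).elim b
        · have : y.2.1 q b = 0 := q_zero (U := fun z => z = r) hq _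
          rw [this, map_zero]
      rw [hw, h1, map_zero, add_zero, add_zero] at e
      refine Eq.trans ?_ e
      congr 1
      congr 1
      rw [i1_self, qev_qin (U := fun q => q = t) rfl, i1_self]
    · exact (q_zero (U := fun q => q = s) h _).trans (q_zero (U := fun q => q = s) h _).symm
  · intro t; apply LinearMap.ext; intro x; exact Subsingleton.elim _ _
  · intro s t a; simp [c1_mG, c1_c, thG, sgG, c1_u]
  · intro t; simp [ci_mG, ci_c, thG, sgG, ci_u]
  · intro t; simp [cj_mG, cj_c, thG, sgG, cj_u]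
  · intro t; simp [c2_mG, c1_mG, cj_mG, c2_c, c1_c, cj_c, thG, sgG, c2_u, c1_u, cj_u]

end one

end

end Crest.Agent.R175.TwM_250
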