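import Crest.Agent.R175.TwI_253
import Crest.Agent.R175.TwM_250

/-!
helper250: `Edge` for the concrete twists.
-/

set_option autoImplicit false
set_option linter.unusedSectionVars false

open CategoryTheory

namespace Crest.Agent.R175.TwM_250

open PTA TwG_253

universe v

noncomputable section

variable {T : Type v} {G : MG T} {k : Type v} [Field k] [Fintype T]

theorem sing {s : T} (a b : T) (ha : a = s) (hb : b = s) : IsEmpty (G.E a b) := by
  subst ha hb; exact G.irr _

variable (G k) in
/-- `Q_s` -/
abbrev sph1 (s : T) : TwA_253.Sph (Gob G k) := sphG (fun r => r = s) sing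

/-- the edge data for one edge -/
def edge1 {s t : T} (a₀ : G.E s t) (ha : ∀ b : G.E s t, b = a₀) (hst : s ≠ t) :
    TwD_250.Edge (sph1 G k s) (sph1 G k t) where
  θ X := thG (fun r => r = s) (fun r => r = t) X
  σ X := sgG (fun r => r = s) X
  nat f := by
    dsimp only [sph1, sphG]
    exact th_nat (fun r => r = s) (fun r => r = t) f
  uσ X := by
    dsimp only [sph1, sphG]
    exact uσ (fun r => r = s)
  κσ X := by
    dsimp only [sph1, sphG]
    exact κσ hst
  b X := by
    dsimp only [sph1, sphG]
    exact bG a₀ ha (fun b => by rw [← ha (G.rev b), G.rev_rev]) hst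
  tot X := by
    dsimp only [sph1, sphG]
    exact totG a₀ ha hst

theorem QQ1_zero {s t : T} (hst : s ≠ t) (h : IsEmpty (G.E s t)) (X : Gob G k) :
    𝟙 ((sph1 G k s).Q ((sph1 G k t).Q X)) = 0 := by
  dsimp only [sph1, sphG]
  exact QQ_zero hst h X

end

end Crest.Agent.R175.TwM_250
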