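import Crest.Agent.R175.TwN_250
import Crest.Agent.R175.TwS_83
import Crest.Agent.R175.PTD_450

/-!
helper250: braid and commutation relations for the twists `T (Q_s)` on `Gob G k`, for arbitrary
choices of the sums, and the passage from `Tw` to `TOb`.
-/

set_option autoImplicit false
set_option linter.unusedSectionVars false

open CategoryTheory

namespace Crest.Agent.R175.TwM_250

section abs
open TwA_253 TwS_83 TwD_250 TwB_250
universe v u

variable {C : Type u} [Category.{v} C] [Preadditive C] [BP C]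

/-- braid relation, arbitrary sums -/
theorem braid_any {F G : Sph C} (E : Edge F G) (E' : Edge G F) (X : Tw C)
    (S₁ : Sum2 (F.Q X.X) X.X) (S₂ : Sum2 (G.Q (T F X S₁).X) (T F X S₁).X)
    (S₃ : Sum2 (F.Q (T G (T F X S₁) S₂).X) (T G (T F X S₁) S₂).X)
    (S₁' : Sum2 (G.Q X.X) X.X) (S₂' : Sum2 (F.Q (T G X S₁').X) (T G X S₁').X)
    (S₃' : Sum2 (G.Q (T F (T G X S₁') S₂').X) (T F (T G X S₁') S₂').X) :
    TwA_253.HEq (T F (T G (T F X S₁) S₂) S₃) (T G (T F (T G X S₁') S₂') S₃') := by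
  have h1 : TwA_253.HEq (T F (T G (T F X S₁) S₂) S₃) (Tq F (Tq G (Tq F X))) :=
    (Tm_SI (Tm_SI (Tm_SI (SI.refl X) S₁ (s2 _ _)) S₂ (s2 _ _)) S₃ (s2 _ _)).heq
  have h2 : TwA_253.HEq (T G (T F (T G X S₁') S₂') S₃') (Tq G (Tq F (Tq G X))) :=
    (Tm_SI (Tm_SI (Tm_SI (SI.refl X) S₁' (s2 _ _)) S₂' (s2 _ _)) S₃' (s2 _ _)).heq
  exact h1.trans ((braid E E' X).trans h2.symm)

/-- commutation relation, arbitrary sums -/
theorem comm_any {F G : Sph C} (h : ∀ X, 𝟙 (F.Q (G.Q X)) = 0) (h' : ∀ X, 𝟙 (G.Q (F.Q X)) = 0)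
    (X : Tw C)
    (S₁ : Sum2 (G.Q X.X) X.X) (S₂ : Sum2 (F.Q (T G X S₁).X) (T G X S₁).X)
    (S₁' : Sum2 (F.Q X.X) X.X) (S₂' : Sum2 (G.Q (T F X S₁').X) (T F X S₁').X) :
    TwA_253.HEq (T F (T G X S₁) S₂) (T G (T F X S₁') S₂') := by
  have h1 : TwA_253.HEq (T F (T G X S₁) S₂) (Tq F (Tq G X)) :=
    (Tm_SI (Tm_SI (SI.refl X) S₁ (s2 _ _)) S₂ (s2 _ _)).heq
  have h2 : TwA_253.HEq (T G (T F X S₁') S₂') (Tq G (Tq F X)) :=
    (Tm_SI (Tm_SI (SI.refl X) S₁' (s2 _ _)) S₂' (s2 _ _)).heq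
  exact h1.trans ((comm h h' X).trans h2.symm)

end abs

open PTA TwG_253

universe v

noncomputable section

variable {T : Type v} {G : MG T} {k : Type v} [Field k] [Fintype T]

instance : TwB_250.BP (Gob G k) where
  sm := gsum
  inl := PTA.inl _ _
  inr := PTA.inr _ _
  fst := PTA.fst _ _
  snd := PTA.snd _ _
  inl_fst := PTA.inl_fst _ _
  inr_snd := PTA.inr_snd _ _
  inl_snd := PTA.inl_snd _ _
  inr_fst := PTA.inr_fst _ _
  total := PTA.sum_one _ _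

/-- T-framed objects as differential objects -/
abbrev tw (X : TOb G k) : TwA_253.Tw (Gob G k) where
  X := X.X
  e := gam X.X
  d := X.d
  ee := gam_gam _
  dd := X.dd
  de := X.dg

theorem hiso_of_heq {X Y : TOb G k} (h : TwA_253.HEq (tw X) (tw Y)) : HIso X Y := by
  obtain ⟨f, g, h, h', a, b, c, d, e, e'⟩ := h
  exact ⟨⟨f, g, h, h', a, b, c, d, e, e'⟩⟩

theorem heq_of_hiso {X Y : TOb G k} (h : HIso X Y) : TwA_253.HEq (tw X) (tw Y) := by
  obtain ⟨f, g, h, h', a, b, c, d, e, e'⟩ := h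
  exact ⟨f, g, h, h', a, b, c, d, e, e'⟩

end

end Crest.Agent.R175.TwM_250
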