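import Crest.Agent.R175.PTY_4
import Crest.Agent.R175.TUhT_988
import Crest.Agent.R175.StabF_393

/-!
Row 175 (S0263), helper393: the twist `TU_788.TU` at single vertices satisfies the hypotheses `TwS`
of the stabiliser theorem (over helper4's `exists_td_TU` and helper988's `hT_TU`).
-/

set_option autoImplicit false
set_option linter.unusedSectionVars false

open CategoryTheory Crest.Agent.R175.PTA Crest.Agent.R175.TU_788 Crest.Agent.R175.StabF_393

namespace Crest.Agent.R175.TwSU_393

universe v

variable {T : Type v} {G : MG T} {k : Type v} [Field k] [Fintype T]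

/-- the single vertex twists -/
theorem twS_TU (hU : ∀ v : T, ∀ s t : T, s = v → t = v → IsEmpty (G.E s t)) :
    TwS (fun v X => TU (k := k) (fun r => r = v) (hU v) X) where
  hT v X := TUh_988.hT_TU (fun r => r = v) (hU v) X X
  td v X p hp := by
    obtain ⟨q, hq, h⟩ := PTT_4.exists_td_TU (fun r => r = v) (hU v) hp
    exact ⟨q, hq, h⟩

end Crest.Agent.R175.TwSU_393
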