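import Crest.Agent.R175.DS_450

/-!
# Twisted (differential) objects over a graded k-linear category (row 175, helper450)

`Grd k 𝒜 G`: gradings `Hg X Y a` (`a : G`) on the Hom spaces of a k-linear category `𝒜`,
sign character `χ : G → k`, degree `δ` of the differentials (`χ δ = -1`), sign operator
`bar f = χ a • f` for `f` homogeneous of degree `a`.
`Tw S`: pairs `(X, d)`, `d : X ⟶ X` homogeneous of degree `δ`, `d ≫ d = 0`.
`D f = f ≫ d_Y - d_X ≫ bar f`.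
`Idl S`: graded two-sided ideals `I`; `h I X Y` = total dimension of the homology of
`(I X Y, D)`.
-/

set_option linter.unusedSectionVars false
set_option linter.unusedSimpArgs false

universe v u

namespace Crest.Agent.R175.Tw_450

open CategoryTheory Module LinearMap
open Crest.Agent.R175.DS_450

/-- graded structure on a k-linear category -/
structure Grd (k : Type*) [Field k] (𝒜 : Type u) [Category.{v} 𝒜] [Preadditive 𝒜]
    [Linear k 𝒜] (G : Type*) [AddCommGroup G] where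
  /-- homogeneous maps -/
  Hg : ∀ X Y : 𝒜, G → Submodule k (X ⟶ Y)
  id_mem : ∀ X, 𝟙 X ∈ Hg X X 0
  comp_mem : ∀ {X Y Z : 𝒜} {a b : G} {f : X ⟶ Y} {g : Y ⟶ Z},
    f ∈ Hg X Y a → g ∈ Hg Y Z b → f ≫ g ∈ Hg X Z (a + b)
  /-- every map is a sum of homogeneous ones -/
  top : ∀ X Y : 𝒜, ⨆ a, Hg X Y a = ⊤
  indep : ∀ X Y : 𝒜, iSupIndep (Hg X Y)
  /-- the sign character -/
  χ : G → k
  χ_add : ∀ a b, χ (a + b) = χ a * χ b
  χ_sq : ∀ a, χ a * χ a = 1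
  /-- degree of the differentials -/
  δ : G
  χ_δ : χ δ = -1
  /-- the sign operator -/
  bar : ∀ {X Y : 𝒜}, (X ⟶ Y) →ₗ[k] (X ⟶ Y)
  bar_of_mem : ∀ {X Y : 𝒜} {a : G} {f : X ⟶ Y}, f ∈ Hg X Y a → bar f = χ a • f

variable {k : Type*} [Field k] {𝒜 : Type u} [Category.{v} 𝒜] [Preadditive 𝒜]
  [Linear k 𝒜] {G : Type*} [AddCommGroup G]

namespace Grd

variable (S : Grd k 𝒜 G)

theorem χ_ne (a : G) : S.χ a ≠ 0 := by
  intro h
  have := S.χ_sq a
  rw [h, zero_mul] at this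
  exact zero_ne_one this

theorem χ_zero : S.χ 0 = 1 := by
  have h := S.χ_add 0 0
  rw [add_zero, S.χ_sq] at h
  exact h

theorem χ_neg (a : G) : S.χ (-a) = S.χ a := by
  have h := S.χ_add a (-a)
  rw [add_neg_cancel, S.χ_zero] at h
  have h2 := S.χ_sq a
  have h3 : S.χ a * (S.χ a * S.χ (-a)) = S.χ a := by rw [← h, mul_one]
  rw [← mul_assoc, h2, one_mul] at h3
  exact h3

/-- induction on homogeneous elements -/
theorem ind {X Y : 𝒜} {P : (X ⟶ Y) → Prop} (f : X ⟶ Y)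
    (hg : ∀ a, ∀ g ∈ S.Hg X Y a, P g) (h0 : P 0)
    (hadd : ∀ f g, P f → P g → P (f + g)) : P f := by
  have hf : f ∈ ⨆ a, S.Hg X Y a := by rw [S.top]; trivial
  exact Submodule.iSup_induction _ (motive := P) hf hg h0 hadd

theorem bar_bar {X Y : 𝒜} (f : X ⟶ Y) : S.bar (S.bar f) = f := by
  apply S.ind f
  · intro a g hg
    rw [S.bar_of_mem hg, map_smul, S.bar_of_mem hg, smul_smul, S.χ_sq, one_smul]
  · rw [map_zero, map_zero]
  · intro f g hf hg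
    rw [map_add, map_add, hf, hg]

theorem bar_comp {X Y Z : 𝒜} (f : X ⟶ Y) (g : Y ⟶ Z) :
    S.bar (f ≫ g) = S.bar f ≫ S.bar g := by
  apply S.ind (P := fun f => S.bar (f ≫ g) = S.bar f ≫ S.bar g) f
  · intro a f hf
    apply S.ind (P := fun g => S.bar (f ≫ g) = S.bar f ≫ S.bar g) g
    · intro b g hg
      rw [S.bar_of_mem hg, S.bar_of_mem hf, S.bar_of_mem (S.comp_mem hf hg),
        S.χ_add, Linear.smul_comp, Linear.comp_smul, smul_smul]
    · simp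
    · intro g g' h h'
      rw [Preadditive.comp_add, map_add, map_add, h, h', Preadditive.comp_add]
  · simp
  · intro f f' h h'
    rw [Preadditive.add_comp, map_add, map_add, h, h', Preadditive.add_comp]

theorem bar_zero_mem {X Y : 𝒜} {f : X ⟶ Y} (h : f ∈ S.Hg X Y 0) : S.bar f = f := by
  rw [S.bar_of_mem h, S.χ_zero, one_smul]

@[simp] theorem bar_id (X : 𝒜) : S.bar (𝟙 X) = 𝟙 X := S.bar_zero_mem (S.id_mem X)

theorem bar_mem {X Y : 𝒜} {a : G} {f : X ⟶ Y} (h : f ∈ S.Hg X Y a) :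
    S.bar f ∈ S.Hg X Y a := by
  rw [S.bar_of_mem h]; exact Submodule.smul_mem _ _ h

theorem bar_δ {X Y : 𝒜} {f : X ⟶ Y} (h : f ∈ S.Hg X Y S.δ) : S.bar f = -f := by
  rw [S.bar_of_mem h, S.χ_δ, neg_one_smul]

theorem bar_nδ {X Y : 𝒜} {f : X ⟶ Y} (h : f ∈ S.Hg X Y (-S.δ)) : S.bar f = -f := by
  rw [S.bar_of_mem h, S.χ_neg, S.χ_δ, neg_one_smul]

theorem cast_mem {X Y : 𝒜} {a b : G} {f : X ⟶ Y} (h : f ∈ S.Hg X Y a) (e : a = b) :
    f ∈ S.Hg X Y b := e ▸ h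

end Grd

/-- twisted objects -/
structure Tw (S : Grd k 𝒜 G) where
  /-- the underlying object -/
  X : 𝒜
  /-- the differential -/
  d : X ⟶ X
  dmem : d ∈ S.Hg X X S.δ
  dd : d ≫ d = 0

variable {S : Grd k 𝒜 G}

namespace Tw

@[simp] theorem dd' (X : Tw S) : X.d ≫ X.d = 0 := X.dd

@[simp] theorem dd'_assoc (X : Tw S) {Z : 𝒜} (h : X.X ⟶ Z) : X.d ≫ X.d ≫ h = 0 := by
  rw [← Category.assoc, X.dd, Limits.zero_comp]

theorem bar_d (X : Tw S) : S.bar X.d = -X.d := S.bar_δ X.dmem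

/-- the differential of the Hom complex -/
noncomputable def D (X Y : Tw S) : (X.X ⟶ Y.X) →ₗ[k] (X.X ⟶ Y.X) :=
  Linear.rightComp k X.X Y.d - (Linear.leftComp k Y.X X.d) ∘ₗ S.bar

theorem D_apply (X Y : Tw S) (f : X.X ⟶ Y.X) : D X Y f = f ≫ Y.d - X.d ≫ S.bar f := rfl

theorem bar_D (X Y : Tw S) (f : X.X ⟶ Y.X) : S.bar (D X Y f) = -D X Y (S.bar f) := by
  rw [D_apply, D_apply, map_sub, S.bar_comp, S.bar_comp, bar_d, bar_d, S.bar_bar,
    Preadditive.comp_neg, Preadditive.neg_comp]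
  abel

theorem D_bar (X Y : Tw S) (f : X.X ⟶ Y.X) : D X Y (S.bar f) = -S.bar (D X Y f) := by
  rw [bar_D, neg_neg]

theorem D_D (X Y : Tw S) (f : X.X ⟶ Y.X) : D X Y (D X Y f) = 0 := by
  rw [D_apply X Y (D X Y f), bar_D, D_apply, D_apply, S.bar_bar]
  simp only [Preadditive.sub_comp, Preadditive.comp_sub, Preadditive.comp_neg,
    Category.assoc, dd', dd'_assoc, Limits.comp_zero]
  abel

theorem D_comp_D (X Y : Tw S) : D X Y ∘ₗ D X Y = 0 := LinearMap.ext (D_D X Y)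

/-- Leibniz rule -/
theorem D_comp (X Y Z : Tw S) (f : X.X ⟶ Y.X) (g : Y.X ⟶ Z.X) :
    D X Z (f ≫ g) = f ≫ D Y Z g + D X Y f ≫ S.bar g := by
  rw [D_apply, D_apply, D_apply, S.bar_comp]
  simp only [Preadditive.sub_comp, Preadditive.comp_sub, Category.assoc]
  abel

@[simp] theorem D_id (X : Tw S) : D X X (𝟙 X.X) = 0 := by
  rw [D_apply, S.bar_id, Category.id_comp, Category.comp_id, sub_self]

theorem D_mem {X Y : Tw S} {a : G} {f : X.X ⟶ Y.X} (h : f ∈ S.Hg X.X Y.X a) :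
    D X Y f ∈ S.Hg X.X Y.X (a + S.δ) := by
  rw [D_apply]
  apply Submodule.sub_mem
  · exact S.comp_mem h Y.dmem
  · exact S.cast_mem (S.comp_mem X.dmem (S.bar_mem h)) (add_comm _ _)

/-- Leibniz for closed left factor -/
theorem D_comp_left {X Y Z : Tw S} {f : X.X ⟶ Y.X} (hf : D X Y f = 0) (g : Y.X ⟶ Z.X) :
    D X Z (f ≫ g) = f ≫ D Y Z g := by
  rw [D_comp, hf, Limits.zero_comp, add_zero]

/-- Leibniz for closed homogeneous right factor -/
theorem D_comp_right {X Y Z : Tw S} (f : X.X ⟶ Y.X) {g : Y.X ⟶ Z.X} {b : G}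
    (hb : g ∈ S.Hg Y.X Z.X b) (hg : D Y Z g = 0) :
    D X Z (f ≫ g) = S.χ b • (D X Y f ≫ g) := by
  rw [D_comp, hg, Limits.comp_zero, zero_add, S.bar_of_mem hb, Linear.comp_smul]

end Tw

/-- graded two-sided ideals -/
structure Idl (S : Grd k 𝒜 G) where
  /-- the subspaces -/
  I : ∀ X Y : 𝒜, Submodule k (X ⟶ Y)
  comp_right : ∀ {X Y Z : 𝒜} {f : X ⟶ Y} (g : Y ⟶ Z), f ∈ I X Y → f ≫ g ∈ I X Z
  comp_left : ∀ {X Y Z : 𝒜} (f : X ⟶ Y) {g : Y ⟶ Z}, g ∈ I Y Z → f ≫ g ∈ I X Z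
  graded : ∀ {X Y : 𝒜} {f : X ⟶ Y}, f ∈ I X Y → f ∈ ⨆ a, (S.Hg X Y a ⊓ I X Y)

namespace Idl

/-- the unit ideal -/
def full (S : Grd k 𝒜 G) : Idl S where
  I _ _ := ⊤
  comp_right _ _ := trivial
  comp_left _ _ _ := trivial
  graded {X Y f} _ := by
    have : f ∈ ⨆ a, S.Hg X Y a := by rw [S.top]; trivial
    simpa using this

variable (J : Idl S)

theorem bar_mem {X Y : 𝒜} {f : X ⟶ Y} (h : f ∈ J.I X Y) : S.bar f ∈ J.I X Y := by
  have := J.graded h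
  refine Submodule.iSup_induction _ (motive := fun f => S.bar f ∈ J.I X Y) this ?_ ?_ ?_
  · intro a f hf
    rw [S.bar_of_mem hf.1]
    exact Submodule.smul_mem _ _ hf.2
  · rw [map_zero]; exact Submodule.zero_mem _
  · intro f g hf hg
    rw [map_add]; exact Submodule.add_mem _ hf hg

theorem D_mem {X Y : Tw S} {f : X.X ⟶ Y.X} (h : f ∈ J.I X.X Y.X) :
    Tw.D X Y f ∈ J.I X.X Y.X := by
  rw [Tw.D_apply]
  exact Submodule.sub_mem _ (J.comp_right _ h) (J.comp_left _ (J.bar_mem h))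

/-- the differential restricted to the ideal -/
noncomputable def Dr (X Y : Tw S) : J.I X.X Y.X →ₗ[k] J.I X.X Y.X :=
  (Tw.D X Y).restrict (fun _ h => J.D_mem h)

@[simp] theorem Dr_coe (X Y : Tw S) (f : J.I X.X Y.X) :
    (J.Dr X Y f : X.X ⟶ Y.X) = Tw.D X Y f := rfl

theorem Dr_Dr (X Y : Tw S) : J.Dr X Y ∘ₗ J.Dr X Y = 0 := by
  apply LinearMap.ext
  intro f
  apply Subtype.ext
  exact Tw.D_D X Y f

/-- total dimension of the homology of the Hom complex (ideal `J`) -/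
noncomputable def h (X Y : Tw S) : ℕ := hd (J.Dr X Y)

end Idl

/-- homotopy equivalence, homogeneous of degree `a` -/
structure HE (a : G) (X Y : Tw S) where
  /-- map -/
  f : X.X ⟶ Y.X
  /-- inverse up to homotopy -/
  g : Y.X ⟶ X.X
  hf : f ∈ S.Hg X.X Y.X a
  hg : g ∈ S.Hg Y.X X.X (-a)
  Df : Tw.D X Y f = 0
  Dg : Tw.D Y X g = 0
  /-- homotopy -/
  s : X.X ⟶ X.X
  /-- homotopy -/
  t : Y.X ⟶ Y.X
  fg : f ≫ g + Tw.D X X s = 𝟙 X.X
  gf : g ≫ f + Tw.D Y Y t = 𝟙 Y.X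

namespace HE

/-- identity -/
def refl (X : Tw S) : HE 0 X X where
  f := 𝟙 _
  g := 𝟙 _
  hf := S.id_mem _
  hg := by rw [neg_zero]; exact S.id_mem _
  Df := Tw.D_id X
  Dg := Tw.D_id X
  s := 0
  t := 0
  fg := by simp
  gf := by simp

/-- inverse -/
def symm {a : G} {X Y : Tw S} (e : HE a X Y) : HE (-a) Y X where
  f := e.g
  g := e.f
  hf := e.hg
  hg := by rw [neg_neg]; exact e.hf
  Df := e.Dg
  Dg := e.Df
  s := e.t
  t := e.s
  fg := e.gf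
  gf := e.fg

/-- composition -/
noncomputable def trans {a b : G} {X Y Z : Tw S} (e : HE a X Y) (e' : HE b Y Z) :
    HE (a + b) X Z where
  f := e.f ≫ e'.f
  g := e'.g ≫ e.g
  hf := S.comp_mem e.hf e'.hf
  hg := S.cast_mem (S.comp_mem e'.hg e.hg) (by abel)
  Df := by rw [Tw.D_comp_left e.Df, e'.Df, Limits.comp_zero]
  Dg := by rw [Tw.D_comp_left e'.Dg, e.Dg, Limits.comp_zero]
  s := e.s + S.χ (-a) • (e.f ≫ e'.s ≫ e.g)
  t := e'.t + S.χ b • (e'.g ≫ e.t ≫ e'.f)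
  fg := by
    rw [map_add, map_smul, Tw.D_comp_left e.Df, Tw.D_comp_right _ e.hg e.Dg,
      Linear.comp_smul, smul_smul, S.χ_sq, one_smul]
    have h1 : Tw.D Y Y e'.s = 𝟙 _ - e'.f ≫ e'.g := by rw [← e'.fg]; abel
    have h2 : Tw.D X X e.s = 𝟙 _ - e.f ≫ e.g := by rw [← e.fg]; abel
    rw [h1, h2]
    simp only [Preadditive.sub_comp, Preadditive.comp_sub, Category.assoc, Category.id_comp]
    abel
  gf := by
    rw [map_add, map_smul, Tw.D_comp_left e'.Dg, Tw.D_comp_right _ e'.hf e'.Df,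
      Linear.comp_smul, smul_smul, S.χ_sq, one_smul]
    have h1 : Tw.D Z Z e'.t = 𝟙 _ - e'.g ≫ e'.f := by rw [← e'.gf]; abel
    have h2 : Tw.D Y Y e.t = 𝟙 _ - e.g ≫ e.f := by rw [← e.gf]; abel
    rw [h1, h2]
    simp only [Preadditive.sub_comp, Preadditive.comp_sub, Category.assoc, Category.id_comp]
    abel

variable [∀ X Y : 𝒜, FiniteDimensional k (X ⟶ Y)] (J : Idl S)

theorem h_left_le {a : G} {X Y : Tw S} (e : HE a X Y) (Z : Tw S) : J.h X Z ≤ J.h Y Z := by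
  unfold Idl.h
  let F : J.I X.X Z.X →ₗ[k] J.I Y.X Z.X :=
    (Linear.leftComp k Z.X e.g).restrict (fun _ h => J.comp_left _ h)
  have hF : ∀ x, (F x : Y.X ⟶ Z.X) = e.g ≫ (x : X.X ⟶ Z.X) := fun x => rfl
  refine hd_le_of_inj (J.Dr_Dr X Z) (J.Dr_Dr Y Z) F ?_ ?_
  · intro x hx
    have hx' : Tw.D X Z x = 0 := congrArg Subtype.val hx
    apply Subtype.ext
    rw [J.Dr_coe, hF, Tw.D_comp_left e.Dg, hx', Limits.comp_zero]; rfl
  · intro x y hx hxy
    have hx' : Tw.D X Z x = 0 := congrArg Subtype.val hx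
    have hxy' : e.g ≫ (x : X.X ⟶ Z.X) = Tw.D Y Z y := congrArg Subtype.val hxy
    have hbx : Tw.D X Z (S.bar x) = 0 := by rw [Tw.D_bar, hx', map_zero, neg_zero]
    refine ⟨⟨e.f ≫ (y : Y.X ⟶ Z.X) + e.s ≫ S.bar x,
      Submodule.add_mem _ (J.comp_left _ y.2) (J.comp_left _ (J.bar_mem x.2))⟩, ?_⟩
    apply Subtype.ext
    rw [J.Dr_coe]
    change (x : X.X ⟶ Z.X) = Tw.D X Z (e.f ≫ (y : Y.X ⟶ Z.X) + e.s ≫ S.bar x)
    rw [map_add, Tw.D_comp_left e.Df, Tw.D_comp, hbx, Limits.comp_zero, zero_add,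
      S.bar_bar, ← hxy']
    have h1 := e.fg
    calc (x : X.X ⟶ Z.X) = 𝟙 _ ≫ (x : X.X ⟶ Z.X) := (Category.id_comp _).symm
      _ = (e.f ≫ e.g + Tw.D X X e.s) ≫ (x : X.X ⟶ Z.X) := by rw [h1]
      _ = _ := by rw [Preadditive.add_comp, Category.assoc]

theorem h_left {a : G} {X Y : Tw S} (e : HE a X Y) (Z : Tw S) : J.h X Z = J.h Y Z :=
  le_antisymm (e.h_left_le J Z) (e.symm.h_left_le J Z)

theorem h_right_le {a : G} {X Y : Tw S} (e : HE a X Y) (Z : Tw S) :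
    J.h Z X ≤ J.h Z Y := by
  unfold Idl.h
  let F : J.I Z.X X.X →ₗ[k] J.I Z.X Y.X :=
    (Linear.rightComp k Z.X e.f).restrict (fun _ h => J.comp_right _ h)
  have hF : ∀ x, (F x : Z.X ⟶ Y.X) = (x : Z.X ⟶ X.X) ≫ e.f := fun x => rfl
  refine hd_le_of_inj (J.Dr_Dr Z X) (J.Dr_Dr Z Y) F ?_ ?_
  · intro x hx
    have hx' : Tw.D Z X x = 0 := congrArg Subtype.val hx
    apply Subtype.ext
    rw [J.Dr_coe, hF, Tw.D_comp_right _ e.hf e.Df, hx', Limits.zero_comp, smul_zero]; rfl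
  · intro x y hx hxy
    have hx' : Tw.D Z X x = 0 := congrArg Subtype.val hx
    have hxy' : (x : Z.X ⟶ X.X) ≫ e.f = Tw.D Z Y y := congrArg Subtype.val hxy
    refine ⟨⟨S.χ (-a) • ((y : Z.X ⟶ Y.X) ≫ e.g) + (x : Z.X ⟶ X.X) ≫ e.s,
      Submodule.add_mem _ (Submodule.smul_mem _ _ (J.comp_right _ y.2))
        (J.comp_right _ x.2)⟩, ?_⟩
    apply Subtype.ext
    rw [J.Dr_coe]
    change (x : Z.X ⟶ X.X) = Tw.D Z X (S.χ (-a) • ((y : Z.X ⟶ Y.X) ≫ e.g) +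
      (x : Z.X ⟶ X.X) ≫ e.s)
    rw [map_add, map_smul, Tw.D_comp_right _ e.hg e.Dg, smul_smul, S.χ_sq, one_smul,
      Tw.D_comp_left hx', ← hxy']
    have h1 := e.fg
    calc (x : Z.X ⟶ X.X) = (x : Z.X ⟶ X.X) ≫ 𝟙 _ := (Category.comp_id _).symm
      _ = (x : Z.X ⟶ X.X) ≫ (e.f ≫ e.g + Tw.D X X e.s) := by rw [h1]
      _ = _ := by rw [Preadditive.comp_add, Category.assoc]

theorem h_right {a : G} {X Y : Tw S} (e : HE a X Y) (Z : Tw S) : J.h Z X = J.h Z Y :=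
  le_antisymm (e.h_right_le J Z) (e.symm.h_right_le J Z)

end HE

/-- object level Gaussian elimination / perturbation lemma:
`s` of degree `-δ`, `s s = 0`, `s d s = s`, a retract `r₀ : C ⟶ X`, `q₀ : X ⟶ C` with
`r₀ q₀ = 1`, `r₀ s = 0`, `s q₀ = 0` and `q₀ r₀ + s a + b s = 1`. -/
structure ElimData (X : Tw S) where
  /-- the new object -/
  C : 𝒜
  /-- inclusion -/
  r : C ⟶ X.X
  /-- projection -/
  q : X.X ⟶ C
  /-- contraction -/
  s : X.X ⟶ X.X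
  /-- auxiliary -/
  a : X.X ⟶ X.X
  /-- auxiliary -/
  b : X.X ⟶ X.X
  hr : r ∈ S.Hg C X.X 0
  hq : q ∈ S.Hg X.X C 0
  hs : s ∈ S.Hg X.X X.X (-S.δ)
  rq : r ≫ q = 𝟙 C
  rs : r ≫ s = 0
  sq : s ≫ q = 0
  ss : s ≫ s = 0
  sds : s ≫ X.d ≫ s = s
  one : q ≫ r + s ≫ a + b ≫ s = 𝟙 X.X

namespace ElimData

variable {X : Tw S} (E : ElimData X)

/-- modified inclusion `r (1 - d s)` -/
def R : E.C ⟶ X.X := E.r - E.r ≫ X.d ≫ E.s

/-- modified projection `(1 - s d) q` -/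
def Q : X.X ⟶ E.C := E.q - E.s ≫ X.d ≫ E.q

theorem assoc_ss {Z : 𝒜} (g : X.X ⟶ Z) : E.s ≫ E.s ≫ g = 0 := by
  rw [← Category.assoc, E.ss, Limits.zero_comp]

theorem assoc_rs {Z : 𝒜} (g : X.X ⟶ Z) : E.r ≫ E.s ≫ g = 0 := by
  rw [← Category.assoc, E.rs, Limits.zero_comp]

theorem assoc_sq {Z : 𝒜} (g : E.C ⟶ Z) : E.s ≫ E.q ≫ g = 0 := by
  rw [← Category.assoc, E.sq, Limits.zero_comp]

theorem assoc_rq {Z : 𝒜} (g : E.C ⟶ Z) : E.r ≫ E.q ≫ g = g := by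
  rw [← Category.assoc, E.rq, Category.id_comp]

theorem assoc_sds {Z : 𝒜} (g : X.X ⟶ Z) : E.s ≫ X.d ≫ E.s ≫ g = E.s ≫ g := by
  have := E.sds
  calc E.s ≫ X.d ≫ E.s ≫ g = (E.s ≫ X.d ≫ E.s) ≫ g := by simp only [Category.assoc]
    _ = _ := by rw [this]

theorem R_Q : E.R ≫ E.Q = 𝟙 E.C := by
  unfold R Q
  simp only [Preadditive.sub_comp, Preadditive.comp_sub, Category.assoc, E.rq, E.rs, E.sq,
    E.assoc_rs, E.assoc_sq, E.assoc_ss, Limits.comp_zero, sub_zero]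

theorem Q_R : E.Q ≫ E.R = 𝟙 X.X - E.s ≫ X.d - X.d ≫ E.s := by
  have e1 : (𝟙 X.X - E.s ≫ X.d) ≫ E.s = 0 := by
    rw [Preadditive.sub_comp, Category.assoc, E.sds, Category.id_comp, sub_self]
  have e2 : E.s ≫ (𝟙 X.X - X.d ≫ E.s) = 0 := by
    rw [Preadditive.comp_sub, E.sds, Category.comp_id, sub_self]
  have e3 : E.Q = (𝟙 X.X - E.s ≫ X.d) ≫ E.q := by
    unfold Q; rw [Preadditive.sub_comp, Category.id_comp, Category.assoc]
  have e4 : E.R = E.r ≫ (𝟙 X.X - X.d ≫ E.s) := by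
    unfold R; rw [Preadditive.comp_sub, Category.comp_id]
  have e5 : E.q ≫ E.r = 𝟙 X.X - E.s ≫ E.a - E.b ≫ E.s := by
    rw [← E.one]; abel
  have e6 : (𝟙 X.X - E.s ≫ X.d) ≫ (𝟙 X.X - X.d ≫ E.s) =
      𝟙 X.X - E.s ≫ X.d - X.d ≫ E.s := by
    rw [Preadditive.sub_comp, Category.id_comp, Preadditive.comp_sub, Category.comp_id,
      Category.assoc, Tw.dd'_assoc, Limits.comp_zero, sub_zero]
    abel
  rw [← e6]
  generalize 𝟙 X.X - E.s ≫ X.d = U at *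
  generalize 𝟙 X.X - X.d ≫ E.s = V at *
  calc E.Q ≫ E.R = U ≫ (E.q ≫ E.r) ≫ V := by
        rw [e3, e4]; simp only [Category.assoc]
    _ = U ≫ V - (U ≫ E.s) ≫ E.a ≫ V - U ≫ E.b ≫ (E.s ≫ V) := by
        rw [e5]
        simp only [Preadditive.sub_comp, Preadditive.comp_sub, Category.assoc,
          Category.id_comp]
    _ = _ := by
        rw [e1, e2, Limits.zero_comp, Limits.comp_zero, Limits.comp_zero, sub_zero, sub_zero]

/-- the new differential -/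
def dC : E.C ⟶ E.C := E.r ≫ (X.d - X.d ≫ E.s ≫ X.d) ≫ E.q

theorem R_d : E.R ≫ X.d = E.dC ≫ E.R := by
  have h1 : E.R ≫ X.d ≫ E.Q ≫ E.R = E.R ≫ X.d := by
    rw [E.Q_R]
    unfold R
    simp only [Preadditive.sub_comp, Preadditive.comp_sub, Category.assoc,
      Category.comp_id, Tw.dd'_assoc, E.rs, E.assoc_rs, E.assoc_ss, E.assoc_sds, E.sds,
      Limits.comp_zero, sub_zero]
    abel
  have h2 : E.R ≫ X.d ≫ E.Q = E.dC := by
    unfold R Q dC
    simp only [Preadditive.sub_comp, Preadditive.comp_sub, Category.assoc, E.assoc_sds,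
      Tw.dd'_assoc, Limits.comp_zero, sub_zero]
    abel
  rw [← h1, ← h2]
  simp only [Category.assoc]

theorem R_d_Q : E.R ≫ X.d ≫ E.Q = E.dC := by
  rw [← Category.assoc, R_d, Category.assoc, R_Q, Category.comp_id]

theorem d_Q : X.d ≫ E.Q = E.Q ≫ E.dC := by
  have h1 : E.Q ≫ E.R ≫ X.d ≫ E.Q = X.d ≫ E.Q := by
    rw [← Category.assoc, E.Q_R]
    unfold Q
    simp only [Preadditive.sub_comp, Preadditive.comp_sub, Category.assoc,
      Category.id_comp, Tw.dd'_assoc, E.sq, E.assoc_sq, E.assoc_ss, E.assoc_sds, E.sds,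
      Limits.comp_zero, sub_zero]
    abel
  rw [← h1, R_d_Q]

theorem s_mem : E.s ∈ S.Hg X.X X.X (-S.δ) := E.hs

theorem R_mem : E.R ∈ S.Hg E.C X.X 0 := by
  unfold R
  refine Submodule.sub_mem _ E.hr ?_
  exact S.cast_mem (S.comp_mem E.hr (S.comp_mem X.dmem E.hs)) (by abel)

theorem Q_mem : E.Q ∈ S.Hg X.X E.C 0 := by
  unfold Q
  refine Submodule.sub_mem _ E.hq ?_
  exact S.cast_mem (S.comp_mem E.hs (S.comp_mem X.dmem E.hq)) (by abel)

theorem dC_mem : E.dC ∈ S.Hg E.C E.C S.δ := by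
  rw [← R_d_Q]
  exact S.cast_mem (S.comp_mem E.R_mem (S.comp_mem X.dmem E.Q_mem)) (by abel)

/-- the eliminated object -/
@[reducible] def tw : Tw S where
  X := E.C
  d := E.dC
  dmem := E.dC_mem
  dd := by
    have h : E.R ≫ X.d ≫ X.d = 0 := by rw [X.dd, Limits.comp_zero]
    have h2 : E.dC ≫ E.dC ≫ E.R = 0 := by
      rw [← R_d, ← Category.assoc, ← R_d, Category.assoc, h]
    calc E.dC ≫ E.dC = (E.dC ≫ E.dC ≫ E.R) ≫ E.Q := by
          simp only [Category.assoc, E.R_Q, Category.comp_id]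
      _ = 0 := by rw [h2, Limits.zero_comp]

theorem D_R : Tw.D E.tw X E.R = 0 := by
  rw [Tw.D_apply, S.bar_zero_mem E.R_mem]
  change E.R ≫ X.d - E.dC ≫ E.R = 0
  rw [R_d, sub_self]

theorem D_Q : Tw.D X E.tw E.Q = 0 := by
  rw [Tw.D_apply, S.bar_zero_mem E.Q_mem]
  change E.Q ≫ E.dC - X.d ≫ E.Q = 0
  rw [d_Q, sub_self]

/-- the homotopy equivalence -/
def he : HE 0 X E.tw where
  f := E.Q
  g := E.R
  hf := E.Q_mem
  hg := by rw [neg_zero]; exact E.R_mem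
  Df := E.D_Q
  Dg := E.D_R
  s := E.s
  t := 0
  fg := by
    rw [E.Q_R, Tw.D_apply, S.bar_nδ E.hs, Preadditive.comp_neg]
    abel
  gf := by rw [map_zero, add_zero]; exact E.R_Q

end ElimData

/-- `Y → Z → X`: extension of twisted objects, split in `𝒜` -/
structure Ext (Y Z X : Tw S) (b a : G) where
  /-- inclusion -/
  i : Y.X ⟶ Z.X
  /-- projection -/
  p : Z.X ⟶ X.X
  /-- retraction of `i` -/
  r : Z.X ⟶ Y.X
  /-- section of `p` -/
  σ : X.X ⟶ Z.X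
  hi : i ∈ S.Hg Y.X Z.X b
  hp : p ∈ S.Hg Z.X X.X a
  hr : r ∈ S.Hg Z.X Y.X (-b)
  hσ : σ ∈ S.Hg X.X Z.X (-a)
  Di : Tw.D Y Z i = 0
  Dp : Tw.D Z X p = 0
  ir : i ≫ r = 𝟙 Y.X
  σp : σ ≫ p = 𝟙 X.X
  ip : i ≫ p = 0
  σr : σ ≫ r = 0
  one : r ≫ i + p ≫ σ = 𝟙 Z.X

namespace Ext

variable {Y Z X : Tw S} {b a : G} (E : Ext Y Z X b a)

/-- connecting map `X → Y` -/
def g : X.X ⟶ Y.X := E.σ ≫ Z.d ≫ E.r

theorem g_mem : E.g ∈ S.Hg X.X Y.X (S.δ - a - b) :=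
  S.cast_mem (S.comp_mem E.hσ (S.comp_mem Z.dmem E.hr)) (by abel)

theorem i_d : E.i ≫ Z.d = S.χ b • (Y.d ≫ E.i) := by
  have := E.Di
  rw [Tw.D_apply, S.bar_of_mem E.hi, Linear.comp_smul, sub_eq_zero] at this
  exact this

theorem d_p : Z.d ≫ E.p = S.χ a • (E.p ≫ X.d) := by
  have := E.Dp
  rw [Tw.D_apply, S.bar_of_mem E.hp, Linear.comp_smul, sub_eq_zero] at this
  rw [this, smul_smul, S.χ_sq, one_smul]

/-- `σ d = ± d σ + g i` -/
theorem σ_d : E.σ ≫ Z.d = S.χ a • (X.d ≫ E.σ) + E.g ≫ E.i := by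
  have h1 : E.σ ≫ Z.d = E.σ ≫ Z.d ≫ (E.r ≫ E.i + E.p ≫ E.σ) := by
    rw [E.one, Category.comp_id]
  rw [h1, Preadditive.comp_add, Preadditive.comp_add]
  have h2 : E.σ ≫ Z.d ≫ E.p ≫ E.σ = S.χ a • (X.d ≫ E.σ) := by
    calc E.σ ≫ Z.d ≫ E.p ≫ E.σ = E.σ ≫ (Z.d ≫ E.p) ≫ E.σ := by
          simp only [Category.assoc]
      _ = _ := by
          rw [E.d_p, Linear.smul_comp, Linear.comp_smul, Category.assoc,
            ← Category.assoc E.σ, E.σp, Category.id_comp]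
  rw [h2]
  unfold g
  simp only [Category.assoc]
  abel

variable [∀ X Y : 𝒜, FiniteDimensional k (X ⟶ Y)] (J : Idl S)

include E in
theorem dim_right (W : 𝒜) : finrank k (J.I W Z.X) =
    finrank k (J.I W Y.X) + finrank k (J.I W X.X) := by
  rw [← Module.finrank_prod]
  refine LinearEquiv.finrank_eq
    { toFun := fun f => (⟨f.1 ≫ E.r, J.comp_right _ f.2⟩, ⟨f.1 ≫ E.p, J.comp_right _ f.2⟩)
      map_add' := ?_
      map_smul' := ?_
      invFun := fun f => ⟨f.1.1 ≫ E.i + f.2.1 ≫ E.σ,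
        Submodule.add_mem _ (J.comp_right _ f.1.2) (J.comp_right _ f.2.2)⟩
      left_inv := ?_
      right_inv := ?_ }
  · intro f g
    refine Prod.ext (Subtype.ext ?_) (Subtype.ext ?_) <;> exact Preadditive.add_comp ..
  · intro c f
    refine Prod.ext (Subtype.ext ?_) (Subtype.ext ?_) <;> exact Linear.smul_comp ..
  · intro f
    apply Subtype.ext
    change (f.1 ≫ E.r) ≫ E.i + (f.1 ≫ E.p) ≫ E.σ = f.1
    rw [Category.assoc, Category.assoc, ← Preadditive.comp_add, E.one, Category.comp_id]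
  · rintro ⟨f, g⟩
    refine Prod.ext (Subtype.ext ?_) (Subtype.ext ?_)
    · change (f.1 ≫ E.i + g.1 ≫ E.σ) ≫ E.r = f.1
      rw [Preadditive.add_comp, Category.assoc, Category.assoc, E.ir, E.σr, Category.comp_id,
        Limits.comp_zero, add_zero]
    · change (f.1 ≫ E.i + g.1 ≫ E.σ) ≫ E.p = g.1
      rw [Preadditive.add_comp, Category.assoc, Category.assoc, E.ip, E.σp, Category.comp_id,
        Limits.comp_zero, zero_add]

include E in
theorem dim_left (W : 𝒜) : finrank k (J.I Z.X W) =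
    finrank k (J.I Y.X W) + finrank k (J.I X.X W) := by
  rw [← Module.finrank_prod]
  refine LinearEquiv.finrank_eq
    { toFun := fun f => (⟨E.i ≫ f.1, J.comp_left _ f.2⟩, ⟨E.σ ≫ f.1, J.comp_left _ f.2⟩)
      map_add' := ?_
      map_smul' := ?_
      invFun := fun f => ⟨E.r ≫ f.1.1 + E.p ≫ f.2.1,
        Submodule.add_mem _ (J.comp_left _ f.1.2) (J.comp_left _ f.2.2)⟩
      left_inv := ?_
      right_inv := ?_ }
  · intro f g
    refine Prod.ext (Subtype.ext ?_) (Subtype.ext ?_) <;> exact Preadditive.comp_add ..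
  · intro c f
    refine Prod.ext (Subtype.ext ?_) (Subtype.ext ?_) <;> exact Linear.comp_smul ..
  · intro f
    apply Subtype.ext
    change E.r ≫ E.i ≫ f.1 + E.p ≫ E.σ ≫ f.1 = f.1
    rw [← Category.assoc, ← Category.assoc, ← Preadditive.add_comp, E.one, Category.id_comp]
  · rintro ⟨f, g⟩
    refine Prod.ext (Subtype.ext ?_) (Subtype.ext ?_)
    · change E.i ≫ (E.r ≫ f.1 + E.p ≫ g.1) = f.1
      rw [Preadditive.comp_add, ← Category.assoc, ← Category.assoc, E.ir, E.ip,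
        Category.id_comp, Limits.zero_comp, add_zero]
    · change E.σ ≫ (E.r ≫ f.1 + E.p ≫ g.1) = g.1
      rw [Preadditive.comp_add, ← Category.assoc, ← Category.assoc, E.σr, E.σp,
        Category.id_comp, Limits.zero_comp, zero_add]

/-- maps out of `W` -/
def rI (W : 𝒜) : J.I W Y.X →ₗ[k] J.I W Z.X :=
  (Linear.rightComp k W E.i).restrict (fun _ h => J.comp_right _ h)

/-- maps out of `W` -/
def rP (W : 𝒜) : J.I W Z.X →ₗ[k] J.I W X.X :=
  (Linear.rightComp k W E.p).restrict (fun _ h => J.comp_right _ h)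

/-- maps into `W` -/
def lI (W : 𝒜) : J.I Z.X W →ₗ[k] J.I Y.X W :=
  (Linear.leftComp k W E.i).restrict (fun _ h => J.comp_left _ h)

/-- maps into `W` -/
def lP (W : 𝒜) : J.I X.X W →ₗ[k] J.I Z.X W :=
  (Linear.leftComp k W E.p).restrict (fun _ h => J.comp_left _ h)

theorem rI_inj (W : 𝒜) : Function.Injective (E.rI J W) := by
  intro x y hxy
  apply Subtype.ext
  have h : (x : W ⟶ Y.X) ≫ E.i = (y : W ⟶ Y.X) ≫ E.i := congrArg Subtype.val hxy
  have h2 := congrArg (· ≫ E.r) h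
  simpa only [Category.assoc, E.ir, Category.comp_id] using h2

theorem rP_surj (W : 𝒜) : Function.Surjective (E.rP J W) := by
  intro x
  refine ⟨⟨x.1 ≫ E.σ, J.comp_right _ x.2⟩, Subtype.ext ?_⟩
  change (x.1 ≫ E.σ) ≫ E.p = x.1
  rw [Category.assoc, E.σp, Category.comp_id]

theorem r_ex (W : 𝒜) (x : J.I W Z.X) : E.rP J W x = 0 ↔ ∃ y, E.rI J W y = x := by
  constructor
  · intro h
    have h' : x.1 ≫ E.p = 0 := congrArg Subtype.val h
    refine ⟨⟨x.1 ≫ E.r, J.comp_right _ x.2⟩, Subtype.ext ?_⟩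
    change (x.1 ≫ E.r) ≫ E.i = x.1
    calc (x.1 ≫ E.r) ≫ E.i = x.1 ≫ (E.r ≫ E.i + E.p ≫ E.σ) := by
          rw [Preadditive.comp_add, Category.assoc, ← Category.assoc x.1 E.p, h',
            Limits.zero_comp, add_zero]
      _ = _ := by rw [E.one, Category.comp_id]
  · rintro ⟨y, rfl⟩
    apply Subtype.ext
    change (y.1 ≫ E.i) ≫ E.p = 0
    rw [Category.assoc, E.ip, Limits.comp_zero]

theorem lP_inj (W : 𝒜) : Function.Injective (E.lP J W) := by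
  intro x y hxy
  apply Subtype.ext
  have h : E.p ≫ (x : X.X ⟶ W) = E.p ≫ (y : X.X ⟶ W) := congrArg Subtype.val hxy
  have h2 := congrArg (E.σ ≫ ·) h
  simpa only [← Category.assoc, E.σp, Category.id_comp] using h2

theorem lI_surj (W : 𝒜) : Function.Surjective (E.lI J W) := by
  intro x
  refine ⟨⟨E.r ≫ x.1, J.comp_left _ x.2⟩, Subtype.ext ?_⟩
  change E.i ≫ (E.r ≫ x.1) = x.1
  rw [← Category.assoc, E.ir, Category.id_comp]

theorem l_ex (W : 𝒜) (x : J.I Z.X W) : E.lI J W x = 0 ↔ ∃ y, E.lP J W y = x := by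
  constructor
  · intro h
    have h' : E.i ≫ x.1 = 0 := congrArg Subtype.val h
    refine ⟨⟨E.σ ≫ x.1, J.comp_left _ x.2⟩, Subtype.ext ?_⟩
    change E.p ≫ (E.σ ≫ x.1) = x.1
    calc E.p ≫ (E.σ ≫ x.1) = (E.r ≫ E.i + E.p ≫ E.σ) ≫ x.1 := by
          rw [Preadditive.add_comp, Category.assoc, h', Limits.comp_zero, zero_add,
            Category.assoc]
      _ = _ := by rw [E.one, Category.id_comp]
  · rintro ⟨y, rfl⟩
    apply Subtype.ext
    change E.i ≫ (E.p ≫ y.1) = 0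
    rw [← Category.assoc, E.ip, Limits.zero_comp]

theorem rI_D (W : Tw S) (x : J.I W.X Y.X) :
    J.Dr W Z (E.rI J W.X x) = S.χ b • E.rI J W.X (J.Dr W Y x) := by
  apply Subtype.ext
  change Tw.D W Z (x.1 ≫ E.i) = S.χ b • (Tw.D W Y x.1 ≫ E.i)
  rw [Tw.D_comp_right _ E.hi E.Di]

theorem rP_D (W : Tw S) (x : J.I W.X Z.X) :
    J.Dr W X (E.rP J W.X x) = S.χ a • E.rP J W.X (J.Dr W Z x) := by
  apply Subtype.ext
  change Tw.D W X (x.1 ≫ E.p) = S.χ a • (Tw.D W Z x.1 ≫ E.p)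
  rw [Tw.D_comp_right _ E.hp E.Dp]

theorem lP_D (W : Tw S) (x : J.I X.X W.X) :
    J.Dr Z W (E.lP J W.X x) = (1 : k) • E.lP J W.X (J.Dr X W x) := by
  rw [one_smul]
  apply Subtype.ext
  change Tw.D Z W (E.p ≫ x.1) = E.p ≫ Tw.D X W x.1
  rw [Tw.D_comp_left E.Dp]

theorem lI_D (W : Tw S) (x : J.I Z.X W.X) :
    J.Dr Y W (E.lI J W.X x) = (1 : k) • E.lI J W.X (J.Dr Z W x) := by
  rw [one_smul]
  apply Subtype.ext
  change Tw.D Y W (E.i ≫ x.1) = E.i ≫ Tw.D Z W x.1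
  rw [Tw.D_comp_left E.Di]

include E in
/-- subadditivity in the second variable -/
theorem h_right_le (W : Tw S) : J.h W Z ≤ J.h W Y + J.h W X :=
  hd_ses_le (J.Dr_Dr W Z) (J.Dr_Dr W Y) (J.Dr_Dr W X) (E.rI J W.X) (E.rP J W.X)
    (E.rI_inj J W.X) (E.rP_surj J W.X) (E.r_ex J W.X) (S.χ b) (S.χ a) (S.χ_ne b) (S.χ_ne a)
    (E.rI_D J W) (E.rP_D J W)

include E in
/-- subadditivity in the first variable -/
theorem h_left_le (W : Tw S) : J.h Z W ≤ J.h X W + J.h Y W :=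
  hd_ses_le (J.Dr_Dr Z W) (J.Dr_Dr X W) (J.Dr_Dr Y W) (E.lP J W.X) (E.lI J W.X)
    (E.lP_inj J W.X) (E.lI_surj J W.X) (E.l_ex J W.X) 1 1 one_ne_zero one_ne_zero
    (E.lP_D J W) (E.lI_D J W)

include E in
theorem h_right_parity (W : Tw S) : J.h W Z % 2 = (J.h W Y + J.h W X) % 2 :=
  hd_ses_parity (J.Dr_Dr W Z) (J.Dr_Dr W Y) (J.Dr_Dr W X) (E.dim_right J W.X)

include E in
theorem h_left_parity (W : Tw S) : J.h Z W % 2 = (J.h X W + J.h Y W) % 2 := by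
  rw [add_comm]
  exact hd_ses_parity (J.Dr_Dr Z W) (J.Dr_Dr Y W) (J.Dr_Dr X W) (E.dim_left J W.X)

/-- `D (f σ) = ± (D f) σ - ± f g i`-type formula: the obstruction to lifting `f : W → X`
is `f g` -/
theorem lift_iff (W : Tw S) (f : J.I W.X X.X) (hf : Tw.D W X f.1 = 0) :
    (∃ x : J.I W.X Z.X, Tw.D W Z x.1 = 0 ∧ x.1 ≫ E.p = f.1) ↔
      ∃ y : J.I W.X Y.X, Tw.D W Y y.1 = f.1 ≫ E.g := by
  -- D(f σ) = f g i
  have h1 : Tw.D W Z (f.1 ≫ E.σ) = f.1 ≫ E.g ≫ E.i := by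
    rw [Tw.D_apply, S.bar_comp, Category.assoc, E.σ_d, S.bar_of_mem E.hσ, S.χ_neg]
    have h2 : f.1 ≫ X.d = W.d ≫ S.bar f.1 := by
      rw [Tw.D_apply, sub_eq_zero] at hf; exact hf
    rw [Preadditive.comp_add, Linear.comp_smul, ← Category.assoc f.1, h2,
      Linear.comp_smul, Linear.comp_smul]
    simp only [Category.assoc]
    abel
  constructor
  · rintro ⟨x, hx, hxp⟩
    -- x = (x r) i + f σ
    have h3 : x.1 = (x.1 ≫ E.r) ≫ E.i + f.1 ≫ E.σ := by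
      calc x.1 = x.1 ≫ (E.r ≫ E.i + E.p ≫ E.σ) := by rw [E.one, Category.comp_id]
        _ = _ := by
            rw [Preadditive.comp_add, ← Category.assoc, ← Category.assoc x.1 E.p, hxp]
    have h4 : S.χ b • (Tw.D W Y (x.1 ≫ E.r) ≫ E.i) + f.1 ≫ E.g ≫ E.i = 0 := by
      rw [← h1, ← Tw.D_comp_right _ E.hi E.Di, ← map_add, ← h3, hx]
    have h5 : S.χ b • Tw.D W Y (x.1 ≫ E.r) + f.1 ≫ E.g = 0 := by
      have := congrArg (· ≫ E.r) h4
      simpa only [Preadditive.add_comp, Linear.smul_comp, Category.assoc, E.ir,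
        Category.comp_id, Limits.zero_comp] using this
    refine ⟨⟨-(S.χ b • (x.1 ≫ E.r)), Submodule.neg_mem _ (Submodule.smul_mem _ _
      (J.comp_right _ x.2))⟩, ?_⟩
    change Tw.D W Y (-(S.χ b • (x.1 ≫ E.r))) = _
    rw [map_neg, map_smul]
    exact neg_eq_of_add_eq_zero_right h5
  · rintro ⟨y, hy⟩
    refine ⟨⟨-(S.χ b • (y.1 ≫ E.i)) + f.1 ≫ E.σ, Submodule.add_mem _
      (Submodule.neg_mem _ (Submodule.smul_mem _ _ (J.comp_right _ y.2)))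
      (J.comp_right _ f.2)⟩, ?_, ?_⟩
    · change Tw.D W Z (-(S.χ b • (y.1 ≫ E.i)) + f.1 ≫ E.σ) = 0
      rw [map_add, map_neg, map_smul, h1, Tw.D_comp_right _ E.hi E.Di, smul_smul, S.χ_sq,
        one_smul, hy, Category.assoc]
      abel
    · change (-(S.χ b • (y.1 ≫ E.i)) + f.1 ≫ E.σ) ≫ E.p = f.1
      rw [Preadditive.add_comp, Preadditive.neg_comp, Linear.smul_comp, Category.assoc,
        E.ip, Limits.comp_zero, smul_zero, neg_zero, zero_add, Category.assoc, E.σp,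
        Category.comp_id]

/-- strict inequality: if `f g` is not a coboundary for some cocycle `f : W → X` -/
theorem h_right_lt (W : Tw S) (f : J.I W.X X.X) (hf : Tw.D W X f.1 = 0)
    (hno : ∀ y : J.I W.X Y.X, Tw.D W Y y.1 ≠ f.1 ≫ E.g) :
    J.h W Z + 2 ≤ J.h W Y + J.h W X := by
  refine hd_ses_lt (J.Dr_Dr W Z) (J.Dr_Dr W Y) (J.Dr_Dr W X) (E.rI J W.X) (E.rP J W.X)
    (E.rI_inj J W.X) (E.rP_surj J W.X) (E.r_ex J W.X) (S.χ b) (S.χ a) (S.χ_ne b) (S.χ_ne a)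
    (E.rI_D J W) (E.rP_D J W) ⟨f, Subtype.ext hf, ?_⟩
  intro x hx hxp
  obtain ⟨y, hy⟩ := (E.lift_iff J W f hf).1
    ⟨x, congrArg Subtype.val hx, congrArg Subtype.val hxp⟩
  exact hno y hy

/-- equality if `f g` is a coboundary for all cocycles `f : W → X` -/
theorem h_right_eq (W : Tw S)
    (hall : ∀ f : J.I W.X X.X, Tw.D W X f.1 = 0 →
      ∃ y : J.I W.X Y.X, Tw.D W Y y.1 = f.1 ≫ E.g) :
    J.h W Z = J.h W Y + J.h W X := by
  refine hd_ses_eq (J.Dr_Dr W Z) (J.Dr_Dr W Y) (J.Dr_Dr W X) (E.rI J W.X) (E.rP J W.X)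
    (E.rI_inj J W.X) (E.rP_surj J W.X) (E.r_ex J W.X) (S.χ b) (S.χ a) (S.χ_ne b) (S.χ_ne a)
    (E.rI_D J W) (E.rP_D J W) ?_
  intro f hf
  have hf' : Tw.D W X f.1 = 0 := congrArg Subtype.val hf
  obtain ⟨x, hx, hxp⟩ := (E.lift_iff J W f hf').2 (hall f hf')
  exact ⟨x, Subtype.ext hx, Subtype.ext hxp⟩

end Ext

end Crest.Agent.R175.Tw_450
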