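import Mathlib
import Crest.Agent.R175.A2u_83
import Crest.Agent.R175.Cent23_83
import Crest.Agent.R175.Geo6_974

/-!
# R175 (S0264), group side : the vertex of the triangle
-/

set_option autoImplicit false

open Crest.GroupTheory Monoid Monoid.CoprodI

namespace Crest.Agent.R175.Vert_83

open Semi_663 A2t_83

/-- the centre generator -/
abbrev zz : B3 := (s1 * s2) ^ 3

/-- the factors of `ℤ * ℤ` -/
abbrev ZF (_ : Bool) : Type := Multiplicative ℤ

/-- `ℤ * ℤ` -/
abbrev P : Type := CoprodI ZF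

/-- generator of `ℤ` -/
def o1 : Multiplicative ℤ := Multiplicative.ofAdd 1

theorem o1_ne : o1 ≠ 1 := by decide

/-- `y` -/
def yy : P := of (i := true) o1
/-- `v` -/
def vv : P := of (i := false) o1

/-- kill `x₁` -/
def ret : F3 →* P := hF 1 yy vv

/-- `ℤ * ℤ → F₃` -/
def sec : P →* F3 := CoprodI.lift fun b => match b with
  | true => zpowersHom F3 gy
  | false => zpowersHom F3 gv

theorem sec_yy : sec yy = gy := by
  rw [sec, yy, CoprodI.lift_of]
  show zpowersHom F3 gy o1 = gy
  simp [o1, zpowersHom_apply]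

theorem sec_vv : sec vv = gv := by
  rw [sec, vv, CoprodI.lift_of]
  show zpowersHom F3 gv o1 = gv
  simp [o1, zpowersHom_apply]

theorem ret_y : ret gy = yy := hF_y _ _ _
theorem ret_v : ret gv = vv := hF_v _ _ _

theorem sec_ret {w : F3} (hw : w ∈ Subgroup.closure {gy, gv}) : sec (ret w) = w := by
  induction hw using Subgroup.closure_induction with
  | mem x hx =>
    rcases hx with rfl | hx
    · rw [ret_y, sec_yy]
    · rw [Set.mem_singleton_iff] at hx
      rw [hx, ret_v, sec_vv]
  | one => simp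
  | mul x y _ _ hx hy => rw [map_mul, map_mul, hx, hy]
  | inv x _ hx => rw [map_inv, map_inv, hx]

/-- degree on `F₃` -/
def dgF : F3 →* Multiplicative ℤ := hF o1 (o1 * o1) o1

theorem dgF_S1 (w : F3) : dgF (S1 w) = dgF w := by
  have : dgF.comp S1.toMonoidHom = dgF := by
    apply F3_ext
    · show dgF (S1 gx) = dgF gx
      rw [S1_x, map_mul, map_inv, dgF, hF_x, hF_y]; group
    · show dgF (S1 gy) = dgF gy
      rw [S1_y]
    · show dgF (S1 gv) = dgF gv
      rw [S1_v]
  exact DFunLike.congr_fun this w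

theorem dgF_S2 (w : F3) : dgF (S2 w) = dgF w := by
  have : dgF.comp S2.toMonoidHom = dgF := by
    apply F3_ext
    · show dgF (S2 gx) = dgF gx
      rw [S2_x]
    · show dgF (S2 gy) = dgF gy
      rw [S2_y, map_mul, map_mul, map_mul, map_inv, dgF, hF_x, hF_y, hF_v]; 
      rw [mul_assoc (o1 * o1), mul_comm o1 (o1 * o1)⁻¹, ← mul_assoc, mul_inv_cancel, one_mul]
    · show dgF (S2 gv) = dgF gv
      rw [S2_v, map_mul, map_inv, dgF, hF_x, hF_y, hF_v]; group
  exact DFunLike.congr_fun this w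

theorem dgF_phi (b : B3) : ∀ w : F3, dgF (phi b w) = dgF w := by
  have hb : b ∈ Subgroup.closure (Set.range (artinGen (MM 2))) := by
    rw [closure_gen]; trivial
  induction hb using Subgroup.closure_induction with
  | mem x hx =>
    obtain ⟨i, rfl⟩ := hx
    intro w
    fin_cases i
    · show dgF (phi s1 w) = dgF w
      rw [phi_s1, dgF_S1]
    · show dgF (phi s2 w) = dgF w
      rw [phi_s2, dgF_S2]
  | one => intro w; simp
  | mul x y _ _ hx hy =>
    intro w
    rw [map_mul, MulAut.mul_apply, hx, hy]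
  | inv x _ hx =>
    intro w
    have := hx (phi x⁻¹ w)
    rw [map_inv, MulAut.apply_inv_self] at this
    rw [map_inv, this]

/-- degree on `AB` -/
def dg : AB →* Multiplicative ℤ := SemidirectProduct.lift dgF 1 fun b => by
  ext1 i
  show dgF (phi b (FreeGroup.of i)) = _
  rw [dgF_phi]
  simp

theorem dg_nl (w : F3) : dg (nl w) = dgF w := SemidirectProduct.lift_inl _ _ _ _
theorem dg_nr (b : B3) : dg (nr b) = 1 := SemidirectProduct.lift_inr _ _ _ _

theorem dg_left (p : AB) : dg p = dgF p.left := by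
  conv_lhs => rw [← SemidirectProduct.inl_left_mul_inr_right p]
  rw [map_mul]
  have h1 := dg_nl p.left
  have h2 := dg_nr p.right
  rw [show (SemidirectProduct.inl p.left : AB) = nl p.left from rfl, h1,
    show (SemidirectProduct.inr p.right : AB) = nr p.right from rfl, h2, mul_one]

theorem dg_Phi (g : At) : dg (Phi g) = 1 := by
  have : dg.comp Phi = 1 := by
    apply hom_ext
    intro s
    fin_cases s
    · show dg (Phi (artinGen (MM 3) 0)) = 1
      rw [Phi_0, dg_nr]
    · show dg (Phi (artinGen (MM 3) 1)) = 1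
      rw [Phi_1, dg_nr]
    · show dg (Phi (artinGen (MM 3) 2)) = 1
      rw [Phi_2, cc, map_mul, map_mul, map_inv, dg_nr, mul_one, mul_inv_cancel]
  exact DFunLike.congr_fun this g

theorem data_left {p : AB} (hp : p * nr s1 = nr s1 * p) : S1 p.left = p.left := by
  have := congrArg SemidirectProduct.left hp
  simp only [SemidirectProduct.mul_left, SemidirectProduct.left_inr, SemidirectProduct.right_inr,
    map_one, mul_one, one_mul, phi_s1] at this
  exact this.symm

theorem data_right {p : AB} (hp : p * nr s1 = nr s1 * p) : p.right * s1 = s1 * p.right := by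
  have := congrArg SemidirectProduct.right hp
  simpa only [SemidirectProduct.mul_right, SemidirectProduct.right_inr] using this

theorem zz_comm (b : B3) : b * zz = zz * b := by
  have hb : b ∈ Subgroup.closure (Set.range (artinGen (MM 2))) := by
    rw [closure_gen]; trivial
  induction hb using Subgroup.closure_induction with
  | mem x hx =>
    obtain ⟨i, rfl⟩ := hx
    fin_cases i
    · exact (B3_83.comm_a s_braid).symm
    · exact (B3_83.comm_b s_braid).symm
  | one => simp
  | mul x y _ _ hx hy => rw [mul_assoc, hy, ← mul_assoc, hx, mul_assoc]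
  | inv x _ hx => exact (Commute.inv_left (show Commute x zz from hx))

theorem fix_zpow {f : MulAut F3} {w : F3} (h : f w = w) (k : ℤ) : (f ^ k) w = w := by
  have h1 : f ∈ MulAction.stabilizer (MulAut F3) w := h
  exact zpow_mem h1 k

theorem conj_zpow (k : ℤ) (w : F3) : ((MulAut.conj dl) ^ k) w = dl ^ k * w * (dl ^ k)⁻¹ := by
  rw [← map_zpow, MulAut.conj_apply]

theorem S1_dl : S1 dl = dl := by rw [dl, map_mul, S1_y, S1_v]

section main

variable (hFix : ∀ w : F3, S1 w = w → w ∈ Subgroup.closure {gy, gv})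
  (hCent : ∀ b : B3, b * s1 = s1 * b → ∃ k m : ℤ, b = s1 ^ k * zz ^ m)
  (hUniq : ∀ k m k' m' : ℤ, s1 ^ k * zz ^ m = s1 ^ k' * zz ^ m' → k = k' ∧ m = m')

/-- centraliser of `s1` in `AB` -/
abbrev C1 : Subgroup AB := Subgroup.centralizer {nr s1}

theorem mem_C1 {p : AB} : p ∈ C1 ↔ p * nr s1 = nr s1 * p := by
  rw [Subgroup.mem_centralizer_singleton_iff]

/-- the exponent of `z` -/
noncomputable def mm (hCent : ∀ b : B3, b * s1 = s1 * b → ∃ k m : ℤ, b = s1 ^ k * zz ^ m)
    (p : C1) : ℤ := (hCent p.1.right (data_right (mem_C1.1 p.2))).choose_spec.choose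

include hUniq in
theorem mm_eq (p : C1) {k m : ℤ} (h : p.1.right = s1 ^ k * zz ^ m) : mm hCent p = m := by
  have := (hCent p.1.right (data_right (mem_C1.1 p.2))).choose_spec.choose_spec
  exact (hUniq _ _ _ _ (h.symm.trans this)).2.symm

/-- the homomorphism `(w, s₁ᵏ zᵐ) ↦ w (y v)ᵐ`. -/
noncomputable def theta : C1 →* P where
  toFun p := ret p.1.left * (yy * vv) ^ (mm hCent p)
  map_one' := by
    rw [mm_eq hCent hUniq 1 (k := 0) (m := 0) (by simp)]
    simp
  map_mul' p q := by
    obtain ⟨k, m, hkm⟩ := hCent p.1.right (data_right (mem_C1.1 p.2))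
    obtain ⟨k', m', hkm'⟩ := hCent q.1.right (data_right (mem_C1.1 q.2))
    have h1 : (p * q).1.right = s1 ^ (k + k') * zz ^ (m + m') := by
      show p.1.right * q.1.right = _
      rw [hkm, hkm', zpow_add, zpow_add]
      have : Commute (zz ^ m) (s1 ^ k') :=
        ((show Commute s1 zz from zz_comm s1).zpow_zpow k' m).symm
      calc s1 ^ k * zz ^ m * (s1 ^ k' * zz ^ m') = s1 ^ k * (zz ^ m * s1 ^ k') * zz ^ m' := by group
        _ = s1 ^ k * (s1 ^ k' * zz ^ m) * zz ^ m' := by rw [this.eq]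
        _ = s1 ^ k * s1 ^ k' * (zz ^ m * zz ^ m') := by group
    have h2 : (p * q).1.left = p.1.left * (dl ^ m * q.1.left * (dl ^ m)⁻¹) := by
      show (p.1 * q.1).left = _
      rw [SemidirectProduct.mul_left, hkm, map_mul, map_zpow, map_zpow, phi_z, phi_s1,
        MulAut.mul_apply, conj_zpow]
      congr 1
      apply fix_zpow
      rw [map_mul, map_mul, map_inv, map_zpow, S1_dl, data_left (mem_C1.1 q.2)]
    rw [mm_eq hCent hUniq _ h1, mm_eq hCent hUniq _ hkm, mm_eq hCent hUniq _ hkm', h2]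
    have h3 : ret dl = yy * vv := by rw [dl, map_mul, ret_y, ret_v]
    rw [map_mul, map_mul, map_mul, map_inv, map_zpow, h3, zpow_add]
    group

theorem theta_eq (p : C1) {k m : ℤ} (h : p.1.right = s1 ^ k * zz ^ m) :
    theta hCent hUniq p = ret p.1.left * (yy * vv) ^ m := by
  show ret p.1.left * (yy * vv) ^ (mm hCent p) = _
  rw [mm_eq hCent hUniq _ h]

include hFix in
theorem theta_ker (p : C1) (h : theta hCent hUniq p = 1) (hd : dg p.1 = 1) :
    ∃ k : ℤ, p.1 = nr (s1 ^ k) := by
  obtain ⟨k, m, hkm⟩ := hCent p.1.right (data_right (mem_C1.1 p.2))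
  rw [theta_eq hCent hUniq p hkm] at h
  have hw := hFix _ (data_left (mem_C1.1 p.2))
  have h1 : ret p.1.left = (yy * vv) ^ (-m) := by
    rw [zpow_neg]; exact eq_inv_of_mul_eq_one_left h
  have h2 : p.1.left = dl ^ (-m) := by
    rw [← sec_ret hw, h1, map_zpow, map_mul, sec_yy, sec_vv, dl]
  have h3 : m = 0 := by
    rw [dg_left, h2, map_zpow] at hd
    have h4 : dgF dl = Multiplicative.ofAdd 3 := by
      rw [dl, map_mul, dgF, hF_y, hF_v]; rfl
    rw [h4] at hd
    have h5 : (-m) * 3 = 0 := by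
      have := congrArg Multiplicative.toAdd hd
      rw [toAdd_zpow, toAdd_ofAdd, toAdd_one, smul_eq_mul] at this
      exact this
    omega
  subst h3
  refine ⟨k, SemidirectProduct.ext ?_ ?_⟩
  · rw [h2, neg_zero, zpow_zero]
    exact (SemidirectProduct.left_inr (s1 ^ k)).symm
  · rw [hkm, zpow_zero, mul_one]
    exact (SemidirectProduct.right_inr (s1 ^ k)).symm

include hFix hCent hUniq in
/-- **The vertex.** -/
theorem vertex_aux {G : Type*} [Group G] {a b c r₁ r₂ : G} (π : G →* At)
    (ha : π a = ga 0) (hb : π b = ga 1) (hc : π c = ga 2) (hr1 : π r₁ = 1) (hr2 : π r₂ = 1)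
    (ab : a * b * a = b * a * b) (bc : b * c * b = c * b * c) (ca : c * a * c = a * c * a)
    (c1a : Commute r₁ a) (c1b : Commute r₁ b) (c1c : Commute r₁ c)
    (c2a : Commute r₂ a) (c2b : Commute r₂ b) (c2c : Commute r₂ c)
    (A1 : ∀ g : G, g * (r₁ * r₂ * r₁⁻¹ * r₂⁻¹) = (r₁ * r₂ * r₁⁻¹ * r₂⁻¹) * g →
      ∃ (n : ℤ) (k : G), k ∈ Subgroup.closure {a, b, c} ∧ g = (r₁ * r₂ * r₁⁻¹ * r₂⁻¹) ^ n * k) :
    Geo.VertexData a b c := by
  set h := r₁ * r₂ * r₁⁻¹ * r₂⁻¹ with hh
  have cha : Commute h a := ((c1a.mul_left c2a).mul_left c1a.inv_left).mul_left c2a.inv_left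
  have chb : Commute h b := ((c1b.mul_left c2b).mul_left c1b.inv_left).mul_left c2b.inv_left
  have chc : Commute h c := ((c1c.mul_left c2c).mul_left c1c.inv_left).mul_left c2c.inv_left
  have πh : π h = 1 := by rw [hh, map_mul, map_mul, map_mul, map_inv, map_inv, hr1, hr2]; simp
  set F : Set G := {h, a} with hF
  have hC : ∀ g : G, (∀ f ∈ F, Commute f g) ↔ g ∈ Subgroup.centralizer F := fun g => by
    rw [Subgroup.mem_centralizer_iff]; rfl
  -- the homomorphism to `ℤ * ℤ`
  have hmem : ∀ g : Subgroup.centralizer F,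
      ((Phi.comp π).comp (Subgroup.centralizer F).subtype) g ∈ C1 := by
    intro g
    rw [mem_C1]
    show Phi (π g.1) * nr s1 = nr s1 * Phi (π g.1)
    rw [← Phi_0, show artinGen (MM 3) 0 = ga 0 from rfl, ← ha, ← map_mul, ← map_mul, ← map_mul,
      ← map_mul]
    congr 2
    exact (((hC g.1).2 g.2) a (by simp [hF])).symm
  set θ : Subgroup.centralizer F →* P := (theta hCent hUniq).comp
    (((Phi.comp π).comp (Subgroup.centralizer F).subtype).codRestrict C1 hmem) with hθ
  -- `π` is injective on `⟨a, b, c⟩`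
  let σ : At →* G := toH ![a, b, c] (by
    intro s t
    fin_cases s <;> fin_cases t
    · rfl
    · exact ab
    · exact ca.symm
    · exact ab.symm
    · rfl
    · exact bc
    · exact ca
    · exact bc.symm
    · rfl)
  have hσ : ∀ k ∈ Subgroup.closure ({a, b, c} : Set G), σ (π k) = k := by
    intro k hk
    induction hk using Subgroup.closure_induction with
    | mem x hx =>
      rcases hx with rfl | rfl | hx
      · rw [ha]; exact toH_gen _ _ _
      · rw [hb]; exact toH_gen _ _ _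
      · rw [Set.mem_singleton_iff] at hx
        subst hx
        rw [hc]; exact toH_gen _ _ _
    | one => simp
    | mul x y _ _ hx hy => rw [map_mul, map_mul, hx, hy]
    | inv x _ hx => rw [map_inv, map_inv, hx]
  have hker : ∀ g : Subgroup.centralizer F, θ g = 1 → (g : G) ∈ {e : G | ∃ j m : ℤ, e = a ^ j * h ^ m} := by
    intro g hg
    obtain ⟨k, hk⟩ := theta_ker hFix hCent hUniq _ hg (dg_Phi (π g.1))
    have h1 : Phi (π g.1) = nr (s1 ^ k) := hk
    have h2 : π g.1 = ga 0 ^ k := by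
      apply Phi_injective
      rw [h1, map_zpow, map_zpow]
      rw [show Phi (ga 0) = nr s1 from Phi_0]
    obtain ⟨n, q, hq, hgq⟩ := A1 g.1 ((((hC g.1).2 g.2) h (by simp [hF])).symm)
    have h3 : π q = ga 0 ^ k := by
      rw [← h2, hgq, map_mul, map_zpow, πh, one_zpow, one_mul]
    have h4 : q = a ^ k := by
      rw [← hσ q hq, h3, ← ha, ← map_zpow, hσ _ (zpow_mem (Subgroup.subset_closure (by simp)) k)]
    refine ⟨k, n, ?_⟩
    rw [hgq, h4]
    exact ((cha.zpow_zpow n k)).eq
  have hE : ∀ e ∈ {e : G | ∃ j m : ℤ, e = a ^ j * h ^ m}, ∀ g : G, (∀ f ∈ F, Commute f g) →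
      Commute e g := by
    rintro e ⟨j, m, rfl⟩ g hg
    exact ((hg a (by simp [hF])).zpow_left j).mul_left ((hg h (by simp [hF])).zpow_left m)
  have hα : (a * b) ^ 3 ∈ Subgroup.centralizer F := by
    rw [← hC]
    rintro f (rfl | rfl)
    · exact (cha.mul_right chb).pow_right 3
    · exact (B3_83.comm_a ab).symm
  have hγ : (c * a) ^ 3 ∈ Subgroup.centralizer F := by
    rw [← hC]
    rintro f (rfl | rfl)
    · exact (chc.mul_right cha).pow_right 3
    · exact (B3_83.comm_b ca).symm
  have hnrz : nr zz ∈ C1 := by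
    rw [mem_C1, ← map_mul, ← map_mul, zz_comm]
  have hnv : nl gv ∈ C1 := by rw [mem_C1, S_V]
  have tz : theta hCent hUniq ⟨nr zz, hnrz⟩ = yy * vv := by
    rw [theta_eq hCent hUniq ⟨nr zz, hnrz⟩ (k := 0) (m := 1) (by
      rw [zpow_zero, zpow_one, one_mul]
      exact SemidirectProduct.right_inr zz)]
    rw [zpow_one, show ((⟨nr zz, hnrz⟩ : C1) : AB).left = 1 from SemidirectProduct.left_inr zz,
      map_one, one_mul]
  have tv : theta hCent hUniq ⟨nl gv, hnv⟩ = vv := by
    rw [theta_eq hCent hUniq _ (k := 0) (m := 0) (by simp)]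
    simp [ret_v]
  have θα : θ ⟨(a * b) ^ 3, hα⟩ = yy * vv := by
    rw [← tz, hθ]
    show theta hCent hUniq _ = theta hCent hUniq _
    congr 1
    apply Subtype.ext
    show Phi (π ((a * b) ^ 3)) = nr zz
    rw [map_pow, map_mul, ha, hb, map_pow, map_mul]
    show (Phi (artinGen (MM 3) 0) * Phi (artinGen (MM 3) 1)) ^ 3 = _
    rw [Phi_0, Phi_1, map_pow, map_mul]
  have θγ : θ ⟨(c * a) ^ 3, hγ⟩ = vv * yy := by
    have : theta hCent hUniq (⟨nl gv, hnv⟩ * ⟨nr zz, hnrz⟩ * ⟨nl gv, hnv⟩⁻¹) = vv * yy := by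
      rw [map_mul, map_mul, map_inv, tz, tv]; group
    rw [← this, hθ]
    show theta hCent hUniq _ = theta hCent hUniq _
    congr 1
    apply Subtype.ext
    show Phi (π ((c * a) ^ 3)) = nl gv * nr zz * (nl gv)⁻¹
    rw [map_pow, map_mul, ha, hc, map_pow, map_mul]
    show (Phi (artinGen (MM 3) 2) * Phi (artinGen (MM 3) 0)) ^ 3 = _
    rw [Phi_0, Phi_2, cc]
    have e1 : nl gv * nr (s1 * s2 * s1⁻¹) * (nl gv)⁻¹ * nr s1 =
        nl gv * nr (s1 * s2) * (nl gv)⁻¹ := by
      have e2 : (nl gv)⁻¹ * nr s1 = nr s1 * (nl gv)⁻¹ := by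
        rw [inv_mul_eq_iff_eq_mul, ← mul_assoc, ← S_V]; group
      rw [mul_assoc _ (nl gv)⁻¹, e2, map_mul nr (s1 * s2), map_inv]
      group
    rw [e1, conj_pow, map_pow]
  have key := FirstLet_83.div_of_hom (E := {e : G | ∃ j m : ℤ, e = a ^ j * h ^ m})
    (Set.toFinite F) θ hker hE hα hγ true
    (fun n hn => by
      rw [θα]
      exact FirstLet_83.st_pow (A := ZF) (i := true) (j := false) (by decide) o1_ne o1_ne hn)
    (fun n hn => by
      rw [θγ]
      exact FirstLet_83.st_disjoint (by decide)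
        (FirstLet_83.st_pow (A := ZF) (i := false) (j := true) (by decide) o1_ne o1_ne hn))
  exact ⟨r₁, r₂, _, c1a, c1b, c1c, c2a, c2b, c2c, key⟩

end main

end Crest.Agent.R175.Vert_83
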