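import Mathlib
import Crest.Agent.R175.Vert_83
import Crest.Agent.R175.Fix_974
import Crest.Agent.R175.CentS1_663

/-!
# R175 (S0264), group side : the vertex of the triangle, final form
-/

set_option autoImplicit false

open Crest.GroupTheory Monoid Monoid.CoprodI

namespace Crest.Agent.R175.Vert2_83

open Semi_663 A2t_83 Vert_83

theorem rot_symm (i : Fin 3) : rot.symm (ga (i + 1)) = ga i := by
  rw [← rot_gen]; exact rot.symm_apply_apply _

/-- **The vertex.** -/
theorem vertex (i : Fin 3) {G : Type*} [Group G] {a b c r₁ r₂ : G} (π : G →* At)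
    (ha : π a = ga i) (hb : π b = ga (i + 1)) (hc : π c = ga (i + 2))
    (hr1 : π r₁ = 1) (hr2 : π r₂ = 1)
    (ab : a * b * a = b * a * b) (bc : b * c * b = c * b * c) (ca : c * a * c = a * c * a)
    (c1a : Commute r₁ a) (c1b : Commute r₁ b) (c1c : Commute r₁ c)
    (c2a : Commute r₂ a) (c2b : Commute r₂ b) (c2c : Commute r₂ c)
    (A1 : ∀ g : G, g * (r₁ * r₂ * r₁⁻¹ * r₂⁻¹) = (r₁ * r₂ * r₁⁻¹ * r₂⁻¹) * g →
      ∃ (n : ℤ) (k : G), k ∈ Subgroup.closure {a, b, c} ∧ g = (r₁ * r₂ * r₁⁻¹ * r₂⁻¹) ^ n * k) :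
    Geo.VertexData a b c := by
  have step : ∀ (ρ : At →* At), ρ (ga i) = ga 0 → ρ (ga (i + 1)) = ga 1 → ρ (ga (i + 2)) = ga 2 →
      Geo.VertexData a b c := by
    intro ρ h0 h1 h2
    refine vertex_aux (fun w h => Fix_974.fix_S1 h) (fun b h => CentS1_663.cent_s1 b h)
      (fun k m k' m' h => CentS1_663.uniq k m k' m' h) (ρ.comp π) ?_ ?_ ?_ ?_ ?_ ab bc ca
      c1a c1b c1c c2a c2b c2c A1
    · rw [MonoidHom.comp_apply, ha, h0]
    · rw [MonoidHom.comp_apply, hb, h1]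
    · rw [MonoidHom.comp_apply, hc, h2]
    · rw [MonoidHom.comp_apply, hr1, map_one]
    · rw [MonoidHom.comp_apply, hr2, map_one]
  have e1 : rot.symm (ga 1) = ga 0 := rot_symm 0
  have e2 : rot.symm (ga 2) = ga 1 := rot_symm 1
  have e0 : rot.symm (ga 0) = ga 2 := rot_symm 2
  fin_cases i
  · exact step (MonoidHom.id At) rfl rfl rfl
  · exact step rot.symm.toMonoidHom e1 e2 e0
  · exact step (rot.symm.toMonoidHom.comp rot.symm.toMonoidHom)
      (by show rot.symm (rot.symm (ga 2)) = ga 0; rw [e2, e1])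
      (by show rot.symm (rot.symm (ga 0)) = ga 1; rw [e0, e2])
      (by show rot.symm (rot.symm (ga 1)) = ga 2; rw [e1, e0])

end Crest.Agent.R175.Vert2_83
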