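import Crest.Agent.R175.DDef_145
import Crest.Agent.R175.VdL_527

/-!
Coxeter group facts for Track D of row 175 (W1, W1', W5, W5', W6, W7, W10 of `DW_145`),
universe polymorphic, by means of the geometric representation.
-/

set_option autoImplicit false

namespace Crest.Agent.R175.WA_527

open Crest.Agent.R061.GeomFull Crest.Agent.R175.DDef_145 CoxeterSystem
open Crest.Agent.R175.VdL_527 (InX inX_sr Red red_mul mul_eq gam gam_eq)

variable {S W : Type*} [Group W] {M : CoxeterMatrix S} (cs : CoxeterSystem M W)

/-- prefix (weak) order: `w = u * v` with lengths adding. -/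
def PL (u w : W) : Prop := cs.length u + cs.length (u⁻¹ * w) = cs.length w

/-- `W_X`, the standard parabolic subgroup. -/
def WP (X : Set S) : Subgroup W := Subgroup.closure (cs.simple '' X)

/-- `X`-reduced elements: no left descent in `X`. -/
def XRed (X : Set S) (w : W) : Prop := ∀ x ∈ X, ¬ cs.IsLeftDescent w x

theorem leftDescent_iff (w : W) (s : S) :
    cs.IsLeftDescent w s ↔ Pos (-(rep cs w⁻¹ (sr s))) := by
  rw [neg_rep_sr_iff, cs.isRightDescent_inv_iff]

theorem not_leftDescent_iff (w : W) (s : S) :
    ¬ cs.IsLeftDescent w s ↔ Pos (rep cs w⁻¹ (sr s)) := by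
  rw [pos_rep_sr_iff, cs.isRightDescent_inv_iff]

theorem xred_iff (X : Set S) (w : W) : XRed cs X w ↔ ∀ x ∈ X, Pos (rep cs w⁻¹ (sr x)) := by
  constructor
  · intro h x hx; exact (not_leftDescent_iff cs w x).1 (h x hx)
  · intro h x hx; exact (not_leftDescent_iff cs w x).2 (h x hx)

theorem xred_iff_red (X : Set S) (w : W) : XRed cs X w ↔ Red cs X w⁻¹ := xred_iff cs X w

theorem xred_one (X : Set S) : XRed cs X 1 := fun x _ => cs.not_isLeftDescent_one x

variable {cs}

theorem simple_mem {X : Set S} {x : S} (hx : x ∈ X) : cs.simple x ∈ WP cs X :=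
  Subgroup.subset_closure ⟨x, hx, rfl⟩

/-- induction on elements of `W_X` -/
theorem wp_induction {X : Set S} {P : W → Prop} (h1 : P 1)
    (hm : ∀ x ∈ X, ∀ p ∈ WP cs X, P p → P (cs.simple x * p)) {p : W} (hp : p ∈ WP cs X) : P p := by
  induction hp using Subgroup.closure_induction_left with
  | one => exact h1
  | mul_left x hx y hy ih =>
    obtain ⟨s, hs, rfl⟩ := hx
    exact hm s hs y hy ih
  | inv_mul_cancel x hx y hy ih =>
    obtain ⟨s, hs, rfl⟩ := hx
    rw [cs.inv_simple]
    exact hm s hs y hy ih

/-- elements of `W_X` change a vector by a vector supported on `X` -/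
theorem wp_sub {X : Set S} {p : W} (hp : p ∈ WP cs X) (v : S →₀ ℝ) {b : S} (hb : b ∉ X) :
    (rep cs p v) b = v b := by
  revert v
  refine wp_induction (cs := cs) (P := fun p => ∀ v : S →₀ ℝ, (rep cs p v) b = v b) ?_ ?_ hp
  · intro v; rw [rep_one_apply]
  · intro x hx p _ ih v
    rw [rep_mul_apply, rep_simple, sig_apply, Finsupp.sub_apply, Finsupp.smul_apply,
      Finsupp.single_eq_of_ne (by rintro rfl; exact hb hx), smul_zero, sub_zero, ih v]

theorem inX_wp {X : Set S} {p : W} (hp : p ∈ WP cs X) {v : S →₀ ℝ} (hv : InX X v) :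
    InX X (rep cs p v) := fun b hb => by rw [wp_sub hp v hb, hv b hb]

/-- an element which is positive on the simple roots of `X` is positive on the positive roots
supported on `X` -/
theorem pos_of_inX {X : Set S} {q : W} (hq : ∀ x ∈ X, Pos (rep cs q (sr x))) {v : S →₀ ℝ}
    (hv : InX X v) (hp : Pos v) : Pos (rep cs q v) := by
  refine ⟨fun h => hp.1 (rep_injective_apply cs q h), fun b => ?_⟩
  rw [Crest.Agent.R175.VdL_527.rep_apply_eq_sum]
  apply Finset.sum_nonneg
  intro x hx
  have hxX : x ∈ X := by
    by_contra hn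
    exact (Finsupp.mem_support_iff.1 hx) (hv x hn)
  exact mul_nonneg (hp.2 x) ((hq x hxX).2 b)

theorem neg_of_inX {X : Set S} {q : W} (hq : ∀ x ∈ X, Pos (rep cs q (sr x))) {v : S →₀ ℝ}
    (hv : InX X v) (hp : Pos (-v)) : Pos (-(rep cs q v)) := by
  rw [← map_neg]
  apply pos_of_inX hq _ hp
  intro b hb
  rw [Finsupp.neg_apply, hv b hb, neg_zero]

/-- left descents in `X` of `p * q` -/
theorem leftDescent_mul_iff {X : Set S} {p q : W} (hp : p ∈ WP cs X) (hq : XRed cs X q) {x : S}
    (hx : x ∈ X) : cs.IsLeftDescent (p * q) x ↔ cs.IsLeftDescent p x := by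
  have hq' := (xred_iff cs X q).1 hq
  have hin : InX X (rep cs p⁻¹ (sr x)) := inX_wp ((WP cs X).inv_mem hp) (inX_sr X hx)
  have e : rep cs (p * q)⁻¹ (sr x) = rep cs q⁻¹ (rep cs p⁻¹ (sr x)) := by
    rw [mul_inv_rev, rep_mul_apply]
  constructor
  · intro h
    by_contra hn
    rw [leftDescent_iff, e] at h
    rw [not_leftDescent_iff] at hn
    exact (pos_of_inX hq' hin hn).not_neg h
  · intro h
    rw [leftDescent_iff] at h ⊢
    rw [e]
    exact neg_of_inX hq' hin h

/-- (W5) -/
theorem w5 (X : Set S) (w : W) : ∃ p ∈ WP cs X, ∃ q, XRed cs X q ∧ w = p * q := by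
  induction h : cs.length w using Nat.strong_induction_on generalizing w with
  | _ n ih =>
    by_cases hr : XRed cs X w
    · exact ⟨1, (WP cs X).one_mem, w, hr, by rw [one_mul]⟩
    · simp only [XRed, not_forall, not_not] at hr
      obtain ⟨x, hx, hd⟩ := hr
      have hd' : cs.length (cs.simple x * w) < cs.length w := hd
      obtain ⟨p, hp, q, hq, he⟩ := ih _ (by omega) (cs.simple x * w) rfl
      refine ⟨cs.simple x * p, (WP cs X).mul_mem (simple_mem hx) hp, q, hq, ?_⟩
      rw [mul_assoc, ← he, cs.simple_mul_simple_cancel_left]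

/-- (W5') -/
theorem w5' {X : Set S} {p q : W} (hp : p ∈ WP cs X) (hq : XRed cs X q) :
    cs.length (p * q) = cs.length p + cs.length q := by
  refine wp_induction (cs := cs) (X := X)
    (P := fun p => cs.length (p * q) = cs.length p + cs.length q) ?_ ?_ hp
  · simp
  · intro x hx p hp ih
    have h := leftDescent_mul_iff hp hq hx
    rw [mul_assoc]
    by_cases hd : cs.IsLeftDescent p x
    · have h1 := cs.isLeftDescent_iff.1 hd
      have h2 := cs.isLeftDescent_iff.1 (h.2 hd)
      omega
    · have h1 := cs.not_isLeftDescent_iff.1 hd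
      have h2 := cs.not_isLeftDescent_iff.1 (fun hc => hd (h.1 hc))
      omega

theorem pl_of_wp {X : Set S} {p q : W} (hp : p ∈ WP cs X) (hq : XRed cs X q) :
    PL cs p (p * q) := by
  rw [PL, w5' hp hq, inv_mul_cancel_left]

/-- uniqueness of the decomposition -/
theorem w5_unique {X : Set S} {p q p' q' : W} (hp : p ∈ WP cs X) (hq : XRed cs X q)
    (hp' : p' ∈ WP cs X) (hq' : XRed cs X q') (h : p * q = p' * q') : p = p' ∧ q = q' := by
  have h1 : q' = (p'⁻¹ * p) * q := by rw [mul_assoc, h, inv_mul_cancel_left]
  have h2 : q = (p⁻¹ * p') * q' := by rw [mul_assoc, ← h, inv_mul_cancel_left]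
  have hm1 := (WP cs X).mul_mem ((WP cs X).inv_mem hp') hp
  have hm2 := (WP cs X).mul_mem ((WP cs X).inv_mem hp) hp'
  have l1 := w5' hm1 hq
  have l2 := w5' hm2 hq'
  rw [← h1] at l1
  rw [← h2] at l2
  have h3 : cs.length (p'⁻¹ * p) = 0 := by omega
  rw [cs.length_eq_zero_iff] at h3
  have h4 : p = p' := (inv_mul_eq_one.1 h3).symm
  exact ⟨h4, by rw [h1, h3, one_mul]⟩

/-- (W6) Deodhar's lemma. -/
theorem w6 {X : Set S} {q : W} (s : S) (hq : XRed cs X q) :
    XRed cs X (q * cs.simple s) ∨ ∃ x ∈ X, cs.simple x * q = q * cs.simple s := by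
  by_cases h : ∃ x ∈ X, rep cs q (sr s) = sr x
  · right
    obtain ⟨x, hx, he⟩ := h
    refine ⟨x, hx, ?_⟩
    have he' : rep cs (q⁻¹)⁻¹ (sr s) = sr x := by rw [inv_inv]; exact he
    have h1 := mul_eq cs he'
    have h2 : cs.simple s * q⁻¹ = (q * cs.simple s)⁻¹ := by
      rw [mul_inv_rev, cs.inv_simple]
    have h3 : q⁻¹ * cs.simple x = (cs.simple x * q)⁻¹ := by
      rw [mul_inv_rev, cs.inv_simple]
    rw [h2, h3] at h1
    exact (inv_injective h1).symm
  · left
    push Not at h
    rw [xred_iff_red] at hq ⊢
    rw [mul_inv_rev, cs.inv_simple]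
    exact red_mul cs hq (fun x hx => by rw [inv_inv]; exact h x hx)

/-- a left descent of an element of `W_X` is in `X` -/
theorem mem_of_leftDescent {X : Set S} {p : W} (hp : p ∈ WP cs X) {s : S}
    (h : cs.IsLeftDescent p s) : s ∈ X := by
  by_contra hn
  rw [leftDescent_iff] at h
  have h1 := h.2 s
  rw [Finsupp.neg_apply, wp_sub ((WP cs X).inv_mem hp) _ hn, Finsupp.single_eq_same] at h1
  linarith

theorem leftDescent_cons {i : S} {ω : List S} (h : cs.IsReduced (i :: ω)) :
    cs.IsLeftDescent (cs.wordProd (i :: ω)) i := by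
  rw [CoxeterSystem.IsLeftDescent, cs.wordProd_cons, cs.simple_mul_simple_cancel_left,
    ← cs.wordProd_cons, h.eq]
  have := cs.length_wordProd_le ω
  simp only [List.length_cons]
  omega

theorem reduced_tail {i : S} {ω : List S} (h : cs.IsReduced (i :: ω)) : cs.IsReduced ω := by
  have := h.drop 1
  simpa using this

/-- (W7) reduced words of elements of `W_X` have letters in `X`. -/
theorem w7 {X : Set S} {ω : List S} (hr : cs.IsReduced ω) (h : cs.wordProd ω ∈ WP cs X) :
    ∀ s ∈ ω, s ∈ X := by
  induction ω with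
  | nil => simp
  | cons i ω ih =>
    have hi : i ∈ X := mem_of_leftDescent h (leftDescent_cons hr)
    have h1 : cs.wordProd ω ∈ WP cs X := by
      have := (WP cs X).mul_mem (simple_mem (cs := cs) hi) h
      rwa [cs.wordProd_cons, cs.simple_mul_simple_cancel_left] at this
    intro s hs
    rcases List.mem_cons.1 hs with rfl | hs
    · exact hi
    · exact ih (reduced_tail hr) h1 s hs

theorem wordProd_mem {X : Set S} {ω : List S} (h : ∀ s ∈ ω, s ∈ X) :
    cs.wordProd ω ∈ WP cs X := by
  induction ω with
  | nil => simp [(WP cs X).one_mem]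
  | cons i ω ih =>
    rw [cs.wordProd_cons]
    exact (WP cs X).mul_mem (simple_mem (h i (by simp))) (ih (fun s hs => h s (by simp [hs])))

/-! ### alternating words -/

theorem alt_succ' (i j : S) (k : ℕ) : alt i j (k + 1) = alt i j k ++ [if Even k then i else j] := by
  induction k generalizing i j with
  | zero => simp [alt_succ]
  | succ k ih =>
    rw [alt_succ, ih j i, alt_succ, List.cons_append]
    congr 3
    by_cases h : Even k
    · have h1 : ¬ Even (k + 1) := by simp [h, parity_simps]
      rw [if_pos h, if_neg h1]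
    · have h1 : Even (k + 1) := by simp [h, parity_simps]
      rw [if_neg h, if_pos h1]

theorem rep_alt (k : ℕ) : ∀ i j : S,
    rep cs (cs.wordProd (alt i j k)) (sr (if Even k then i else j)) = gam M i j k := by
  induction k with
  | zero => intro i j; simp [gam]
  | succ k ih =>
    intro i j
    rw [alt_succ, cs.wordProd_cons, rep_mul_apply, rep_simple, gam, ← ih j i]
    congr 3
    by_cases h : Even k
    · have h1 : ¬ Even (k + 1) := by simp [h, parity_simps]
      rw [if_pos h, if_neg h1]
    · have h1 : Even (k + 1) := by simp [h, parity_simps]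
      rw [if_neg h, if_pos h1]

/-- (W1') alternating words of length at most `M i j` are reduced. -/
theorem w1' {i j : S} (hij : i ≠ j) (k : ℕ) (hk : M i j = 0 ∨ k ≤ M i j) :
    cs.length (cs.wordProd (alt i j k)) = k := by
  induction k with
  | zero => simp
  | succ k ih =>
    have ih' := ih (by omega)
    rw [alt_succ', cs.wordProd_append, cs.wordProd_singleton]
    set r := if Even k then i else j with hr
    have hM := M.off_diagonal i j hij
    have hnn : ∀ b, 0 ≤ (gam M i j k) b := by
      intro b
      have q1 := qs_nonneg (M i j) (k + 1) hM (by omega)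
      have q0 := qs_nonneg (M i j) k hM (by omega)
      have a1 := (pos_sr i).2 b
      have a2 := (pos_sr j).2 b
      rw [gam_eq, Finsupp.add_apply, Finsupp.smul_apply, Finsupp.smul_apply, smul_eq_mul,
        smul_eq_mul]
      positivity
    have hp : Pos (rep cs (cs.wordProd (alt i j k)) (sr r)) := by
      refine ⟨fun h => sr_ne_zero r (rep_injective_apply cs _ h), ?_⟩
      rw [hr, rep_alt]
      exact hnn
    have hd := (pos_rep_sr_iff cs).1 hp
    have := cs.not_isRightDescent_iff.1 hd
    omega

theorem alt_comm_word (i j : S) :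
    cs.wordProd (alt i j (M i j)) = cs.wordProd (alt j i (M i j)) := by
  rcases Nat.eq_zero_or_pos (M i j) with h0 | h0
  · rw [h0]; rfl
  have key : ∀ (k : ℕ) (a b : S),
      alt a b k = (if Even k then alternatingWord a b k else alternatingWord b a k) := by
    intro k
    induction k with
    | zero => intro a b; simp [alternatingWord]
    | succ k ih =>
      intro a b
      rw [alt_succ, ih b a]
      by_cases h : Even k
      · have h1 : ¬ Even (k + 1) := by simp [h, parity_simps]
        simp only [if_pos h, if_neg h1]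
        rw [alternatingWord_succ', if_pos h]
      · have h1 : Even (k + 1) := by simp [h, parity_simps]
        simp only [if_neg h, if_pos h1]
        rw [alternatingWord_succ', if_neg h]
  have hb := cs.wordProd_braidWord_eq i j
  rw [braidWord, braidWord, M.symmetric j i] at hb
  rw [key, key]
  by_cases h : Even (M i j)
  · simp only [if_pos h]
    exact hb
  · simp only [if_neg h]
    exact hb.symm

/-- words without repetition in two letters are alternating -/
theorem eq_alt_of_reduced {i j : S} {ω : List S} (hr : cs.IsReduced ω)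
    (h : ∀ s ∈ ω, s = i ∨ s = j) : ω = alt i j ω.length ∨ ω = alt j i ω.length := by
  induction ω with
  | nil => left; rfl
  | cons a ω ih =>
    have ih' := ih (reduced_tail hr) (fun s hs => h s (by simp [hs]))
    cases ω with
    | nil =>
      rcases h a (by simp) with rfl | rfl
      · left; rfl
      · right; rfl
    | cons b ω =>
      have hab : a ≠ b := by
        rintro rfl
        have h1 := hr.eq
        rw [cs.wordProd_cons, cs.wordProd_cons, cs.simple_mul_simple_cancel_left] at h1
        have h2 := cs.length_wordProd_le ω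
        simp only [List.length_cons] at h1
        omega
      have hb : b = i ∨ b = j := h b (by simp)
      have ha : a = i ∨ a = j := h a (by simp)
      rw [List.length_cons, alt_succ, alt_succ]
      rcases ih' with h1 | h1
      · have hbi : b = i := by
          rw [List.length_cons, alt_succ] at h1
          exact (List.cons.inj h1).1
        right
        have haj : a = j := by
          rcases ha with rfl | rfl
          · exact absurd hbi.symm hab
          · rfl
        rw [← h1, haj]
      · have hbj : b = j := by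
          rw [List.length_cons, alt_succ] at h1
          exact (List.cons.inj h1).1
        left
        have hai : a = i := by
          rcases ha with rfl | rfl
          · rfl
          · exact absurd hbj.symm hab
        rw [← h1, hai]

theorem alt_add (m n : ℕ) : ∀ i j : S, alt i j (m + n) = alt i j m ++
    (if Even m then alt i j n else alt j i n) := by
  induction m with
  | zero => intro i j; simp
  | succ m ih =>
    intro i j
    rw [show m + 1 + n = (m + n) + 1 by ring, alt_succ, alt_succ, ih j i]
    rw [List.cons_append]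
    congr 2
    by_cases h : Even m
    · have h1 : ¬ Even (m + 1) := by simp [h, parity_simps]
      rw [if_pos h, if_neg h1]
    · have h1 : Even (m + 1) := by simp [h, parity_simps]
      rw [if_neg h, if_pos h1]

theorem length_alt_lt {i j : S} {k : ℕ} (hM : M i j ≠ 0) (hk : M i j < k) :
    cs.length (cs.wordProd (alt i j k)) < k := by
  obtain ⟨n, rfl⟩ : ∃ n, k = (M i j + 1) + n := ⟨k - (M i j + 1), by omega⟩
  rw [alt_add, cs.wordProd_append]
  have h1 : cs.length (cs.wordProd (alt i j (M i j + 1))) ≤ M i j - 1 := by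
    have e : cs.wordProd (alt i j (M i j + 1)) = cs.wordProd (alt j i (M i j - 1)) := by
      obtain ⟨m, hm⟩ : ∃ m, M i j = m + 1 := ⟨M i j - 1, by omega⟩
      have hc := alt_comm_word (cs := cs) i j
      rw [hm] at hc ⊢
      rw [alt_succ i j (m + 1), cs.wordProd_cons, ← hc, alt_succ i j m, cs.wordProd_cons,
        cs.simple_mul_simple_cancel_left, Nat.add_sub_cancel]
    rw [e]
    refine (cs.length_wordProd_le _).trans ?_
    simp
  have h2 : cs.length (cs.wordProd (if Even (M i j + 1) then alt i j n else alt j i n)) ≤ n := by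
    refine (cs.length_wordProd_le _).trans ?_
    split_ifs <;> simp
  have h3 := cs.length_mul_le (cs.wordProd (alt i j (M i j + 1)))
    (cs.wordProd (if Even (M i j + 1) then alt i j n else alt j i n))
  omega

theorem pl_refl (w : W) : PL cs w w := by simp [PL]

theorem pl_one (w : W) : PL cs 1 w := by simp [PL]

theorem PL.le {u w : W} (h : PL cs u w) : cs.length u ≤ cs.length w := by
  rw [PL] at h; omega

theorem PL.trans {u v w : W} (h : PL cs u v) (h' : PL cs v w) : PL cs u w := by
  rw [PL] at *
  have h1 := cs.length_mul_le (u⁻¹ * v) (v⁻¹ * w)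
  have h2 : u⁻¹ * v * (v⁻¹ * w) = u⁻¹ * w := by group
  rw [h2] at h1
  have h3 := cs.length_mul_le u (u⁻¹ * w)
  rw [mul_inv_cancel_left] at h3
  omega

theorem PL.antisymm {u v : W} (h : PL cs u v) (h' : PL cs v u) : u = v := by
  have h1 := h.le
  have h2 := h'.le
  rw [PL] at h
  have h3 : cs.length (u⁻¹ * v) = 0 := by omega
  rw [cs.length_eq_zero_iff] at h3
  exact inv_mul_eq_one.1 h3

/-- `u ≤ u v` when lengths add -/
theorem pl_mul_iff {u v : W} : PL cs u (u * v) ↔ cs.length (u * v) = cs.length u + cs.length v := by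
  rw [PL, inv_mul_cancel_left, eq_comm]

/-- the middle term of a reduced factorisation -/
theorem PL.mul_left {a u w : W} (h : PL cs a (a * w)) (h' : PL cs u w) : PL cs (a * u) (a * w) := by
  rw [pl_mul_iff] at h
  rw [PL] at *
  have h1 : (a * u)⁻¹ * (a * w) = u⁻¹ * w := by group
  have h2 := cs.length_mul_le a u
  have h3 := cs.length_mul_le (a * u) (u⁻¹ * w)
  have h4 : a * u * (u⁻¹ * w) = a * w := by group
  rw [h4] at h3
  rw [h1]
  omega

theorem PL.cancel_left {a u w : W} (h : PL cs (a * u) (a * w)) (h' : PL cs a (a * u)) :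
    PL cs u w := by
  rw [pl_mul_iff] at h'
  rw [PL] at *
  have h1 : (a * u)⁻¹ * (a * w) = u⁻¹ * w := by group
  rw [h1] at h
  have h2 := cs.length_mul_le u (u⁻¹ * w)
  rw [mul_inv_cancel_left] at h2
  have h3 := cs.length_mul_le a w
  omega

theorem pl_simple_iff {i : S} {w : W} : PL cs (cs.simple i) w ↔ cs.IsLeftDescent w i := by
  rw [PL, cs.length_simple, cs.inv_simple, cs.isLeftDescent_iff, add_comm]

/-- elements of a rank two parabolic subgroup are alternating words -/
theorem eq_alt_of_mem {i j : S} (p : W) (hp : p ∈ WP cs {i, j}) :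
    p = cs.wordProd (alt i j (cs.length p)) ∨ p = cs.wordProd (alt j i (cs.length p)) := by
  obtain ⟨ω, hr, rfl⟩ := cs.exists_isReduced p
  have hl := hr.eq
  have h := w7 hr hp
  rcases eq_alt_of_reduced (i := i) (j := j) hr (by
    intro s hs
    simpa using h s hs) with h1 | h1
  · left; rw [hl, ← h1]
  · right; rw [hl, ← h1]

/-- (W1) two left descents. -/
theorem w1 {w : W} {i j : S} (hij : i ≠ j) (hi : cs.IsLeftDescent w i)
    (hj : cs.IsLeftDescent w j) : M i j ≠ 0 ∧ PL cs (cs.wordProd (alt i j (M i j))) w := by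
  obtain ⟨p, hp, q, hq, rfl⟩ := w5 (cs := cs) {i, j} w
  rw [leftDescent_mul_iff hp hq (by simp)] at hi hj
  have hi' := cs.isLeftDescent_iff.1 hi
  have hj' := cs.isLeftDescent_iff.1 hj
  have key : ∀ a b : S, a ≠ b → M a b = M i j → p = cs.wordProd (alt a b (cs.length p)) →
      cs.length (cs.simple b * p) + 1 = cs.length p → M i j ≠ 0 ∧ cs.length p = M i j := by
    intro a b hab hM hpa hd
    have hle : M a b ≠ 0 → cs.length p ≤ M a b := by
      intro h0
      by_contra hlt
      have := length_alt_lt (cs := cs) h0 (not_le.1 hlt)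
      rw [← hpa] at this
      omega
    have h1 : ¬ (M b a = 0 ∨ cs.length p + 1 ≤ M b a) := by
      intro hc
      have h2 := w1' (cs := cs) hab.symm (cs.length p + 1) hc
      rw [alt_succ, cs.wordProd_cons, ← hpa] at h2
      omega
    rw [M.symmetric b a] at h1
    push Not at h1
    have h3 := hle h1.1
    rw [← hM]
    exact ⟨h1.1, by omega⟩
  rcases eq_alt_of_mem p hp with h | h
  · obtain ⟨h1, h2⟩ := key i j hij rfl h hj'
    refine ⟨h1, ?_⟩
    rw [h2] at h
    rw [← h]
    exact pl_of_wp hp hq
  · obtain ⟨h1, h2⟩ := key j i hij.symm (M.symmetric j i) h hi'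
    refine ⟨h1, ?_⟩
    rw [h2] at h
    rw [alt_comm_word, ← h]
    exact pl_of_wp hp hq

/-- (W10) the order of `s t` is `M s t`. -/
theorem w10 (s t : S) : orderOf (cs.simple s * cs.simple t) = M s t := by
  rcases eq_or_ne s t with rfl | hst
  · rw [cs.simple_mul_simple_self, orderOf_one, M.diagonal]
  have hpow : ∀ n, (cs.simple s * cs.simple t) ^ n = cs.wordProd (alt s t (2 * n)) := by
    intro n
    induction n with
    | zero => simp
    | succ n ih =>
      rw [pow_succ', ih, show 2 * (n + 1) = 2 * n + 1 + 1 by ring, alt_succ, alt_succ,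
        cs.wordProd_cons, cs.wordProd_cons, mul_assoc]
  have hrev : ∀ (k : ℕ) (a b : S), (cs.wordProd (alt a b k))⁻¹ =
      cs.wordProd (if Even k then alt b a k else alt a b k) := by
    intro k
    induction k with
    | zero => intro a b; simp
    | succ k ih =>
      intro a b
      rw [alt_succ, cs.wordProd_cons, mul_inv_rev, ih b a, cs.inv_simple]
      by_cases h : Even k
      · have h1 : ¬ Even (k + 1) := by simp [h, parity_simps]
        rw [if_pos h, if_neg h1, ← alt_succ, alt_succ', cs.wordProd_append,
          cs.wordProd_singleton, if_pos h]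
      · have h1 : Even (k + 1) := by simp [h, parity_simps]
        rw [if_neg h, if_pos h1, alt_succ', cs.wordProd_append, cs.wordProd_singleton, if_neg h]
  have hne : ∀ n, 0 < n → (M s t = 0 ∨ n < M s t) → (cs.simple s * cs.simple t) ^ n ≠ 1 := by
    intro n hn hM h1
    rw [hpow, two_mul, alt_add, cs.wordProd_append] at h1
    have h2 : cs.wordProd (alt s t n) = cs.wordProd (alt t s n) := by
      have h3 := eq_inv_of_mul_eq_one_left h1
      rw [h3]
      by_cases h : Even n
      · rw [if_pos h, hrev, if_pos h]
      · rw [if_neg h, hrev, if_neg h]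
    obtain ⟨m, rfl⟩ : ∃ m, n = m + 1 := ⟨n - 1, by omega⟩
    have h4 := w1' (cs := cs) hst.symm (m + 1 + 1) (by rw [M.symmetric t s]; omega)
    rw [alt_succ, cs.wordProd_cons, h2, alt_succ, cs.wordProd_cons,
      cs.simple_mul_simple_cancel_left] at h4
    have h5 := cs.length_wordProd_le (alt s t m)
    rw [length_alt] at h5
    omega
  rcases Nat.eq_zero_or_pos (M s t) with h0 | h0
  · rw [h0, orderOf_eq_zero_iff']
    intro n hn
    exact hne n hn (Or.inl h0)
  · rw [orderOf_eq_iff h0]
    exact ⟨cs.simple_mul_simple_pow s t, fun m hm h => hne m h (Or.inr hm)⟩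

end Crest.Agent.R175.WA_527
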