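import Crest.Agent.R175.DW_145
import Crest.Agent.R175.WB_527

/-!
The literal Props `W1 … W10` of `DW_145`.
-/

set_option autoImplicit false

namespace Crest.Agent.R175.WC_527

open Crest.Agent.R175.DDef_145

variable {S W : Type} [Group W] {M : CoxeterMatrix S} (cs : CoxeterSystem M W)

theorem W1 : DW_145.W1 cs := fun _ _ _ h hi hj => WA_527.w1 h hi hj
theorem W1' : DW_145.W1' cs := fun _ _ k h hk => WA_527.w1' h k hk
theorem W2 : DW_145.W2 cs := fun _ => WB_527.w2
theorem W3 : DW_145.W3 cs := fun _ u v => WB_527.w3 u v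
theorem W4 : DW_145.W4 cs := fun _ _ _ hf ω ω' h h' he => WB_527.w4 hf ω ω' h h' he
theorem W5 : DW_145.W5 cs := fun X w => WA_527.w5 X w
theorem W5' : DW_145.W5' cs := fun _ _ _ hp hq => WA_527.w5' hp hq
theorem W6 : DW_145.W6 cs := fun _ _ s hq => WA_527.w6 s hq
theorem W7 : DW_145.W7 cs := fun _ _ hr h => WA_527.w7 hr h
theorem W8 : DW_145.W8 cs := fun _ _ _ hw hp h => WB_527.w8 hw hp h
theorem W9 : DW_145.W9 cs := fun _ _ _ _ _ hp hq hp' hq' h => WB_527.w9 hp hq hp' hq' h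
theorem W10 : DW_145.W10 cs := fun s t => WA_527.w10 s t

end Crest.Agent.R175.WC_527
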