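import Crest.Agent.R175.Vert_83
import Crest.Agent.R175.Fix_974
import Crest.Agent.R175.AttB_663

/-!
# R175 (S0264), vertex input
-/

set_option autoImplicit false

open Crest.GroupTheory

namespace Crest.Agent.R175.Wfin_974

open Semi_663 A2t_83 B3_83 Vert_83 Grp_184 Grp_184.Gn AttB_663

/-- `B₃ → ℤ/2 * ℤ/3` -/
noncomputable def rho : B3 →* P23 := toH ![sa, sb] (by
  intro s t
  fin_cases s <;> fin_cases t
  · rfl
  · exact B3_83.braid
  · exact B3_83.braid.symm
  · rfl)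

theorem rho_s1 : rho s1 = sa := toH_gen _ _ _
theorem rho_s2 : rho s2 = sb := toH_gen _ _ _

theorem closure_s : Subgroup.closure ({s1, s2} : Set B3) = ⊤ := by
  rw [← closure_gen 2]
  congr 1
  ext x
  constructor
  · rintro (rfl | hx)
    · exact ⟨0, rfl⟩
    · rw [Set.mem_singleton_iff] at hx
      subst hx
      exact ⟨1, rfl⟩
  · rintro ⟨i, rfl⟩
    fin_cases i
    · left; rfl
    · right; rfl

theorem cent_s1 (b : B3) (h : b * s1 = s1 * b) : ∃ k m : ℤ, b = s1 ^ k * zz ^ m := by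
  have h1 : rho b * sa = sa * rho b := by
    rw [← rho_s1, ← map_mul, h, map_mul]
  obtain ⟨k, hk⟩ := Cent23_83.cent_sa h1
  have hk' : sa ^ k = rho b := hk
  have h2 : rho ((s1 ^ k)⁻¹ * b) = 1 := by
    rw [map_mul, map_inv, map_zpow, rho_s1, hk', inv_mul_cancel]
  have h3 := ker_zpowers s_braid rho rho_s1 rho_s2
    (by rw [closure_s]; trivial : (s1 ^ k)⁻¹ * b ∈ Subgroup.closure {s1, s2}) h2
  obtain ⟨m, hm⟩ := h3
  refine ⟨k, m, ?_⟩
  have hm' : zz ^ m = (s1 ^ k)⁻¹ * b := hm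
  rw [hm', mul_inv_cancel_left]

/-- degree -/
noncomputable def lg : B3 →* Multiplicative ℤ := toH (fun _ => Multiplicative.ofAdd 1) (by
  intros; rfl)

theorem sa_zpow_ne {k : ℤ} (hk : k ≠ 0) : sa ^ k ≠ 1 := by
  have key : ∀ n : ℕ, 0 < n → sa ^ n ≠ 1 := by
    intro n hn h1
    have h2 := sa_pow_mem hn
    rw [h1, FirstLet_83.mem_st, inv_one, one_smul, FirstLet_83.lst_empty] at h2
    exact absurd h2 (by simp)
  intro h
  obtain ⟨n, rfl | rfl⟩ := k.eq_nat_or_neg
  · rw [zpow_natCast] at h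
    exact key n (by omega) h
  · rw [zpow_neg, zpow_natCast, inv_eq_one] at h
    exact key n (by omega) h

theorem uniq (k m k' m' : ℤ) (h : s1 ^ k * zz ^ m = s1 ^ k' * zz ^ m') : k = k' ∧ m = m' := by
  have hz : rho zz = 1 := by
    rw [map_pow, map_mul, rho_s1, rho_s2, sa_mul_sb, pow_three' B3_83.Y, Y_cube]
  have h1 := congrArg rho h
  rw [map_mul, map_mul, map_zpow, map_zpow, map_zpow, map_zpow, hz, one_zpow, one_zpow, mul_one,
    mul_one, rho_s1] at h1
  have h2 : k = k' := by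
    by_contra hne
    apply sa_zpow_ne (sub_ne_zero.2 hne)
    rw [zpow_sub, h1, mul_inv_cancel]
  subst h2
  have h3 := congrArg lg (mul_left_cancel h)
  have h4 : lg zz = Multiplicative.ofAdd 6 := by
    rw [map_pow, map_mul]
    show (lg (artinGen (MM 2) 0) * lg (artinGen (MM 2) 1)) ^ 3 = _
    rw [lg, toH_gen, toH_gen]
    rfl
  rw [map_zpow, map_zpow, h4] at h3
  have h5 : m * 6 = m' * 6 := by
    have := congrArg Multiplicative.toAdd h3
    simpa using this
  exact ⟨rfl, by omega⟩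

theorem set3 (i : Fin 3) : ({gn (a i), gn (a (i + 1)), gn (a (i + 2))} : Set GG) =
    {gn (a 0), gn (a 1), gn (a 2)} := by
  fin_cases i
  · rfl
  · show ({gn (a 1), gn (a 2), gn (a 0)} : Set GG) = _
    ext x
    simp only [Set.mem_insert_iff, Set.mem_singleton_iff]
    tauto
  · show ({gn (a 2), gn (a 0), gn (a 1)} : Set GG) = _
    ext x
    simp only [Set.mem_insert_iff, Set.mem_singleton_iff]
    tauto

/-- **input W.** -/
theorem vertex (i : Fin 3) : Geo.VertexData (gn (a i)) (gn (a (i + 1))) (gn (a (i + 2))) := by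
  have e1 : i + 1 - i = 1 := by revert i; decide
  have e2 : i + 2 - i = 2 := by revert i; decide
  have n1 : i ≠ i + 1 := by revert i; decide
  have n2 : i + 1 ≠ i + 2 := by revert i; decide
  have n3 : i + 2 ≠ i := by revert i; decide
  have hA : ∀ p q : Fin 3, p ≠ q → ga (p - i) * ga (q - i) * ga (p - i) =
      ga (q - i) * ga (p - i) * ga (q - i) := fun p q _ => A2t_83.braid _ _
  refine vertex_aux (fun w hw => Fix_974.fix_S1 hw) cent_s1 uniq
    (r₁ := gn (t false)) (r₂ := gn (t true)) (tri (fun p => ga (p - i)) hA)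
    ?_ ?_ ?_ (tri_t _ _ _) (tri_t _ _ _) ?_ ?_ ?_ ?_ ?_ ?_ ?_ ?_ ?_ ?_
  · rw [tri_a, sub_self]
  · rw [tri_a, e1]
  · rw [tri_a, e2]
  · exact cond_gn.aa _ _ n1
  · exact cond_gn.aa _ _ n2
  · exact cond_gn.aa _ _ n3
  · exact cond_gn.ta _ _
  · exact cond_gn.ta _ _
  · exact cond_gn.ta _ _
  · exact cond_gn.ta _ _
  · exact cond_gn.ta _ _
  · exact cond_gn.ta _ _
  · intro g hg
    obtain ⟨n, k, hk, e⟩ := cent_t g hg
    exact ⟨n, k, by rw [set3]; exact hk, e⟩

end Crest.Agent.R175.Wfin_974
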